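import Vale.Agent.P181.Six.F.D0_0

set_option maxRecDepth 100000
set_option maxHeartbeats 0

namespace Vale.Agent.P181.K

noncomputable def tbF0 : L3 := tbl0 JF

noncomputable def bxF0_0 : L2 :=
 (Ls.cons (Ls.cons Ent.zero (Ls.cons Ent.zero (Ls.cons Ent.zero (Ls.cons Ent.zero (Ls.cons Ent.zero (Ls.cons Ent.zero (Ls.cons Ent.zero (Ls.cons Ent.zero (Ls.cons Ent.zero (Ls.cons Ent.zero (Ls.cons Ent.zero (Ls.cons Ent.zero (Ls.cons Ent.zero (Ls.cons Ent.zero (Ls.cons Ent.zero (Ls.cons Ent.zero (Ls.cons Ent.zero (Ls.cons Ent.zero (Ls.cons Ent.zero (Ls.cons Ent.zero (Ls.cons Ent.zero (Ls.cons Ent.zero (Ls.cons Ent.zero (Ls.cons Ent.zero (Ls.cons Ent.zero Ls.nil)))))))))))))))))))))))))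
 (Ls.cons (Ls.cons Ent.zero (Ls.cons Ent.zero (Ls.cons Ent.zero (Ls.cons Ent.zero (Ls.cons Ent.zero (Ls.cons Ent.zero (Ls.cons Ent.zero (Ls.cons Ent.zero (Ls.cons Ent.zero (Ls.cons Ent.zero (Ls.cons Ent.zero (Ls.cons Ent.zero (Ls.cons Ent.zero (Ls.cons Ent.zero (Ls.cons Ent.zero (Ls.cons Ent.zero (Ls.cons Ent.zero (Ls.cons Ent.zero (Ls.cons Ent.zero (Ls.cons Ent.zero (Ls.cons Ent.zero (Ls.cons Ent.zero (Ls.cons Ent.zero (Ls.cons Ent.zero (Ls.cons Ent.zero Ls.nil)))))))))))))))))))))))))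
 (Ls.cons (Ls.cons Ent.zero (Ls.cons Ent.zero (Ls.cons Ent.zero (Ls.cons Ent.zero (Ls.cons Ent.zero (Ls.cons Ent.zero (Ls.cons Ent.zero (Ls.cons Ent.zero (Ls.cons Ent.zero (Ls.cons Ent.zero (Ls.cons Ent.zero (Ls.cons Ent.zero (Ls.cons Ent.zero (Ls.cons Ent.zero (Ls.cons Ent.zero (Ls.cons Ent.zero (Ls.cons Ent.zero (Ls.cons Ent.zero (Ls.cons Ent.zero (Ls.cons Ent.zero (Ls.cons Ent.zero (Ls.cons Ent.zero (Ls.cons Ent.zero (Ls.cons Ent.zero (Ls.cons Ent.zero Ls.nil)))))))))))))))))))))))))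
 (Ls.cons (Ls.cons Ent.zero (Ls.cons Ent.zero (Ls.cons Ent.zero (Ls.cons Ent.zero (Ls.cons Ent.zero (Ls.cons Ent.zero (Ls.cons Ent.zero (Ls.cons Ent.zero (Ls.cons Ent.zero (Ls.cons Ent.zero (Ls.cons Ent.zero (Ls.cons Ent.zero (Ls.cons Ent.zero (Ls.cons Ent.zero (Ls.cons Ent.zero (Ls.cons Ent.zero (Ls.cons Ent.zero (Ls.cons Ent.zero (Ls.cons Ent.zero (Ls.cons Ent.zero (Ls.cons Ent.zero (Ls.cons Ent.zero (Ls.cons Ent.zero (Ls.cons Ent.zero (Ls.cons Ent.zero Ls.nil)))))))))))))))))))))))))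
 (Ls.cons (Ls.cons Ent.zero (Ls.cons Ent.zero (Ls.cons Ent.zero (Ls.cons Ent.zero (Ls.cons Ent.zero (Ls.cons Ent.zero (Ls.cons Ent.zero (Ls.cons Ent.zero (Ls.cons Ent.zero (Ls.cons Ent.zero (Ls.cons Ent.zero (Ls.cons Ent.zero (Ls.cons Ent.zero (Ls.cons Ent.zero (Ls.cons Ent.zero (Ls.cons Ent.zero (Ls.cons Ent.zero (Ls.cons Ent.zero (Ls.cons Ent.zero (Ls.cons Ent.zero (Ls.cons Ent.zero (Ls.cons Ent.zero (Ls.cons Ent.zero (Ls.cons Ent.zero (Ls.cons Ent.zero Ls.nil)))))))))))))))))))))))))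
 (Ls.cons (Ls.cons Ent.zero (Ls.cons Ent.zero (Ls.cons Ent.zero (Ls.cons Ent.zero (Ls.cons Ent.zero (Ls.cons Ent.zero (Ls.cons Ent.zero (Ls.cons Ent.zero (Ls.cons Ent.zero (Ls.cons Ent.zero (Ls.cons Ent.zero (Ls.cons Ent.zero (Ls.cons Ent.zero (Ls.cons Ent.zero (Ls.cons Ent.zero (Ls.cons Ent.zero (Ls.cons Ent.zero (Ls.cons Ent.zero (Ls.cons Ent.zero (Ls.cons Ent.zero (Ls.cons Ent.zero (Ls.cons Ent.zero (Ls.cons Ent.zero (Ls.cons Ent.zero (Ls.cons Ent.zero Ls.nil)))))))))))))))))))))))))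
 (Ls.cons (Ls.cons Ent.zero (Ls.cons Ent.zero (Ls.cons Ent.zero (Ls.cons Ent.zero (Ls.cons Ent.zero (Ls.cons Ent.zero (Ls.cons Ent.zero (Ls.cons Ent.zero (Ls.cons Ent.zero (Ls.cons Ent.zero (Ls.cons Ent.zero (Ls.cons Ent.zero (Ls.cons Ent.zero (Ls.cons Ent.zero (Ls.cons Ent.zero (Ls.cons Ent.zero (Ls.cons Ent.zero (Ls.cons Ent.zero (Ls.cons Ent.zero (Ls.cons Ent.zero (Ls.cons Ent.zero (Ls.cons Ent.zero (Ls.cons Ent.zero (Ls.cons Ent.zero (Ls.cons Ent.zero Ls.nil)))))))))))))))))))))))))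
 (Ls.cons (Ls.cons Ent.zero (Ls.cons Ent.zero (Ls.cons Ent.zero (Ls.cons Ent.zero (Ls.cons Ent.zero (Ls.cons Ent.zero (Ls.cons Ent.zero (Ls.cons Ent.zero (Ls.cons Ent.zero (Ls.cons Ent.zero (Ls.cons Ent.zero (Ls.cons Ent.zero (Ls.cons Ent.zero (Ls.cons Ent.zero (Ls.cons Ent.zero (Ls.cons Ent.zero (Ls.cons Ent.zero (Ls.cons Ent.zero (Ls.cons Ent.zero (Ls.cons Ent.zero (Ls.cons Ent.zero (Ls.cons Ent.zero (Ls.cons Ent.zero (Ls.cons Ent.zero (Ls.cons Ent.zero Ls.nil)))))))))))))))))))))))))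
 (Ls.cons (Ls.cons Ent.zero (Ls.cons Ent.zero (Ls.cons Ent.zero (Ls.cons Ent.zero (Ls.cons Ent.zero (Ls.cons Ent.zero (Ls.cons Ent.zero (Ls.cons Ent.zero (Ls.cons Ent.zero (Ls.cons Ent.zero (Ls.cons Ent.zero (Ls.cons Ent.zero (Ls.cons Ent.zero (Ls.cons Ent.zero (Ls.cons Ent.zero (Ls.cons Ent.zero (Ls.cons Ent.zero (Ls.cons Ent.zero (Ls.cons Ent.zero (Ls.cons Ent.zero (Ls.cons Ent.zero (Ls.cons Ent.zero (Ls.cons Ent.zero (Ls.cons Ent.zero (Ls.cons Ent.zero Ls.nil)))))))))))))))))))))))))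
 (Ls.cons (Ls.cons Ent.zero (Ls.cons Ent.zero (Ls.cons Ent.zero (Ls.cons Ent.zero (Ls.cons Ent.zero (Ls.cons Ent.zero (Ls.cons Ent.zero (Ls.cons Ent.zero (Ls.cons Ent.zero (Ls.cons Ent.zero (Ls.cons Ent.zero (Ls.cons Ent.zero (Ls.cons Ent.zero (Ls.cons Ent.zero (Ls.cons Ent.zero (Ls.cons Ent.zero (Ls.cons Ent.zero (Ls.cons Ent.zero (Ls.cons Ent.zero (Ls.cons Ent.zero (Ls.cons Ent.zero (Ls.cons Ent.zero (Ls.cons Ent.zero (Ls.cons Ent.zero (Ls.cons Ent.zero Ls.nil)))))))))))))))))))))))))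
 (Ls.cons (Ls.cons Ent.zero (Ls.cons Ent.zero (Ls.cons Ent.zero (Ls.cons Ent.zero (Ls.cons Ent.zero (Ls.cons Ent.zero (Ls.cons Ent.zero (Ls.cons Ent.zero (Ls.cons Ent.zero (Ls.cons Ent.zero (Ls.cons Ent.zero (Ls.cons Ent.zero (Ls.cons Ent.zero (Ls.cons Ent.zero (Ls.cons Ent.zero (Ls.cons Ent.zero (Ls.cons Ent.zero (Ls.cons Ent.zero (Ls.cons Ent.zero (Ls.cons Ent.zero (Ls.cons Ent.zero (Ls.cons Ent.zero (Ls.cons Ent.zero (Ls.cons Ent.zero (Ls.cons Ent.zero Ls.nil)))))))))))))))))))))))))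
 (Ls.cons (Ls.cons Ent.zero (Ls.cons Ent.zero (Ls.cons Ent.zero (Ls.cons Ent.zero (Ls.cons Ent.zero (Ls.cons Ent.zero (Ls.cons Ent.zero (Ls.cons Ent.zero (Ls.cons Ent.zero (Ls.cons Ent.zero (Ls.cons Ent.zero (Ls.cons Ent.zero (Ls.cons Ent.zero (Ls.cons Ent.zero (Ls.cons Ent.zero (Ls.cons Ent.zero (Ls.cons Ent.zero (Ls.cons Ent.zero (Ls.cons Ent.zero (Ls.cons Ent.zero (Ls.cons Ent.zero (Ls.cons Ent.zero (Ls.cons Ent.zero (Ls.cons Ent.zero (Ls.cons Ent.zero Ls.nil)))))))))))))))))))))))))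
 (Ls.cons (Ls.cons Ent.zero (Ls.cons Ent.zero (Ls.cons Ent.zero (Ls.cons Ent.zero (Ls.cons Ent.zero (Ls.cons Ent.zero (Ls.cons Ent.zero (Ls.cons Ent.zero (Ls.cons Ent.zero (Ls.cons Ent.zero (Ls.cons Ent.zero (Ls.cons Ent.zero (Ls.cons Ent.zero (Ls.cons Ent.zero (Ls.cons Ent.zero (Ls.cons Ent.zero (Ls.cons Ent.zero (Ls.cons Ent.zero (Ls.cons Ent.zero (Ls.cons Ent.zero (Ls.cons Ent.zero (Ls.cons Ent.zero (Ls.cons Ent.zero (Ls.cons Ent.zero (Ls.cons Ent.zero Ls.nil)))))))))))))))))))))))))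
 (Ls.cons (Ls.cons Ent.zero (Ls.cons Ent.zero (Ls.cons Ent.zero (Ls.cons Ent.zero (Ls.cons Ent.zero (Ls.cons Ent.zero (Ls.cons Ent.zero (Ls.cons Ent.zero (Ls.cons Ent.zero (Ls.cons Ent.zero (Ls.cons Ent.zero (Ls.cons Ent.zero (Ls.cons Ent.zero (Ls.cons Ent.zero (Ls.cons Ent.zero (Ls.cons Ent.zero (Ls.cons Ent.zero (Ls.cons Ent.zero (Ls.cons Ent.zero (Ls.cons Ent.zero (Ls.cons Ent.zero (Ls.cons Ent.zero (Ls.cons Ent.zero (Ls.cons Ent.zero (Ls.cons Ent.zero Ls.nil)))))))))))))))))))))))))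
 (Ls.cons (Ls.cons Ent.zero (Ls.cons Ent.zero (Ls.cons Ent.zero (Ls.cons Ent.zero (Ls.cons Ent.zero (Ls.cons Ent.zero (Ls.cons Ent.zero (Ls.cons Ent.zero (Ls.cons Ent.zero (Ls.cons Ent.zero (Ls.cons Ent.zero (Ls.cons Ent.zero (Ls.cons Ent.zero (Ls.cons Ent.zero (Ls.cons Ent.zero (Ls.cons Ent.zero (Ls.cons Ent.zero (Ls.cons Ent.zero (Ls.cons Ent.zero (Ls.cons Ent.zero (Ls.cons (Ent.pos F0_5_4_0) (Ls.cons (Ent.neg F0_5_3_0) (Ls.cons (Ent.pos F0_5_2_0) (Ls.cons (Ent.neg F0_5_1_0) (Ls.cons Ent.zero Ls.nil)))))))))))))))))))))))))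
 (Ls.cons (Ls.cons Ent.zero (Ls.cons Ent.zero (Ls.cons Ent.zero (Ls.cons Ent.zero (Ls.cons Ent.zero (Ls.cons Ent.zero (Ls.cons Ent.zero (Ls.cons Ent.zero (Ls.cons Ent.zero (Ls.cons Ent.zero (Ls.cons Ent.zero (Ls.cons Ent.zero (Ls.cons Ent.zero (Ls.cons Ent.zero (Ls.cons Ent.zero (Ls.cons Ent.zero (Ls.cons Ent.zero (Ls.cons Ent.zero (Ls.cons Ent.zero (Ls.cons (Ent.neg F0_5_4_0) (Ls.cons Ent.zero (Ls.cons (Ent.pos F0_4_3_0) (Ls.cons (Ent.neg F0_4_2_0) (Ls.cons (Ent.pos F0_4_1_0) (Ls.cons Ent.zero Ls.nil)))))))))))))))))))))))))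
 (Ls.cons (Ls.cons Ent.zero (Ls.cons Ent.zero (Ls.cons Ent.zero (Ls.cons Ent.zero (Ls.cons Ent.zero (Ls.cons Ent.zero (Ls.cons Ent.zero (Ls.cons Ent.zero (Ls.cons Ent.zero (Ls.cons Ent.zero (Ls.cons Ent.zero (Ls.cons Ent.zero (Ls.cons Ent.zero (Ls.cons Ent.zero (Ls.cons Ent.zero (Ls.cons Ent.zero (Ls.cons Ent.zero (Ls.cons Ent.zero (Ls.cons Ent.zero (Ls.cons (Ent.pos F0_5_3_0) (Ls.cons (Ent.neg F0_4_3_0) (Ls.cons Ent.zero (Ls.cons (Ent.pos F0_3_2_0) (Ls.cons (Ent.neg F0_3_1_0) (Ls.cons Ent.zero Ls.nil)))))))))))))))))))))))))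
 (Ls.cons (Ls.cons Ent.zero (Ls.cons Ent.zero (Ls.cons Ent.zero (Ls.cons Ent.zero (Ls.cons Ent.zero (Ls.cons Ent.zero (Ls.cons Ent.zero (Ls.cons Ent.zero (Ls.cons Ent.zero (Ls.cons Ent.zero (Ls.cons Ent.zero (Ls.cons Ent.zero (Ls.cons Ent.zero (Ls.cons Ent.zero (Ls.cons Ent.zero (Ls.cons Ent.zero (Ls.cons Ent.zero (Ls.cons Ent.zero (Ls.cons Ent.zero (Ls.cons (Ent.neg F0_5_2_0) (Ls.cons (Ent.pos F0_4_2_0) (Ls.cons (Ent.neg F0_3_2_0) (Ls.cons Ent.zero (Ls.cons (Ent.pos F0_2_1_0) (Ls.cons Ent.zero Ls.nil)))))))))))))))))))))))))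
 (Ls.cons (Ls.cons Ent.zero (Ls.cons Ent.zero (Ls.cons Ent.zero (Ls.cons Ent.zero (Ls.cons Ent.zero (Ls.cons Ent.zero (Ls.cons Ent.zero (Ls.cons Ent.zero (Ls.cons Ent.zero (Ls.cons Ent.zero (Ls.cons Ent.zero (Ls.cons Ent.zero (Ls.cons Ent.zero (Ls.cons Ent.zero (Ls.cons Ent.zero (Ls.cons Ent.zero (Ls.cons Ent.zero (Ls.cons Ent.zero (Ls.cons Ent.zero (Ls.cons (Ent.pos F0_5_1_0) (Ls.cons (Ent.neg F0_4_1_0) (Ls.cons (Ent.pos F0_3_1_0) (Ls.cons (Ent.neg F0_2_1_0) (Ls.cons Ent.zero (Ls.cons Ent.zero Ls.nil)))))))))))))))))))))))))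
 (Ls.cons (Ls.cons Ent.zero (Ls.cons Ent.zero (Ls.cons Ent.zero (Ls.cons Ent.zero (Ls.cons Ent.zero (Ls.cons Ent.zero (Ls.cons Ent.zero (Ls.cons Ent.zero (Ls.cons Ent.zero (Ls.cons Ent.zero (Ls.cons Ent.zero (Ls.cons Ent.zero (Ls.cons Ent.zero (Ls.cons Ent.zero (Ls.cons Ent.zero (Ls.cons Ent.zero (Ls.cons Ent.zero (Ls.cons Ent.zero (Ls.cons Ent.zero (Ls.cons Ent.zero (Ls.cons Ent.zero (Ls.cons Ent.zero (Ls.cons Ent.zero (Ls.cons Ent.zero (Ls.cons Ent.zero Ls.nil)))))))))))))))))))))))))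
 Ls.nil))))))))))))))))))))

noncomputable def bxF0_1 : L2 :=
 (Ls.cons (Ls.cons Ent.zero (Ls.cons Ent.zero (Ls.cons Ent.zero (Ls.cons Ent.zero (Ls.cons Ent.zero (Ls.cons Ent.zero (Ls.cons Ent.zero (Ls.cons Ent.zero (Ls.cons Ent.zero (Ls.cons Ent.zero (Ls.cons Ent.zero (Ls.cons Ent.zero (Ls.cons Ent.zero (Ls.cons Ent.zero (Ls.cons Ent.zero (Ls.cons Ent.zero (Ls.cons Ent.zero (Ls.cons Ent.zero (Ls.cons Ent.zero (Ls.cons Ent.zero (Ls.cons Ent.zero (Ls.cons Ent.zero (Ls.cons Ent.zero (Ls.cons Ent.zero (Ls.cons Ent.zero Ls.nil)))))))))))))))))))))))))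
 (Ls.cons (Ls.cons Ent.zero (Ls.cons Ent.zero (Ls.cons Ent.zero (Ls.cons Ent.zero (Ls.cons Ent.zero (Ls.cons Ent.zero (Ls.cons Ent.zero (Ls.cons Ent.zero (Ls.cons Ent.zero (Ls.cons Ent.zero (Ls.cons Ent.zero (Ls.cons Ent.zero (Ls.cons Ent.zero (Ls.cons Ent.zero (Ls.cons Ent.zero (Ls.cons Ent.zero (Ls.cons Ent.zero (Ls.cons Ent.zero (Ls.cons Ent.zero (Ls.cons Ent.zero (Ls.cons Ent.zero (Ls.cons Ent.zero (Ls.cons Ent.zero (Ls.cons Ent.zero (Ls.cons Ent.zero Ls.nil)))))))))))))))))))))))))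
 (Ls.cons (Ls.cons Ent.zero (Ls.cons Ent.zero (Ls.cons Ent.zero (Ls.cons Ent.zero (Ls.cons Ent.zero (Ls.cons Ent.zero (Ls.cons Ent.zero (Ls.cons Ent.zero (Ls.cons Ent.zero (Ls.cons Ent.zero (Ls.cons Ent.zero (Ls.cons Ent.zero (Ls.cons Ent.zero (Ls.cons Ent.zero (Ls.cons Ent.zero (Ls.cons Ent.zero (Ls.cons Ent.zero (Ls.cons Ent.zero (Ls.cons Ent.zero (Ls.cons Ent.zero (Ls.cons Ent.zero (Ls.cons Ent.zero (Ls.cons Ent.zero (Ls.cons Ent.zero (Ls.cons Ent.zero Ls.nil)))))))))))))))))))))))))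
 (Ls.cons (Ls.cons Ent.zero (Ls.cons Ent.zero (Ls.cons Ent.zero (Ls.cons Ent.zero (Ls.cons Ent.zero (Ls.cons Ent.zero (Ls.cons Ent.zero (Ls.cons Ent.zero (Ls.cons Ent.zero (Ls.cons Ent.zero (Ls.cons Ent.zero (Ls.cons Ent.zero (Ls.cons Ent.zero (Ls.cons Ent.zero (Ls.cons Ent.zero (Ls.cons Ent.zero (Ls.cons Ent.zero (Ls.cons Ent.zero (Ls.cons Ent.zero (Ls.cons Ent.zero (Ls.cons Ent.zero (Ls.cons Ent.zero (Ls.cons Ent.zero (Ls.cons Ent.zero (Ls.cons Ent.zero Ls.nil)))))))))))))))))))))))))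
 (Ls.cons (Ls.cons Ent.zero (Ls.cons Ent.zero (Ls.cons Ent.zero (Ls.cons Ent.zero (Ls.cons Ent.zero (Ls.cons Ent.zero (Ls.cons Ent.zero (Ls.cons Ent.zero (Ls.cons Ent.zero (Ls.cons Ent.zero (Ls.cons Ent.zero (Ls.cons Ent.zero (Ls.cons Ent.zero (Ls.cons Ent.zero (Ls.cons Ent.zero (Ls.cons Ent.zero (Ls.cons Ent.zero (Ls.cons Ent.zero (Ls.cons Ent.zero (Ls.cons Ent.zero (Ls.cons Ent.zero (Ls.cons Ent.zero (Ls.cons Ent.zero (Ls.cons Ent.zero (Ls.cons Ent.zero Ls.nil)))))))))))))))))))))))))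
 (Ls.cons (Ls.cons Ent.zero (Ls.cons Ent.zero (Ls.cons Ent.zero (Ls.cons Ent.zero (Ls.cons Ent.zero (Ls.cons Ent.zero (Ls.cons Ent.zero (Ls.cons Ent.zero (Ls.cons Ent.zero (Ls.cons Ent.zero (Ls.cons Ent.zero (Ls.cons Ent.zero (Ls.cons Ent.zero (Ls.cons Ent.zero (Ls.cons Ent.zero (Ls.cons Ent.zero (Ls.cons Ent.zero (Ls.cons Ent.zero (Ls.cons Ent.zero (Ls.cons Ent.zero (Ls.cons Ent.zero (Ls.cons Ent.zero (Ls.cons Ent.zero (Ls.cons Ent.zero (Ls.cons Ent.zero Ls.nil)))))))))))))))))))))))))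
 (Ls.cons (Ls.cons Ent.zero (Ls.cons Ent.zero (Ls.cons Ent.zero (Ls.cons Ent.zero (Ls.cons Ent.zero (Ls.cons Ent.zero (Ls.cons Ent.zero (Ls.cons Ent.zero (Ls.cons Ent.zero (Ls.cons Ent.zero (Ls.cons Ent.zero (Ls.cons Ent.zero (Ls.cons Ent.zero (Ls.cons Ent.zero (Ls.cons Ent.zero (Ls.cons Ent.zero (Ls.cons Ent.zero (Ls.cons Ent.zero (Ls.cons Ent.zero (Ls.cons Ent.zero (Ls.cons Ent.zero (Ls.cons Ent.zero (Ls.cons Ent.zero (Ls.cons Ent.zero (Ls.cons Ent.zero Ls.nil)))))))))))))))))))))))))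
 (Ls.cons (Ls.cons Ent.zero (Ls.cons Ent.zero (Ls.cons Ent.zero (Ls.cons Ent.zero (Ls.cons Ent.zero (Ls.cons Ent.zero (Ls.cons Ent.zero (Ls.cons Ent.zero (Ls.cons Ent.zero (Ls.cons Ent.zero (Ls.cons Ent.zero (Ls.cons Ent.zero (Ls.cons Ent.zero (Ls.cons Ent.zero (Ls.cons Ent.zero (Ls.cons Ent.zero (Ls.cons Ent.zero (Ls.cons Ent.zero (Ls.cons Ent.zero (Ls.cons Ent.zero (Ls.cons Ent.zero (Ls.cons Ent.zero (Ls.cons Ent.zero (Ls.cons Ent.zero (Ls.cons Ent.zero Ls.nil)))))))))))))))))))))))))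
 (Ls.cons (Ls.cons Ent.zero (Ls.cons Ent.zero (Ls.cons Ent.zero (Ls.cons Ent.zero (Ls.cons Ent.zero (Ls.cons Ent.zero (Ls.cons Ent.zero (Ls.cons Ent.zero (Ls.cons Ent.zero (Ls.cons Ent.zero (Ls.cons Ent.zero (Ls.cons Ent.zero (Ls.cons Ent.zero (Ls.cons Ent.zero (Ls.cons Ent.zero (Ls.cons Ent.zero (Ls.cons Ent.zero (Ls.cons Ent.zero (Ls.cons Ent.zero (Ls.cons Ent.zero (Ls.cons Ent.zero (Ls.cons Ent.zero (Ls.cons Ent.zero (Ls.cons Ent.zero (Ls.cons Ent.zero Ls.nil)))))))))))))))))))))))))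
 (Ls.cons (Ls.cons Ent.zero (Ls.cons Ent.zero (Ls.cons Ent.zero (Ls.cons Ent.zero (Ls.cons Ent.zero (Ls.cons Ent.zero (Ls.cons Ent.zero (Ls.cons Ent.zero (Ls.cons Ent.zero (Ls.cons Ent.zero (Ls.cons Ent.zero (Ls.cons Ent.zero (Ls.cons Ent.zero (Ls.cons Ent.zero (Ls.cons Ent.zero (Ls.cons Ent.zero (Ls.cons Ent.zero (Ls.cons Ent.zero (Ls.cons Ent.zero (Ls.cons Ent.zero (Ls.cons Ent.zero (Ls.cons Ent.zero (Ls.cons Ent.zero (Ls.cons Ent.zero (Ls.cons Ent.zero Ls.nil)))))))))))))))))))))))))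
 (Ls.cons (Ls.cons Ent.zero (Ls.cons Ent.zero (Ls.cons Ent.zero (Ls.cons Ent.zero (Ls.cons Ent.zero (Ls.cons Ent.zero (Ls.cons Ent.zero (Ls.cons Ent.zero (Ls.cons Ent.zero (Ls.cons Ent.zero (Ls.cons Ent.zero (Ls.cons Ent.zero (Ls.cons Ent.zero (Ls.cons Ent.zero (Ls.cons Ent.zero (Ls.cons Ent.zero (Ls.cons Ent.zero (Ls.cons Ent.zero (Ls.cons Ent.zero (Ls.cons Ent.zero (Ls.cons Ent.zero (Ls.cons Ent.zero (Ls.cons Ent.zero (Ls.cons Ent.zero (Ls.cons Ent.zero Ls.nil)))))))))))))))))))))))))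
 (Ls.cons (Ls.cons Ent.zero (Ls.cons Ent.zero (Ls.cons Ent.zero (Ls.cons Ent.zero (Ls.cons Ent.zero (Ls.cons Ent.zero (Ls.cons Ent.zero (Ls.cons Ent.zero (Ls.cons Ent.zero (Ls.cons Ent.zero (Ls.cons Ent.zero (Ls.cons Ent.zero (Ls.cons Ent.zero (Ls.cons Ent.zero (Ls.cons Ent.zero (Ls.cons Ent.zero (Ls.cons Ent.zero (Ls.cons Ent.zero (Ls.cons Ent.zero (Ls.cons Ent.zero (Ls.cons Ent.zero (Ls.cons Ent.zero (Ls.cons Ent.zero (Ls.cons Ent.zero (Ls.cons Ent.zero Ls.nil)))))))))))))))))))))))))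
 (Ls.cons (Ls.cons Ent.zero (Ls.cons Ent.zero (Ls.cons Ent.zero (Ls.cons Ent.zero (Ls.cons Ent.zero (Ls.cons Ent.zero (Ls.cons Ent.zero (Ls.cons Ent.zero (Ls.cons Ent.zero (Ls.cons Ent.zero (Ls.cons Ent.zero (Ls.cons Ent.zero (Ls.cons Ent.zero (Ls.cons Ent.zero (Ls.cons Ent.zero (Ls.cons Ent.zero (Ls.cons Ent.zero (Ls.cons Ent.zero (Ls.cons Ent.zero (Ls.cons Ent.zero (Ls.cons Ent.zero (Ls.cons Ent.zero (Ls.cons Ent.zero (Ls.cons Ent.zero (Ls.cons Ent.zero Ls.nil)))))))))))))))))))))))))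
 (Ls.cons (Ls.cons Ent.zero (Ls.cons Ent.zero (Ls.cons Ent.zero (Ls.cons Ent.zero (Ls.cons Ent.zero (Ls.cons Ent.zero (Ls.cons Ent.zero (Ls.cons Ent.zero (Ls.cons Ent.zero (Ls.cons Ent.zero (Ls.cons Ent.zero (Ls.cons Ent.zero (Ls.cons Ent.zero (Ls.cons Ent.zero (Ls.cons Ent.zero (Ls.cons Ent.zero (Ls.cons Ent.zero (Ls.cons Ent.zero (Ls.cons Ent.zero (Ls.cons Ent.zero (Ls.cons Ent.zero (Ls.cons Ent.zero (Ls.cons Ent.zero (Ls.cons Ent.zero (Ls.cons Ent.zero Ls.nil)))))))))))))))))))))))))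
 (Ls.cons (Ls.cons Ent.zero (Ls.cons Ent.zero (Ls.cons Ent.zero (Ls.cons Ent.zero (Ls.cons Ent.zero (Ls.cons Ent.zero (Ls.cons Ent.zero (Ls.cons Ent.zero (Ls.cons Ent.zero (Ls.cons Ent.zero (Ls.cons Ent.zero (Ls.cons Ent.zero (Ls.cons Ent.zero (Ls.cons Ent.zero (Ls.cons Ent.zero (Ls.cons Ent.zero (Ls.cons Ent.zero (Ls.cons Ent.zero (Ls.cons Ent.zero (Ls.cons Ent.zero (Ls.cons (Ent.neg F0_5_4_1) (Ls.cons (Ent.pos F0_5_3_1) (Ls.cons (Ent.neg F0_5_2_1) (Ls.cons Ent.zero (Ls.cons (Ent.pos F0_5_1_0) Ls.nil)))))))))))))))))))))))))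
 (Ls.cons (Ls.cons Ent.zero (Ls.cons Ent.zero (Ls.cons Ent.zero (Ls.cons Ent.zero (Ls.cons Ent.zero (Ls.cons Ent.zero (Ls.cons Ent.zero (Ls.cons Ent.zero (Ls.cons Ent.zero (Ls.cons Ent.zero (Ls.cons Ent.zero (Ls.cons Ent.zero (Ls.cons Ent.zero (Ls.cons Ent.zero (Ls.cons Ent.zero (Ls.cons Ent.zero (Ls.cons Ent.zero (Ls.cons Ent.zero (Ls.cons Ent.zero (Ls.cons (Ent.pos F0_5_4_1) (Ls.cons Ent.zero (Ls.cons (Ent.neg F0_4_3_1) (Ls.cons (Ent.pos F0_4_2_1) (Ls.cons Ent.zero (Ls.cons (Ent.neg F0_4_1_0) Ls.nil)))))))))))))))))))))))))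
 (Ls.cons (Ls.cons Ent.zero (Ls.cons Ent.zero (Ls.cons Ent.zero (Ls.cons Ent.zero (Ls.cons Ent.zero (Ls.cons Ent.zero (Ls.cons Ent.zero (Ls.cons Ent.zero (Ls.cons Ent.zero (Ls.cons Ent.zero (Ls.cons Ent.zero (Ls.cons Ent.zero (Ls.cons Ent.zero (Ls.cons Ent.zero (Ls.cons Ent.zero (Ls.cons Ent.zero (Ls.cons Ent.zero (Ls.cons Ent.zero (Ls.cons Ent.zero (Ls.cons (Ent.neg F0_5_3_1) (Ls.cons (Ent.pos F0_4_3_1) (Ls.cons Ent.zero (Ls.cons (Ent.neg F0_3_2_1) (Ls.cons Ent.zero (Ls.cons (Ent.pos F0_3_1_0) Ls.nil)))))))))))))))))))))))))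
 (Ls.cons (Ls.cons Ent.zero (Ls.cons Ent.zero (Ls.cons Ent.zero (Ls.cons Ent.zero (Ls.cons Ent.zero (Ls.cons Ent.zero (Ls.cons Ent.zero (Ls.cons Ent.zero (Ls.cons Ent.zero (Ls.cons Ent.zero (Ls.cons Ent.zero (Ls.cons Ent.zero (Ls.cons Ent.zero (Ls.cons Ent.zero (Ls.cons Ent.zero (Ls.cons Ent.zero (Ls.cons Ent.zero (Ls.cons Ent.zero (Ls.cons Ent.zero (Ls.cons (Ent.pos F0_5_2_1) (Ls.cons (Ent.neg F0_4_2_1) (Ls.cons (Ent.pos F0_3_2_1) (Ls.cons Ent.zero (Ls.cons Ent.zero (Ls.cons (Ent.neg F0_2_1_0) Ls.nil)))))))))))))))))))))))))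
 (Ls.cons (Ls.cons Ent.zero (Ls.cons Ent.zero (Ls.cons Ent.zero (Ls.cons Ent.zero (Ls.cons Ent.zero (Ls.cons Ent.zero (Ls.cons Ent.zero (Ls.cons Ent.zero (Ls.cons Ent.zero (Ls.cons Ent.zero (Ls.cons Ent.zero (Ls.cons Ent.zero (Ls.cons Ent.zero (Ls.cons Ent.zero (Ls.cons Ent.zero (Ls.cons Ent.zero (Ls.cons Ent.zero (Ls.cons Ent.zero (Ls.cons Ent.zero (Ls.cons Ent.zero (Ls.cons Ent.zero (Ls.cons Ent.zero (Ls.cons Ent.zero (Ls.cons Ent.zero (Ls.cons Ent.zero Ls.nil)))))))))))))))))))))))))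
 (Ls.cons (Ls.cons Ent.zero (Ls.cons Ent.zero (Ls.cons Ent.zero (Ls.cons Ent.zero (Ls.cons Ent.zero (Ls.cons Ent.zero (Ls.cons Ent.zero (Ls.cons Ent.zero (Ls.cons Ent.zero (Ls.cons Ent.zero (Ls.cons Ent.zero (Ls.cons Ent.zero (Ls.cons Ent.zero (Ls.cons Ent.zero (Ls.cons Ent.zero (Ls.cons Ent.zero (Ls.cons Ent.zero (Ls.cons Ent.zero (Ls.cons Ent.zero (Ls.cons (Ent.neg F0_5_1_0) (Ls.cons (Ent.pos F0_4_1_0) (Ls.cons (Ent.neg F0_3_1_0) (Ls.cons (Ent.pos F0_2_1_0) (Ls.cons Ent.zero (Ls.cons Ent.zero Ls.nil)))))))))))))))))))))))))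
 Ls.nil))))))))))))))))))))

noncomputable def bxF0_2 : L2 :=
 (Ls.cons (Ls.cons Ent.zero (Ls.cons Ent.zero (Ls.cons Ent.zero (Ls.cons Ent.zero (Ls.cons Ent.zero (Ls.cons Ent.zero (Ls.cons Ent.zero (Ls.cons Ent.zero (Ls.cons Ent.zero (Ls.cons Ent.zero (Ls.cons Ent.zero (Ls.cons Ent.zero (Ls.cons Ent.zero (Ls.cons Ent.zero (Ls.cons Ent.zero (Ls.cons Ent.zero (Ls.cons Ent.zero (Ls.cons Ent.zero (Ls.cons Ent.zero (Ls.cons Ent.zero (Ls.cons Ent.zero (Ls.cons Ent.zero (Ls.cons Ent.zero (Ls.cons Ent.zero (Ls.cons Ent.zero Ls.nil)))))))))))))))))))))))))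
 (Ls.cons (Ls.cons Ent.zero (Ls.cons Ent.zero (Ls.cons Ent.zero (Ls.cons Ent.zero (Ls.cons Ent.zero (Ls.cons Ent.zero (Ls.cons Ent.zero (Ls.cons Ent.zero (Ls.cons Ent.zero (Ls.cons Ent.zero (Ls.cons Ent.zero (Ls.cons Ent.zero (Ls.cons Ent.zero (Ls.cons Ent.zero (Ls.cons Ent.zero (Ls.cons Ent.zero (Ls.cons Ent.zero (Ls.cons Ent.zero (Ls.cons Ent.zero (Ls.cons Ent.zero (Ls.cons Ent.zero (Ls.cons Ent.zero (Ls.cons Ent.zero (Ls.cons Ent.zero (Ls.cons Ent.zero Ls.nil)))))))))))))))))))))))))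
 (Ls.cons (Ls.cons Ent.zero (Ls.cons Ent.zero (Ls.cons Ent.zero (Ls.cons Ent.zero (Ls.cons Ent.zero (Ls.cons Ent.zero (Ls.cons Ent.zero (Ls.cons Ent.zero (Ls.cons Ent.zero (Ls.cons Ent.zero (Ls.cons Ent.zero (Ls.cons Ent.zero (Ls.cons Ent.zero (Ls.cons Ent.zero (Ls.cons Ent.zero (Ls.cons Ent.zero (Ls.cons Ent.zero (Ls.cons Ent.zero (Ls.cons Ent.zero (Ls.cons Ent.zero (Ls.cons Ent.zero (Ls.cons Ent.zero (Ls.cons Ent.zero (Ls.cons Ent.zero (Ls.cons Ent.zero Ls.nil)))))))))))))))))))))))))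
 (Ls.cons (Ls.cons Ent.zero (Ls.cons Ent.zero (Ls.cons Ent.zero (Ls.cons Ent.zero (Ls.cons Ent.zero (Ls.cons Ent.zero (Ls.cons Ent.zero (Ls.cons Ent.zero (Ls.cons Ent.zero (Ls.cons Ent.zero (Ls.cons Ent.zero (Ls.cons Ent.zero (Ls.cons Ent.zero (Ls.cons Ent.zero (Ls.cons Ent.zero (Ls.cons Ent.zero (Ls.cons Ent.zero (Ls.cons Ent.zero (Ls.cons Ent.zero (Ls.cons Ent.zero (Ls.cons Ent.zero (Ls.cons Ent.zero (Ls.cons Ent.zero (Ls.cons Ent.zero (Ls.cons Ent.zero Ls.nil)))))))))))))))))))))))))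
 (Ls.cons (Ls.cons Ent.zero (Ls.cons Ent.zero (Ls.cons Ent.zero (Ls.cons Ent.zero (Ls.cons Ent.zero (Ls.cons Ent.zero (Ls.cons Ent.zero (Ls.cons Ent.zero (Ls.cons Ent.zero (Ls.cons Ent.zero (Ls.cons Ent.zero (Ls.cons Ent.zero (Ls.cons Ent.zero (Ls.cons Ent.zero (Ls.cons Ent.zero (Ls.cons Ent.zero (Ls.cons Ent.zero (Ls.cons Ent.zero (Ls.cons Ent.zero (Ls.cons Ent.zero (Ls.cons Ent.zero (Ls.cons Ent.zero (Ls.cons Ent.zero (Ls.cons Ent.zero (Ls.cons Ent.zero Ls.nil)))))))))))))))))))))))))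
 (Ls.cons (Ls.cons Ent.zero (Ls.cons Ent.zero (Ls.cons Ent.zero (Ls.cons Ent.zero (Ls.cons Ent.zero (Ls.cons Ent.zero (Ls.cons Ent.zero (Ls.cons Ent.zero (Ls.cons Ent.zero (Ls.cons Ent.zero (Ls.cons Ent.zero (Ls.cons Ent.zero (Ls.cons Ent.zero (Ls.cons Ent.zero (Ls.cons Ent.zero (Ls.cons Ent.zero (Ls.cons Ent.zero (Ls.cons Ent.zero (Ls.cons Ent.zero (Ls.cons Ent.zero (Ls.cons Ent.zero (Ls.cons Ent.zero (Ls.cons Ent.zero (Ls.cons Ent.zero (Ls.cons Ent.zero Ls.nil)))))))))))))))))))))))))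
 (Ls.cons (Ls.cons Ent.zero (Ls.cons Ent.zero (Ls.cons Ent.zero (Ls.cons Ent.zero (Ls.cons Ent.zero (Ls.cons Ent.zero (Ls.cons Ent.zero (Ls.cons Ent.zero (Ls.cons Ent.zero (Ls.cons Ent.zero (Ls.cons Ent.zero (Ls.cons Ent.zero (Ls.cons Ent.zero (Ls.cons Ent.zero (Ls.cons Ent.zero (Ls.cons Ent.zero (Ls.cons Ent.zero (Ls.cons Ent.zero (Ls.cons Ent.zero (Ls.cons Ent.zero (Ls.cons Ent.zero (Ls.cons Ent.zero (Ls.cons Ent.zero (Ls.cons Ent.zero (Ls.cons Ent.zero Ls.nil)))))))))))))))))))))))))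
 (Ls.cons (Ls.cons Ent.zero (Ls.cons Ent.zero (Ls.cons Ent.zero (Ls.cons Ent.zero (Ls.cons Ent.zero (Ls.cons Ent.zero (Ls.cons Ent.zero (Ls.cons Ent.zero (Ls.cons Ent.zero (Ls.cons Ent.zero (Ls.cons Ent.zero (Ls.cons Ent.zero (Ls.cons Ent.zero (Ls.cons Ent.zero (Ls.cons Ent.zero (Ls.cons Ent.zero (Ls.cons Ent.zero (Ls.cons Ent.zero (Ls.cons Ent.zero (Ls.cons Ent.zero (Ls.cons Ent.zero (Ls.cons Ent.zero (Ls.cons Ent.zero (Ls.cons Ent.zero (Ls.cons Ent.zero Ls.nil)))))))))))))))))))))))))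
 (Ls.cons (Ls.cons Ent.zero (Ls.cons Ent.zero (Ls.cons Ent.zero (Ls.cons Ent.zero (Ls.cons Ent.zero (Ls.cons Ent.zero (Ls.cons Ent.zero (Ls.cons Ent.zero (Ls.cons Ent.zero (Ls.cons Ent.zero (Ls.cons Ent.zero (Ls.cons Ent.zero (Ls.cons Ent.zero (Ls.cons Ent.zero (Ls.cons Ent.zero (Ls.cons Ent.zero (Ls.cons Ent.zero (Ls.cons Ent.zero (Ls.cons Ent.zero (Ls.cons Ent.zero (Ls.cons Ent.zero (Ls.cons Ent.zero (Ls.cons Ent.zero (Ls.cons Ent.zero (Ls.cons Ent.zero Ls.nil)))))))))))))))))))))))))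
 (Ls.cons (Ls.cons Ent.zero (Ls.cons Ent.zero (Ls.cons Ent.zero (Ls.cons Ent.zero (Ls.cons Ent.zero (Ls.cons Ent.zero (Ls.cons Ent.zero (Ls.cons Ent.zero (Ls.cons Ent.zero (Ls.cons Ent.zero (Ls.cons Ent.zero (Ls.cons Ent.zero (Ls.cons Ent.zero (Ls.cons Ent.zero (Ls.cons Ent.zero (Ls.cons Ent.zero (Ls.cons Ent.zero (Ls.cons Ent.zero (Ls.cons Ent.zero (Ls.cons Ent.zero (Ls.cons Ent.zero (Ls.cons Ent.zero (Ls.cons Ent.zero (Ls.cons Ent.zero (Ls.cons Ent.zero Ls.nil)))))))))))))))))))))))))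
 (Ls.cons (Ls.cons Ent.zero (Ls.cons Ent.zero (Ls.cons Ent.zero (Ls.cons Ent.zero (Ls.cons Ent.zero (Ls.cons Ent.zero (Ls.cons Ent.zero (Ls.cons Ent.zero (Ls.cons Ent.zero (Ls.cons Ent.zero (Ls.cons Ent.zero (Ls.cons Ent.zero (Ls.cons Ent.zero (Ls.cons Ent.zero (Ls.cons Ent.zero (Ls.cons Ent.zero (Ls.cons Ent.zero (Ls.cons Ent.zero (Ls.cons Ent.zero (Ls.cons Ent.zero (Ls.cons Ent.zero (Ls.cons Ent.zero (Ls.cons Ent.zero (Ls.cons Ent.zero (Ls.cons Ent.zero Ls.nil)))))))))))))))))))))))))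
 (Ls.cons (Ls.cons Ent.zero (Ls.cons Ent.zero (Ls.cons Ent.zero (Ls.cons Ent.zero (Ls.cons Ent.zero (Ls.cons Ent.zero (Ls.cons Ent.zero (Ls.cons Ent.zero (Ls.cons Ent.zero (Ls.cons Ent.zero (Ls.cons Ent.zero (Ls.cons Ent.zero (Ls.cons Ent.zero (Ls.cons Ent.zero (Ls.cons Ent.zero (Ls.cons Ent.zero (Ls.cons Ent.zero (Ls.cons Ent.zero (Ls.cons Ent.zero (Ls.cons Ent.zero (Ls.cons Ent.zero (Ls.cons Ent.zero (Ls.cons Ent.zero (Ls.cons Ent.zero (Ls.cons Ent.zero Ls.nil)))))))))))))))))))))))))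
 (Ls.cons (Ls.cons Ent.zero (Ls.cons Ent.zero (Ls.cons Ent.zero (Ls.cons Ent.zero (Ls.cons Ent.zero (Ls.cons Ent.zero (Ls.cons Ent.zero (Ls.cons Ent.zero (Ls.cons Ent.zero (Ls.cons Ent.zero (Ls.cons Ent.zero (Ls.cons Ent.zero (Ls.cons Ent.zero (Ls.cons Ent.zero (Ls.cons Ent.zero (Ls.cons Ent.zero (Ls.cons Ent.zero (Ls.cons Ent.zero (Ls.cons Ent.zero (Ls.cons Ent.zero (Ls.cons Ent.zero (Ls.cons Ent.zero (Ls.cons Ent.zero (Ls.cons Ent.zero (Ls.cons Ent.zero Ls.nil)))))))))))))))))))))))))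
 (Ls.cons (Ls.cons Ent.zero (Ls.cons Ent.zero (Ls.cons Ent.zero (Ls.cons Ent.zero (Ls.cons Ent.zero (Ls.cons Ent.zero (Ls.cons Ent.zero (Ls.cons Ent.zero (Ls.cons Ent.zero (Ls.cons Ent.zero (Ls.cons Ent.zero (Ls.cons Ent.zero (Ls.cons Ent.zero (Ls.cons Ent.zero (Ls.cons Ent.zero (Ls.cons Ent.zero (Ls.cons Ent.zero (Ls.cons Ent.zero (Ls.cons Ent.zero (Ls.cons Ent.zero (Ls.cons Ent.zero (Ls.cons Ent.zero (Ls.cons Ent.zero (Ls.cons Ent.zero (Ls.cons Ent.zero Ls.nil)))))))))))))))))))))))))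
 (Ls.cons (Ls.cons Ent.zero (Ls.cons Ent.zero (Ls.cons Ent.zero (Ls.cons Ent.zero (Ls.cons Ent.zero (Ls.cons Ent.zero (Ls.cons Ent.zero (Ls.cons Ent.zero (Ls.cons Ent.zero (Ls.cons Ent.zero (Ls.cons Ent.zero (Ls.cons Ent.zero (Ls.cons Ent.zero (Ls.cons Ent.zero (Ls.cons Ent.zero (Ls.cons Ent.zero (Ls.cons Ent.zero (Ls.cons Ent.zero (Ls.cons Ent.zero (Ls.cons Ent.zero (Ls.cons (Ent.pos F0_5_4_2) (Ls.cons (Ent.neg F0_5_3_2) (Ls.cons Ent.zero (Ls.cons (Ent.pos F0_5_2_1) (Ls.cons (Ent.neg F0_5_2_0) Ls.nil)))))))))))))))))))))))))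
 (Ls.cons (Ls.cons Ent.zero (Ls.cons Ent.zero (Ls.cons Ent.zero (Ls.cons Ent.zero (Ls.cons Ent.zero (Ls.cons Ent.zero (Ls.cons Ent.zero (Ls.cons Ent.zero (Ls.cons Ent.zero (Ls.cons Ent.zero (Ls.cons Ent.zero (Ls.cons Ent.zero (Ls.cons Ent.zero (Ls.cons Ent.zero (Ls.cons Ent.zero (Ls.cons Ent.zero (Ls.cons Ent.zero (Ls.cons Ent.zero (Ls.cons Ent.zero (Ls.cons (Ent.neg F0_5_4_2) (Ls.cons Ent.zero (Ls.cons (Ent.pos F0_4_3_2) (Ls.cons Ent.zero (Ls.cons (Ent.neg F0_4_2_1) (Ls.cons (Ent.pos F0_4_2_0) Ls.nil)))))))))))))))))))))))))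
 (Ls.cons (Ls.cons Ent.zero (Ls.cons Ent.zero (Ls.cons Ent.zero (Ls.cons Ent.zero (Ls.cons Ent.zero (Ls.cons Ent.zero (Ls.cons Ent.zero (Ls.cons Ent.zero (Ls.cons Ent.zero (Ls.cons Ent.zero (Ls.cons Ent.zero (Ls.cons Ent.zero (Ls.cons Ent.zero (Ls.cons Ent.zero (Ls.cons Ent.zero (Ls.cons Ent.zero (Ls.cons Ent.zero (Ls.cons Ent.zero (Ls.cons Ent.zero (Ls.cons (Ent.pos F0_5_3_2) (Ls.cons (Ent.neg F0_4_3_2) (Ls.cons Ent.zero (Ls.cons Ent.zero (Ls.cons (Ent.pos F0_3_2_1) (Ls.cons (Ent.neg F0_3_2_0) Ls.nil)))))))))))))))))))))))))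
 (Ls.cons (Ls.cons Ent.zero (Ls.cons Ent.zero (Ls.cons Ent.zero (Ls.cons Ent.zero (Ls.cons Ent.zero (Ls.cons Ent.zero (Ls.cons Ent.zero (Ls.cons Ent.zero (Ls.cons Ent.zero (Ls.cons Ent.zero (Ls.cons Ent.zero (Ls.cons Ent.zero (Ls.cons Ent.zero (Ls.cons Ent.zero (Ls.cons Ent.zero (Ls.cons Ent.zero (Ls.cons Ent.zero (Ls.cons Ent.zero (Ls.cons Ent.zero (Ls.cons Ent.zero (Ls.cons Ent.zero (Ls.cons Ent.zero (Ls.cons Ent.zero (Ls.cons Ent.zero (Ls.cons Ent.zero Ls.nil)))))))))))))))))))))))))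
 (Ls.cons (Ls.cons Ent.zero (Ls.cons Ent.zero (Ls.cons Ent.zero (Ls.cons Ent.zero (Ls.cons Ent.zero (Ls.cons Ent.zero (Ls.cons Ent.zero (Ls.cons Ent.zero (Ls.cons Ent.zero (Ls.cons Ent.zero (Ls.cons Ent.zero (Ls.cons Ent.zero (Ls.cons Ent.zero (Ls.cons Ent.zero (Ls.cons Ent.zero (Ls.cons Ent.zero (Ls.cons Ent.zero (Ls.cons Ent.zero (Ls.cons Ent.zero (Ls.cons (Ent.neg F0_5_2_1) (Ls.cons (Ent.pos F0_4_2_1) (Ls.cons (Ent.neg F0_3_2_1) (Ls.cons Ent.zero (Ls.cons Ent.zero (Ls.cons (Ent.pos F0_2_1_0) Ls.nil)))))))))))))))))))))))))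
 (Ls.cons (Ls.cons Ent.zero (Ls.cons Ent.zero (Ls.cons Ent.zero (Ls.cons Ent.zero (Ls.cons Ent.zero (Ls.cons Ent.zero (Ls.cons Ent.zero (Ls.cons Ent.zero (Ls.cons Ent.zero (Ls.cons Ent.zero (Ls.cons Ent.zero (Ls.cons Ent.zero (Ls.cons Ent.zero (Ls.cons Ent.zero (Ls.cons Ent.zero (Ls.cons Ent.zero (Ls.cons Ent.zero (Ls.cons Ent.zero (Ls.cons Ent.zero (Ls.cons (Ent.pos F0_5_2_0) (Ls.cons (Ent.neg F0_4_2_0) (Ls.cons (Ent.pos F0_3_2_0) (Ls.cons Ent.zero (Ls.cons (Ent.neg F0_2_1_0) (Ls.cons Ent.zero Ls.nil)))))))))))))))))))))))))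
 Ls.nil))))))))))))))))))))

noncomputable def bxF0_3 : L2 :=
 (Ls.cons (Ls.cons Ent.zero (Ls.cons Ent.zero (Ls.cons Ent.zero (Ls.cons Ent.zero (Ls.cons Ent.zero (Ls.cons Ent.zero (Ls.cons Ent.zero (Ls.cons Ent.zero (Ls.cons Ent.zero (Ls.cons Ent.zero (Ls.cons Ent.zero (Ls.cons Ent.zero (Ls.cons Ent.zero (Ls.cons Ent.zero (Ls.cons Ent.zero (Ls.cons Ent.zero (Ls.cons Ent.zero (Ls.cons Ent.zero (Ls.cons Ent.zero (Ls.cons Ent.zero (Ls.cons Ent.zero (Ls.cons Ent.zero (Ls.cons Ent.zero (Ls.cons Ent.zero (Ls.cons Ent.zero Ls.nil)))))))))))))))))))))))))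
 (Ls.cons (Ls.cons Ent.zero (Ls.cons Ent.zero (Ls.cons Ent.zero (Ls.cons Ent.zero (Ls.cons Ent.zero (Ls.cons Ent.zero (Ls.cons Ent.zero (Ls.cons Ent.zero (Ls.cons Ent.zero (Ls.cons Ent.zero (Ls.cons Ent.zero (Ls.cons Ent.zero (Ls.cons Ent.zero (Ls.cons Ent.zero (Ls.cons Ent.zero (Ls.cons Ent.zero (Ls.cons Ent.zero (Ls.cons Ent.zero (Ls.cons Ent.zero (Ls.cons Ent.zero (Ls.cons Ent.zero (Ls.cons Ent.zero (Ls.cons Ent.zero (Ls.cons Ent.zero (Ls.cons Ent.zero Ls.nil)))))))))))))))))))))))))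
 (Ls.cons (Ls.cons Ent.zero (Ls.cons Ent.zero (Ls.cons Ent.zero (Ls.cons Ent.zero (Ls.cons Ent.zero (Ls.cons Ent.zero (Ls.cons Ent.zero (Ls.cons Ent.zero (Ls.cons Ent.zero (Ls.cons Ent.zero (Ls.cons Ent.zero (Ls.cons Ent.zero (Ls.cons Ent.zero (Ls.cons Ent.zero (Ls.cons Ent.zero (Ls.cons Ent.zero (Ls.cons Ent.zero (Ls.cons Ent.zero (Ls.cons Ent.zero (Ls.cons Ent.zero (Ls.cons Ent.zero (Ls.cons Ent.zero (Ls.cons Ent.zero (Ls.cons Ent.zero (Ls.cons Ent.zero Ls.nil)))))))))))))))))))))))))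
 (Ls.cons (Ls.cons Ent.zero (Ls.cons Ent.zero (Ls.cons Ent.zero (Ls.cons Ent.zero (Ls.cons Ent.zero (Ls.cons Ent.zero (Ls.cons Ent.zero (Ls.cons Ent.zero (Ls.cons Ent.zero (Ls.cons Ent.zero (Ls.cons Ent.zero (Ls.cons Ent.zero (Ls.cons Ent.zero (Ls.cons Ent.zero (Ls.cons Ent.zero (Ls.cons Ent.zero (Ls.cons Ent.zero (Ls.cons Ent.zero (Ls.cons Ent.zero (Ls.cons Ent.zero (Ls.cons Ent.zero (Ls.cons Ent.zero (Ls.cons Ent.zero (Ls.cons Ent.zero (Ls.cons Ent.zero Ls.nil)))))))))))))))))))))))))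
 (Ls.cons (Ls.cons Ent.zero (Ls.cons Ent.zero (Ls.cons Ent.zero (Ls.cons Ent.zero (Ls.cons Ent.zero (Ls.cons Ent.zero (Ls.cons Ent.zero (Ls.cons Ent.zero (Ls.cons Ent.zero (Ls.cons Ent.zero (Ls.cons Ent.zero (Ls.cons Ent.zero (Ls.cons Ent.zero (Ls.cons Ent.zero (Ls.cons Ent.zero (Ls.cons Ent.zero (Ls.cons Ent.zero (Ls.cons Ent.zero (Ls.cons Ent.zero (Ls.cons Ent.zero (Ls.cons Ent.zero (Ls.cons Ent.zero (Ls.cons Ent.zero (Ls.cons Ent.zero (Ls.cons Ent.zero Ls.nil)))))))))))))))))))))))))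
 (Ls.cons (Ls.cons Ent.zero (Ls.cons Ent.zero (Ls.cons Ent.zero (Ls.cons Ent.zero (Ls.cons Ent.zero (Ls.cons Ent.zero (Ls.cons Ent.zero (Ls.cons Ent.zero (Ls.cons Ent.zero (Ls.cons Ent.zero (Ls.cons Ent.zero (Ls.cons Ent.zero (Ls.cons Ent.zero (Ls.cons Ent.zero (Ls.cons Ent.zero (Ls.cons Ent.zero (Ls.cons Ent.zero (Ls.cons Ent.zero (Ls.cons Ent.zero (Ls.cons Ent.zero (Ls.cons Ent.zero (Ls.cons Ent.zero (Ls.cons Ent.zero (Ls.cons Ent.zero (Ls.cons Ent.zero Ls.nil)))))))))))))))))))))))))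
 (Ls.cons (Ls.cons Ent.zero (Ls.cons Ent.zero (Ls.cons Ent.zero (Ls.cons Ent.zero (Ls.cons Ent.zero (Ls.cons Ent.zero (Ls.cons Ent.zero (Ls.cons Ent.zero (Ls.cons Ent.zero (Ls.cons Ent.zero (Ls.cons Ent.zero (Ls.cons Ent.zero (Ls.cons Ent.zero (Ls.cons Ent.zero (Ls.cons Ent.zero (Ls.cons Ent.zero (Ls.cons Ent.zero (Ls.cons Ent.zero (Ls.cons Ent.zero (Ls.cons Ent.zero (Ls.cons Ent.zero (Ls.cons Ent.zero (Ls.cons Ent.zero (Ls.cons Ent.zero (Ls.cons Ent.zero Ls.nil)))))))))))))))))))))))))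
 (Ls.cons (Ls.cons Ent.zero (Ls.cons Ent.zero (Ls.cons Ent.zero (Ls.cons Ent.zero (Ls.cons Ent.zero (Ls.cons Ent.zero (Ls.cons Ent.zero (Ls.cons Ent.zero (Ls.cons Ent.zero (Ls.cons Ent.zero (Ls.cons Ent.zero (Ls.cons Ent.zero (Ls.cons Ent.zero (Ls.cons Ent.zero (Ls.cons Ent.zero (Ls.cons Ent.zero (Ls.cons Ent.zero (Ls.cons Ent.zero (Ls.cons Ent.zero (Ls.cons Ent.zero (Ls.cons Ent.zero (Ls.cons Ent.zero (Ls.cons Ent.zero (Ls.cons Ent.zero (Ls.cons Ent.zero Ls.nil)))))))))))))))))))))))))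
 (Ls.cons (Ls.cons Ent.zero (Ls.cons Ent.zero (Ls.cons Ent.zero (Ls.cons Ent.zero (Ls.cons Ent.zero (Ls.cons Ent.zero (Ls.cons Ent.zero (Ls.cons Ent.zero (Ls.cons Ent.zero (Ls.cons Ent.zero (Ls.cons Ent.zero (Ls.cons Ent.zero (Ls.cons Ent.zero (Ls.cons Ent.zero (Ls.cons Ent.zero (Ls.cons Ent.zero (Ls.cons Ent.zero (Ls.cons Ent.zero (Ls.cons Ent.zero (Ls.cons Ent.zero (Ls.cons Ent.zero (Ls.cons Ent.zero (Ls.cons Ent.zero (Ls.cons Ent.zero (Ls.cons Ent.zero Ls.nil)))))))))))))))))))))))))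
 (Ls.cons (Ls.cons Ent.zero (Ls.cons Ent.zero (Ls.cons Ent.zero (Ls.cons Ent.zero (Ls.cons Ent.zero (Ls.cons Ent.zero (Ls.cons Ent.zero (Ls.cons Ent.zero (Ls.cons Ent.zero (Ls.cons Ent.zero (Ls.cons Ent.zero (Ls.cons Ent.zero (Ls.cons Ent.zero (Ls.cons Ent.zero (Ls.cons Ent.zero (Ls.cons Ent.zero (Ls.cons Ent.zero (Ls.cons Ent.zero (Ls.cons Ent.zero (Ls.cons Ent.zero (Ls.cons Ent.zero (Ls.cons Ent.zero (Ls.cons Ent.zero (Ls.cons Ent.zero (Ls.cons Ent.zero Ls.nil)))))))))))))))))))))))))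
 (Ls.cons (Ls.cons Ent.zero (Ls.cons Ent.zero (Ls.cons Ent.zero (Ls.cons Ent.zero (Ls.cons Ent.zero (Ls.cons Ent.zero (Ls.cons Ent.zero (Ls.cons Ent.zero (Ls.cons Ent.zero (Ls.cons Ent.zero (Ls.cons Ent.zero (Ls.cons Ent.zero (Ls.cons Ent.zero (Ls.cons Ent.zero (Ls.cons Ent.zero (Ls.cons Ent.zero (Ls.cons Ent.zero (Ls.cons Ent.zero (Ls.cons Ent.zero (Ls.cons Ent.zero (Ls.cons Ent.zero (Ls.cons Ent.zero (Ls.cons Ent.zero (Ls.cons Ent.zero (Ls.cons Ent.zero Ls.nil)))))))))))))))))))))))))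
 (Ls.cons (Ls.cons Ent.zero (Ls.cons Ent.zero (Ls.cons Ent.zero (Ls.cons Ent.zero (Ls.cons Ent.zero (Ls.cons Ent.zero (Ls.cons Ent.zero (Ls.cons Ent.zero (Ls.cons Ent.zero (Ls.cons Ent.zero (Ls.cons Ent.zero (Ls.cons Ent.zero (Ls.cons Ent.zero (Ls.cons Ent.zero (Ls.cons Ent.zero (Ls.cons Ent.zero (Ls.cons Ent.zero (Ls.cons Ent.zero (Ls.cons Ent.zero (Ls.cons Ent.zero (Ls.cons Ent.zero (Ls.cons Ent.zero (Ls.cons Ent.zero (Ls.cons Ent.zero (Ls.cons Ent.zero Ls.nil)))))))))))))))))))))))))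
 (Ls.cons (Ls.cons Ent.zero (Ls.cons Ent.zero (Ls.cons Ent.zero (Ls.cons Ent.zero (Ls.cons Ent.zero (Ls.cons Ent.zero (Ls.cons Ent.zero (Ls.cons Ent.zero (Ls.cons Ent.zero (Ls.cons Ent.zero (Ls.cons Ent.zero (Ls.cons Ent.zero (Ls.cons Ent.zero (Ls.cons Ent.zero (Ls.cons Ent.zero (Ls.cons Ent.zero (Ls.cons Ent.zero (Ls.cons Ent.zero (Ls.cons Ent.zero (Ls.cons Ent.zero (Ls.cons Ent.zero (Ls.cons Ent.zero (Ls.cons Ent.zero (Ls.cons Ent.zero (Ls.cons Ent.zero Ls.nil)))))))))))))))))))))))))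
 (Ls.cons (Ls.cons Ent.zero (Ls.cons Ent.zero (Ls.cons Ent.zero (Ls.cons Ent.zero (Ls.cons Ent.zero (Ls.cons Ent.zero (Ls.cons Ent.zero (Ls.cons Ent.zero (Ls.cons Ent.zero (Ls.cons Ent.zero (Ls.cons Ent.zero (Ls.cons Ent.zero (Ls.cons Ent.zero (Ls.cons Ent.zero (Ls.cons Ent.zero (Ls.cons Ent.zero (Ls.cons Ent.zero (Ls.cons Ent.zero (Ls.cons Ent.zero (Ls.cons Ent.zero (Ls.cons Ent.zero (Ls.cons Ent.zero (Ls.cons Ent.zero (Ls.cons Ent.zero (Ls.cons Ent.zero Ls.nil)))))))))))))))))))))))))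
 (Ls.cons (Ls.cons Ent.zero (Ls.cons Ent.zero (Ls.cons Ent.zero (Ls.cons Ent.zero (Ls.cons Ent.zero (Ls.cons Ent.zero (Ls.cons Ent.zero (Ls.cons Ent.zero (Ls.cons Ent.zero (Ls.cons Ent.zero (Ls.cons Ent.zero (Ls.cons Ent.zero (Ls.cons Ent.zero (Ls.cons Ent.zero (Ls.cons Ent.zero (Ls.cons Ent.zero (Ls.cons Ent.zero (Ls.cons Ent.zero (Ls.cons Ent.zero (Ls.cons Ent.zero (Ls.cons (Ent.neg F0_5_4_3) (Ls.cons Ent.zero (Ls.cons (Ent.pos F0_5_3_2) (Ls.cons (Ent.neg F0_5_3_1) (Ls.cons (Ent.pos F0_5_3_0) Ls.nil)))))))))))))))))))))))))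
 (Ls.cons (Ls.cons Ent.zero (Ls.cons Ent.zero (Ls.cons Ent.zero (Ls.cons Ent.zero (Ls.cons Ent.zero (Ls.cons Ent.zero (Ls.cons Ent.zero (Ls.cons Ent.zero (Ls.cons Ent.zero (Ls.cons Ent.zero (Ls.cons Ent.zero (Ls.cons Ent.zero (Ls.cons Ent.zero (Ls.cons Ent.zero (Ls.cons Ent.zero (Ls.cons Ent.zero (Ls.cons Ent.zero (Ls.cons Ent.zero (Ls.cons Ent.zero (Ls.cons (Ent.pos F0_5_4_3) (Ls.cons Ent.zero (Ls.cons Ent.zero (Ls.cons (Ent.neg F0_4_3_2) (Ls.cons (Ent.pos F0_4_3_1) (Ls.cons (Ent.neg F0_4_3_0) Ls.nil)))))))))))))))))))))))))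
 (Ls.cons (Ls.cons Ent.zero (Ls.cons Ent.zero (Ls.cons Ent.zero (Ls.cons Ent.zero (Ls.cons Ent.zero (Ls.cons Ent.zero (Ls.cons Ent.zero (Ls.cons Ent.zero (Ls.cons Ent.zero (Ls.cons Ent.zero (Ls.cons Ent.zero (Ls.cons Ent.zero (Ls.cons Ent.zero (Ls.cons Ent.zero (Ls.cons Ent.zero (Ls.cons Ent.zero (Ls.cons Ent.zero (Ls.cons Ent.zero (Ls.cons Ent.zero (Ls.cons Ent.zero (Ls.cons Ent.zero (Ls.cons Ent.zero (Ls.cons Ent.zero (Ls.cons Ent.zero (Ls.cons Ent.zero Ls.nil)))))))))))))))))))))))))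
 (Ls.cons (Ls.cons Ent.zero (Ls.cons Ent.zero (Ls.cons Ent.zero (Ls.cons Ent.zero (Ls.cons Ent.zero (Ls.cons Ent.zero (Ls.cons Ent.zero (Ls.cons Ent.zero (Ls.cons Ent.zero (Ls.cons Ent.zero (Ls.cons Ent.zero (Ls.cons Ent.zero (Ls.cons Ent.zero (Ls.cons Ent.zero (Ls.cons Ent.zero (Ls.cons Ent.zero (Ls.cons Ent.zero (Ls.cons Ent.zero (Ls.cons Ent.zero (Ls.cons (Ent.neg F0_5_3_2) (Ls.cons (Ent.pos F0_4_3_2) (Ls.cons Ent.zero (Ls.cons Ent.zero (Ls.cons (Ent.neg F0_3_2_1) (Ls.cons (Ent.pos F0_3_2_0) Ls.nil)))))))))))))))))))))))))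
 (Ls.cons (Ls.cons Ent.zero (Ls.cons Ent.zero (Ls.cons Ent.zero (Ls.cons Ent.zero (Ls.cons Ent.zero (Ls.cons Ent.zero (Ls.cons Ent.zero (Ls.cons Ent.zero (Ls.cons Ent.zero (Ls.cons Ent.zero (Ls.cons Ent.zero (Ls.cons Ent.zero (Ls.cons Ent.zero (Ls.cons Ent.zero (Ls.cons Ent.zero (Ls.cons Ent.zero (Ls.cons Ent.zero (Ls.cons Ent.zero (Ls.cons Ent.zero (Ls.cons (Ent.pos F0_5_3_1) (Ls.cons (Ent.neg F0_4_3_1) (Ls.cons Ent.zero (Ls.cons (Ent.pos F0_3_2_1) (Ls.cons Ent.zero (Ls.cons (Ent.neg F0_3_1_0) Ls.nil)))))))))))))))))))))))))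
 (Ls.cons (Ls.cons Ent.zero (Ls.cons Ent.zero (Ls.cons Ent.zero (Ls.cons Ent.zero (Ls.cons Ent.zero (Ls.cons Ent.zero (Ls.cons Ent.zero (Ls.cons Ent.zero (Ls.cons Ent.zero (Ls.cons Ent.zero (Ls.cons Ent.zero (Ls.cons Ent.zero (Ls.cons Ent.zero (Ls.cons Ent.zero (Ls.cons Ent.zero (Ls.cons Ent.zero (Ls.cons Ent.zero (Ls.cons Ent.zero (Ls.cons Ent.zero (Ls.cons (Ent.neg F0_5_3_0) (Ls.cons (Ent.pos F0_4_3_0) (Ls.cons Ent.zero (Ls.cons (Ent.neg F0_3_2_0) (Ls.cons (Ent.pos F0_3_1_0) (Ls.cons Ent.zero Ls.nil)))))))))))))))))))))))))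
 Ls.nil))))))))))))))))))))

noncomputable def bxF0_4 : L2 :=
 (Ls.cons (Ls.cons Ent.zero (Ls.cons Ent.zero (Ls.cons Ent.zero (Ls.cons Ent.zero (Ls.cons Ent.zero (Ls.cons Ent.zero (Ls.cons Ent.zero (Ls.cons Ent.zero (Ls.cons Ent.zero (Ls.cons Ent.zero (Ls.cons Ent.zero (Ls.cons Ent.zero (Ls.cons Ent.zero (Ls.cons Ent.zero (Ls.cons Ent.zero (Ls.cons Ent.zero (Ls.cons Ent.zero (Ls.cons Ent.zero (Ls.cons Ent.zero (Ls.cons Ent.zero (Ls.cons Ent.zero (Ls.cons Ent.zero (Ls.cons Ent.zero (Ls.cons Ent.zero (Ls.cons Ent.zero Ls.nil)))))))))))))))))))))))))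
 (Ls.cons (Ls.cons Ent.zero (Ls.cons Ent.zero (Ls.cons Ent.zero (Ls.cons Ent.zero (Ls.cons Ent.zero (Ls.cons Ent.zero (Ls.cons Ent.zero (Ls.cons Ent.zero (Ls.cons Ent.zero (Ls.cons Ent.zero (Ls.cons Ent.zero (Ls.cons Ent.zero (Ls.cons Ent.zero (Ls.cons Ent.zero (Ls.cons Ent.zero (Ls.cons Ent.zero (Ls.cons Ent.zero (Ls.cons Ent.zero (Ls.cons Ent.zero (Ls.cons Ent.zero (Ls.cons Ent.zero (Ls.cons Ent.zero (Ls.cons Ent.zero (Ls.cons Ent.zero (Ls.cons Ent.zero Ls.nil)))))))))))))))))))))))))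
 (Ls.cons (Ls.cons Ent.zero (Ls.cons Ent.zero (Ls.cons Ent.zero (Ls.cons Ent.zero (Ls.cons Ent.zero (Ls.cons Ent.zero (Ls.cons Ent.zero (Ls.cons Ent.zero (Ls.cons Ent.zero (Ls.cons Ent.zero (Ls.cons Ent.zero (Ls.cons Ent.zero (Ls.cons Ent.zero (Ls.cons Ent.zero (Ls.cons Ent.zero (Ls.cons Ent.zero (Ls.cons Ent.zero (Ls.cons Ent.zero (Ls.cons Ent.zero (Ls.cons Ent.zero (Ls.cons Ent.zero (Ls.cons Ent.zero (Ls.cons Ent.zero (Ls.cons Ent.zero (Ls.cons Ent.zero Ls.nil)))))))))))))))))))))))))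
 (Ls.cons (Ls.cons Ent.zero (Ls.cons Ent.zero (Ls.cons Ent.zero (Ls.cons Ent.zero (Ls.cons Ent.zero (Ls.cons Ent.zero (Ls.cons Ent.zero (Ls.cons Ent.zero (Ls.cons Ent.zero (Ls.cons Ent.zero (Ls.cons Ent.zero (Ls.cons Ent.zero (Ls.cons Ent.zero (Ls.cons Ent.zero (Ls.cons Ent.zero (Ls.cons Ent.zero (Ls.cons Ent.zero (Ls.cons Ent.zero (Ls.cons Ent.zero (Ls.cons Ent.zero (Ls.cons Ent.zero (Ls.cons Ent.zero (Ls.cons Ent.zero (Ls.cons Ent.zero (Ls.cons Ent.zero Ls.nil)))))))))))))))))))))))))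
 (Ls.cons (Ls.cons Ent.zero (Ls.cons Ent.zero (Ls.cons Ent.zero (Ls.cons Ent.zero (Ls.cons Ent.zero (Ls.cons Ent.zero (Ls.cons Ent.zero (Ls.cons Ent.zero (Ls.cons Ent.zero (Ls.cons Ent.zero (Ls.cons Ent.zero (Ls.cons Ent.zero (Ls.cons Ent.zero (Ls.cons Ent.zero (Ls.cons Ent.zero (Ls.cons Ent.zero (Ls.cons Ent.zero (Ls.cons Ent.zero (Ls.cons Ent.zero (Ls.cons Ent.zero (Ls.cons Ent.zero (Ls.cons Ent.zero (Ls.cons Ent.zero (Ls.cons Ent.zero (Ls.cons Ent.zero Ls.nil)))))))))))))))))))))))))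
 (Ls.cons (Ls.cons Ent.zero (Ls.cons Ent.zero (Ls.cons Ent.zero (Ls.cons Ent.zero (Ls.cons Ent.zero (Ls.cons Ent.zero (Ls.cons Ent.zero (Ls.cons Ent.zero (Ls.cons Ent.zero (Ls.cons Ent.zero (Ls.cons Ent.zero (Ls.cons Ent.zero (Ls.cons Ent.zero (Ls.cons Ent.zero (Ls.cons Ent.zero (Ls.cons Ent.zero (Ls.cons Ent.zero (Ls.cons Ent.zero (Ls.cons Ent.zero (Ls.cons Ent.zero (Ls.cons Ent.zero (Ls.cons Ent.zero (Ls.cons Ent.zero (Ls.cons Ent.zero (Ls.cons Ent.zero Ls.nil)))))))))))))))))))))))))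
 (Ls.cons (Ls.cons Ent.zero (Ls.cons Ent.zero (Ls.cons Ent.zero (Ls.cons Ent.zero (Ls.cons Ent.zero (Ls.cons Ent.zero (Ls.cons Ent.zero (Ls.cons Ent.zero (Ls.cons Ent.zero (Ls.cons Ent.zero (Ls.cons Ent.zero (Ls.cons Ent.zero (Ls.cons Ent.zero (Ls.cons Ent.zero (Ls.cons Ent.zero (Ls.cons Ent.zero (Ls.cons Ent.zero (Ls.cons Ent.zero (Ls.cons Ent.zero (Ls.cons Ent.zero (Ls.cons Ent.zero (Ls.cons Ent.zero (Ls.cons Ent.zero (Ls.cons Ent.zero (Ls.cons Ent.zero Ls.nil)))))))))))))))))))))))))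
 (Ls.cons (Ls.cons Ent.zero (Ls.cons Ent.zero (Ls.cons Ent.zero (Ls.cons Ent.zero (Ls.cons Ent.zero (Ls.cons Ent.zero (Ls.cons Ent.zero (Ls.cons Ent.zero (Ls.cons Ent.zero (Ls.cons Ent.zero (Ls.cons Ent.zero (Ls.cons Ent.zero (Ls.cons Ent.zero (Ls.cons Ent.zero (Ls.cons Ent.zero (Ls.cons Ent.zero (Ls.cons Ent.zero (Ls.cons Ent.zero (Ls.cons Ent.zero (Ls.cons Ent.zero (Ls.cons Ent.zero (Ls.cons Ent.zero (Ls.cons Ent.zero (Ls.cons Ent.zero (Ls.cons Ent.zero Ls.nil)))))))))))))))))))))))))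
 (Ls.cons (Ls.cons Ent.zero (Ls.cons Ent.zero (Ls.cons Ent.zero (Ls.cons Ent.zero (Ls.cons Ent.zero (Ls.cons Ent.zero (Ls.cons Ent.zero (Ls.cons Ent.zero (Ls.cons Ent.zero (Ls.cons Ent.zero (Ls.cons Ent.zero (Ls.cons Ent.zero (Ls.cons Ent.zero (Ls.cons Ent.zero (Ls.cons Ent.zero (Ls.cons Ent.zero (Ls.cons Ent.zero (Ls.cons Ent.zero (Ls.cons Ent.zero (Ls.cons Ent.zero (Ls.cons Ent.zero (Ls.cons Ent.zero (Ls.cons Ent.zero (Ls.cons Ent.zero (Ls.cons Ent.zero Ls.nil)))))))))))))))))))))))))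
 (Ls.cons (Ls.cons Ent.zero (Ls.cons Ent.zero (Ls.cons Ent.zero (Ls.cons Ent.zero (Ls.cons Ent.zero (Ls.cons Ent.zero (Ls.cons Ent.zero (Ls.cons Ent.zero (Ls.cons Ent.zero (Ls.cons Ent.zero (Ls.cons Ent.zero (Ls.cons Ent.zero (Ls.cons Ent.zero (Ls.cons Ent.zero (Ls.cons Ent.zero (Ls.cons Ent.zero (Ls.cons Ent.zero (Ls.cons Ent.zero (Ls.cons Ent.zero (Ls.cons Ent.zero (Ls.cons Ent.zero (Ls.cons Ent.zero (Ls.cons Ent.zero (Ls.cons Ent.zero (Ls.cons Ent.zero Ls.nil)))))))))))))))))))))))))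
 (Ls.cons (Ls.cons Ent.zero (Ls.cons Ent.zero (Ls.cons Ent.zero (Ls.cons Ent.zero (Ls.cons Ent.zero (Ls.cons Ent.zero (Ls.cons Ent.zero (Ls.cons Ent.zero (Ls.cons Ent.zero (Ls.cons Ent.zero (Ls.cons Ent.zero (Ls.cons Ent.zero (Ls.cons Ent.zero (Ls.cons Ent.zero (Ls.cons Ent.zero (Ls.cons Ent.zero (Ls.cons Ent.zero (Ls.cons Ent.zero (Ls.cons Ent.zero (Ls.cons Ent.zero (Ls.cons Ent.zero (Ls.cons Ent.zero (Ls.cons Ent.zero (Ls.cons Ent.zero (Ls.cons Ent.zero Ls.nil)))))))))))))))))))))))))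
 (Ls.cons (Ls.cons Ent.zero (Ls.cons Ent.zero (Ls.cons Ent.zero (Ls.cons Ent.zero (Ls.cons Ent.zero (Ls.cons Ent.zero (Ls.cons Ent.zero (Ls.cons Ent.zero (Ls.cons Ent.zero (Ls.cons Ent.zero (Ls.cons Ent.zero (Ls.cons Ent.zero (Ls.cons Ent.zero (Ls.cons Ent.zero (Ls.cons Ent.zero (Ls.cons Ent.zero (Ls.cons Ent.zero (Ls.cons Ent.zero (Ls.cons Ent.zero (Ls.cons Ent.zero (Ls.cons Ent.zero (Ls.cons Ent.zero (Ls.cons Ent.zero (Ls.cons Ent.zero (Ls.cons Ent.zero Ls.nil)))))))))))))))))))))))))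
 (Ls.cons (Ls.cons Ent.zero (Ls.cons Ent.zero (Ls.cons Ent.zero (Ls.cons Ent.zero (Ls.cons Ent.zero (Ls.cons Ent.zero (Ls.cons Ent.zero (Ls.cons Ent.zero (Ls.cons Ent.zero (Ls.cons Ent.zero (Ls.cons Ent.zero (Ls.cons Ent.zero (Ls.cons Ent.zero (Ls.cons Ent.zero (Ls.cons Ent.zero (Ls.cons Ent.zero (Ls.cons Ent.zero (Ls.cons Ent.zero (Ls.cons Ent.zero (Ls.cons Ent.zero (Ls.cons Ent.zero (Ls.cons Ent.zero (Ls.cons Ent.zero (Ls.cons Ent.zero (Ls.cons Ent.zero Ls.nil)))))))))))))))))))))))))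
 (Ls.cons (Ls.cons Ent.zero (Ls.cons Ent.zero (Ls.cons Ent.zero (Ls.cons Ent.zero (Ls.cons Ent.zero (Ls.cons Ent.zero (Ls.cons Ent.zero (Ls.cons Ent.zero (Ls.cons Ent.zero (Ls.cons Ent.zero (Ls.cons Ent.zero (Ls.cons Ent.zero (Ls.cons Ent.zero (Ls.cons Ent.zero (Ls.cons Ent.zero (Ls.cons Ent.zero (Ls.cons Ent.zero (Ls.cons Ent.zero (Ls.cons Ent.zero (Ls.cons Ent.zero (Ls.cons Ent.zero (Ls.cons Ent.zero (Ls.cons Ent.zero (Ls.cons Ent.zero (Ls.cons Ent.zero Ls.nil)))))))))))))))))))))))))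
 (Ls.cons (Ls.cons Ent.zero (Ls.cons Ent.zero (Ls.cons Ent.zero (Ls.cons Ent.zero (Ls.cons Ent.zero (Ls.cons Ent.zero (Ls.cons Ent.zero (Ls.cons Ent.zero (Ls.cons Ent.zero (Ls.cons Ent.zero (Ls.cons Ent.zero (Ls.cons Ent.zero (Ls.cons Ent.zero (Ls.cons Ent.zero (Ls.cons Ent.zero (Ls.cons Ent.zero (Ls.cons Ent.zero (Ls.cons Ent.zero (Ls.cons Ent.zero (Ls.cons Ent.zero (Ls.cons Ent.zero (Ls.cons (Ent.pos F0_5_4_3) (Ls.cons (Ent.neg F0_5_4_2) (Ls.cons (Ent.pos F0_5_4_1) (Ls.cons (Ent.neg F0_5_4_0) Ls.nil)))))))))))))))))))))))))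
 (Ls.cons (Ls.cons Ent.zero (Ls.cons Ent.zero (Ls.cons Ent.zero (Ls.cons Ent.zero (Ls.cons Ent.zero (Ls.cons Ent.zero (Ls.cons Ent.zero (Ls.cons Ent.zero (Ls.cons Ent.zero (Ls.cons Ent.zero (Ls.cons Ent.zero (Ls.cons Ent.zero (Ls.cons Ent.zero (Ls.cons Ent.zero (Ls.cons Ent.zero (Ls.cons Ent.zero (Ls.cons Ent.zero (Ls.cons Ent.zero (Ls.cons Ent.zero (Ls.cons Ent.zero (Ls.cons Ent.zero (Ls.cons Ent.zero (Ls.cons Ent.zero (Ls.cons Ent.zero (Ls.cons Ent.zero Ls.nil)))))))))))))))))))))))))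
 (Ls.cons (Ls.cons Ent.zero (Ls.cons Ent.zero (Ls.cons Ent.zero (Ls.cons Ent.zero (Ls.cons Ent.zero (Ls.cons Ent.zero (Ls.cons Ent.zero (Ls.cons Ent.zero (Ls.cons Ent.zero (Ls.cons Ent.zero (Ls.cons Ent.zero (Ls.cons Ent.zero (Ls.cons Ent.zero (Ls.cons Ent.zero (Ls.cons Ent.zero (Ls.cons Ent.zero (Ls.cons Ent.zero (Ls.cons Ent.zero (Ls.cons Ent.zero (Ls.cons (Ent.neg F0_5_4_3) (Ls.cons Ent.zero (Ls.cons Ent.zero (Ls.cons (Ent.pos F0_4_3_2) (Ls.cons (Ent.neg F0_4_3_1) (Ls.cons (Ent.pos F0_4_3_0) Ls.nil)))))))))))))))))))))))))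
 (Ls.cons (Ls.cons Ent.zero (Ls.cons Ent.zero (Ls.cons Ent.zero (Ls.cons Ent.zero (Ls.cons Ent.zero (Ls.cons Ent.zero (Ls.cons Ent.zero (Ls.cons Ent.zero (Ls.cons Ent.zero (Ls.cons Ent.zero (Ls.cons Ent.zero (Ls.cons Ent.zero (Ls.cons Ent.zero (Ls.cons Ent.zero (Ls.cons Ent.zero (Ls.cons Ent.zero (Ls.cons Ent.zero (Ls.cons Ent.zero (Ls.cons Ent.zero (Ls.cons (Ent.pos F0_5_4_2) (Ls.cons Ent.zero (Ls.cons (Ent.neg F0_4_3_2) (Ls.cons Ent.zero (Ls.cons (Ent.pos F0_4_2_1) (Ls.cons (Ent.neg F0_4_2_0) Ls.nil)))))))))))))))))))))))))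
 (Ls.cons (Ls.cons Ent.zero (Ls.cons Ent.zero (Ls.cons Ent.zero (Ls.cons Ent.zero (Ls.cons Ent.zero (Ls.cons Ent.zero (Ls.cons Ent.zero (Ls.cons Ent.zero (Ls.cons Ent.zero (Ls.cons Ent.zero (Ls.cons Ent.zero (Ls.cons Ent.zero (Ls.cons Ent.zero (Ls.cons Ent.zero (Ls.cons Ent.zero (Ls.cons Ent.zero (Ls.cons Ent.zero (Ls.cons Ent.zero (Ls.cons Ent.zero (Ls.cons (Ent.neg F0_5_4_1) (Ls.cons Ent.zero (Ls.cons (Ent.pos F0_4_3_1) (Ls.cons (Ent.neg F0_4_2_1) (Ls.cons Ent.zero (Ls.cons (Ent.pos F0_4_1_0) Ls.nil)))))))))))))))))))))))))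
 (Ls.cons (Ls.cons Ent.zero (Ls.cons Ent.zero (Ls.cons Ent.zero (Ls.cons Ent.zero (Ls.cons Ent.zero (Ls.cons Ent.zero (Ls.cons Ent.zero (Ls.cons Ent.zero (Ls.cons Ent.zero (Ls.cons Ent.zero (Ls.cons Ent.zero (Ls.cons Ent.zero (Ls.cons Ent.zero (Ls.cons Ent.zero (Ls.cons Ent.zero (Ls.cons Ent.zero (Ls.cons Ent.zero (Ls.cons Ent.zero (Ls.cons Ent.zero (Ls.cons (Ent.pos F0_5_4_0) (Ls.cons Ent.zero (Ls.cons (Ent.neg F0_4_3_0) (Ls.cons (Ent.pos F0_4_2_0) (Ls.cons (Ent.neg F0_4_1_0) (Ls.cons Ent.zero Ls.nil)))))))))))))))))))))))))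
 Ls.nil))))))))))))))))))))

noncomputable def bxF0_5 : L2 :=
 (Ls.cons (Ls.cons Ent.zero (Ls.cons Ent.zero (Ls.cons Ent.zero (Ls.cons Ent.zero (Ls.cons Ent.zero (Ls.cons Ent.zero (Ls.cons Ent.zero (Ls.cons Ent.zero (Ls.cons Ent.zero (Ls.cons Ent.zero (Ls.cons Ent.zero (Ls.cons Ent.zero (Ls.cons Ent.zero (Ls.cons Ent.zero (Ls.cons Ent.zero (Ls.cons Ent.zero (Ls.cons Ent.zero (Ls.cons Ent.zero (Ls.cons Ent.zero (Ls.cons Ent.zero (Ls.cons Ent.zero (Ls.cons Ent.zero (Ls.cons Ent.zero (Ls.cons Ent.zero (Ls.cons Ent.zero Ls.nil)))))))))))))))))))))))))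
 (Ls.cons (Ls.cons Ent.zero (Ls.cons Ent.zero (Ls.cons Ent.zero (Ls.cons Ent.zero (Ls.cons Ent.zero (Ls.cons Ent.zero (Ls.cons Ent.zero (Ls.cons Ent.zero (Ls.cons Ent.zero (Ls.cons Ent.zero (Ls.cons Ent.zero (Ls.cons Ent.zero (Ls.cons Ent.zero (Ls.cons Ent.zero (Ls.cons Ent.zero (Ls.cons Ent.zero (Ls.cons Ent.zero (Ls.cons Ent.zero (Ls.cons Ent.zero (Ls.cons Ent.zero (Ls.cons Ent.zero (Ls.cons Ent.zero (Ls.cons Ent.zero (Ls.cons Ent.zero (Ls.cons Ent.zero Ls.nil)))))))))))))))))))))))))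
 (Ls.cons (Ls.cons Ent.zero (Ls.cons Ent.zero (Ls.cons Ent.zero (Ls.cons Ent.zero (Ls.cons Ent.zero (Ls.cons Ent.zero (Ls.cons Ent.zero (Ls.cons Ent.zero (Ls.cons Ent.zero (Ls.cons Ent.zero (Ls.cons Ent.zero (Ls.cons Ent.zero (Ls.cons Ent.zero (Ls.cons Ent.zero (Ls.cons Ent.zero (Ls.cons Ent.zero (Ls.cons Ent.zero (Ls.cons Ent.zero (Ls.cons Ent.zero (Ls.cons Ent.zero (Ls.cons Ent.zero (Ls.cons Ent.zero (Ls.cons Ent.zero (Ls.cons Ent.zero (Ls.cons Ent.zero Ls.nil)))))))))))))))))))))))))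
 (Ls.cons (Ls.cons Ent.zero (Ls.cons Ent.zero (Ls.cons Ent.zero (Ls.cons Ent.zero (Ls.cons Ent.zero (Ls.cons Ent.zero (Ls.cons Ent.zero (Ls.cons Ent.zero (Ls.cons Ent.zero (Ls.cons Ent.zero (Ls.cons Ent.zero (Ls.cons Ent.zero (Ls.cons Ent.zero (Ls.cons Ent.zero (Ls.cons Ent.zero (Ls.cons Ent.zero (Ls.cons Ent.zero (Ls.cons Ent.zero (Ls.cons Ent.zero (Ls.cons Ent.zero (Ls.cons Ent.zero (Ls.cons Ent.zero (Ls.cons Ent.zero (Ls.cons Ent.zero (Ls.cons Ent.zero Ls.nil)))))))))))))))))))))))))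
 (Ls.cons (Ls.cons Ent.zero (Ls.cons Ent.zero (Ls.cons Ent.zero (Ls.cons Ent.zero (Ls.cons Ent.zero (Ls.cons Ent.zero (Ls.cons Ent.zero (Ls.cons Ent.zero (Ls.cons Ent.zero (Ls.cons Ent.zero (Ls.cons Ent.zero (Ls.cons Ent.zero (Ls.cons Ent.zero (Ls.cons Ent.zero (Ls.cons Ent.zero (Ls.cons Ent.zero (Ls.cons Ent.zero (Ls.cons Ent.zero (Ls.cons Ent.zero (Ls.cons Ent.zero (Ls.cons Ent.zero (Ls.cons Ent.zero (Ls.cons Ent.zero (Ls.cons Ent.zero (Ls.cons Ent.zero Ls.nil)))))))))))))))))))))))))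
 (Ls.cons (Ls.cons Ent.zero (Ls.cons Ent.zero (Ls.cons Ent.zero (Ls.cons Ent.zero (Ls.cons Ent.zero (Ls.cons Ent.zero (Ls.cons Ent.zero (Ls.cons Ent.zero (Ls.cons Ent.zero (Ls.cons Ent.zero (Ls.cons Ent.zero (Ls.cons Ent.zero (Ls.cons Ent.zero (Ls.cons Ent.zero (Ls.cons Ent.zero (Ls.cons Ent.zero (Ls.cons Ent.zero (Ls.cons Ent.zero (Ls.cons Ent.zero (Ls.cons Ent.zero (Ls.cons Ent.zero (Ls.cons Ent.zero (Ls.cons Ent.zero (Ls.cons Ent.zero (Ls.cons Ent.zero Ls.nil)))))))))))))))))))))))))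
 (Ls.cons (Ls.cons Ent.zero (Ls.cons Ent.zero (Ls.cons Ent.zero (Ls.cons Ent.zero (Ls.cons Ent.zero (Ls.cons Ent.zero (Ls.cons Ent.zero (Ls.cons Ent.zero (Ls.cons Ent.zero (Ls.cons Ent.zero (Ls.cons Ent.zero (Ls.cons Ent.zero (Ls.cons Ent.zero (Ls.cons Ent.zero (Ls.cons Ent.zero (Ls.cons Ent.zero (Ls.cons Ent.zero (Ls.cons Ent.zero (Ls.cons Ent.zero (Ls.cons Ent.zero (Ls.cons Ent.zero (Ls.cons Ent.zero (Ls.cons Ent.zero (Ls.cons Ent.zero (Ls.cons Ent.zero Ls.nil)))))))))))))))))))))))))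
 (Ls.cons (Ls.cons Ent.zero (Ls.cons Ent.zero (Ls.cons Ent.zero (Ls.cons Ent.zero (Ls.cons Ent.zero (Ls.cons Ent.zero (Ls.cons Ent.zero (Ls.cons Ent.zero (Ls.cons Ent.zero (Ls.cons Ent.zero (Ls.cons Ent.zero (Ls.cons Ent.zero (Ls.cons Ent.zero (Ls.cons Ent.zero (Ls.cons Ent.zero (Ls.cons Ent.zero (Ls.cons Ent.zero (Ls.cons Ent.zero (Ls.cons Ent.zero (Ls.cons Ent.zero (Ls.cons Ent.zero (Ls.cons Ent.zero (Ls.cons Ent.zero (Ls.cons Ent.zero (Ls.cons Ent.zero Ls.nil)))))))))))))))))))))))))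
 (Ls.cons (Ls.cons Ent.zero (Ls.cons Ent.zero (Ls.cons Ent.zero (Ls.cons Ent.zero (Ls.cons Ent.zero (Ls.cons Ent.zero (Ls.cons Ent.zero (Ls.cons Ent.zero (Ls.cons Ent.zero (Ls.cons Ent.zero (Ls.cons Ent.zero (Ls.cons Ent.zero (Ls.cons Ent.zero (Ls.cons Ent.zero (Ls.cons Ent.zero (Ls.cons Ent.zero (Ls.cons Ent.zero (Ls.cons Ent.zero (Ls.cons Ent.zero (Ls.cons Ent.zero (Ls.cons Ent.zero (Ls.cons Ent.zero (Ls.cons Ent.zero (Ls.cons Ent.zero (Ls.cons Ent.zero Ls.nil)))))))))))))))))))))))))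
 (Ls.cons (Ls.cons Ent.zero (Ls.cons Ent.zero (Ls.cons Ent.zero (Ls.cons Ent.zero (Ls.cons Ent.zero (Ls.cons Ent.zero (Ls.cons Ent.zero (Ls.cons Ent.zero (Ls.cons Ent.zero (Ls.cons Ent.zero (Ls.cons Ent.zero (Ls.cons Ent.zero (Ls.cons Ent.zero (Ls.cons Ent.zero (Ls.cons Ent.zero (Ls.cons Ent.zero (Ls.cons Ent.zero (Ls.cons Ent.zero (Ls.cons Ent.zero (Ls.cons Ent.zero (Ls.cons Ent.zero (Ls.cons Ent.zero (Ls.cons Ent.zero (Ls.cons Ent.zero (Ls.cons Ent.zero Ls.nil)))))))))))))))))))))))))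
 (Ls.cons (Ls.cons Ent.zero (Ls.cons Ent.zero (Ls.cons Ent.zero (Ls.cons Ent.zero (Ls.cons Ent.zero (Ls.cons Ent.zero (Ls.cons Ent.zero (Ls.cons Ent.zero (Ls.cons Ent.zero (Ls.cons Ent.zero (Ls.cons Ent.zero (Ls.cons Ent.zero (Ls.cons Ent.zero (Ls.cons Ent.zero (Ls.cons Ent.zero (Ls.cons Ent.zero (Ls.cons Ent.zero (Ls.cons Ent.zero (Ls.cons Ent.zero (Ls.cons Ent.zero (Ls.cons Ent.zero (Ls.cons Ent.zero (Ls.cons Ent.zero (Ls.cons Ent.zero (Ls.cons Ent.zero Ls.nil)))))))))))))))))))))))))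
 (Ls.cons (Ls.cons Ent.zero (Ls.cons Ent.zero (Ls.cons Ent.zero (Ls.cons Ent.zero (Ls.cons Ent.zero (Ls.cons Ent.zero (Ls.cons Ent.zero (Ls.cons Ent.zero (Ls.cons Ent.zero (Ls.cons Ent.zero (Ls.cons Ent.zero (Ls.cons Ent.zero (Ls.cons Ent.zero (Ls.cons Ent.zero (Ls.cons Ent.zero (Ls.cons Ent.zero (Ls.cons Ent.zero (Ls.cons Ent.zero (Ls.cons Ent.zero (Ls.cons Ent.zero (Ls.cons Ent.zero (Ls.cons Ent.zero (Ls.cons Ent.zero (Ls.cons Ent.zero (Ls.cons Ent.zero Ls.nil)))))))))))))))))))))))))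
 (Ls.cons (Ls.cons Ent.zero (Ls.cons Ent.zero (Ls.cons Ent.zero (Ls.cons Ent.zero (Ls.cons Ent.zero (Ls.cons Ent.zero (Ls.cons Ent.zero (Ls.cons Ent.zero (Ls.cons Ent.zero (Ls.cons Ent.zero (Ls.cons Ent.zero (Ls.cons Ent.zero (Ls.cons Ent.zero (Ls.cons Ent.zero (Ls.cons Ent.zero (Ls.cons Ent.zero (Ls.cons Ent.zero (Ls.cons Ent.zero (Ls.cons Ent.zero (Ls.cons Ent.zero (Ls.cons Ent.zero (Ls.cons Ent.zero (Ls.cons Ent.zero (Ls.cons Ent.zero (Ls.cons Ent.zero Ls.nil)))))))))))))))))))))))))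
 (Ls.cons (Ls.cons Ent.zero (Ls.cons Ent.zero (Ls.cons Ent.zero (Ls.cons Ent.zero (Ls.cons Ent.zero (Ls.cons Ent.zero (Ls.cons Ent.zero (Ls.cons Ent.zero (Ls.cons Ent.zero (Ls.cons Ent.zero (Ls.cons Ent.zero (Ls.cons Ent.zero (Ls.cons Ent.zero (Ls.cons Ent.zero (Ls.cons Ent.zero (Ls.cons Ent.zero (Ls.cons Ent.zero (Ls.cons Ent.zero (Ls.cons Ent.zero (Ls.cons Ent.zero (Ls.cons Ent.zero (Ls.cons Ent.zero (Ls.cons Ent.zero (Ls.cons Ent.zero (Ls.cons Ent.zero Ls.nil)))))))))))))))))))))))))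
 (Ls.cons (Ls.cons Ent.zero (Ls.cons Ent.zero (Ls.cons Ent.zero (Ls.cons Ent.zero (Ls.cons Ent.zero (Ls.cons Ent.zero (Ls.cons Ent.zero (Ls.cons Ent.zero (Ls.cons Ent.zero (Ls.cons Ent.zero (Ls.cons Ent.zero (Ls.cons Ent.zero (Ls.cons Ent.zero (Ls.cons Ent.zero (Ls.cons Ent.zero (Ls.cons Ent.zero (Ls.cons Ent.zero (Ls.cons Ent.zero (Ls.cons Ent.zero (Ls.cons Ent.zero (Ls.cons Ent.zero (Ls.cons Ent.zero (Ls.cons Ent.zero (Ls.cons Ent.zero (Ls.cons Ent.zero Ls.nil)))))))))))))))))))))))))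
 (Ls.cons (Ls.cons Ent.zero (Ls.cons Ent.zero (Ls.cons Ent.zero (Ls.cons Ent.zero (Ls.cons Ent.zero (Ls.cons Ent.zero (Ls.cons Ent.zero (Ls.cons Ent.zero (Ls.cons Ent.zero (Ls.cons Ent.zero (Ls.cons Ent.zero (Ls.cons Ent.zero (Ls.cons Ent.zero (Ls.cons Ent.zero (Ls.cons Ent.zero (Ls.cons Ent.zero (Ls.cons Ent.zero (Ls.cons Ent.zero (Ls.cons Ent.zero (Ls.cons Ent.zero (Ls.cons Ent.zero (Ls.cons (Ent.neg F0_5_4_3) (Ls.cons (Ent.pos F0_5_4_2) (Ls.cons (Ent.neg F0_5_4_1) (Ls.cons (Ent.pos F0_5_4_0) Ls.nil)))))))))))))))))))))))))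
 (Ls.cons (Ls.cons Ent.zero (Ls.cons Ent.zero (Ls.cons Ent.zero (Ls.cons Ent.zero (Ls.cons Ent.zero (Ls.cons Ent.zero (Ls.cons Ent.zero (Ls.cons Ent.zero (Ls.cons Ent.zero (Ls.cons Ent.zero (Ls.cons Ent.zero (Ls.cons Ent.zero (Ls.cons Ent.zero (Ls.cons Ent.zero (Ls.cons Ent.zero (Ls.cons Ent.zero (Ls.cons Ent.zero (Ls.cons Ent.zero (Ls.cons Ent.zero (Ls.cons Ent.zero (Ls.cons (Ent.pos F0_5_4_3) (Ls.cons Ent.zero (Ls.cons (Ent.neg F0_5_3_2) (Ls.cons (Ent.pos F0_5_3_1) (Ls.cons (Ent.neg F0_5_3_0) Ls.nil)))))))))))))))))))))))))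
 (Ls.cons (Ls.cons Ent.zero (Ls.cons Ent.zero (Ls.cons Ent.zero (Ls.cons Ent.zero (Ls.cons Ent.zero (Ls.cons Ent.zero (Ls.cons Ent.zero (Ls.cons Ent.zero (Ls.cons Ent.zero (Ls.cons Ent.zero (Ls.cons Ent.zero (Ls.cons Ent.zero (Ls.cons Ent.zero (Ls.cons Ent.zero (Ls.cons Ent.zero (Ls.cons Ent.zero (Ls.cons Ent.zero (Ls.cons Ent.zero (Ls.cons Ent.zero (Ls.cons Ent.zero (Ls.cons (Ent.neg F0_5_4_2) (Ls.cons (Ent.pos F0_5_3_2) (Ls.cons Ent.zero (Ls.cons (Ent.neg F0_5_2_1) (Ls.cons (Ent.pos F0_5_2_0) Ls.nil)))))))))))))))))))))))))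
 (Ls.cons (Ls.cons Ent.zero (Ls.cons Ent.zero (Ls.cons Ent.zero (Ls.cons Ent.zero (Ls.cons Ent.zero (Ls.cons Ent.zero (Ls.cons Ent.zero (Ls.cons Ent.zero (Ls.cons Ent.zero (Ls.cons Ent.zero (Ls.cons Ent.zero (Ls.cons Ent.zero (Ls.cons Ent.zero (Ls.cons Ent.zero (Ls.cons Ent.zero (Ls.cons Ent.zero (Ls.cons Ent.zero (Ls.cons Ent.zero (Ls.cons Ent.zero (Ls.cons Ent.zero (Ls.cons (Ent.pos F0_5_4_1) (Ls.cons (Ent.neg F0_5_3_1) (Ls.cons (Ent.pos F0_5_2_1) (Ls.cons Ent.zero (Ls.cons (Ent.neg F0_5_1_0) Ls.nil)))))))))))))))))))))))))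
 (Ls.cons (Ls.cons Ent.zero (Ls.cons Ent.zero (Ls.cons Ent.zero (Ls.cons Ent.zero (Ls.cons Ent.zero (Ls.cons Ent.zero (Ls.cons Ent.zero (Ls.cons Ent.zero (Ls.cons Ent.zero (Ls.cons Ent.zero (Ls.cons Ent.zero (Ls.cons Ent.zero (Ls.cons Ent.zero (Ls.cons Ent.zero (Ls.cons Ent.zero (Ls.cons Ent.zero (Ls.cons Ent.zero (Ls.cons Ent.zero (Ls.cons Ent.zero (Ls.cons Ent.zero (Ls.cons (Ent.neg F0_5_4_0) (Ls.cons (Ent.pos F0_5_3_0) (Ls.cons (Ent.neg F0_5_2_0) (Ls.cons (Ent.pos F0_5_1_0) (Ls.cons Ent.zero Ls.nil)))))))))))))))))))))))))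
 Ls.nil))))))))))))))))))))

noncomputable def bxF0_6 : L2 :=
 (Ls.cons (Ls.cons Ent.zero (Ls.cons Ent.zero (Ls.cons Ent.zero (Ls.cons Ent.zero (Ls.cons Ent.zero (Ls.cons Ent.zero (Ls.cons Ent.zero (Ls.cons Ent.zero (Ls.cons Ent.zero (Ls.cons Ent.zero (Ls.cons Ent.zero (Ls.cons Ent.zero (Ls.cons Ent.zero (Ls.cons Ent.zero (Ls.cons Ent.zero (Ls.cons Ent.zero (Ls.cons Ent.zero (Ls.cons Ent.zero (Ls.cons Ent.zero (Ls.cons Ent.zero (Ls.cons Ent.zero (Ls.cons Ent.zero (Ls.cons Ent.zero (Ls.cons Ent.zero (Ls.cons Ent.zero Ls.nil)))))))))))))))))))))))))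
 (Ls.cons (Ls.cons Ent.zero (Ls.cons Ent.zero (Ls.cons Ent.zero (Ls.cons Ent.zero (Ls.cons Ent.zero (Ls.cons Ent.zero (Ls.cons Ent.zero (Ls.cons Ent.zero (Ls.cons Ent.zero (Ls.cons Ent.zero (Ls.cons Ent.zero (Ls.cons Ent.zero (Ls.cons Ent.zero (Ls.cons Ent.zero (Ls.cons Ent.zero (Ls.cons Ent.zero (Ls.cons Ent.zero (Ls.cons Ent.zero (Ls.cons Ent.zero (Ls.cons Ent.zero (Ls.cons Ent.zero (Ls.cons Ent.zero (Ls.cons Ent.zero (Ls.cons Ent.zero (Ls.cons Ent.zero Ls.nil)))))))))))))))))))))))))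
 (Ls.cons (Ls.cons Ent.zero (Ls.cons Ent.zero (Ls.cons Ent.zero (Ls.cons Ent.zero (Ls.cons Ent.zero (Ls.cons Ent.zero (Ls.cons Ent.zero (Ls.cons Ent.zero (Ls.cons Ent.zero (Ls.cons Ent.zero (Ls.cons Ent.zero (Ls.cons Ent.zero (Ls.cons Ent.zero (Ls.cons Ent.zero (Ls.cons Ent.zero (Ls.cons Ent.zero (Ls.cons Ent.zero (Ls.cons Ent.zero (Ls.cons Ent.zero (Ls.cons Ent.zero (Ls.cons Ent.zero (Ls.cons Ent.zero (Ls.cons Ent.zero (Ls.cons Ent.zero (Ls.cons Ent.zero Ls.nil)))))))))))))))))))))))))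
 (Ls.cons (Ls.cons Ent.zero (Ls.cons Ent.zero (Ls.cons Ent.zero (Ls.cons Ent.zero (Ls.cons Ent.zero (Ls.cons Ent.zero (Ls.cons Ent.zero (Ls.cons Ent.zero (Ls.cons Ent.zero (Ls.cons Ent.zero (Ls.cons Ent.zero (Ls.cons Ent.zero (Ls.cons Ent.zero (Ls.cons Ent.zero (Ls.cons Ent.zero (Ls.cons Ent.zero (Ls.cons Ent.zero (Ls.cons Ent.zero (Ls.cons Ent.zero (Ls.cons Ent.zero (Ls.cons Ent.zero (Ls.cons Ent.zero (Ls.cons Ent.zero (Ls.cons Ent.zero (Ls.cons Ent.zero Ls.nil)))))))))))))))))))))))))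
 (Ls.cons (Ls.cons Ent.zero (Ls.cons Ent.zero (Ls.cons Ent.zero (Ls.cons Ent.zero (Ls.cons Ent.zero (Ls.cons Ent.zero (Ls.cons Ent.zero (Ls.cons Ent.zero (Ls.cons Ent.zero (Ls.cons Ent.zero (Ls.cons Ent.zero (Ls.cons Ent.zero (Ls.cons Ent.zero (Ls.cons Ent.zero (Ls.cons Ent.zero (Ls.cons Ent.zero (Ls.cons Ent.zero (Ls.cons Ent.zero (Ls.cons Ent.zero (Ls.cons Ent.zero (Ls.cons Ent.zero (Ls.cons Ent.zero (Ls.cons Ent.zero (Ls.cons Ent.zero (Ls.cons Ent.zero Ls.nil)))))))))))))))))))))))))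
 (Ls.cons (Ls.cons Ent.zero (Ls.cons Ent.zero (Ls.cons Ent.zero (Ls.cons Ent.zero (Ls.cons Ent.zero (Ls.cons Ent.zero (Ls.cons Ent.zero (Ls.cons Ent.zero (Ls.cons Ent.zero (Ls.cons Ent.zero (Ls.cons Ent.zero (Ls.cons Ent.zero (Ls.cons Ent.zero (Ls.cons Ent.zero (Ls.cons Ent.zero (Ls.cons Ent.zero (Ls.cons Ent.zero (Ls.cons Ent.zero (Ls.cons Ent.zero (Ls.cons Ent.zero (Ls.cons Ent.zero (Ls.cons Ent.zero (Ls.cons Ent.zero (Ls.cons Ent.zero (Ls.cons Ent.zero Ls.nil)))))))))))))))))))))))))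
 (Ls.cons (Ls.cons Ent.zero (Ls.cons Ent.zero (Ls.cons Ent.zero (Ls.cons Ent.zero (Ls.cons Ent.zero (Ls.cons Ent.zero (Ls.cons Ent.zero (Ls.cons Ent.zero (Ls.cons Ent.zero (Ls.cons Ent.zero (Ls.cons Ent.zero (Ls.cons Ent.zero (Ls.cons Ent.zero (Ls.cons Ent.zero (Ls.cons Ent.zero (Ls.cons Ent.zero (Ls.cons Ent.zero (Ls.cons Ent.zero (Ls.cons Ent.zero (Ls.cons Ent.zero (Ls.cons Ent.zero (Ls.cons Ent.zero (Ls.cons Ent.zero (Ls.cons Ent.zero (Ls.cons Ent.zero Ls.nil)))))))))))))))))))))))))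
 (Ls.cons (Ls.cons Ent.zero (Ls.cons Ent.zero (Ls.cons Ent.zero (Ls.cons Ent.zero (Ls.cons Ent.zero (Ls.cons Ent.zero (Ls.cons Ent.zero (Ls.cons Ent.zero (Ls.cons Ent.zero (Ls.cons Ent.zero (Ls.cons Ent.zero (Ls.cons Ent.zero (Ls.cons Ent.zero (Ls.cons Ent.zero (Ls.cons Ent.zero (Ls.cons Ent.zero (Ls.cons Ent.zero (Ls.cons Ent.zero (Ls.cons Ent.zero (Ls.cons Ent.zero (Ls.cons Ent.zero (Ls.cons Ent.zero (Ls.cons Ent.zero (Ls.cons Ent.zero (Ls.cons Ent.zero Ls.nil)))))))))))))))))))))))))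
 (Ls.cons (Ls.cons Ent.zero (Ls.cons Ent.zero (Ls.cons Ent.zero (Ls.cons Ent.zero (Ls.cons Ent.zero (Ls.cons Ent.zero (Ls.cons Ent.zero (Ls.cons Ent.zero (Ls.cons Ent.zero (Ls.cons Ent.zero (Ls.cons Ent.zero (Ls.cons Ent.zero (Ls.cons Ent.zero (Ls.cons Ent.zero (Ls.cons Ent.zero (Ls.cons Ent.zero (Ls.cons Ent.zero (Ls.cons Ent.zero (Ls.cons Ent.zero (Ls.cons Ent.zero (Ls.cons Ent.zero (Ls.cons Ent.zero (Ls.cons Ent.zero (Ls.cons Ent.zero (Ls.cons Ent.zero Ls.nil)))))))))))))))))))))))))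
 (Ls.cons (Ls.cons Ent.zero (Ls.cons Ent.zero (Ls.cons Ent.zero (Ls.cons Ent.zero (Ls.cons Ent.zero (Ls.cons Ent.zero (Ls.cons Ent.zero (Ls.cons Ent.zero (Ls.cons Ent.zero (Ls.cons Ent.zero (Ls.cons Ent.zero (Ls.cons Ent.zero (Ls.cons Ent.zero (Ls.cons Ent.zero (Ls.cons Ent.zero (Ls.cons Ent.zero (Ls.cons Ent.zero (Ls.cons Ent.zero (Ls.cons Ent.zero (Ls.cons Ent.zero (Ls.cons Ent.zero (Ls.cons Ent.zero (Ls.cons Ent.zero (Ls.cons Ent.zero (Ls.cons Ent.zero Ls.nil)))))))))))))))))))))))))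
 (Ls.cons (Ls.cons Ent.zero (Ls.cons Ent.zero (Ls.cons Ent.zero (Ls.cons Ent.zero (Ls.cons Ent.zero (Ls.cons Ent.zero (Ls.cons Ent.zero (Ls.cons Ent.zero (Ls.cons Ent.zero (Ls.cons Ent.zero (Ls.cons Ent.zero (Ls.cons Ent.zero (Ls.cons Ent.zero (Ls.cons Ent.zero (Ls.cons Ent.zero (Ls.cons Ent.zero (Ls.cons Ent.zero (Ls.cons Ent.zero (Ls.cons Ent.zero (Ls.cons Ent.zero (Ls.cons Ent.zero (Ls.cons Ent.zero (Ls.cons Ent.zero (Ls.cons Ent.zero (Ls.cons Ent.zero Ls.nil)))))))))))))))))))))))))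
 (Ls.cons (Ls.cons Ent.zero (Ls.cons Ent.zero (Ls.cons Ent.zero (Ls.cons Ent.zero (Ls.cons Ent.zero (Ls.cons Ent.zero (Ls.cons Ent.zero (Ls.cons Ent.zero (Ls.cons Ent.zero (Ls.cons Ent.zero (Ls.cons Ent.zero (Ls.cons Ent.zero (Ls.cons Ent.zero (Ls.cons Ent.zero (Ls.cons Ent.zero (Ls.cons Ent.zero (Ls.cons Ent.zero (Ls.cons Ent.zero (Ls.cons Ent.zero (Ls.cons Ent.zero (Ls.cons Ent.zero (Ls.cons Ent.zero (Ls.cons Ent.zero (Ls.cons Ent.zero (Ls.cons Ent.zero Ls.nil)))))))))))))))))))))))))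
 (Ls.cons (Ls.cons Ent.zero (Ls.cons Ent.zero (Ls.cons Ent.zero (Ls.cons Ent.zero (Ls.cons Ent.zero (Ls.cons Ent.zero (Ls.cons Ent.zero (Ls.cons Ent.zero (Ls.cons Ent.zero (Ls.cons Ent.zero (Ls.cons Ent.zero (Ls.cons Ent.zero (Ls.cons Ent.zero (Ls.cons Ent.zero (Ls.cons Ent.zero (Ls.cons Ent.zero (Ls.cons Ent.zero (Ls.cons Ent.zero (Ls.cons Ent.zero (Ls.cons Ent.zero (Ls.cons Ent.zero (Ls.cons Ent.zero (Ls.cons Ent.zero (Ls.cons Ent.zero (Ls.cons Ent.zero Ls.nil)))))))))))))))))))))))))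
 (Ls.cons (Ls.cons Ent.zero (Ls.cons Ent.zero (Ls.cons Ent.zero (Ls.cons Ent.zero (Ls.cons Ent.zero (Ls.cons Ent.zero (Ls.cons Ent.zero (Ls.cons Ent.zero (Ls.cons Ent.zero (Ls.cons Ent.zero (Ls.cons Ent.zero (Ls.cons Ent.zero (Ls.cons Ent.zero (Ls.cons Ent.zero (Ls.cons Ent.zero (Ls.cons Ent.zero (Ls.cons Ent.zero (Ls.cons Ent.zero (Ls.cons Ent.zero (Ls.cons Ent.zero (Ls.cons Ent.zero (Ls.cons Ent.zero (Ls.cons Ent.zero (Ls.cons Ent.zero (Ls.cons Ent.zero Ls.nil)))))))))))))))))))))))))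
 (Ls.cons (Ls.cons Ent.zero (Ls.cons Ent.zero (Ls.cons Ent.zero (Ls.cons Ent.zero (Ls.cons Ent.zero (Ls.cons Ent.zero (Ls.cons Ent.zero (Ls.cons Ent.zero (Ls.cons Ent.zero (Ls.cons Ent.zero (Ls.cons Ent.zero (Ls.cons Ent.zero (Ls.cons Ent.zero (Ls.cons Ent.zero (Ls.cons Ent.zero (Ls.cons Ent.zero (Ls.cons Ent.zero (Ls.cons Ent.zero (Ls.cons Ent.zero (Ls.cons Ent.zero (Ls.cons Ent.zero (Ls.cons Ent.zero (Ls.cons Ent.zero (Ls.cons Ent.zero (Ls.cons Ent.zero Ls.nil)))))))))))))))))))))))))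
 (Ls.cons (Ls.cons Ent.zero (Ls.cons Ent.zero (Ls.cons Ent.zero (Ls.cons Ent.zero (Ls.cons Ent.zero (Ls.cons Ent.zero (Ls.cons Ent.zero (Ls.cons Ent.zero (Ls.cons Ent.zero (Ls.cons Ent.zero (Ls.cons Ent.zero (Ls.cons Ent.zero (Ls.cons Ent.zero (Ls.cons Ent.zero (Ls.cons Ent.zero (Ls.cons Ent.zero (Ls.cons Ent.zero (Ls.cons Ent.zero (Ls.cons Ent.zero (Ls.cons Ent.zero (Ls.cons Ent.zero (Ls.cons Ent.zero (Ls.cons Ent.zero (Ls.cons Ent.zero (Ls.cons Ent.zero Ls.nil)))))))))))))))))))))))))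
 (Ls.cons (Ls.cons Ent.zero (Ls.cons Ent.zero (Ls.cons Ent.zero (Ls.cons Ent.zero (Ls.cons Ent.zero (Ls.cons Ent.zero (Ls.cons Ent.zero (Ls.cons Ent.zero (Ls.cons Ent.zero (Ls.cons Ent.zero (Ls.cons Ent.zero (Ls.cons Ent.zero (Ls.cons Ent.zero (Ls.cons Ent.zero (Ls.cons Ent.zero (Ls.cons Ent.zero (Ls.cons Ent.zero (Ls.cons Ent.zero (Ls.cons Ent.zero (Ls.cons Ent.zero (Ls.cons Ent.zero (Ls.cons Ent.zero (Ls.cons Ent.zero (Ls.cons Ent.zero (Ls.cons Ent.zero Ls.nil)))))))))))))))))))))))))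
 (Ls.cons (Ls.cons Ent.zero (Ls.cons Ent.zero (Ls.cons Ent.zero (Ls.cons Ent.zero (Ls.cons Ent.zero (Ls.cons Ent.zero (Ls.cons Ent.zero (Ls.cons Ent.zero (Ls.cons Ent.zero (Ls.cons Ent.zero (Ls.cons Ent.zero (Ls.cons Ent.zero (Ls.cons Ent.zero (Ls.cons Ent.zero (Ls.cons Ent.zero (Ls.cons Ent.zero (Ls.cons Ent.zero (Ls.cons Ent.zero (Ls.cons Ent.zero (Ls.cons Ent.zero (Ls.cons Ent.zero (Ls.cons Ent.zero (Ls.cons Ent.zero (Ls.cons Ent.zero (Ls.cons Ent.zero Ls.nil)))))))))))))))))))))))))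
 (Ls.cons (Ls.cons Ent.zero (Ls.cons Ent.zero (Ls.cons Ent.zero (Ls.cons Ent.zero (Ls.cons Ent.zero (Ls.cons Ent.zero (Ls.cons Ent.zero (Ls.cons Ent.zero (Ls.cons Ent.zero (Ls.cons Ent.zero (Ls.cons Ent.zero (Ls.cons Ent.zero (Ls.cons Ent.zero (Ls.cons Ent.zero (Ls.cons Ent.zero (Ls.cons Ent.zero (Ls.cons Ent.zero (Ls.cons Ent.zero (Ls.cons Ent.zero (Ls.cons Ent.zero (Ls.cons Ent.zero (Ls.cons Ent.zero (Ls.cons Ent.zero (Ls.cons Ent.zero (Ls.cons Ent.zero Ls.nil)))))))))))))))))))))))))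
 (Ls.cons (Ls.cons Ent.zero (Ls.cons Ent.zero (Ls.cons Ent.zero (Ls.cons Ent.zero (Ls.cons Ent.zero (Ls.cons Ent.zero (Ls.cons Ent.zero (Ls.cons Ent.zero (Ls.cons Ent.zero (Ls.cons Ent.zero (Ls.cons Ent.zero (Ls.cons Ent.zero (Ls.cons Ent.zero (Ls.cons Ent.zero (Ls.cons Ent.zero (Ls.cons Ent.zero (Ls.cons Ent.zero (Ls.cons Ent.zero (Ls.cons Ent.zero (Ls.cons Ent.zero (Ls.cons Ent.zero (Ls.cons Ent.zero (Ls.cons Ent.zero (Ls.cons Ent.zero (Ls.cons Ent.zero Ls.nil)))))))))))))))))))))))))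
 Ls.nil))))))))))))))))))))

noncomputable def bxF0_7 : L2 :=
 (Ls.cons (Ls.cons Ent.zero (Ls.cons Ent.zero (Ls.cons Ent.zero (Ls.cons Ent.zero (Ls.cons Ent.zero (Ls.cons Ent.zero (Ls.cons Ent.zero (Ls.cons Ent.zero (Ls.cons Ent.zero (Ls.cons Ent.zero (Ls.cons Ent.zero (Ls.cons Ent.zero (Ls.cons Ent.zero (Ls.cons Ent.zero (Ls.cons Ent.zero (Ls.cons Ent.zero (Ls.cons Ent.zero (Ls.cons Ent.zero (Ls.cons Ent.zero (Ls.cons Ent.zero (Ls.cons Ent.zero (Ls.cons Ent.zero (Ls.cons Ent.zero (Ls.cons Ent.zero (Ls.cons Ent.zero Ls.nil)))))))))))))))))))))))))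
 (Ls.cons (Ls.cons Ent.zero (Ls.cons Ent.zero (Ls.cons Ent.zero (Ls.cons Ent.zero (Ls.cons Ent.zero (Ls.cons Ent.zero (Ls.cons Ent.zero (Ls.cons Ent.zero (Ls.cons Ent.zero (Ls.cons Ent.zero (Ls.cons Ent.zero (Ls.cons Ent.zero (Ls.cons Ent.zero (Ls.cons Ent.zero (Ls.cons Ent.zero (Ls.cons Ent.zero (Ls.cons Ent.zero (Ls.cons Ent.zero (Ls.cons Ent.zero (Ls.cons Ent.zero (Ls.cons Ent.zero (Ls.cons Ent.zero (Ls.cons Ent.zero (Ls.cons Ent.zero (Ls.cons Ent.zero Ls.nil)))))))))))))))))))))))))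
 (Ls.cons (Ls.cons Ent.zero (Ls.cons Ent.zero (Ls.cons Ent.zero (Ls.cons Ent.zero (Ls.cons Ent.zero (Ls.cons Ent.zero (Ls.cons Ent.zero (Ls.cons Ent.zero (Ls.cons Ent.zero (Ls.cons Ent.zero (Ls.cons Ent.zero (Ls.cons Ent.zero (Ls.cons Ent.zero (Ls.cons Ent.zero (Ls.cons Ent.zero (Ls.cons Ent.zero (Ls.cons Ent.zero (Ls.cons Ent.zero (Ls.cons Ent.zero (Ls.cons Ent.zero (Ls.cons Ent.zero (Ls.cons Ent.zero (Ls.cons Ent.zero (Ls.cons Ent.zero (Ls.cons Ent.zero Ls.nil)))))))))))))))))))))))))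
 (Ls.cons (Ls.cons Ent.zero (Ls.cons Ent.zero (Ls.cons Ent.zero (Ls.cons Ent.zero (Ls.cons Ent.zero (Ls.cons Ent.zero (Ls.cons Ent.zero (Ls.cons Ent.zero (Ls.cons Ent.zero (Ls.cons Ent.zero (Ls.cons Ent.zero (Ls.cons Ent.zero (Ls.cons Ent.zero (Ls.cons Ent.zero (Ls.cons Ent.zero (Ls.cons Ent.zero (Ls.cons Ent.zero (Ls.cons Ent.zero (Ls.cons Ent.zero (Ls.cons Ent.zero (Ls.cons Ent.zero (Ls.cons Ent.zero (Ls.cons Ent.zero (Ls.cons Ent.zero (Ls.cons Ent.zero Ls.nil)))))))))))))))))))))))))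
 (Ls.cons (Ls.cons Ent.zero (Ls.cons Ent.zero (Ls.cons Ent.zero (Ls.cons Ent.zero (Ls.cons Ent.zero (Ls.cons Ent.zero (Ls.cons Ent.zero (Ls.cons Ent.zero (Ls.cons Ent.zero (Ls.cons Ent.zero (Ls.cons Ent.zero (Ls.cons Ent.zero (Ls.cons Ent.zero (Ls.cons Ent.zero (Ls.cons Ent.zero (Ls.cons Ent.zero (Ls.cons Ent.zero (Ls.cons Ent.zero (Ls.cons Ent.zero (Ls.cons Ent.zero (Ls.cons Ent.zero (Ls.cons Ent.zero (Ls.cons Ent.zero (Ls.cons Ent.zero (Ls.cons Ent.zero Ls.nil)))))))))))))))))))))))))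
 (Ls.cons (Ls.cons Ent.zero (Ls.cons Ent.zero (Ls.cons Ent.zero (Ls.cons Ent.zero (Ls.cons Ent.zero (Ls.cons Ent.zero (Ls.cons Ent.zero (Ls.cons Ent.zero (Ls.cons Ent.zero (Ls.cons Ent.zero (Ls.cons Ent.zero (Ls.cons Ent.zero (Ls.cons Ent.zero (Ls.cons Ent.zero (Ls.cons Ent.zero (Ls.cons Ent.zero (Ls.cons Ent.zero (Ls.cons Ent.zero (Ls.cons Ent.zero (Ls.cons Ent.zero (Ls.cons Ent.zero (Ls.cons Ent.zero (Ls.cons Ent.zero (Ls.cons Ent.zero (Ls.cons Ent.zero Ls.nil)))))))))))))))))))))))))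
 (Ls.cons (Ls.cons Ent.zero (Ls.cons Ent.zero (Ls.cons Ent.zero (Ls.cons Ent.zero (Ls.cons Ent.zero (Ls.cons Ent.zero (Ls.cons Ent.zero (Ls.cons Ent.zero (Ls.cons Ent.zero (Ls.cons Ent.zero (Ls.cons Ent.zero (Ls.cons Ent.zero (Ls.cons Ent.zero (Ls.cons Ent.zero (Ls.cons Ent.zero (Ls.cons Ent.zero (Ls.cons Ent.zero (Ls.cons Ent.zero (Ls.cons Ent.zero (Ls.cons Ent.zero (Ls.cons Ent.zero (Ls.cons Ent.zero (Ls.cons Ent.zero (Ls.cons Ent.zero (Ls.cons Ent.zero Ls.nil)))))))))))))))))))))))))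
 (Ls.cons (Ls.cons Ent.zero (Ls.cons Ent.zero (Ls.cons Ent.zero (Ls.cons Ent.zero (Ls.cons Ent.zero (Ls.cons Ent.zero (Ls.cons Ent.zero (Ls.cons Ent.zero (Ls.cons Ent.zero (Ls.cons Ent.zero (Ls.cons Ent.zero (Ls.cons Ent.zero (Ls.cons Ent.zero (Ls.cons Ent.zero (Ls.cons Ent.zero (Ls.cons Ent.zero (Ls.cons Ent.zero (Ls.cons Ent.zero (Ls.cons Ent.zero (Ls.cons Ent.zero (Ls.cons Ent.zero (Ls.cons Ent.zero (Ls.cons Ent.zero (Ls.cons Ent.zero (Ls.cons Ent.zero Ls.nil)))))))))))))))))))))))))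
 (Ls.cons (Ls.cons Ent.zero (Ls.cons Ent.zero (Ls.cons Ent.zero (Ls.cons Ent.zero (Ls.cons Ent.zero (Ls.cons Ent.zero (Ls.cons Ent.zero (Ls.cons Ent.zero (Ls.cons Ent.zero (Ls.cons Ent.zero (Ls.cons Ent.zero (Ls.cons Ent.zero (Ls.cons Ent.zero (Ls.cons Ent.zero (Ls.cons Ent.zero (Ls.cons Ent.zero (Ls.cons Ent.zero (Ls.cons Ent.zero (Ls.cons Ent.zero (Ls.cons Ent.zero (Ls.cons Ent.zero (Ls.cons Ent.zero (Ls.cons Ent.zero (Ls.cons Ent.zero (Ls.cons Ent.zero Ls.nil)))))))))))))))))))))))))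
 (Ls.cons (Ls.cons Ent.zero (Ls.cons Ent.zero (Ls.cons Ent.zero (Ls.cons Ent.zero (Ls.cons Ent.zero (Ls.cons Ent.zero (Ls.cons Ent.zero (Ls.cons Ent.zero (Ls.cons Ent.zero (Ls.cons Ent.zero (Ls.cons Ent.zero (Ls.cons Ent.zero (Ls.cons Ent.zero (Ls.cons Ent.zero (Ls.cons Ent.zero (Ls.cons Ent.zero (Ls.cons Ent.zero (Ls.cons Ent.zero (Ls.cons Ent.zero (Ls.cons Ent.zero (Ls.cons Ent.zero (Ls.cons Ent.zero (Ls.cons Ent.zero (Ls.cons Ent.zero (Ls.cons Ent.zero Ls.nil)))))))))))))))))))))))))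
 (Ls.cons (Ls.cons Ent.zero (Ls.cons Ent.zero (Ls.cons Ent.zero (Ls.cons Ent.zero (Ls.cons Ent.zero (Ls.cons Ent.zero (Ls.cons Ent.zero (Ls.cons Ent.zero (Ls.cons Ent.zero (Ls.cons Ent.zero (Ls.cons Ent.zero (Ls.cons Ent.zero (Ls.cons Ent.zero (Ls.cons Ent.zero (Ls.cons Ent.zero (Ls.cons Ent.zero (Ls.cons Ent.zero (Ls.cons Ent.zero (Ls.cons Ent.zero (Ls.cons Ent.zero (Ls.cons Ent.zero (Ls.cons Ent.zero (Ls.cons Ent.zero (Ls.cons Ent.zero (Ls.cons Ent.zero Ls.nil)))))))))))))))))))))))))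
 (Ls.cons (Ls.cons Ent.zero (Ls.cons Ent.zero (Ls.cons Ent.zero (Ls.cons Ent.zero (Ls.cons Ent.zero (Ls.cons Ent.zero (Ls.cons Ent.zero (Ls.cons Ent.zero (Ls.cons Ent.zero (Ls.cons Ent.zero (Ls.cons Ent.zero (Ls.cons Ent.zero (Ls.cons Ent.zero (Ls.cons Ent.zero (Ls.cons Ent.zero (Ls.cons Ent.zero (Ls.cons Ent.zero (Ls.cons Ent.zero (Ls.cons Ent.zero (Ls.cons Ent.zero (Ls.cons Ent.zero (Ls.cons Ent.zero (Ls.cons Ent.zero (Ls.cons Ent.zero (Ls.cons Ent.zero Ls.nil)))))))))))))))))))))))))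
 (Ls.cons (Ls.cons Ent.zero (Ls.cons Ent.zero (Ls.cons Ent.zero (Ls.cons Ent.zero (Ls.cons Ent.zero (Ls.cons Ent.zero (Ls.cons Ent.zero (Ls.cons Ent.zero (Ls.cons Ent.zero (Ls.cons Ent.zero (Ls.cons Ent.zero (Ls.cons Ent.zero (Ls.cons Ent.zero (Ls.cons Ent.zero (Ls.cons Ent.zero (Ls.cons Ent.zero (Ls.cons Ent.zero (Ls.cons Ent.zero (Ls.cons Ent.zero (Ls.cons Ent.zero (Ls.cons Ent.zero (Ls.cons Ent.zero (Ls.cons Ent.zero (Ls.cons Ent.zero (Ls.cons Ent.zero Ls.nil)))))))))))))))))))))))))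
 (Ls.cons (Ls.cons Ent.zero (Ls.cons Ent.zero (Ls.cons Ent.zero (Ls.cons Ent.zero (Ls.cons Ent.zero (Ls.cons Ent.zero (Ls.cons Ent.zero (Ls.cons Ent.zero (Ls.cons Ent.zero (Ls.cons Ent.zero (Ls.cons Ent.zero (Ls.cons Ent.zero (Ls.cons Ent.zero (Ls.cons Ent.zero (Ls.cons Ent.zero (Ls.cons Ent.zero (Ls.cons Ent.zero (Ls.cons Ent.zero (Ls.cons Ent.zero (Ls.cons Ent.zero (Ls.cons Ent.zero (Ls.cons Ent.zero (Ls.cons Ent.zero (Ls.cons Ent.zero (Ls.cons Ent.zero Ls.nil)))))))))))))))))))))))))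
 (Ls.cons (Ls.cons Ent.zero (Ls.cons Ent.zero (Ls.cons Ent.zero (Ls.cons Ent.zero (Ls.cons Ent.zero (Ls.cons Ent.zero (Ls.cons Ent.zero (Ls.cons Ent.zero (Ls.cons Ent.zero (Ls.cons Ent.zero (Ls.cons Ent.zero (Ls.cons Ent.zero (Ls.cons Ent.zero (Ls.cons Ent.zero (Ls.cons Ent.zero (Ls.cons Ent.zero (Ls.cons Ent.zero (Ls.cons Ent.zero (Ls.cons Ent.zero (Ls.cons Ent.zero (Ls.cons Ent.zero (Ls.cons Ent.zero (Ls.cons Ent.zero (Ls.cons Ent.zero (Ls.cons Ent.zero Ls.nil)))))))))))))))))))))))))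
 (Ls.cons (Ls.cons Ent.zero (Ls.cons Ent.zero (Ls.cons Ent.zero (Ls.cons Ent.zero (Ls.cons Ent.zero (Ls.cons Ent.zero (Ls.cons Ent.zero (Ls.cons Ent.zero (Ls.cons Ent.zero (Ls.cons Ent.zero (Ls.cons Ent.zero (Ls.cons Ent.zero (Ls.cons Ent.zero (Ls.cons Ent.zero (Ls.cons Ent.zero (Ls.cons Ent.zero (Ls.cons Ent.zero (Ls.cons Ent.zero (Ls.cons Ent.zero (Ls.cons Ent.zero (Ls.cons Ent.zero (Ls.cons Ent.zero (Ls.cons Ent.zero (Ls.cons Ent.zero (Ls.cons Ent.zero Ls.nil)))))))))))))))))))))))))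
 (Ls.cons (Ls.cons Ent.zero (Ls.cons Ent.zero (Ls.cons Ent.zero (Ls.cons Ent.zero (Ls.cons Ent.zero (Ls.cons Ent.zero (Ls.cons Ent.zero (Ls.cons Ent.zero (Ls.cons Ent.zero (Ls.cons Ent.zero (Ls.cons Ent.zero (Ls.cons Ent.zero (Ls.cons Ent.zero (Ls.cons Ent.zero (Ls.cons Ent.zero (Ls.cons Ent.zero (Ls.cons Ent.zero (Ls.cons Ent.zero (Ls.cons Ent.zero (Ls.cons Ent.zero (Ls.cons Ent.zero (Ls.cons Ent.zero (Ls.cons Ent.zero (Ls.cons Ent.zero (Ls.cons Ent.zero Ls.nil)))))))))))))))))))))))))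
 (Ls.cons (Ls.cons Ent.zero (Ls.cons Ent.zero (Ls.cons Ent.zero (Ls.cons Ent.zero (Ls.cons Ent.zero (Ls.cons Ent.zero (Ls.cons Ent.zero (Ls.cons Ent.zero (Ls.cons Ent.zero (Ls.cons Ent.zero (Ls.cons Ent.zero (Ls.cons Ent.zero (Ls.cons Ent.zero (Ls.cons Ent.zero (Ls.cons Ent.zero (Ls.cons Ent.zero (Ls.cons Ent.zero (Ls.cons Ent.zero (Ls.cons Ent.zero (Ls.cons Ent.zero (Ls.cons Ent.zero (Ls.cons Ent.zero (Ls.cons Ent.zero (Ls.cons Ent.zero (Ls.cons Ent.zero Ls.nil)))))))))))))))))))))))))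
 (Ls.cons (Ls.cons Ent.zero (Ls.cons Ent.zero (Ls.cons Ent.zero (Ls.cons Ent.zero (Ls.cons Ent.zero (Ls.cons Ent.zero (Ls.cons Ent.zero (Ls.cons Ent.zero (Ls.cons Ent.zero (Ls.cons Ent.zero (Ls.cons Ent.zero (Ls.cons Ent.zero (Ls.cons Ent.zero (Ls.cons Ent.zero (Ls.cons Ent.zero (Ls.cons Ent.zero (Ls.cons Ent.zero (Ls.cons Ent.zero (Ls.cons Ent.zero (Ls.cons Ent.zero (Ls.cons Ent.zero (Ls.cons Ent.zero (Ls.cons Ent.zero (Ls.cons Ent.zero (Ls.cons Ent.zero Ls.nil)))))))))))))))))))))))))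
 (Ls.cons (Ls.cons Ent.zero (Ls.cons Ent.zero (Ls.cons Ent.zero (Ls.cons Ent.zero (Ls.cons Ent.zero (Ls.cons Ent.zero (Ls.cons Ent.zero (Ls.cons Ent.zero (Ls.cons Ent.zero (Ls.cons Ent.zero (Ls.cons Ent.zero (Ls.cons Ent.zero (Ls.cons Ent.zero (Ls.cons Ent.zero (Ls.cons Ent.zero (Ls.cons Ent.zero (Ls.cons Ent.zero (Ls.cons Ent.zero (Ls.cons Ent.zero (Ls.cons Ent.zero (Ls.cons Ent.zero (Ls.cons Ent.zero (Ls.cons Ent.zero (Ls.cons Ent.zero (Ls.cons Ent.zero Ls.nil)))))))))))))))))))))))))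
 Ls.nil))))))))))))))))))))

noncomputable def bxF0_8 : L2 :=
 (Ls.cons (Ls.cons Ent.zero (Ls.cons Ent.zero (Ls.cons Ent.zero (Ls.cons Ent.zero (Ls.cons Ent.zero (Ls.cons Ent.zero (Ls.cons Ent.zero (Ls.cons Ent.zero (Ls.cons Ent.zero (Ls.cons Ent.zero (Ls.cons Ent.zero (Ls.cons Ent.zero (Ls.cons Ent.zero (Ls.cons Ent.zero (Ls.cons Ent.zero (Ls.cons Ent.zero (Ls.cons Ent.zero (Ls.cons Ent.zero (Ls.cons Ent.zero (Ls.cons Ent.zero (Ls.cons Ent.zero (Ls.cons Ent.zero (Ls.cons Ent.zero (Ls.cons Ent.zero (Ls.cons Ent.zero Ls.nil)))))))))))))))))))))))))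
 (Ls.cons (Ls.cons Ent.zero (Ls.cons Ent.zero (Ls.cons Ent.zero (Ls.cons Ent.zero (Ls.cons Ent.zero (Ls.cons Ent.zero (Ls.cons Ent.zero (Ls.cons Ent.zero (Ls.cons Ent.zero (Ls.cons Ent.zero (Ls.cons Ent.zero (Ls.cons Ent.zero (Ls.cons Ent.zero (Ls.cons Ent.zero (Ls.cons Ent.zero (Ls.cons Ent.zero (Ls.cons Ent.zero (Ls.cons Ent.zero (Ls.cons Ent.zero (Ls.cons Ent.zero (Ls.cons Ent.zero (Ls.cons Ent.zero (Ls.cons Ent.zero (Ls.cons Ent.zero (Ls.cons Ent.zero Ls.nil)))))))))))))))))))))))))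
 (Ls.cons (Ls.cons Ent.zero (Ls.cons Ent.zero (Ls.cons Ent.zero (Ls.cons Ent.zero (Ls.cons Ent.zero (Ls.cons Ent.zero (Ls.cons Ent.zero (Ls.cons Ent.zero (Ls.cons Ent.zero (Ls.cons Ent.zero (Ls.cons Ent.zero (Ls.cons Ent.zero (Ls.cons Ent.zero (Ls.cons Ent.zero (Ls.cons Ent.zero (Ls.cons Ent.zero (Ls.cons Ent.zero (Ls.cons Ent.zero (Ls.cons Ent.zero (Ls.cons Ent.zero (Ls.cons Ent.zero (Ls.cons Ent.zero (Ls.cons Ent.zero (Ls.cons Ent.zero (Ls.cons Ent.zero Ls.nil)))))))))))))))))))))))))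
 (Ls.cons (Ls.cons Ent.zero (Ls.cons Ent.zero (Ls.cons Ent.zero (Ls.cons Ent.zero (Ls.cons Ent.zero (Ls.cons Ent.zero (Ls.cons Ent.zero (Ls.cons Ent.zero (Ls.cons Ent.zero (Ls.cons Ent.zero (Ls.cons Ent.zero (Ls.cons Ent.zero (Ls.cons Ent.zero (Ls.cons Ent.zero (Ls.cons Ent.zero (Ls.cons Ent.zero (Ls.cons Ent.zero (Ls.cons Ent.zero (Ls.cons Ent.zero (Ls.cons Ent.zero (Ls.cons Ent.zero (Ls.cons Ent.zero (Ls.cons Ent.zero (Ls.cons Ent.zero (Ls.cons Ent.zero Ls.nil)))))))))))))))))))))))))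
 (Ls.cons (Ls.cons Ent.zero (Ls.cons Ent.zero (Ls.cons Ent.zero (Ls.cons Ent.zero (Ls.cons Ent.zero (Ls.cons Ent.zero (Ls.cons Ent.zero (Ls.cons Ent.zero (Ls.cons Ent.zero (Ls.cons Ent.zero (Ls.cons Ent.zero (Ls.cons Ent.zero (Ls.cons Ent.zero (Ls.cons Ent.zero (Ls.cons Ent.zero (Ls.cons Ent.zero (Ls.cons Ent.zero (Ls.cons Ent.zero (Ls.cons Ent.zero (Ls.cons Ent.zero (Ls.cons Ent.zero (Ls.cons Ent.zero (Ls.cons Ent.zero (Ls.cons Ent.zero (Ls.cons Ent.zero Ls.nil)))))))))))))))))))))))))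
 (Ls.cons (Ls.cons Ent.zero (Ls.cons Ent.zero (Ls.cons Ent.zero (Ls.cons Ent.zero (Ls.cons Ent.zero (Ls.cons Ent.zero (Ls.cons Ent.zero (Ls.cons Ent.zero (Ls.cons Ent.zero (Ls.cons Ent.zero (Ls.cons Ent.zero (Ls.cons Ent.zero (Ls.cons Ent.zero (Ls.cons Ent.zero (Ls.cons Ent.zero (Ls.cons Ent.zero (Ls.cons Ent.zero (Ls.cons Ent.zero (Ls.cons Ent.zero (Ls.cons Ent.zero (Ls.cons Ent.zero (Ls.cons Ent.zero (Ls.cons Ent.zero (Ls.cons Ent.zero (Ls.cons Ent.zero Ls.nil)))))))))))))))))))))))))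
 (Ls.cons (Ls.cons Ent.zero (Ls.cons Ent.zero (Ls.cons Ent.zero (Ls.cons Ent.zero (Ls.cons Ent.zero (Ls.cons Ent.zero (Ls.cons Ent.zero (Ls.cons Ent.zero (Ls.cons Ent.zero (Ls.cons Ent.zero (Ls.cons Ent.zero (Ls.cons Ent.zero (Ls.cons Ent.zero (Ls.cons Ent.zero (Ls.cons Ent.zero (Ls.cons Ent.zero (Ls.cons Ent.zero (Ls.cons Ent.zero (Ls.cons Ent.zero (Ls.cons Ent.zero (Ls.cons Ent.zero (Ls.cons Ent.zero (Ls.cons Ent.zero (Ls.cons Ent.zero (Ls.cons Ent.zero Ls.nil)))))))))))))))))))))))))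
 (Ls.cons (Ls.cons Ent.zero (Ls.cons Ent.zero (Ls.cons Ent.zero (Ls.cons Ent.zero (Ls.cons Ent.zero (Ls.cons Ent.zero (Ls.cons Ent.zero (Ls.cons Ent.zero (Ls.cons Ent.zero (Ls.cons Ent.zero (Ls.cons Ent.zero (Ls.cons Ent.zero (Ls.cons Ent.zero (Ls.cons Ent.zero (Ls.cons Ent.zero (Ls.cons Ent.zero (Ls.cons Ent.zero (Ls.cons Ent.zero (Ls.cons Ent.zero (Ls.cons Ent.zero (Ls.cons Ent.zero (Ls.cons Ent.zero (Ls.cons Ent.zero (Ls.cons Ent.zero (Ls.cons Ent.zero Ls.nil)))))))))))))))))))))))))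
 (Ls.cons (Ls.cons Ent.zero (Ls.cons Ent.zero (Ls.cons Ent.zero (Ls.cons Ent.zero (Ls.cons Ent.zero (Ls.cons Ent.zero (Ls.cons Ent.zero (Ls.cons Ent.zero (Ls.cons Ent.zero (Ls.cons Ent.zero (Ls.cons Ent.zero (Ls.cons Ent.zero (Ls.cons Ent.zero (Ls.cons Ent.zero (Ls.cons Ent.zero (Ls.cons Ent.zero (Ls.cons Ent.zero (Ls.cons Ent.zero (Ls.cons Ent.zero (Ls.cons Ent.zero (Ls.cons Ent.zero (Ls.cons Ent.zero (Ls.cons Ent.zero (Ls.cons Ent.zero (Ls.cons Ent.zero Ls.nil)))))))))))))))))))))))))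
 (Ls.cons (Ls.cons Ent.zero (Ls.cons Ent.zero (Ls.cons Ent.zero (Ls.cons Ent.zero (Ls.cons Ent.zero (Ls.cons Ent.zero (Ls.cons Ent.zero (Ls.cons Ent.zero (Ls.cons Ent.zero (Ls.cons Ent.zero (Ls.cons Ent.zero (Ls.cons Ent.zero (Ls.cons Ent.zero (Ls.cons Ent.zero (Ls.cons Ent.zero (Ls.cons Ent.zero (Ls.cons Ent.zero (Ls.cons Ent.zero (Ls.cons Ent.zero (Ls.cons Ent.zero (Ls.cons Ent.zero (Ls.cons Ent.zero (Ls.cons Ent.zero (Ls.cons Ent.zero (Ls.cons Ent.zero Ls.nil)))))))))))))))))))))))))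
 (Ls.cons (Ls.cons Ent.zero (Ls.cons Ent.zero (Ls.cons Ent.zero (Ls.cons Ent.zero (Ls.cons Ent.zero (Ls.cons Ent.zero (Ls.cons Ent.zero (Ls.cons Ent.zero (Ls.cons Ent.zero (Ls.cons Ent.zero (Ls.cons Ent.zero (Ls.cons Ent.zero (Ls.cons Ent.zero (Ls.cons Ent.zero (Ls.cons Ent.zero (Ls.cons Ent.zero (Ls.cons Ent.zero (Ls.cons Ent.zero (Ls.cons Ent.zero (Ls.cons Ent.zero (Ls.cons Ent.zero (Ls.cons Ent.zero (Ls.cons Ent.zero (Ls.cons Ent.zero (Ls.cons Ent.zero Ls.nil)))))))))))))))))))))))))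
 (Ls.cons (Ls.cons Ent.zero (Ls.cons Ent.zero (Ls.cons Ent.zero (Ls.cons Ent.zero (Ls.cons Ent.zero (Ls.cons Ent.zero (Ls.cons Ent.zero (Ls.cons Ent.zero (Ls.cons Ent.zero (Ls.cons Ent.zero (Ls.cons Ent.zero (Ls.cons Ent.zero (Ls.cons Ent.zero (Ls.cons Ent.zero (Ls.cons Ent.zero (Ls.cons Ent.zero (Ls.cons Ent.zero (Ls.cons Ent.zero (Ls.cons Ent.zero (Ls.cons Ent.zero (Ls.cons Ent.zero (Ls.cons Ent.zero (Ls.cons Ent.zero (Ls.cons Ent.zero (Ls.cons Ent.zero Ls.nil)))))))))))))))))))))))))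
 (Ls.cons (Ls.cons Ent.zero (Ls.cons Ent.zero (Ls.cons Ent.zero (Ls.cons Ent.zero (Ls.cons Ent.zero (Ls.cons Ent.zero (Ls.cons Ent.zero (Ls.cons Ent.zero (Ls.cons Ent.zero (Ls.cons Ent.zero (Ls.cons Ent.zero (Ls.cons Ent.zero (Ls.cons Ent.zero (Ls.cons Ent.zero (Ls.cons Ent.zero (Ls.cons Ent.zero (Ls.cons Ent.zero (Ls.cons Ent.zero (Ls.cons Ent.zero (Ls.cons Ent.zero (Ls.cons Ent.zero (Ls.cons Ent.zero (Ls.cons Ent.zero (Ls.cons Ent.zero (Ls.cons Ent.zero Ls.nil)))))))))))))))))))))))))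
 (Ls.cons (Ls.cons Ent.zero (Ls.cons Ent.zero (Ls.cons Ent.zero (Ls.cons Ent.zero (Ls.cons Ent.zero (Ls.cons Ent.zero (Ls.cons Ent.zero (Ls.cons Ent.zero (Ls.cons Ent.zero (Ls.cons Ent.zero (Ls.cons Ent.zero (Ls.cons Ent.zero (Ls.cons Ent.zero (Ls.cons Ent.zero (Ls.cons Ent.zero (Ls.cons Ent.zero (Ls.cons Ent.zero (Ls.cons Ent.zero (Ls.cons Ent.zero (Ls.cons Ent.zero (Ls.cons Ent.zero (Ls.cons Ent.zero (Ls.cons Ent.zero (Ls.cons Ent.zero (Ls.cons Ent.zero Ls.nil)))))))))))))))))))))))))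
 (Ls.cons (Ls.cons Ent.zero (Ls.cons Ent.zero (Ls.cons Ent.zero (Ls.cons Ent.zero (Ls.cons Ent.zero (Ls.cons Ent.zero (Ls.cons Ent.zero (Ls.cons Ent.zero (Ls.cons Ent.zero (Ls.cons Ent.zero (Ls.cons Ent.zero (Ls.cons Ent.zero (Ls.cons Ent.zero (Ls.cons Ent.zero (Ls.cons Ent.zero (Ls.cons Ent.zero (Ls.cons Ent.zero (Ls.cons Ent.zero (Ls.cons Ent.zero (Ls.cons Ent.zero (Ls.cons Ent.zero (Ls.cons Ent.zero (Ls.cons Ent.zero (Ls.cons Ent.zero (Ls.cons Ent.zero Ls.nil)))))))))))))))))))))))))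
 (Ls.cons (Ls.cons Ent.zero (Ls.cons Ent.zero (Ls.cons Ent.zero (Ls.cons Ent.zero (Ls.cons Ent.zero (Ls.cons Ent.zero (Ls.cons Ent.zero (Ls.cons Ent.zero (Ls.cons Ent.zero (Ls.cons Ent.zero (Ls.cons Ent.zero (Ls.cons Ent.zero (Ls.cons Ent.zero (Ls.cons Ent.zero (Ls.cons Ent.zero (Ls.cons Ent.zero (Ls.cons Ent.zero (Ls.cons Ent.zero (Ls.cons Ent.zero (Ls.cons Ent.zero (Ls.cons Ent.zero (Ls.cons Ent.zero (Ls.cons Ent.zero (Ls.cons Ent.zero (Ls.cons Ent.zero Ls.nil)))))))))))))))))))))))))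
 (Ls.cons (Ls.cons Ent.zero (Ls.cons Ent.zero (Ls.cons Ent.zero (Ls.cons Ent.zero (Ls.cons Ent.zero (Ls.cons Ent.zero (Ls.cons Ent.zero (Ls.cons Ent.zero (Ls.cons Ent.zero (Ls.cons Ent.zero (Ls.cons Ent.zero (Ls.cons Ent.zero (Ls.cons Ent.zero (Ls.cons Ent.zero (Ls.cons Ent.zero (Ls.cons Ent.zero (Ls.cons Ent.zero (Ls.cons Ent.zero (Ls.cons Ent.zero (Ls.cons Ent.zero (Ls.cons Ent.zero (Ls.cons Ent.zero (Ls.cons Ent.zero (Ls.cons Ent.zero (Ls.cons Ent.zero Ls.nil)))))))))))))))))))))))))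
 (Ls.cons (Ls.cons Ent.zero (Ls.cons Ent.zero (Ls.cons Ent.zero (Ls.cons Ent.zero (Ls.cons Ent.zero (Ls.cons Ent.zero (Ls.cons Ent.zero (Ls.cons Ent.zero (Ls.cons Ent.zero (Ls.cons Ent.zero (Ls.cons Ent.zero (Ls.cons Ent.zero (Ls.cons Ent.zero (Ls.cons Ent.zero (Ls.cons Ent.zero (Ls.cons Ent.zero (Ls.cons Ent.zero (Ls.cons Ent.zero (Ls.cons Ent.zero (Ls.cons Ent.zero (Ls.cons Ent.zero (Ls.cons Ent.zero (Ls.cons Ent.zero (Ls.cons Ent.zero (Ls.cons Ent.zero Ls.nil)))))))))))))))))))))))))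
 (Ls.cons (Ls.cons Ent.zero (Ls.cons Ent.zero (Ls.cons Ent.zero (Ls.cons Ent.zero (Ls.cons Ent.zero (Ls.cons Ent.zero (Ls.cons Ent.zero (Ls.cons Ent.zero (Ls.cons Ent.zero (Ls.cons Ent.zero (Ls.cons Ent.zero (Ls.cons Ent.zero (Ls.cons Ent.zero (Ls.cons Ent.zero (Ls.cons Ent.zero (Ls.cons Ent.zero (Ls.cons Ent.zero (Ls.cons Ent.zero (Ls.cons Ent.zero (Ls.cons Ent.zero (Ls.cons Ent.zero (Ls.cons Ent.zero (Ls.cons Ent.zero (Ls.cons Ent.zero (Ls.cons Ent.zero Ls.nil)))))))))))))))))))))))))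
 (Ls.cons (Ls.cons Ent.zero (Ls.cons Ent.zero (Ls.cons Ent.zero (Ls.cons Ent.zero (Ls.cons Ent.zero (Ls.cons Ent.zero (Ls.cons Ent.zero (Ls.cons Ent.zero (Ls.cons Ent.zero (Ls.cons Ent.zero (Ls.cons Ent.zero (Ls.cons Ent.zero (Ls.cons Ent.zero (Ls.cons Ent.zero (Ls.cons Ent.zero (Ls.cons Ent.zero (Ls.cons Ent.zero (Ls.cons Ent.zero (Ls.cons Ent.zero (Ls.cons Ent.zero (Ls.cons Ent.zero (Ls.cons Ent.zero (Ls.cons Ent.zero (Ls.cons Ent.zero (Ls.cons Ent.zero Ls.nil)))))))))))))))))))))))))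
 Ls.nil))))))))))))))))))))

noncomputable def bxF0_9 : L2 :=
 (Ls.cons (Ls.cons Ent.zero (Ls.cons Ent.zero (Ls.cons Ent.zero (Ls.cons Ent.zero (Ls.cons Ent.zero (Ls.cons Ent.zero (Ls.cons Ent.zero (Ls.cons Ent.zero (Ls.cons Ent.zero (Ls.cons Ent.zero (Ls.cons Ent.zero (Ls.cons Ent.zero (Ls.cons Ent.zero (Ls.cons Ent.zero (Ls.cons Ent.zero (Ls.cons Ent.zero (Ls.cons Ent.zero (Ls.cons Ent.zero (Ls.cons Ent.zero (Ls.cons Ent.zero (Ls.cons Ent.zero (Ls.cons Ent.zero (Ls.cons Ent.zero (Ls.cons Ent.zero (Ls.cons Ent.zero Ls.nil)))))))))))))))))))))))))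
 (Ls.cons (Ls.cons Ent.zero (Ls.cons Ent.zero (Ls.cons Ent.zero (Ls.cons Ent.zero (Ls.cons Ent.zero (Ls.cons Ent.zero (Ls.cons Ent.zero (Ls.cons Ent.zero (Ls.cons Ent.zero (Ls.cons Ent.zero (Ls.cons Ent.zero (Ls.cons Ent.zero (Ls.cons Ent.zero (Ls.cons Ent.zero (Ls.cons Ent.zero (Ls.cons Ent.zero (Ls.cons Ent.zero (Ls.cons Ent.zero (Ls.cons Ent.zero (Ls.cons Ent.zero (Ls.cons Ent.zero (Ls.cons Ent.zero (Ls.cons Ent.zero (Ls.cons Ent.zero (Ls.cons Ent.zero Ls.nil)))))))))))))))))))))))))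
 (Ls.cons (Ls.cons Ent.zero (Ls.cons Ent.zero (Ls.cons Ent.zero (Ls.cons Ent.zero (Ls.cons Ent.zero (Ls.cons Ent.zero (Ls.cons Ent.zero (Ls.cons Ent.zero (Ls.cons Ent.zero (Ls.cons Ent.zero (Ls.cons Ent.zero (Ls.cons Ent.zero (Ls.cons Ent.zero (Ls.cons Ent.zero (Ls.cons Ent.zero (Ls.cons Ent.zero (Ls.cons Ent.zero (Ls.cons Ent.zero (Ls.cons Ent.zero (Ls.cons Ent.zero (Ls.cons Ent.zero (Ls.cons Ent.zero (Ls.cons Ent.zero (Ls.cons Ent.zero (Ls.cons Ent.zero Ls.nil)))))))))))))))))))))))))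
 (Ls.cons (Ls.cons Ent.zero (Ls.cons Ent.zero (Ls.cons Ent.zero (Ls.cons Ent.zero (Ls.cons Ent.zero (Ls.cons Ent.zero (Ls.cons Ent.zero (Ls.cons Ent.zero (Ls.cons Ent.zero (Ls.cons Ent.zero (Ls.cons Ent.zero (Ls.cons Ent.zero (Ls.cons Ent.zero (Ls.cons Ent.zero (Ls.cons Ent.zero (Ls.cons Ent.zero (Ls.cons Ent.zero (Ls.cons Ent.zero (Ls.cons Ent.zero (Ls.cons Ent.zero (Ls.cons Ent.zero (Ls.cons Ent.zero (Ls.cons Ent.zero (Ls.cons Ent.zero (Ls.cons Ent.zero Ls.nil)))))))))))))))))))))))))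
 (Ls.cons (Ls.cons Ent.zero (Ls.cons Ent.zero (Ls.cons Ent.zero (Ls.cons Ent.zero (Ls.cons Ent.zero (Ls.cons Ent.zero (Ls.cons Ent.zero (Ls.cons Ent.zero (Ls.cons Ent.zero (Ls.cons Ent.zero (Ls.cons Ent.zero (Ls.cons Ent.zero (Ls.cons Ent.zero (Ls.cons Ent.zero (Ls.cons Ent.zero (Ls.cons Ent.zero (Ls.cons Ent.zero (Ls.cons Ent.zero (Ls.cons Ent.zero (Ls.cons Ent.zero (Ls.cons Ent.zero (Ls.cons Ent.zero (Ls.cons Ent.zero (Ls.cons Ent.zero (Ls.cons Ent.zero Ls.nil)))))))))))))))))))))))))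
 (Ls.cons (Ls.cons Ent.zero (Ls.cons Ent.zero (Ls.cons Ent.zero (Ls.cons Ent.zero (Ls.cons Ent.zero (Ls.cons Ent.zero (Ls.cons Ent.zero (Ls.cons Ent.zero (Ls.cons Ent.zero (Ls.cons Ent.zero (Ls.cons Ent.zero (Ls.cons Ent.zero (Ls.cons Ent.zero (Ls.cons Ent.zero (Ls.cons Ent.zero (Ls.cons Ent.zero (Ls.cons Ent.zero (Ls.cons Ent.zero (Ls.cons Ent.zero (Ls.cons Ent.zero (Ls.cons Ent.zero (Ls.cons Ent.zero (Ls.cons Ent.zero (Ls.cons Ent.zero (Ls.cons Ent.zero Ls.nil)))))))))))))))))))))))))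
 (Ls.cons (Ls.cons Ent.zero (Ls.cons Ent.zero (Ls.cons Ent.zero (Ls.cons Ent.zero (Ls.cons Ent.zero (Ls.cons Ent.zero (Ls.cons Ent.zero (Ls.cons Ent.zero (Ls.cons Ent.zero (Ls.cons Ent.zero (Ls.cons Ent.zero (Ls.cons Ent.zero (Ls.cons Ent.zero (Ls.cons Ent.zero (Ls.cons Ent.zero (Ls.cons Ent.zero (Ls.cons Ent.zero (Ls.cons Ent.zero (Ls.cons Ent.zero (Ls.cons Ent.zero (Ls.cons Ent.zero (Ls.cons Ent.zero (Ls.cons Ent.zero (Ls.cons Ent.zero (Ls.cons Ent.zero Ls.nil)))))))))))))))))))))))))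
 (Ls.cons (Ls.cons Ent.zero (Ls.cons Ent.zero (Ls.cons Ent.zero (Ls.cons Ent.zero (Ls.cons Ent.zero (Ls.cons Ent.zero (Ls.cons Ent.zero (Ls.cons Ent.zero (Ls.cons Ent.zero (Ls.cons Ent.zero (Ls.cons Ent.zero (Ls.cons Ent.zero (Ls.cons Ent.zero (Ls.cons Ent.zero (Ls.cons Ent.zero (Ls.cons Ent.zero (Ls.cons Ent.zero (Ls.cons Ent.zero (Ls.cons Ent.zero (Ls.cons Ent.zero (Ls.cons Ent.zero (Ls.cons Ent.zero (Ls.cons Ent.zero (Ls.cons Ent.zero (Ls.cons Ent.zero Ls.nil)))))))))))))))))))))))))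
 (Ls.cons (Ls.cons Ent.zero (Ls.cons Ent.zero (Ls.cons Ent.zero (Ls.cons Ent.zero (Ls.cons Ent.zero (Ls.cons Ent.zero (Ls.cons Ent.zero (Ls.cons Ent.zero (Ls.cons Ent.zero (Ls.cons Ent.zero (Ls.cons Ent.zero (Ls.cons Ent.zero (Ls.cons Ent.zero (Ls.cons Ent.zero (Ls.cons Ent.zero (Ls.cons Ent.zero (Ls.cons Ent.zero (Ls.cons Ent.zero (Ls.cons Ent.zero (Ls.cons Ent.zero (Ls.cons Ent.zero (Ls.cons Ent.zero (Ls.cons Ent.zero (Ls.cons Ent.zero (Ls.cons Ent.zero Ls.nil)))))))))))))))))))))))))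
 (Ls.cons (Ls.cons Ent.zero (Ls.cons Ent.zero (Ls.cons Ent.zero (Ls.cons Ent.zero (Ls.cons Ent.zero (Ls.cons Ent.zero (Ls.cons Ent.zero (Ls.cons Ent.zero (Ls.cons Ent.zero (Ls.cons Ent.zero (Ls.cons Ent.zero (Ls.cons Ent.zero (Ls.cons Ent.zero (Ls.cons Ent.zero (Ls.cons Ent.zero (Ls.cons Ent.zero (Ls.cons Ent.zero (Ls.cons Ent.zero (Ls.cons Ent.zero (Ls.cons Ent.zero (Ls.cons Ent.zero (Ls.cons Ent.zero (Ls.cons Ent.zero (Ls.cons Ent.zero (Ls.cons Ent.zero Ls.nil)))))))))))))))))))))))))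
 (Ls.cons (Ls.cons Ent.zero (Ls.cons Ent.zero (Ls.cons Ent.zero (Ls.cons Ent.zero (Ls.cons Ent.zero (Ls.cons Ent.zero (Ls.cons Ent.zero (Ls.cons Ent.zero (Ls.cons Ent.zero (Ls.cons Ent.zero (Ls.cons Ent.zero (Ls.cons Ent.zero (Ls.cons Ent.zero (Ls.cons Ent.zero (Ls.cons Ent.zero (Ls.cons Ent.zero (Ls.cons Ent.zero (Ls.cons Ent.zero (Ls.cons Ent.zero (Ls.cons Ent.zero (Ls.cons Ent.zero (Ls.cons Ent.zero (Ls.cons Ent.zero (Ls.cons Ent.zero (Ls.cons Ent.zero Ls.nil)))))))))))))))))))))))))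
 (Ls.cons (Ls.cons Ent.zero (Ls.cons Ent.zero (Ls.cons Ent.zero (Ls.cons Ent.zero (Ls.cons Ent.zero (Ls.cons Ent.zero (Ls.cons Ent.zero (Ls.cons Ent.zero (Ls.cons Ent.zero (Ls.cons Ent.zero (Ls.cons Ent.zero (Ls.cons Ent.zero (Ls.cons Ent.zero (Ls.cons Ent.zero (Ls.cons Ent.zero (Ls.cons Ent.zero (Ls.cons Ent.zero (Ls.cons Ent.zero (Ls.cons Ent.zero (Ls.cons Ent.zero (Ls.cons Ent.zero (Ls.cons Ent.zero (Ls.cons Ent.zero (Ls.cons Ent.zero (Ls.cons Ent.zero Ls.nil)))))))))))))))))))))))))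
 (Ls.cons (Ls.cons Ent.zero (Ls.cons Ent.zero (Ls.cons Ent.zero (Ls.cons Ent.zero (Ls.cons Ent.zero (Ls.cons Ent.zero (Ls.cons Ent.zero (Ls.cons Ent.zero (Ls.cons Ent.zero (Ls.cons Ent.zero (Ls.cons Ent.zero (Ls.cons Ent.zero (Ls.cons Ent.zero (Ls.cons Ent.zero (Ls.cons Ent.zero (Ls.cons Ent.zero (Ls.cons Ent.zero (Ls.cons Ent.zero (Ls.cons Ent.zero (Ls.cons Ent.zero (Ls.cons Ent.zero (Ls.cons Ent.zero (Ls.cons Ent.zero (Ls.cons Ent.zero (Ls.cons Ent.zero Ls.nil)))))))))))))))))))))))))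
 (Ls.cons (Ls.cons Ent.zero (Ls.cons Ent.zero (Ls.cons Ent.zero (Ls.cons Ent.zero (Ls.cons Ent.zero (Ls.cons Ent.zero (Ls.cons Ent.zero (Ls.cons Ent.zero (Ls.cons Ent.zero (Ls.cons Ent.zero (Ls.cons Ent.zero (Ls.cons Ent.zero (Ls.cons Ent.zero (Ls.cons Ent.zero (Ls.cons Ent.zero (Ls.cons Ent.zero (Ls.cons Ent.zero (Ls.cons Ent.zero (Ls.cons Ent.zero (Ls.cons Ent.zero (Ls.cons Ent.zero (Ls.cons Ent.zero (Ls.cons Ent.zero (Ls.cons Ent.zero (Ls.cons Ent.zero Ls.nil)))))))))))))))))))))))))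
 (Ls.cons (Ls.cons Ent.zero (Ls.cons Ent.zero (Ls.cons Ent.zero (Ls.cons Ent.zero (Ls.cons Ent.zero (Ls.cons Ent.zero (Ls.cons Ent.zero (Ls.cons Ent.zero (Ls.cons Ent.zero (Ls.cons Ent.zero (Ls.cons Ent.zero (Ls.cons Ent.zero (Ls.cons Ent.zero (Ls.cons Ent.zero (Ls.cons Ent.zero (Ls.cons Ent.zero (Ls.cons Ent.zero (Ls.cons Ent.zero (Ls.cons Ent.zero (Ls.cons Ent.zero (Ls.cons Ent.zero (Ls.cons Ent.zero (Ls.cons Ent.zero (Ls.cons Ent.zero (Ls.cons Ent.zero Ls.nil)))))))))))))))))))))))))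
 (Ls.cons (Ls.cons Ent.zero (Ls.cons Ent.zero (Ls.cons Ent.zero (Ls.cons Ent.zero (Ls.cons Ent.zero (Ls.cons Ent.zero (Ls.cons Ent.zero (Ls.cons Ent.zero (Ls.cons Ent.zero (Ls.cons Ent.zero (Ls.cons Ent.zero (Ls.cons Ent.zero (Ls.cons Ent.zero (Ls.cons Ent.zero (Ls.cons Ent.zero (Ls.cons Ent.zero (Ls.cons Ent.zero (Ls.cons Ent.zero (Ls.cons Ent.zero (Ls.cons Ent.zero (Ls.cons Ent.zero (Ls.cons Ent.zero (Ls.cons Ent.zero (Ls.cons Ent.zero (Ls.cons Ent.zero Ls.nil)))))))))))))))))))))))))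
 (Ls.cons (Ls.cons Ent.zero (Ls.cons Ent.zero (Ls.cons Ent.zero (Ls.cons Ent.zero (Ls.cons Ent.zero (Ls.cons Ent.zero (Ls.cons Ent.zero (Ls.cons Ent.zero (Ls.cons Ent.zero (Ls.cons Ent.zero (Ls.cons Ent.zero (Ls.cons Ent.zero (Ls.cons Ent.zero (Ls.cons Ent.zero (Ls.cons Ent.zero (Ls.cons Ent.zero (Ls.cons Ent.zero (Ls.cons Ent.zero (Ls.cons Ent.zero (Ls.cons Ent.zero (Ls.cons Ent.zero (Ls.cons Ent.zero (Ls.cons Ent.zero (Ls.cons Ent.zero (Ls.cons Ent.zero Ls.nil)))))))))))))))))))))))))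
 (Ls.cons (Ls.cons Ent.zero (Ls.cons Ent.zero (Ls.cons Ent.zero (Ls.cons Ent.zero (Ls.cons Ent.zero (Ls.cons Ent.zero (Ls.cons Ent.zero (Ls.cons Ent.zero (Ls.cons Ent.zero (Ls.cons Ent.zero (Ls.cons Ent.zero (Ls.cons Ent.zero (Ls.cons Ent.zero (Ls.cons Ent.zero (Ls.cons Ent.zero (Ls.cons Ent.zero (Ls.cons Ent.zero (Ls.cons Ent.zero (Ls.cons Ent.zero (Ls.cons Ent.zero (Ls.cons Ent.zero (Ls.cons Ent.zero (Ls.cons Ent.zero (Ls.cons Ent.zero (Ls.cons Ent.zero Ls.nil)))))))))))))))))))))))))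
 (Ls.cons (Ls.cons Ent.zero (Ls.cons Ent.zero (Ls.cons Ent.zero (Ls.cons Ent.zero (Ls.cons Ent.zero (Ls.cons Ent.zero (Ls.cons Ent.zero (Ls.cons Ent.zero (Ls.cons Ent.zero (Ls.cons Ent.zero (Ls.cons Ent.zero (Ls.cons Ent.zero (Ls.cons Ent.zero (Ls.cons Ent.zero (Ls.cons Ent.zero (Ls.cons Ent.zero (Ls.cons Ent.zero (Ls.cons Ent.zero (Ls.cons Ent.zero (Ls.cons Ent.zero (Ls.cons Ent.zero (Ls.cons Ent.zero (Ls.cons Ent.zero (Ls.cons Ent.zero (Ls.cons Ent.zero Ls.nil)))))))))))))))))))))))))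
 (Ls.cons (Ls.cons Ent.zero (Ls.cons Ent.zero (Ls.cons Ent.zero (Ls.cons Ent.zero (Ls.cons Ent.zero (Ls.cons Ent.zero (Ls.cons Ent.zero (Ls.cons Ent.zero (Ls.cons Ent.zero (Ls.cons Ent.zero (Ls.cons Ent.zero (Ls.cons Ent.zero (Ls.cons Ent.zero (Ls.cons Ent.zero (Ls.cons Ent.zero (Ls.cons Ent.zero (Ls.cons Ent.zero (Ls.cons Ent.zero (Ls.cons Ent.zero (Ls.cons Ent.zero (Ls.cons Ent.zero (Ls.cons Ent.zero (Ls.cons Ent.zero (Ls.cons Ent.zero (Ls.cons Ent.zero Ls.nil)))))))))))))))))))))))))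
 Ls.nil))))))))))))))))))))

noncomputable def bxF0_10 : L2 :=
 (Ls.cons (Ls.cons Ent.zero (Ls.cons Ent.zero (Ls.cons Ent.zero (Ls.cons Ent.zero (Ls.cons Ent.zero (Ls.cons Ent.zero (Ls.cons Ent.zero (Ls.cons Ent.zero (Ls.cons Ent.zero (Ls.cons Ent.zero (Ls.cons Ent.zero (Ls.cons Ent.zero (Ls.cons Ent.zero (Ls.cons Ent.zero (Ls.cons Ent.zero (Ls.cons Ent.zero (Ls.cons Ent.zero (Ls.cons Ent.zero (Ls.cons Ent.zero (Ls.cons Ent.zero (Ls.cons Ent.zero (Ls.cons Ent.zero (Ls.cons Ent.zero (Ls.cons Ent.zero (Ls.cons Ent.zero Ls.nil)))))))))))))))))))))))))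
 (Ls.cons (Ls.cons Ent.zero (Ls.cons Ent.zero (Ls.cons Ent.zero (Ls.cons Ent.zero (Ls.cons Ent.zero (Ls.cons Ent.zero (Ls.cons Ent.zero (Ls.cons Ent.zero (Ls.cons Ent.zero (Ls.cons Ent.zero (Ls.cons Ent.zero (Ls.cons Ent.zero (Ls.cons Ent.zero (Ls.cons Ent.zero (Ls.cons Ent.zero (Ls.cons Ent.zero (Ls.cons Ent.zero (Ls.cons Ent.zero (Ls.cons Ent.zero (Ls.cons Ent.zero (Ls.cons Ent.zero (Ls.cons Ent.zero (Ls.cons Ent.zero (Ls.cons Ent.zero (Ls.cons Ent.zero Ls.nil)))))))))))))))))))))))))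
 (Ls.cons (Ls.cons Ent.zero (Ls.cons Ent.zero (Ls.cons Ent.zero (Ls.cons Ent.zero (Ls.cons Ent.zero (Ls.cons Ent.zero (Ls.cons Ent.zero (Ls.cons Ent.zero (Ls.cons Ent.zero (Ls.cons Ent.zero (Ls.cons Ent.zero (Ls.cons Ent.zero (Ls.cons Ent.zero (Ls.cons Ent.zero (Ls.cons Ent.zero (Ls.cons Ent.zero (Ls.cons Ent.zero (Ls.cons Ent.zero (Ls.cons Ent.zero (Ls.cons Ent.zero (Ls.cons Ent.zero (Ls.cons Ent.zero (Ls.cons Ent.zero (Ls.cons Ent.zero (Ls.cons Ent.zero Ls.nil)))))))))))))))))))))))))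
 (Ls.cons (Ls.cons Ent.zero (Ls.cons Ent.zero (Ls.cons Ent.zero (Ls.cons Ent.zero (Ls.cons Ent.zero (Ls.cons Ent.zero (Ls.cons Ent.zero (Ls.cons Ent.zero (Ls.cons Ent.zero (Ls.cons Ent.zero (Ls.cons Ent.zero (Ls.cons Ent.zero (Ls.cons Ent.zero (Ls.cons Ent.zero (Ls.cons Ent.zero (Ls.cons Ent.zero (Ls.cons Ent.zero (Ls.cons Ent.zero (Ls.cons Ent.zero (Ls.cons Ent.zero (Ls.cons Ent.zero (Ls.cons Ent.zero (Ls.cons Ent.zero (Ls.cons Ent.zero (Ls.cons Ent.zero Ls.nil)))))))))))))))))))))))))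
 (Ls.cons (Ls.cons Ent.zero (Ls.cons Ent.zero (Ls.cons Ent.zero (Ls.cons Ent.zero (Ls.cons Ent.zero (Ls.cons Ent.zero (Ls.cons Ent.zero (Ls.cons Ent.zero (Ls.cons Ent.zero (Ls.cons Ent.zero (Ls.cons Ent.zero (Ls.cons Ent.zero (Ls.cons Ent.zero (Ls.cons Ent.zero (Ls.cons Ent.zero (Ls.cons Ent.zero (Ls.cons Ent.zero (Ls.cons Ent.zero (Ls.cons Ent.zero (Ls.cons Ent.zero (Ls.cons Ent.zero (Ls.cons Ent.zero (Ls.cons Ent.zero (Ls.cons Ent.zero (Ls.cons Ent.zero Ls.nil)))))))))))))))))))))))))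
 (Ls.cons (Ls.cons Ent.zero (Ls.cons Ent.zero (Ls.cons Ent.zero (Ls.cons Ent.zero (Ls.cons Ent.zero (Ls.cons Ent.zero (Ls.cons Ent.zero (Ls.cons Ent.zero (Ls.cons Ent.zero (Ls.cons Ent.zero (Ls.cons Ent.zero (Ls.cons Ent.zero (Ls.cons Ent.zero (Ls.cons Ent.zero (Ls.cons Ent.zero (Ls.cons Ent.zero (Ls.cons Ent.zero (Ls.cons Ent.zero (Ls.cons Ent.zero (Ls.cons Ent.zero (Ls.cons Ent.zero (Ls.cons Ent.zero (Ls.cons Ent.zero (Ls.cons Ent.zero (Ls.cons Ent.zero Ls.nil)))))))))))))))))))))))))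
 (Ls.cons (Ls.cons Ent.zero (Ls.cons Ent.zero (Ls.cons Ent.zero (Ls.cons Ent.zero (Ls.cons Ent.zero (Ls.cons Ent.zero (Ls.cons Ent.zero (Ls.cons Ent.zero (Ls.cons Ent.zero (Ls.cons Ent.zero (Ls.cons Ent.zero (Ls.cons Ent.zero (Ls.cons Ent.zero (Ls.cons Ent.zero (Ls.cons Ent.zero (Ls.cons Ent.zero (Ls.cons Ent.zero (Ls.cons Ent.zero (Ls.cons Ent.zero (Ls.cons Ent.zero (Ls.cons Ent.zero (Ls.cons Ent.zero (Ls.cons Ent.zero (Ls.cons Ent.zero (Ls.cons Ent.zero Ls.nil)))))))))))))))))))))))))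
 (Ls.cons (Ls.cons Ent.zero (Ls.cons Ent.zero (Ls.cons Ent.zero (Ls.cons Ent.zero (Ls.cons Ent.zero (Ls.cons Ent.zero (Ls.cons Ent.zero (Ls.cons Ent.zero (Ls.cons Ent.zero (Ls.cons Ent.zero (Ls.cons Ent.zero (Ls.cons Ent.zero (Ls.cons Ent.zero (Ls.cons Ent.zero (Ls.cons Ent.zero (Ls.cons Ent.zero (Ls.cons Ent.zero (Ls.cons Ent.zero (Ls.cons Ent.zero (Ls.cons Ent.zero (Ls.cons Ent.zero (Ls.cons Ent.zero (Ls.cons Ent.zero (Ls.cons Ent.zero (Ls.cons Ent.zero Ls.nil)))))))))))))))))))))))))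
 (Ls.cons (Ls.cons Ent.zero (Ls.cons Ent.zero (Ls.cons Ent.zero (Ls.cons Ent.zero (Ls.cons Ent.zero (Ls.cons Ent.zero (Ls.cons Ent.zero (Ls.cons Ent.zero (Ls.cons Ent.zero (Ls.cons Ent.zero (Ls.cons Ent.zero (Ls.cons Ent.zero (Ls.cons Ent.zero (Ls.cons Ent.zero (Ls.cons Ent.zero (Ls.cons Ent.zero (Ls.cons Ent.zero (Ls.cons Ent.zero (Ls.cons Ent.zero (Ls.cons Ent.zero (Ls.cons Ent.zero (Ls.cons Ent.zero (Ls.cons Ent.zero (Ls.cons Ent.zero (Ls.cons Ent.zero Ls.nil)))))))))))))))))))))))))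
 (Ls.cons (Ls.cons Ent.zero (Ls.cons Ent.zero (Ls.cons Ent.zero (Ls.cons Ent.zero (Ls.cons Ent.zero (Ls.cons Ent.zero (Ls.cons Ent.zero (Ls.cons Ent.zero (Ls.cons Ent.zero (Ls.cons Ent.zero (Ls.cons Ent.zero (Ls.cons Ent.zero (Ls.cons Ent.zero (Ls.cons Ent.zero (Ls.cons Ent.zero (Ls.cons Ent.zero (Ls.cons Ent.zero (Ls.cons Ent.zero (Ls.cons Ent.zero (Ls.cons Ent.zero (Ls.cons Ent.zero (Ls.cons Ent.zero (Ls.cons Ent.zero (Ls.cons Ent.zero (Ls.cons Ent.zero Ls.nil)))))))))))))))))))))))))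
 (Ls.cons (Ls.cons Ent.zero (Ls.cons Ent.zero (Ls.cons Ent.zero (Ls.cons Ent.zero (Ls.cons Ent.zero (Ls.cons Ent.zero (Ls.cons Ent.zero (Ls.cons Ent.zero (Ls.cons Ent.zero (Ls.cons Ent.zero (Ls.cons Ent.zero (Ls.cons Ent.zero (Ls.cons Ent.zero (Ls.cons Ent.zero (Ls.cons Ent.zero (Ls.cons Ent.zero (Ls.cons Ent.zero (Ls.cons Ent.zero (Ls.cons Ent.zero (Ls.cons Ent.zero (Ls.cons Ent.zero (Ls.cons Ent.zero (Ls.cons Ent.zero (Ls.cons Ent.zero (Ls.cons Ent.zero Ls.nil)))))))))))))))))))))))))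
 (Ls.cons (Ls.cons Ent.zero (Ls.cons Ent.zero (Ls.cons Ent.zero (Ls.cons Ent.zero (Ls.cons Ent.zero (Ls.cons Ent.zero (Ls.cons Ent.zero (Ls.cons Ent.zero (Ls.cons Ent.zero (Ls.cons Ent.zero (Ls.cons Ent.zero (Ls.cons Ent.zero (Ls.cons Ent.zero (Ls.cons Ent.zero (Ls.cons Ent.zero (Ls.cons Ent.zero (Ls.cons Ent.zero (Ls.cons Ent.zero (Ls.cons Ent.zero (Ls.cons Ent.zero (Ls.cons Ent.zero (Ls.cons Ent.zero (Ls.cons Ent.zero (Ls.cons Ent.zero (Ls.cons Ent.zero Ls.nil)))))))))))))))))))))))))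
 (Ls.cons (Ls.cons Ent.zero (Ls.cons Ent.zero (Ls.cons Ent.zero (Ls.cons Ent.zero (Ls.cons Ent.zero (Ls.cons Ent.zero (Ls.cons Ent.zero (Ls.cons Ent.zero (Ls.cons Ent.zero (Ls.cons Ent.zero (Ls.cons Ent.zero (Ls.cons Ent.zero (Ls.cons Ent.zero (Ls.cons Ent.zero (Ls.cons Ent.zero (Ls.cons Ent.zero (Ls.cons Ent.zero (Ls.cons Ent.zero (Ls.cons Ent.zero (Ls.cons Ent.zero (Ls.cons Ent.zero (Ls.cons Ent.zero (Ls.cons Ent.zero (Ls.cons Ent.zero (Ls.cons Ent.zero Ls.nil)))))))))))))))))))))))))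
 (Ls.cons (Ls.cons Ent.zero (Ls.cons Ent.zero (Ls.cons Ent.zero (Ls.cons Ent.zero (Ls.cons Ent.zero (Ls.cons Ent.zero (Ls.cons Ent.zero (Ls.cons Ent.zero (Ls.cons Ent.zero (Ls.cons Ent.zero (Ls.cons Ent.zero (Ls.cons Ent.zero (Ls.cons Ent.zero (Ls.cons Ent.zero (Ls.cons Ent.zero (Ls.cons Ent.zero (Ls.cons Ent.zero (Ls.cons Ent.zero (Ls.cons Ent.zero (Ls.cons Ent.zero (Ls.cons Ent.zero (Ls.cons Ent.zero (Ls.cons Ent.zero (Ls.cons Ent.zero (Ls.cons Ent.zero Ls.nil)))))))))))))))))))))))))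
 (Ls.cons (Ls.cons Ent.zero (Ls.cons Ent.zero (Ls.cons Ent.zero (Ls.cons Ent.zero (Ls.cons Ent.zero (Ls.cons Ent.zero (Ls.cons Ent.zero (Ls.cons Ent.zero (Ls.cons Ent.zero (Ls.cons Ent.zero (Ls.cons Ent.zero (Ls.cons Ent.zero (Ls.cons Ent.zero (Ls.cons Ent.zero (Ls.cons Ent.zero (Ls.cons Ent.zero (Ls.cons Ent.zero (Ls.cons Ent.zero (Ls.cons Ent.zero (Ls.cons Ent.zero (Ls.cons Ent.zero (Ls.cons Ent.zero (Ls.cons Ent.zero (Ls.cons Ent.zero (Ls.cons Ent.zero Ls.nil)))))))))))))))))))))))))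
 (Ls.cons (Ls.cons Ent.zero (Ls.cons Ent.zero (Ls.cons Ent.zero (Ls.cons Ent.zero (Ls.cons Ent.zero (Ls.cons Ent.zero (Ls.cons Ent.zero (Ls.cons Ent.zero (Ls.cons Ent.zero (Ls.cons Ent.zero (Ls.cons Ent.zero (Ls.cons Ent.zero (Ls.cons Ent.zero (Ls.cons Ent.zero (Ls.cons Ent.zero (Ls.cons Ent.zero (Ls.cons Ent.zero (Ls.cons Ent.zero (Ls.cons Ent.zero (Ls.cons Ent.zero (Ls.cons Ent.zero (Ls.cons Ent.zero (Ls.cons Ent.zero (Ls.cons Ent.zero (Ls.cons Ent.zero Ls.nil)))))))))))))))))))))))))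
 (Ls.cons (Ls.cons Ent.zero (Ls.cons Ent.zero (Ls.cons Ent.zero (Ls.cons Ent.zero (Ls.cons Ent.zero (Ls.cons Ent.zero (Ls.cons Ent.zero (Ls.cons Ent.zero (Ls.cons Ent.zero (Ls.cons Ent.zero (Ls.cons Ent.zero (Ls.cons Ent.zero (Ls.cons Ent.zero (Ls.cons Ent.zero (Ls.cons Ent.zero (Ls.cons Ent.zero (Ls.cons Ent.zero (Ls.cons Ent.zero (Ls.cons Ent.zero (Ls.cons Ent.zero (Ls.cons Ent.zero (Ls.cons Ent.zero (Ls.cons Ent.zero (Ls.cons Ent.zero (Ls.cons Ent.zero Ls.nil)))))))))))))))))))))))))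
 (Ls.cons (Ls.cons Ent.zero (Ls.cons Ent.zero (Ls.cons Ent.zero (Ls.cons Ent.zero (Ls.cons Ent.zero (Ls.cons Ent.zero (Ls.cons Ent.zero (Ls.cons Ent.zero (Ls.cons Ent.zero (Ls.cons Ent.zero (Ls.cons Ent.zero (Ls.cons Ent.zero (Ls.cons Ent.zero (Ls.cons Ent.zero (Ls.cons Ent.zero (Ls.cons Ent.zero (Ls.cons Ent.zero (Ls.cons Ent.zero (Ls.cons Ent.zero (Ls.cons Ent.zero (Ls.cons Ent.zero (Ls.cons Ent.zero (Ls.cons Ent.zero (Ls.cons Ent.zero (Ls.cons Ent.zero Ls.nil)))))))))))))))))))))))))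
 (Ls.cons (Ls.cons Ent.zero (Ls.cons Ent.zero (Ls.cons Ent.zero (Ls.cons Ent.zero (Ls.cons Ent.zero (Ls.cons Ent.zero (Ls.cons Ent.zero (Ls.cons Ent.zero (Ls.cons Ent.zero (Ls.cons Ent.zero (Ls.cons Ent.zero (Ls.cons Ent.zero (Ls.cons Ent.zero (Ls.cons Ent.zero (Ls.cons Ent.zero (Ls.cons Ent.zero (Ls.cons Ent.zero (Ls.cons Ent.zero (Ls.cons Ent.zero (Ls.cons Ent.zero (Ls.cons Ent.zero (Ls.cons Ent.zero (Ls.cons Ent.zero (Ls.cons Ent.zero (Ls.cons Ent.zero Ls.nil)))))))))))))))))))))))))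
 (Ls.cons (Ls.cons Ent.zero (Ls.cons Ent.zero (Ls.cons Ent.zero (Ls.cons Ent.zero (Ls.cons Ent.zero (Ls.cons Ent.zero (Ls.cons Ent.zero (Ls.cons Ent.zero (Ls.cons Ent.zero (Ls.cons Ent.zero (Ls.cons Ent.zero (Ls.cons Ent.zero (Ls.cons Ent.zero (Ls.cons Ent.zero (Ls.cons Ent.zero (Ls.cons Ent.zero (Ls.cons Ent.zero (Ls.cons Ent.zero (Ls.cons Ent.zero (Ls.cons Ent.zero (Ls.cons Ent.zero (Ls.cons Ent.zero (Ls.cons Ent.zero (Ls.cons Ent.zero (Ls.cons Ent.zero Ls.nil)))))))))))))))))))))))))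
 Ls.nil))))))))))))))))))))

noncomputable def bxF0_11 : L2 :=
 (Ls.cons (Ls.cons Ent.zero (Ls.cons Ent.zero (Ls.cons Ent.zero (Ls.cons Ent.zero (Ls.cons Ent.zero (Ls.cons Ent.zero (Ls.cons Ent.zero (Ls.cons Ent.zero (Ls.cons Ent.zero (Ls.cons Ent.zero (Ls.cons Ent.zero (Ls.cons Ent.zero (Ls.cons Ent.zero (Ls.cons Ent.zero (Ls.cons Ent.zero (Ls.cons Ent.zero (Ls.cons Ent.zero (Ls.cons Ent.zero (Ls.cons Ent.zero (Ls.cons Ent.zero (Ls.cons Ent.zero (Ls.cons Ent.zero (Ls.cons Ent.zero (Ls.cons Ent.zero (Ls.cons Ent.zero Ls.nil)))))))))))))))))))))))))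
 (Ls.cons (Ls.cons Ent.zero (Ls.cons Ent.zero (Ls.cons Ent.zero (Ls.cons Ent.zero (Ls.cons Ent.zero (Ls.cons Ent.zero (Ls.cons Ent.zero (Ls.cons Ent.zero (Ls.cons Ent.zero (Ls.cons Ent.zero (Ls.cons Ent.zero (Ls.cons Ent.zero (Ls.cons Ent.zero (Ls.cons Ent.zero (Ls.cons Ent.zero (Ls.cons Ent.zero (Ls.cons Ent.zero (Ls.cons Ent.zero (Ls.cons Ent.zero (Ls.cons Ent.zero (Ls.cons Ent.zero (Ls.cons Ent.zero (Ls.cons Ent.zero (Ls.cons Ent.zero (Ls.cons Ent.zero Ls.nil)))))))))))))))))))))))))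
 (Ls.cons (Ls.cons Ent.zero (Ls.cons Ent.zero (Ls.cons Ent.zero (Ls.cons Ent.zero (Ls.cons Ent.zero (Ls.cons Ent.zero (Ls.cons Ent.zero (Ls.cons Ent.zero (Ls.cons Ent.zero (Ls.cons Ent.zero (Ls.cons Ent.zero (Ls.cons Ent.zero (Ls.cons Ent.zero (Ls.cons Ent.zero (Ls.cons Ent.zero (Ls.cons Ent.zero (Ls.cons Ent.zero (Ls.cons Ent.zero (Ls.cons Ent.zero (Ls.cons Ent.zero (Ls.cons Ent.zero (Ls.cons Ent.zero (Ls.cons Ent.zero (Ls.cons Ent.zero (Ls.cons Ent.zero Ls.nil)))))))))))))))))))))))))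
 (Ls.cons (Ls.cons Ent.zero (Ls.cons Ent.zero (Ls.cons Ent.zero (Ls.cons Ent.zero (Ls.cons Ent.zero (Ls.cons Ent.zero (Ls.cons Ent.zero (Ls.cons Ent.zero (Ls.cons Ent.zero (Ls.cons Ent.zero (Ls.cons Ent.zero (Ls.cons Ent.zero (Ls.cons Ent.zero (Ls.cons Ent.zero (Ls.cons Ent.zero (Ls.cons Ent.zero (Ls.cons Ent.zero (Ls.cons Ent.zero (Ls.cons Ent.zero (Ls.cons Ent.zero (Ls.cons Ent.zero (Ls.cons Ent.zero (Ls.cons Ent.zero (Ls.cons Ent.zero (Ls.cons Ent.zero Ls.nil)))))))))))))))))))))))))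
 (Ls.cons (Ls.cons Ent.zero (Ls.cons Ent.zero (Ls.cons Ent.zero (Ls.cons Ent.zero (Ls.cons Ent.zero (Ls.cons Ent.zero (Ls.cons Ent.zero (Ls.cons Ent.zero (Ls.cons Ent.zero (Ls.cons Ent.zero (Ls.cons Ent.zero (Ls.cons Ent.zero (Ls.cons Ent.zero (Ls.cons Ent.zero (Ls.cons Ent.zero (Ls.cons Ent.zero (Ls.cons Ent.zero (Ls.cons Ent.zero (Ls.cons Ent.zero (Ls.cons Ent.zero (Ls.cons Ent.zero (Ls.cons Ent.zero (Ls.cons Ent.zero (Ls.cons Ent.zero (Ls.cons Ent.zero Ls.nil)))))))))))))))))))))))))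
 (Ls.cons (Ls.cons Ent.zero (Ls.cons Ent.zero (Ls.cons Ent.zero (Ls.cons Ent.zero (Ls.cons Ent.zero (Ls.cons Ent.zero (Ls.cons Ent.zero (Ls.cons Ent.zero (Ls.cons Ent.zero (Ls.cons Ent.zero (Ls.cons Ent.zero (Ls.cons Ent.zero (Ls.cons Ent.zero (Ls.cons Ent.zero (Ls.cons Ent.zero (Ls.cons Ent.zero (Ls.cons Ent.zero (Ls.cons Ent.zero (Ls.cons Ent.zero (Ls.cons Ent.zero (Ls.cons Ent.zero (Ls.cons Ent.zero (Ls.cons Ent.zero (Ls.cons Ent.zero (Ls.cons Ent.zero Ls.nil)))))))))))))))))))))))))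
 (Ls.cons (Ls.cons Ent.zero (Ls.cons Ent.zero (Ls.cons Ent.zero (Ls.cons Ent.zero (Ls.cons Ent.zero (Ls.cons Ent.zero (Ls.cons Ent.zero (Ls.cons Ent.zero (Ls.cons Ent.zero (Ls.cons Ent.zero (Ls.cons Ent.zero (Ls.cons Ent.zero (Ls.cons Ent.zero (Ls.cons Ent.zero (Ls.cons Ent.zero (Ls.cons Ent.zero (Ls.cons Ent.zero (Ls.cons Ent.zero (Ls.cons Ent.zero (Ls.cons Ent.zero (Ls.cons Ent.zero (Ls.cons Ent.zero (Ls.cons Ent.zero (Ls.cons Ent.zero (Ls.cons Ent.zero Ls.nil)))))))))))))))))))))))))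
 (Ls.cons (Ls.cons Ent.zero (Ls.cons Ent.zero (Ls.cons Ent.zero (Ls.cons Ent.zero (Ls.cons Ent.zero (Ls.cons Ent.zero (Ls.cons Ent.zero (Ls.cons Ent.zero (Ls.cons Ent.zero (Ls.cons Ent.zero (Ls.cons Ent.zero (Ls.cons Ent.zero (Ls.cons Ent.zero (Ls.cons Ent.zero (Ls.cons Ent.zero (Ls.cons Ent.zero (Ls.cons Ent.zero (Ls.cons Ent.zero (Ls.cons Ent.zero (Ls.cons Ent.zero (Ls.cons Ent.zero (Ls.cons Ent.zero (Ls.cons Ent.zero (Ls.cons Ent.zero (Ls.cons Ent.zero Ls.nil)))))))))))))))))))))))))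
 (Ls.cons (Ls.cons Ent.zero (Ls.cons Ent.zero (Ls.cons Ent.zero (Ls.cons Ent.zero (Ls.cons Ent.zero (Ls.cons Ent.zero (Ls.cons Ent.zero (Ls.cons Ent.zero (Ls.cons Ent.zero (Ls.cons Ent.zero (Ls.cons Ent.zero (Ls.cons Ent.zero (Ls.cons Ent.zero (Ls.cons Ent.zero (Ls.cons Ent.zero (Ls.cons Ent.zero (Ls.cons Ent.zero (Ls.cons Ent.zero (Ls.cons Ent.zero (Ls.cons Ent.zero (Ls.cons Ent.zero (Ls.cons Ent.zero (Ls.cons Ent.zero (Ls.cons Ent.zero (Ls.cons Ent.zero Ls.nil)))))))))))))))))))))))))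
 (Ls.cons (Ls.cons Ent.zero (Ls.cons Ent.zero (Ls.cons Ent.zero (Ls.cons Ent.zero (Ls.cons Ent.zero (Ls.cons Ent.zero (Ls.cons Ent.zero (Ls.cons Ent.zero (Ls.cons Ent.zero (Ls.cons Ent.zero (Ls.cons Ent.zero (Ls.cons Ent.zero (Ls.cons Ent.zero (Ls.cons Ent.zero (Ls.cons Ent.zero (Ls.cons Ent.zero (Ls.cons Ent.zero (Ls.cons Ent.zero (Ls.cons Ent.zero (Ls.cons Ent.zero (Ls.cons Ent.zero (Ls.cons Ent.zero (Ls.cons Ent.zero (Ls.cons Ent.zero (Ls.cons Ent.zero Ls.nil)))))))))))))))))))))))))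
 (Ls.cons (Ls.cons Ent.zero (Ls.cons Ent.zero (Ls.cons Ent.zero (Ls.cons Ent.zero (Ls.cons Ent.zero (Ls.cons Ent.zero (Ls.cons Ent.zero (Ls.cons Ent.zero (Ls.cons Ent.zero (Ls.cons Ent.zero (Ls.cons Ent.zero (Ls.cons Ent.zero (Ls.cons Ent.zero (Ls.cons Ent.zero (Ls.cons Ent.zero (Ls.cons Ent.zero (Ls.cons Ent.zero (Ls.cons Ent.zero (Ls.cons Ent.zero (Ls.cons Ent.zero (Ls.cons Ent.zero (Ls.cons Ent.zero (Ls.cons Ent.zero (Ls.cons Ent.zero (Ls.cons Ent.zero Ls.nil)))))))))))))))))))))))))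
 (Ls.cons (Ls.cons Ent.zero (Ls.cons Ent.zero (Ls.cons Ent.zero (Ls.cons Ent.zero (Ls.cons Ent.zero (Ls.cons Ent.zero (Ls.cons Ent.zero (Ls.cons Ent.zero (Ls.cons Ent.zero (Ls.cons Ent.zero (Ls.cons Ent.zero (Ls.cons Ent.zero (Ls.cons Ent.zero (Ls.cons Ent.zero (Ls.cons Ent.zero (Ls.cons Ent.zero (Ls.cons Ent.zero (Ls.cons Ent.zero (Ls.cons Ent.zero (Ls.cons Ent.zero (Ls.cons Ent.zero (Ls.cons Ent.zero (Ls.cons Ent.zero (Ls.cons Ent.zero (Ls.cons Ent.zero Ls.nil)))))))))))))))))))))))))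
 (Ls.cons (Ls.cons Ent.zero (Ls.cons Ent.zero (Ls.cons Ent.zero (Ls.cons Ent.zero (Ls.cons Ent.zero (Ls.cons Ent.zero (Ls.cons Ent.zero (Ls.cons Ent.zero (Ls.cons Ent.zero (Ls.cons Ent.zero (Ls.cons Ent.zero (Ls.cons Ent.zero (Ls.cons Ent.zero (Ls.cons Ent.zero (Ls.cons Ent.zero (Ls.cons Ent.zero (Ls.cons Ent.zero (Ls.cons Ent.zero (Ls.cons Ent.zero (Ls.cons Ent.zero (Ls.cons Ent.zero (Ls.cons Ent.zero (Ls.cons Ent.zero (Ls.cons Ent.zero (Ls.cons Ent.zero Ls.nil)))))))))))))))))))))))))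
 (Ls.cons (Ls.cons Ent.zero (Ls.cons Ent.zero (Ls.cons Ent.zero (Ls.cons Ent.zero (Ls.cons Ent.zero (Ls.cons Ent.zero (Ls.cons Ent.zero (Ls.cons Ent.zero (Ls.cons Ent.zero (Ls.cons Ent.zero (Ls.cons Ent.zero (Ls.cons Ent.zero (Ls.cons Ent.zero (Ls.cons Ent.zero (Ls.cons Ent.zero (Ls.cons Ent.zero (Ls.cons Ent.zero (Ls.cons Ent.zero (Ls.cons Ent.zero (Ls.cons Ent.zero (Ls.cons Ent.zero (Ls.cons Ent.zero (Ls.cons Ent.zero (Ls.cons Ent.zero (Ls.cons Ent.zero Ls.nil)))))))))))))))))))))))))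
 (Ls.cons (Ls.cons Ent.zero (Ls.cons Ent.zero (Ls.cons Ent.zero (Ls.cons Ent.zero (Ls.cons Ent.zero (Ls.cons Ent.zero (Ls.cons Ent.zero (Ls.cons Ent.zero (Ls.cons Ent.zero (Ls.cons Ent.zero (Ls.cons Ent.zero (Ls.cons Ent.zero (Ls.cons Ent.zero (Ls.cons Ent.zero (Ls.cons Ent.zero (Ls.cons Ent.zero (Ls.cons Ent.zero (Ls.cons Ent.zero (Ls.cons Ent.zero (Ls.cons Ent.zero (Ls.cons Ent.zero (Ls.cons Ent.zero (Ls.cons Ent.zero (Ls.cons Ent.zero (Ls.cons Ent.zero Ls.nil)))))))))))))))))))))))))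
 (Ls.cons (Ls.cons Ent.zero (Ls.cons Ent.zero (Ls.cons Ent.zero (Ls.cons Ent.zero (Ls.cons Ent.zero (Ls.cons Ent.zero (Ls.cons Ent.zero (Ls.cons Ent.zero (Ls.cons Ent.zero (Ls.cons Ent.zero (Ls.cons Ent.zero (Ls.cons Ent.zero (Ls.cons Ent.zero (Ls.cons Ent.zero (Ls.cons Ent.zero (Ls.cons Ent.zero (Ls.cons Ent.zero (Ls.cons Ent.zero (Ls.cons Ent.zero (Ls.cons Ent.zero (Ls.cons Ent.zero (Ls.cons Ent.zero (Ls.cons Ent.zero (Ls.cons Ent.zero (Ls.cons Ent.zero Ls.nil)))))))))))))))))))))))))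
 (Ls.cons (Ls.cons Ent.zero (Ls.cons Ent.zero (Ls.cons Ent.zero (Ls.cons Ent.zero (Ls.cons Ent.zero (Ls.cons Ent.zero (Ls.cons Ent.zero (Ls.cons Ent.zero (Ls.cons Ent.zero (Ls.cons Ent.zero (Ls.cons Ent.zero (Ls.cons Ent.zero (Ls.cons Ent.zero (Ls.cons Ent.zero (Ls.cons Ent.zero (Ls.cons Ent.zero (Ls.cons Ent.zero (Ls.cons Ent.zero (Ls.cons Ent.zero (Ls.cons Ent.zero (Ls.cons Ent.zero (Ls.cons Ent.zero (Ls.cons Ent.zero (Ls.cons Ent.zero (Ls.cons Ent.zero Ls.nil)))))))))))))))))))))))))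
 (Ls.cons (Ls.cons Ent.zero (Ls.cons Ent.zero (Ls.cons Ent.zero (Ls.cons Ent.zero (Ls.cons Ent.zero (Ls.cons Ent.zero (Ls.cons Ent.zero (Ls.cons Ent.zero (Ls.cons Ent.zero (Ls.cons Ent.zero (Ls.cons Ent.zero (Ls.cons Ent.zero (Ls.cons Ent.zero (Ls.cons Ent.zero (Ls.cons Ent.zero (Ls.cons Ent.zero (Ls.cons Ent.zero (Ls.cons Ent.zero (Ls.cons Ent.zero (Ls.cons Ent.zero (Ls.cons Ent.zero (Ls.cons Ent.zero (Ls.cons Ent.zero (Ls.cons Ent.zero (Ls.cons Ent.zero Ls.nil)))))))))))))))))))))))))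
 (Ls.cons (Ls.cons Ent.zero (Ls.cons Ent.zero (Ls.cons Ent.zero (Ls.cons Ent.zero (Ls.cons Ent.zero (Ls.cons Ent.zero (Ls.cons Ent.zero (Ls.cons Ent.zero (Ls.cons Ent.zero (Ls.cons Ent.zero (Ls.cons Ent.zero (Ls.cons Ent.zero (Ls.cons Ent.zero (Ls.cons Ent.zero (Ls.cons Ent.zero (Ls.cons Ent.zero (Ls.cons Ent.zero (Ls.cons Ent.zero (Ls.cons Ent.zero (Ls.cons Ent.zero (Ls.cons Ent.zero (Ls.cons Ent.zero (Ls.cons Ent.zero (Ls.cons Ent.zero (Ls.cons Ent.zero Ls.nil)))))))))))))))))))))))))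
 (Ls.cons (Ls.cons Ent.zero (Ls.cons Ent.zero (Ls.cons Ent.zero (Ls.cons Ent.zero (Ls.cons Ent.zero (Ls.cons Ent.zero (Ls.cons Ent.zero (Ls.cons Ent.zero (Ls.cons Ent.zero (Ls.cons Ent.zero (Ls.cons Ent.zero (Ls.cons Ent.zero (Ls.cons Ent.zero (Ls.cons Ent.zero (Ls.cons Ent.zero (Ls.cons Ent.zero (Ls.cons Ent.zero (Ls.cons Ent.zero (Ls.cons Ent.zero (Ls.cons Ent.zero (Ls.cons Ent.zero (Ls.cons Ent.zero (Ls.cons Ent.zero (Ls.cons Ent.zero (Ls.cons Ent.zero Ls.nil)))))))))))))))))))))))))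
 Ls.nil))))))))))))))))))))

noncomputable def bxF0_12 : L2 :=
 (Ls.cons (Ls.cons Ent.zero (Ls.cons Ent.zero (Ls.cons Ent.zero (Ls.cons Ent.zero (Ls.cons Ent.zero (Ls.cons Ent.zero (Ls.cons Ent.zero (Ls.cons Ent.zero (Ls.cons Ent.zero (Ls.cons Ent.zero (Ls.cons Ent.zero (Ls.cons Ent.zero (Ls.cons Ent.zero (Ls.cons Ent.zero (Ls.cons Ent.zero (Ls.cons Ent.zero (Ls.cons Ent.zero (Ls.cons Ent.zero (Ls.cons Ent.zero (Ls.cons Ent.zero (Ls.cons Ent.zero (Ls.cons Ent.zero (Ls.cons Ent.zero (Ls.cons Ent.zero (Ls.cons Ent.zero Ls.nil)))))))))))))))))))))))))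
 (Ls.cons (Ls.cons Ent.zero (Ls.cons Ent.zero (Ls.cons Ent.zero (Ls.cons Ent.zero (Ls.cons Ent.zero (Ls.cons Ent.zero (Ls.cons Ent.zero (Ls.cons Ent.zero (Ls.cons Ent.zero (Ls.cons Ent.zero (Ls.cons Ent.zero (Ls.cons Ent.zero (Ls.cons Ent.zero (Ls.cons Ent.zero (Ls.cons Ent.zero (Ls.cons Ent.zero (Ls.cons Ent.zero (Ls.cons Ent.zero (Ls.cons Ent.zero (Ls.cons Ent.zero (Ls.cons Ent.zero (Ls.cons Ent.zero (Ls.cons Ent.zero (Ls.cons Ent.zero (Ls.cons Ent.zero Ls.nil)))))))))))))))))))))))))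
 (Ls.cons (Ls.cons Ent.zero (Ls.cons Ent.zero (Ls.cons Ent.zero (Ls.cons Ent.zero (Ls.cons Ent.zero (Ls.cons Ent.zero (Ls.cons Ent.zero (Ls.cons Ent.zero (Ls.cons Ent.zero (Ls.cons Ent.zero (Ls.cons Ent.zero (Ls.cons Ent.zero (Ls.cons Ent.zero (Ls.cons Ent.zero (Ls.cons Ent.zero (Ls.cons Ent.zero (Ls.cons Ent.zero (Ls.cons Ent.zero (Ls.cons Ent.zero (Ls.cons Ent.zero (Ls.cons Ent.zero (Ls.cons Ent.zero (Ls.cons Ent.zero (Ls.cons Ent.zero (Ls.cons Ent.zero Ls.nil)))))))))))))))))))))))))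
 (Ls.cons (Ls.cons Ent.zero (Ls.cons Ent.zero (Ls.cons Ent.zero (Ls.cons Ent.zero (Ls.cons Ent.zero (Ls.cons Ent.zero (Ls.cons Ent.zero (Ls.cons Ent.zero (Ls.cons Ent.zero (Ls.cons Ent.zero (Ls.cons Ent.zero (Ls.cons Ent.zero (Ls.cons Ent.zero (Ls.cons Ent.zero (Ls.cons Ent.zero (Ls.cons Ent.zero (Ls.cons Ent.zero (Ls.cons Ent.zero (Ls.cons Ent.zero (Ls.cons Ent.zero (Ls.cons Ent.zero (Ls.cons Ent.zero (Ls.cons Ent.zero (Ls.cons Ent.zero (Ls.cons Ent.zero Ls.nil)))))))))))))))))))))))))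
 (Ls.cons (Ls.cons Ent.zero (Ls.cons Ent.zero (Ls.cons Ent.zero (Ls.cons Ent.zero (Ls.cons Ent.zero (Ls.cons Ent.zero (Ls.cons Ent.zero (Ls.cons Ent.zero (Ls.cons Ent.zero (Ls.cons Ent.zero (Ls.cons Ent.zero (Ls.cons Ent.zero (Ls.cons Ent.zero (Ls.cons Ent.zero (Ls.cons Ent.zero (Ls.cons Ent.zero (Ls.cons Ent.zero (Ls.cons Ent.zero (Ls.cons Ent.zero (Ls.cons Ent.zero (Ls.cons Ent.zero (Ls.cons Ent.zero (Ls.cons Ent.zero (Ls.cons Ent.zero (Ls.cons Ent.zero Ls.nil)))))))))))))))))))))))))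
 (Ls.cons (Ls.cons Ent.zero (Ls.cons Ent.zero (Ls.cons Ent.zero (Ls.cons Ent.zero (Ls.cons Ent.zero (Ls.cons Ent.zero (Ls.cons Ent.zero (Ls.cons Ent.zero (Ls.cons Ent.zero (Ls.cons Ent.zero (Ls.cons Ent.zero (Ls.cons Ent.zero (Ls.cons Ent.zero (Ls.cons Ent.zero (Ls.cons Ent.zero (Ls.cons Ent.zero (Ls.cons Ent.zero (Ls.cons Ent.zero (Ls.cons Ent.zero (Ls.cons Ent.zero (Ls.cons Ent.zero (Ls.cons Ent.zero (Ls.cons Ent.zero (Ls.cons Ent.zero (Ls.cons Ent.zero Ls.nil)))))))))))))))))))))))))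
 (Ls.cons (Ls.cons Ent.zero (Ls.cons Ent.zero (Ls.cons Ent.zero (Ls.cons Ent.zero (Ls.cons Ent.zero (Ls.cons Ent.zero (Ls.cons Ent.zero (Ls.cons Ent.zero (Ls.cons Ent.zero (Ls.cons Ent.zero (Ls.cons Ent.zero (Ls.cons Ent.zero (Ls.cons Ent.zero (Ls.cons Ent.zero (Ls.cons Ent.zero (Ls.cons Ent.zero (Ls.cons Ent.zero (Ls.cons Ent.zero (Ls.cons Ent.zero (Ls.cons Ent.zero (Ls.cons Ent.zero (Ls.cons Ent.zero (Ls.cons Ent.zero (Ls.cons Ent.zero (Ls.cons Ent.zero Ls.nil)))))))))))))))))))))))))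
 (Ls.cons (Ls.cons Ent.zero (Ls.cons Ent.zero (Ls.cons Ent.zero (Ls.cons Ent.zero (Ls.cons Ent.zero (Ls.cons Ent.zero (Ls.cons Ent.zero (Ls.cons Ent.zero (Ls.cons Ent.zero (Ls.cons Ent.zero (Ls.cons Ent.zero (Ls.cons Ent.zero (Ls.cons Ent.zero (Ls.cons Ent.zero (Ls.cons Ent.zero (Ls.cons Ent.zero (Ls.cons Ent.zero (Ls.cons Ent.zero (Ls.cons Ent.zero (Ls.cons Ent.zero (Ls.cons Ent.zero (Ls.cons Ent.zero (Ls.cons Ent.zero (Ls.cons Ent.zero (Ls.cons Ent.zero Ls.nil)))))))))))))))))))))))))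
 (Ls.cons (Ls.cons Ent.zero (Ls.cons Ent.zero (Ls.cons Ent.zero (Ls.cons Ent.zero (Ls.cons Ent.zero (Ls.cons Ent.zero (Ls.cons Ent.zero (Ls.cons Ent.zero (Ls.cons Ent.zero (Ls.cons Ent.zero (Ls.cons Ent.zero (Ls.cons Ent.zero (Ls.cons Ent.zero (Ls.cons Ent.zero (Ls.cons Ent.zero (Ls.cons Ent.zero (Ls.cons Ent.zero (Ls.cons Ent.zero (Ls.cons Ent.zero (Ls.cons Ent.zero (Ls.cons Ent.zero (Ls.cons Ent.zero (Ls.cons Ent.zero (Ls.cons Ent.zero (Ls.cons Ent.zero Ls.nil)))))))))))))))))))))))))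
 (Ls.cons (Ls.cons Ent.zero (Ls.cons Ent.zero (Ls.cons Ent.zero (Ls.cons Ent.zero (Ls.cons Ent.zero (Ls.cons Ent.zero (Ls.cons Ent.zero (Ls.cons Ent.zero (Ls.cons Ent.zero (Ls.cons Ent.zero (Ls.cons Ent.zero (Ls.cons Ent.zero (Ls.cons Ent.zero (Ls.cons Ent.zero (Ls.cons Ent.zero (Ls.cons Ent.zero (Ls.cons Ent.zero (Ls.cons Ent.zero (Ls.cons Ent.zero (Ls.cons Ent.zero (Ls.cons Ent.zero (Ls.cons Ent.zero (Ls.cons Ent.zero (Ls.cons Ent.zero (Ls.cons Ent.zero Ls.nil)))))))))))))))))))))))))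
 (Ls.cons (Ls.cons Ent.zero (Ls.cons Ent.zero (Ls.cons Ent.zero (Ls.cons Ent.zero (Ls.cons Ent.zero (Ls.cons Ent.zero (Ls.cons Ent.zero (Ls.cons Ent.zero (Ls.cons Ent.zero (Ls.cons Ent.zero (Ls.cons Ent.zero (Ls.cons Ent.zero (Ls.cons Ent.zero (Ls.cons Ent.zero (Ls.cons Ent.zero (Ls.cons Ent.zero (Ls.cons Ent.zero (Ls.cons Ent.zero (Ls.cons Ent.zero (Ls.cons Ent.zero (Ls.cons Ent.zero (Ls.cons Ent.zero (Ls.cons Ent.zero (Ls.cons Ent.zero (Ls.cons Ent.zero Ls.nil)))))))))))))))))))))))))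
 (Ls.cons (Ls.cons Ent.zero (Ls.cons Ent.zero (Ls.cons Ent.zero (Ls.cons Ent.zero (Ls.cons Ent.zero (Ls.cons Ent.zero (Ls.cons Ent.zero (Ls.cons Ent.zero (Ls.cons Ent.zero (Ls.cons Ent.zero (Ls.cons Ent.zero (Ls.cons Ent.zero (Ls.cons Ent.zero (Ls.cons Ent.zero (Ls.cons Ent.zero (Ls.cons Ent.zero (Ls.cons Ent.zero (Ls.cons Ent.zero (Ls.cons Ent.zero (Ls.cons Ent.zero (Ls.cons Ent.zero (Ls.cons Ent.zero (Ls.cons Ent.zero (Ls.cons Ent.zero (Ls.cons Ent.zero Ls.nil)))))))))))))))))))))))))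
 (Ls.cons (Ls.cons Ent.zero (Ls.cons Ent.zero (Ls.cons Ent.zero (Ls.cons Ent.zero (Ls.cons Ent.zero (Ls.cons Ent.zero (Ls.cons Ent.zero (Ls.cons Ent.zero (Ls.cons Ent.zero (Ls.cons Ent.zero (Ls.cons Ent.zero (Ls.cons Ent.zero (Ls.cons Ent.zero (Ls.cons Ent.zero (Ls.cons Ent.zero (Ls.cons Ent.zero (Ls.cons Ent.zero (Ls.cons Ent.zero (Ls.cons Ent.zero (Ls.cons Ent.zero (Ls.cons Ent.zero (Ls.cons Ent.zero (Ls.cons Ent.zero (Ls.cons Ent.zero (Ls.cons Ent.zero Ls.nil)))))))))))))))))))))))))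
 (Ls.cons (Ls.cons Ent.zero (Ls.cons Ent.zero (Ls.cons Ent.zero (Ls.cons Ent.zero (Ls.cons Ent.zero (Ls.cons Ent.zero (Ls.cons Ent.zero (Ls.cons Ent.zero (Ls.cons Ent.zero (Ls.cons Ent.zero (Ls.cons Ent.zero (Ls.cons Ent.zero (Ls.cons Ent.zero (Ls.cons Ent.zero (Ls.cons Ent.zero (Ls.cons Ent.zero (Ls.cons Ent.zero (Ls.cons Ent.zero (Ls.cons Ent.zero (Ls.cons Ent.zero (Ls.cons Ent.zero (Ls.cons Ent.zero (Ls.cons Ent.zero (Ls.cons Ent.zero (Ls.cons Ent.zero Ls.nil)))))))))))))))))))))))))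
 (Ls.cons (Ls.cons Ent.zero (Ls.cons Ent.zero (Ls.cons Ent.zero (Ls.cons Ent.zero (Ls.cons Ent.zero (Ls.cons Ent.zero (Ls.cons Ent.zero (Ls.cons Ent.zero (Ls.cons Ent.zero (Ls.cons Ent.zero (Ls.cons Ent.zero (Ls.cons Ent.zero (Ls.cons Ent.zero (Ls.cons Ent.zero (Ls.cons Ent.zero (Ls.cons Ent.zero (Ls.cons Ent.zero (Ls.cons Ent.zero (Ls.cons Ent.zero (Ls.cons Ent.zero (Ls.cons Ent.zero (Ls.cons Ent.zero (Ls.cons Ent.zero (Ls.cons Ent.zero (Ls.cons Ent.zero Ls.nil)))))))))))))))))))))))))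
 (Ls.cons (Ls.cons Ent.zero (Ls.cons Ent.zero (Ls.cons Ent.zero (Ls.cons Ent.zero (Ls.cons Ent.zero (Ls.cons Ent.zero (Ls.cons Ent.zero (Ls.cons Ent.zero (Ls.cons Ent.zero (Ls.cons Ent.zero (Ls.cons Ent.zero (Ls.cons Ent.zero (Ls.cons Ent.zero (Ls.cons Ent.zero (Ls.cons Ent.zero (Ls.cons Ent.zero (Ls.cons Ent.zero (Ls.cons Ent.zero (Ls.cons Ent.zero (Ls.cons Ent.zero (Ls.cons Ent.zero (Ls.cons Ent.zero (Ls.cons Ent.zero (Ls.cons Ent.zero (Ls.cons Ent.zero Ls.nil)))))))))))))))))))))))))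
 (Ls.cons (Ls.cons Ent.zero (Ls.cons Ent.zero (Ls.cons Ent.zero (Ls.cons Ent.zero (Ls.cons Ent.zero (Ls.cons Ent.zero (Ls.cons Ent.zero (Ls.cons Ent.zero (Ls.cons Ent.zero (Ls.cons Ent.zero (Ls.cons Ent.zero (Ls.cons Ent.zero (Ls.cons Ent.zero (Ls.cons Ent.zero (Ls.cons Ent.zero (Ls.cons Ent.zero (Ls.cons Ent.zero (Ls.cons Ent.zero (Ls.cons Ent.zero (Ls.cons Ent.zero (Ls.cons Ent.zero (Ls.cons Ent.zero (Ls.cons Ent.zero (Ls.cons Ent.zero (Ls.cons Ent.zero Ls.nil)))))))))))))))))))))))))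
 (Ls.cons (Ls.cons Ent.zero (Ls.cons Ent.zero (Ls.cons Ent.zero (Ls.cons Ent.zero (Ls.cons Ent.zero (Ls.cons Ent.zero (Ls.cons Ent.zero (Ls.cons Ent.zero (Ls.cons Ent.zero (Ls.cons Ent.zero (Ls.cons Ent.zero (Ls.cons Ent.zero (Ls.cons Ent.zero (Ls.cons Ent.zero (Ls.cons Ent.zero (Ls.cons Ent.zero (Ls.cons Ent.zero (Ls.cons Ent.zero (Ls.cons Ent.zero (Ls.cons Ent.zero (Ls.cons Ent.zero (Ls.cons Ent.zero (Ls.cons Ent.zero (Ls.cons Ent.zero (Ls.cons Ent.zero Ls.nil)))))))))))))))))))))))))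
 (Ls.cons (Ls.cons Ent.zero (Ls.cons Ent.zero (Ls.cons Ent.zero (Ls.cons Ent.zero (Ls.cons Ent.zero (Ls.cons Ent.zero (Ls.cons Ent.zero (Ls.cons Ent.zero (Ls.cons Ent.zero (Ls.cons Ent.zero (Ls.cons Ent.zero (Ls.cons Ent.zero (Ls.cons Ent.zero (Ls.cons Ent.zero (Ls.cons Ent.zero (Ls.cons Ent.zero (Ls.cons Ent.zero (Ls.cons Ent.zero (Ls.cons Ent.zero (Ls.cons Ent.zero (Ls.cons Ent.zero (Ls.cons Ent.zero (Ls.cons Ent.zero (Ls.cons Ent.zero (Ls.cons Ent.zero Ls.nil)))))))))))))))))))))))))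
 (Ls.cons (Ls.cons Ent.zero (Ls.cons Ent.zero (Ls.cons Ent.zero (Ls.cons Ent.zero (Ls.cons Ent.zero (Ls.cons Ent.zero (Ls.cons Ent.zero (Ls.cons Ent.zero (Ls.cons Ent.zero (Ls.cons Ent.zero (Ls.cons Ent.zero (Ls.cons Ent.zero (Ls.cons Ent.zero (Ls.cons Ent.zero (Ls.cons Ent.zero (Ls.cons Ent.zero (Ls.cons Ent.zero (Ls.cons Ent.zero (Ls.cons Ent.zero (Ls.cons Ent.zero (Ls.cons Ent.zero (Ls.cons Ent.zero (Ls.cons Ent.zero (Ls.cons Ent.zero (Ls.cons Ent.zero Ls.nil)))))))))))))))))))))))))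
 Ls.nil))))))))))))))))))))

noncomputable def bxF0_13 : L2 :=
 (Ls.cons (Ls.cons Ent.zero (Ls.cons Ent.zero (Ls.cons Ent.zero (Ls.cons Ent.zero (Ls.cons Ent.zero (Ls.cons Ent.zero (Ls.cons Ent.zero (Ls.cons Ent.zero (Ls.cons Ent.zero (Ls.cons Ent.zero (Ls.cons Ent.zero (Ls.cons Ent.zero (Ls.cons Ent.zero (Ls.cons Ent.zero (Ls.cons Ent.zero (Ls.cons Ent.zero (Ls.cons Ent.zero (Ls.cons Ent.zero (Ls.cons Ent.zero (Ls.cons Ent.zero (Ls.cons Ent.zero (Ls.cons Ent.zero (Ls.cons Ent.zero (Ls.cons Ent.zero (Ls.cons Ent.zero Ls.nil)))))))))))))))))))))))))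
 (Ls.cons (Ls.cons Ent.zero (Ls.cons Ent.zero (Ls.cons Ent.zero (Ls.cons Ent.zero (Ls.cons Ent.zero (Ls.cons Ent.zero (Ls.cons Ent.zero (Ls.cons Ent.zero (Ls.cons Ent.zero (Ls.cons Ent.zero (Ls.cons Ent.zero (Ls.cons Ent.zero (Ls.cons Ent.zero (Ls.cons Ent.zero (Ls.cons Ent.zero (Ls.cons Ent.zero (Ls.cons Ent.zero (Ls.cons Ent.zero (Ls.cons Ent.zero (Ls.cons Ent.zero (Ls.cons Ent.zero (Ls.cons Ent.zero (Ls.cons Ent.zero (Ls.cons Ent.zero (Ls.cons Ent.zero Ls.nil)))))))))))))))))))))))))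
 (Ls.cons (Ls.cons Ent.zero (Ls.cons Ent.zero (Ls.cons Ent.zero (Ls.cons Ent.zero (Ls.cons Ent.zero (Ls.cons Ent.zero (Ls.cons Ent.zero (Ls.cons Ent.zero (Ls.cons Ent.zero (Ls.cons Ent.zero (Ls.cons Ent.zero (Ls.cons Ent.zero (Ls.cons Ent.zero (Ls.cons Ent.zero (Ls.cons Ent.zero (Ls.cons Ent.zero (Ls.cons Ent.zero (Ls.cons Ent.zero (Ls.cons Ent.zero (Ls.cons Ent.zero (Ls.cons Ent.zero (Ls.cons Ent.zero (Ls.cons Ent.zero (Ls.cons Ent.zero (Ls.cons Ent.zero Ls.nil)))))))))))))))))))))))))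
 (Ls.cons (Ls.cons Ent.zero (Ls.cons Ent.zero (Ls.cons Ent.zero (Ls.cons Ent.zero (Ls.cons Ent.zero (Ls.cons Ent.zero (Ls.cons Ent.zero (Ls.cons Ent.zero (Ls.cons Ent.zero (Ls.cons Ent.zero (Ls.cons Ent.zero (Ls.cons Ent.zero (Ls.cons Ent.zero (Ls.cons Ent.zero (Ls.cons Ent.zero (Ls.cons Ent.zero (Ls.cons Ent.zero (Ls.cons Ent.zero (Ls.cons Ent.zero (Ls.cons Ent.zero (Ls.cons Ent.zero (Ls.cons Ent.zero (Ls.cons Ent.zero (Ls.cons Ent.zero (Ls.cons Ent.zero Ls.nil)))))))))))))))))))))))))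
 (Ls.cons (Ls.cons Ent.zero (Ls.cons Ent.zero (Ls.cons Ent.zero (Ls.cons Ent.zero (Ls.cons Ent.zero (Ls.cons Ent.zero (Ls.cons Ent.zero (Ls.cons Ent.zero (Ls.cons Ent.zero (Ls.cons Ent.zero (Ls.cons Ent.zero (Ls.cons Ent.zero (Ls.cons Ent.zero (Ls.cons Ent.zero (Ls.cons Ent.zero (Ls.cons Ent.zero (Ls.cons Ent.zero (Ls.cons Ent.zero (Ls.cons Ent.zero (Ls.cons Ent.zero (Ls.cons Ent.zero (Ls.cons Ent.zero (Ls.cons Ent.zero (Ls.cons Ent.zero (Ls.cons Ent.zero Ls.nil)))))))))))))))))))))))))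
 (Ls.cons (Ls.cons Ent.zero (Ls.cons Ent.zero (Ls.cons Ent.zero (Ls.cons Ent.zero (Ls.cons Ent.zero (Ls.cons Ent.zero (Ls.cons Ent.zero (Ls.cons Ent.zero (Ls.cons Ent.zero (Ls.cons Ent.zero (Ls.cons Ent.zero (Ls.cons Ent.zero (Ls.cons Ent.zero (Ls.cons Ent.zero (Ls.cons Ent.zero (Ls.cons Ent.zero (Ls.cons Ent.zero (Ls.cons Ent.zero (Ls.cons Ent.zero (Ls.cons Ent.zero (Ls.cons Ent.zero (Ls.cons Ent.zero (Ls.cons Ent.zero (Ls.cons Ent.zero (Ls.cons Ent.zero Ls.nil)))))))))))))))))))))))))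
 (Ls.cons (Ls.cons Ent.zero (Ls.cons Ent.zero (Ls.cons Ent.zero (Ls.cons Ent.zero (Ls.cons Ent.zero (Ls.cons Ent.zero (Ls.cons Ent.zero (Ls.cons Ent.zero (Ls.cons Ent.zero (Ls.cons Ent.zero (Ls.cons Ent.zero (Ls.cons Ent.zero (Ls.cons Ent.zero (Ls.cons Ent.zero (Ls.cons Ent.zero (Ls.cons Ent.zero (Ls.cons Ent.zero (Ls.cons Ent.zero (Ls.cons Ent.zero (Ls.cons Ent.zero (Ls.cons Ent.zero (Ls.cons Ent.zero (Ls.cons Ent.zero (Ls.cons Ent.zero (Ls.cons Ent.zero Ls.nil)))))))))))))))))))))))))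
 (Ls.cons (Ls.cons Ent.zero (Ls.cons Ent.zero (Ls.cons Ent.zero (Ls.cons Ent.zero (Ls.cons Ent.zero (Ls.cons Ent.zero (Ls.cons Ent.zero (Ls.cons Ent.zero (Ls.cons Ent.zero (Ls.cons Ent.zero (Ls.cons Ent.zero (Ls.cons Ent.zero (Ls.cons Ent.zero (Ls.cons Ent.zero (Ls.cons Ent.zero (Ls.cons Ent.zero (Ls.cons Ent.zero (Ls.cons Ent.zero (Ls.cons Ent.zero (Ls.cons Ent.zero (Ls.cons Ent.zero (Ls.cons Ent.zero (Ls.cons Ent.zero (Ls.cons Ent.zero (Ls.cons Ent.zero Ls.nil)))))))))))))))))))))))))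
 (Ls.cons (Ls.cons Ent.zero (Ls.cons Ent.zero (Ls.cons Ent.zero (Ls.cons Ent.zero (Ls.cons Ent.zero (Ls.cons Ent.zero (Ls.cons Ent.zero (Ls.cons Ent.zero (Ls.cons Ent.zero (Ls.cons Ent.zero (Ls.cons Ent.zero (Ls.cons Ent.zero (Ls.cons Ent.zero (Ls.cons Ent.zero (Ls.cons Ent.zero (Ls.cons Ent.zero (Ls.cons Ent.zero (Ls.cons Ent.zero (Ls.cons Ent.zero (Ls.cons Ent.zero (Ls.cons Ent.zero (Ls.cons Ent.zero (Ls.cons Ent.zero (Ls.cons Ent.zero (Ls.cons Ent.zero Ls.nil)))))))))))))))))))))))))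
 (Ls.cons (Ls.cons Ent.zero (Ls.cons Ent.zero (Ls.cons Ent.zero (Ls.cons Ent.zero (Ls.cons Ent.zero (Ls.cons Ent.zero (Ls.cons Ent.zero (Ls.cons Ent.zero (Ls.cons Ent.zero (Ls.cons Ent.zero (Ls.cons Ent.zero (Ls.cons Ent.zero (Ls.cons Ent.zero (Ls.cons Ent.zero (Ls.cons Ent.zero (Ls.cons Ent.zero (Ls.cons Ent.zero (Ls.cons Ent.zero (Ls.cons Ent.zero (Ls.cons Ent.zero (Ls.cons Ent.zero (Ls.cons Ent.zero (Ls.cons Ent.zero (Ls.cons Ent.zero (Ls.cons Ent.zero Ls.nil)))))))))))))))))))))))))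
 (Ls.cons (Ls.cons Ent.zero (Ls.cons Ent.zero (Ls.cons Ent.zero (Ls.cons Ent.zero (Ls.cons Ent.zero (Ls.cons Ent.zero (Ls.cons Ent.zero (Ls.cons Ent.zero (Ls.cons Ent.zero (Ls.cons Ent.zero (Ls.cons Ent.zero (Ls.cons Ent.zero (Ls.cons Ent.zero (Ls.cons Ent.zero (Ls.cons Ent.zero (Ls.cons Ent.zero (Ls.cons Ent.zero (Ls.cons Ent.zero (Ls.cons Ent.zero (Ls.cons Ent.zero (Ls.cons Ent.zero (Ls.cons Ent.zero (Ls.cons Ent.zero (Ls.cons Ent.zero (Ls.cons Ent.zero Ls.nil)))))))))))))))))))))))))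
 (Ls.cons (Ls.cons Ent.zero (Ls.cons Ent.zero (Ls.cons Ent.zero (Ls.cons Ent.zero (Ls.cons Ent.zero (Ls.cons Ent.zero (Ls.cons Ent.zero (Ls.cons Ent.zero (Ls.cons Ent.zero (Ls.cons Ent.zero (Ls.cons Ent.zero (Ls.cons Ent.zero (Ls.cons Ent.zero (Ls.cons Ent.zero (Ls.cons Ent.zero (Ls.cons Ent.zero (Ls.cons Ent.zero (Ls.cons Ent.zero (Ls.cons Ent.zero (Ls.cons Ent.zero (Ls.cons Ent.zero (Ls.cons Ent.zero (Ls.cons Ent.zero (Ls.cons Ent.zero (Ls.cons Ent.zero Ls.nil)))))))))))))))))))))))))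
 (Ls.cons (Ls.cons Ent.zero (Ls.cons Ent.zero (Ls.cons Ent.zero (Ls.cons Ent.zero (Ls.cons Ent.zero (Ls.cons Ent.zero (Ls.cons Ent.zero (Ls.cons Ent.zero (Ls.cons Ent.zero (Ls.cons Ent.zero (Ls.cons Ent.zero (Ls.cons Ent.zero (Ls.cons Ent.zero (Ls.cons Ent.zero (Ls.cons Ent.zero (Ls.cons Ent.zero (Ls.cons Ent.zero (Ls.cons Ent.zero (Ls.cons Ent.zero (Ls.cons Ent.zero (Ls.cons Ent.zero (Ls.cons Ent.zero (Ls.cons Ent.zero (Ls.cons Ent.zero (Ls.cons Ent.zero Ls.nil)))))))))))))))))))))))))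
 (Ls.cons (Ls.cons Ent.zero (Ls.cons Ent.zero (Ls.cons Ent.zero (Ls.cons Ent.zero (Ls.cons Ent.zero (Ls.cons Ent.zero (Ls.cons Ent.zero (Ls.cons Ent.zero (Ls.cons Ent.zero (Ls.cons Ent.zero (Ls.cons Ent.zero (Ls.cons Ent.zero (Ls.cons Ent.zero (Ls.cons Ent.zero (Ls.cons Ent.zero (Ls.cons Ent.zero (Ls.cons Ent.zero (Ls.cons Ent.zero (Ls.cons Ent.zero (Ls.cons Ent.zero (Ls.cons Ent.zero (Ls.cons Ent.zero (Ls.cons Ent.zero (Ls.cons Ent.zero (Ls.cons Ent.zero Ls.nil)))))))))))))))))))))))))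
 (Ls.cons (Ls.cons Ent.zero (Ls.cons Ent.zero (Ls.cons Ent.zero (Ls.cons Ent.zero (Ls.cons Ent.zero (Ls.cons Ent.zero (Ls.cons Ent.zero (Ls.cons Ent.zero (Ls.cons Ent.zero (Ls.cons Ent.zero (Ls.cons Ent.zero (Ls.cons Ent.zero (Ls.cons Ent.zero (Ls.cons Ent.zero (Ls.cons Ent.zero (Ls.cons Ent.zero (Ls.cons Ent.zero (Ls.cons Ent.zero (Ls.cons Ent.zero (Ls.cons Ent.zero (Ls.cons Ent.zero (Ls.cons Ent.zero (Ls.cons Ent.zero (Ls.cons Ent.zero (Ls.cons Ent.zero Ls.nil)))))))))))))))))))))))))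
 (Ls.cons (Ls.cons Ent.zero (Ls.cons Ent.zero (Ls.cons Ent.zero (Ls.cons Ent.zero (Ls.cons Ent.zero (Ls.cons Ent.zero (Ls.cons Ent.zero (Ls.cons Ent.zero (Ls.cons Ent.zero (Ls.cons Ent.zero (Ls.cons Ent.zero (Ls.cons Ent.zero (Ls.cons Ent.zero (Ls.cons Ent.zero (Ls.cons Ent.zero (Ls.cons Ent.zero (Ls.cons Ent.zero (Ls.cons Ent.zero (Ls.cons Ent.zero (Ls.cons Ent.zero (Ls.cons Ent.zero (Ls.cons Ent.zero (Ls.cons Ent.zero (Ls.cons Ent.zero (Ls.cons Ent.zero Ls.nil)))))))))))))))))))))))))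
 (Ls.cons (Ls.cons Ent.zero (Ls.cons Ent.zero (Ls.cons Ent.zero (Ls.cons Ent.zero (Ls.cons Ent.zero (Ls.cons Ent.zero (Ls.cons Ent.zero (Ls.cons Ent.zero (Ls.cons Ent.zero (Ls.cons Ent.zero (Ls.cons Ent.zero (Ls.cons Ent.zero (Ls.cons Ent.zero (Ls.cons Ent.zero (Ls.cons Ent.zero (Ls.cons Ent.zero (Ls.cons Ent.zero (Ls.cons Ent.zero (Ls.cons Ent.zero (Ls.cons Ent.zero (Ls.cons Ent.zero (Ls.cons Ent.zero (Ls.cons Ent.zero (Ls.cons Ent.zero (Ls.cons Ent.zero Ls.nil)))))))))))))))))))))))))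
 (Ls.cons (Ls.cons Ent.zero (Ls.cons Ent.zero (Ls.cons Ent.zero (Ls.cons Ent.zero (Ls.cons Ent.zero (Ls.cons Ent.zero (Ls.cons Ent.zero (Ls.cons Ent.zero (Ls.cons Ent.zero (Ls.cons Ent.zero (Ls.cons Ent.zero (Ls.cons Ent.zero (Ls.cons Ent.zero (Ls.cons Ent.zero (Ls.cons Ent.zero (Ls.cons Ent.zero (Ls.cons Ent.zero (Ls.cons Ent.zero (Ls.cons Ent.zero (Ls.cons Ent.zero (Ls.cons Ent.zero (Ls.cons Ent.zero (Ls.cons Ent.zero (Ls.cons Ent.zero (Ls.cons Ent.zero Ls.nil)))))))))))))))))))))))))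
 (Ls.cons (Ls.cons Ent.zero (Ls.cons Ent.zero (Ls.cons Ent.zero (Ls.cons Ent.zero (Ls.cons Ent.zero (Ls.cons Ent.zero (Ls.cons Ent.zero (Ls.cons Ent.zero (Ls.cons Ent.zero (Ls.cons Ent.zero (Ls.cons Ent.zero (Ls.cons Ent.zero (Ls.cons Ent.zero (Ls.cons Ent.zero (Ls.cons Ent.zero (Ls.cons Ent.zero (Ls.cons Ent.zero (Ls.cons Ent.zero (Ls.cons Ent.zero (Ls.cons Ent.zero (Ls.cons Ent.zero (Ls.cons Ent.zero (Ls.cons Ent.zero (Ls.cons Ent.zero (Ls.cons Ent.zero Ls.nil)))))))))))))))))))))))))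
 (Ls.cons (Ls.cons Ent.zero (Ls.cons Ent.zero (Ls.cons Ent.zero (Ls.cons Ent.zero (Ls.cons Ent.zero (Ls.cons Ent.zero (Ls.cons Ent.zero (Ls.cons Ent.zero (Ls.cons Ent.zero (Ls.cons Ent.zero (Ls.cons Ent.zero (Ls.cons Ent.zero (Ls.cons Ent.zero (Ls.cons Ent.zero (Ls.cons Ent.zero (Ls.cons Ent.zero (Ls.cons Ent.zero (Ls.cons Ent.zero (Ls.cons Ent.zero (Ls.cons Ent.zero (Ls.cons Ent.zero (Ls.cons Ent.zero (Ls.cons Ent.zero (Ls.cons Ent.zero (Ls.cons Ent.zero Ls.nil)))))))))))))))))))))))))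
 Ls.nil))))))))))))))))))))

noncomputable def bxF0_14 : L2 :=
 (Ls.cons (Ls.cons Ent.zero (Ls.cons Ent.zero (Ls.cons Ent.zero (Ls.cons Ent.zero (Ls.cons Ent.zero (Ls.cons Ent.zero (Ls.cons Ent.zero (Ls.cons Ent.zero (Ls.cons Ent.zero (Ls.cons Ent.zero (Ls.cons Ent.zero (Ls.cons Ent.zero (Ls.cons Ent.zero (Ls.cons Ent.zero (Ls.cons Ent.zero (Ls.cons Ent.zero (Ls.cons Ent.zero (Ls.cons Ent.zero (Ls.cons Ent.zero (Ls.cons Ent.zero (Ls.cons Ent.zero (Ls.cons Ent.zero (Ls.cons Ent.zero (Ls.cons Ent.zero (Ls.cons Ent.zero Ls.nil)))))))))))))))))))))))))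
 (Ls.cons (Ls.cons Ent.zero (Ls.cons Ent.zero (Ls.cons Ent.zero (Ls.cons Ent.zero (Ls.cons Ent.zero (Ls.cons Ent.zero (Ls.cons Ent.zero (Ls.cons Ent.zero (Ls.cons Ent.zero (Ls.cons Ent.zero (Ls.cons Ent.zero (Ls.cons Ent.zero (Ls.cons Ent.zero (Ls.cons Ent.zero (Ls.cons Ent.zero (Ls.cons Ent.zero (Ls.cons Ent.zero (Ls.cons Ent.zero (Ls.cons Ent.zero (Ls.cons Ent.zero (Ls.cons Ent.zero (Ls.cons Ent.zero (Ls.cons Ent.zero (Ls.cons Ent.zero (Ls.cons Ent.zero Ls.nil)))))))))))))))))))))))))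
 (Ls.cons (Ls.cons Ent.zero (Ls.cons Ent.zero (Ls.cons Ent.zero (Ls.cons Ent.zero (Ls.cons Ent.zero (Ls.cons Ent.zero (Ls.cons Ent.zero (Ls.cons Ent.zero (Ls.cons Ent.zero (Ls.cons Ent.zero (Ls.cons Ent.zero (Ls.cons Ent.zero (Ls.cons Ent.zero (Ls.cons Ent.zero (Ls.cons Ent.zero (Ls.cons Ent.zero (Ls.cons Ent.zero (Ls.cons Ent.zero (Ls.cons Ent.zero (Ls.cons Ent.zero (Ls.cons Ent.zero (Ls.cons Ent.zero (Ls.cons Ent.zero (Ls.cons Ent.zero (Ls.cons Ent.zero Ls.nil)))))))))))))))))))))))))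
 (Ls.cons (Ls.cons Ent.zero (Ls.cons Ent.zero (Ls.cons Ent.zero (Ls.cons Ent.zero (Ls.cons Ent.zero (Ls.cons Ent.zero (Ls.cons Ent.zero (Ls.cons Ent.zero (Ls.cons Ent.zero (Ls.cons Ent.zero (Ls.cons Ent.zero (Ls.cons Ent.zero (Ls.cons Ent.zero (Ls.cons Ent.zero (Ls.cons Ent.zero (Ls.cons Ent.zero (Ls.cons Ent.zero (Ls.cons Ent.zero (Ls.cons Ent.zero (Ls.cons Ent.zero (Ls.cons Ent.zero (Ls.cons Ent.zero (Ls.cons Ent.zero (Ls.cons Ent.zero (Ls.cons Ent.zero Ls.nil)))))))))))))))))))))))))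
 (Ls.cons (Ls.cons Ent.zero (Ls.cons Ent.zero (Ls.cons Ent.zero (Ls.cons Ent.zero (Ls.cons Ent.zero (Ls.cons Ent.zero (Ls.cons Ent.zero (Ls.cons Ent.zero (Ls.cons Ent.zero (Ls.cons Ent.zero (Ls.cons Ent.zero (Ls.cons Ent.zero (Ls.cons Ent.zero (Ls.cons Ent.zero (Ls.cons Ent.zero (Ls.cons Ent.zero (Ls.cons Ent.zero (Ls.cons Ent.zero (Ls.cons Ent.zero (Ls.cons Ent.zero (Ls.cons Ent.zero (Ls.cons Ent.zero (Ls.cons Ent.zero (Ls.cons Ent.zero (Ls.cons Ent.zero Ls.nil)))))))))))))))))))))))))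
 (Ls.cons (Ls.cons Ent.zero (Ls.cons Ent.zero (Ls.cons Ent.zero (Ls.cons Ent.zero (Ls.cons Ent.zero (Ls.cons Ent.zero (Ls.cons Ent.zero (Ls.cons Ent.zero (Ls.cons Ent.zero (Ls.cons Ent.zero (Ls.cons Ent.zero (Ls.cons Ent.zero (Ls.cons Ent.zero (Ls.cons Ent.zero (Ls.cons Ent.zero (Ls.cons Ent.zero (Ls.cons Ent.zero (Ls.cons Ent.zero (Ls.cons Ent.zero (Ls.cons Ent.zero (Ls.cons Ent.zero (Ls.cons Ent.zero (Ls.cons Ent.zero (Ls.cons Ent.zero (Ls.cons Ent.zero Ls.nil)))))))))))))))))))))))))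
 (Ls.cons (Ls.cons Ent.zero (Ls.cons Ent.zero (Ls.cons Ent.zero (Ls.cons Ent.zero (Ls.cons Ent.zero (Ls.cons Ent.zero (Ls.cons Ent.zero (Ls.cons Ent.zero (Ls.cons Ent.zero (Ls.cons Ent.zero (Ls.cons Ent.zero (Ls.cons Ent.zero (Ls.cons Ent.zero (Ls.cons Ent.zero (Ls.cons Ent.zero (Ls.cons Ent.zero (Ls.cons Ent.zero (Ls.cons Ent.zero (Ls.cons Ent.zero (Ls.cons Ent.zero (Ls.cons Ent.zero (Ls.cons Ent.zero (Ls.cons Ent.zero (Ls.cons Ent.zero (Ls.cons Ent.zero Ls.nil)))))))))))))))))))))))))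
 (Ls.cons (Ls.cons Ent.zero (Ls.cons Ent.zero (Ls.cons Ent.zero (Ls.cons Ent.zero (Ls.cons Ent.zero (Ls.cons Ent.zero (Ls.cons Ent.zero (Ls.cons Ent.zero (Ls.cons Ent.zero (Ls.cons Ent.zero (Ls.cons Ent.zero (Ls.cons Ent.zero (Ls.cons Ent.zero (Ls.cons Ent.zero (Ls.cons Ent.zero (Ls.cons Ent.zero (Ls.cons Ent.zero (Ls.cons Ent.zero (Ls.cons Ent.zero (Ls.cons Ent.zero (Ls.cons Ent.zero (Ls.cons Ent.zero (Ls.cons Ent.zero (Ls.cons Ent.zero (Ls.cons Ent.zero Ls.nil)))))))))))))))))))))))))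
 (Ls.cons (Ls.cons Ent.zero (Ls.cons Ent.zero (Ls.cons Ent.zero (Ls.cons Ent.zero (Ls.cons Ent.zero (Ls.cons Ent.zero (Ls.cons Ent.zero (Ls.cons Ent.zero (Ls.cons Ent.zero (Ls.cons Ent.zero (Ls.cons Ent.zero (Ls.cons Ent.zero (Ls.cons Ent.zero (Ls.cons Ent.zero (Ls.cons Ent.zero (Ls.cons Ent.zero (Ls.cons Ent.zero (Ls.cons Ent.zero (Ls.cons Ent.zero (Ls.cons Ent.zero (Ls.cons Ent.zero (Ls.cons Ent.zero (Ls.cons Ent.zero (Ls.cons Ent.zero (Ls.cons Ent.zero Ls.nil)))))))))))))))))))))))))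
 (Ls.cons (Ls.cons Ent.zero (Ls.cons Ent.zero (Ls.cons Ent.zero (Ls.cons Ent.zero (Ls.cons Ent.zero (Ls.cons Ent.zero (Ls.cons Ent.zero (Ls.cons Ent.zero (Ls.cons Ent.zero (Ls.cons Ent.zero (Ls.cons Ent.zero (Ls.cons Ent.zero (Ls.cons Ent.zero (Ls.cons Ent.zero (Ls.cons Ent.zero (Ls.cons Ent.zero (Ls.cons Ent.zero (Ls.cons Ent.zero (Ls.cons Ent.zero (Ls.cons Ent.zero (Ls.cons Ent.zero (Ls.cons Ent.zero (Ls.cons Ent.zero (Ls.cons Ent.zero (Ls.cons Ent.zero Ls.nil)))))))))))))))))))))))))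
 (Ls.cons (Ls.cons Ent.zero (Ls.cons Ent.zero (Ls.cons Ent.zero (Ls.cons Ent.zero (Ls.cons Ent.zero (Ls.cons Ent.zero (Ls.cons Ent.zero (Ls.cons Ent.zero (Ls.cons Ent.zero (Ls.cons Ent.zero (Ls.cons Ent.zero (Ls.cons Ent.zero (Ls.cons Ent.zero (Ls.cons Ent.zero (Ls.cons Ent.zero (Ls.cons Ent.zero (Ls.cons Ent.zero (Ls.cons Ent.zero (Ls.cons Ent.zero (Ls.cons Ent.zero (Ls.cons Ent.zero (Ls.cons Ent.zero (Ls.cons Ent.zero (Ls.cons Ent.zero (Ls.cons Ent.zero Ls.nil)))))))))))))))))))))))))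
 (Ls.cons (Ls.cons Ent.zero (Ls.cons Ent.zero (Ls.cons Ent.zero (Ls.cons Ent.zero (Ls.cons Ent.zero (Ls.cons Ent.zero (Ls.cons Ent.zero (Ls.cons Ent.zero (Ls.cons Ent.zero (Ls.cons Ent.zero (Ls.cons Ent.zero (Ls.cons Ent.zero (Ls.cons Ent.zero (Ls.cons Ent.zero (Ls.cons Ent.zero (Ls.cons Ent.zero (Ls.cons Ent.zero (Ls.cons Ent.zero (Ls.cons Ent.zero (Ls.cons Ent.zero (Ls.cons Ent.zero (Ls.cons Ent.zero (Ls.cons Ent.zero (Ls.cons Ent.zero (Ls.cons Ent.zero Ls.nil)))))))))))))))))))))))))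
 (Ls.cons (Ls.cons Ent.zero (Ls.cons Ent.zero (Ls.cons Ent.zero (Ls.cons Ent.zero (Ls.cons Ent.zero (Ls.cons Ent.zero (Ls.cons Ent.zero (Ls.cons Ent.zero (Ls.cons Ent.zero (Ls.cons Ent.zero (Ls.cons Ent.zero (Ls.cons Ent.zero (Ls.cons Ent.zero (Ls.cons Ent.zero (Ls.cons Ent.zero (Ls.cons Ent.zero (Ls.cons Ent.zero (Ls.cons Ent.zero (Ls.cons Ent.zero (Ls.cons Ent.zero (Ls.cons Ent.zero (Ls.cons Ent.zero (Ls.cons Ent.zero (Ls.cons Ent.zero (Ls.cons Ent.zero Ls.nil)))))))))))))))))))))))))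
 (Ls.cons (Ls.cons Ent.zero (Ls.cons Ent.zero (Ls.cons Ent.zero (Ls.cons Ent.zero (Ls.cons Ent.zero (Ls.cons Ent.zero (Ls.cons Ent.zero (Ls.cons Ent.zero (Ls.cons Ent.zero (Ls.cons Ent.zero (Ls.cons Ent.zero (Ls.cons Ent.zero (Ls.cons Ent.zero (Ls.cons Ent.zero (Ls.cons Ent.zero (Ls.cons Ent.zero (Ls.cons Ent.zero (Ls.cons Ent.zero (Ls.cons Ent.zero (Ls.cons Ent.zero (Ls.cons Ent.zero (Ls.cons Ent.zero (Ls.cons Ent.zero (Ls.cons Ent.zero (Ls.cons Ent.zero Ls.nil)))))))))))))))))))))))))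
 (Ls.cons (Ls.cons Ent.zero (Ls.cons Ent.zero (Ls.cons Ent.zero (Ls.cons Ent.zero (Ls.cons Ent.zero (Ls.cons Ent.zero (Ls.cons Ent.zero (Ls.cons Ent.zero (Ls.cons Ent.zero (Ls.cons Ent.zero (Ls.cons Ent.zero (Ls.cons Ent.zero (Ls.cons Ent.zero (Ls.cons Ent.zero (Ls.cons Ent.zero (Ls.cons Ent.zero (Ls.cons Ent.zero (Ls.cons Ent.zero (Ls.cons Ent.zero (Ls.cons Ent.zero (Ls.cons Ent.zero (Ls.cons Ent.zero (Ls.cons Ent.zero (Ls.cons Ent.zero (Ls.cons Ent.zero Ls.nil)))))))))))))))))))))))))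
 (Ls.cons (Ls.cons Ent.zero (Ls.cons Ent.zero (Ls.cons Ent.zero (Ls.cons Ent.zero (Ls.cons Ent.zero (Ls.cons Ent.zero (Ls.cons Ent.zero (Ls.cons Ent.zero (Ls.cons Ent.zero (Ls.cons Ent.zero (Ls.cons Ent.zero (Ls.cons Ent.zero (Ls.cons Ent.zero (Ls.cons Ent.zero (Ls.cons Ent.zero (Ls.cons Ent.zero (Ls.cons Ent.zero (Ls.cons Ent.zero (Ls.cons Ent.zero (Ls.cons Ent.zero (Ls.cons Ent.zero (Ls.cons Ent.zero (Ls.cons Ent.zero (Ls.cons Ent.zero (Ls.cons Ent.zero Ls.nil)))))))))))))))))))))))))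
 (Ls.cons (Ls.cons Ent.zero (Ls.cons Ent.zero (Ls.cons Ent.zero (Ls.cons Ent.zero (Ls.cons Ent.zero (Ls.cons Ent.zero (Ls.cons Ent.zero (Ls.cons Ent.zero (Ls.cons Ent.zero (Ls.cons Ent.zero (Ls.cons Ent.zero (Ls.cons Ent.zero (Ls.cons Ent.zero (Ls.cons Ent.zero (Ls.cons Ent.zero (Ls.cons Ent.zero (Ls.cons Ent.zero (Ls.cons Ent.zero (Ls.cons Ent.zero (Ls.cons Ent.zero (Ls.cons Ent.zero (Ls.cons Ent.zero (Ls.cons Ent.zero (Ls.cons Ent.zero (Ls.cons Ent.zero Ls.nil)))))))))))))))))))))))))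
 (Ls.cons (Ls.cons Ent.zero (Ls.cons Ent.zero (Ls.cons Ent.zero (Ls.cons Ent.zero (Ls.cons Ent.zero (Ls.cons Ent.zero (Ls.cons Ent.zero (Ls.cons Ent.zero (Ls.cons Ent.zero (Ls.cons Ent.zero (Ls.cons Ent.zero (Ls.cons Ent.zero (Ls.cons Ent.zero (Ls.cons Ent.zero (Ls.cons Ent.zero (Ls.cons Ent.zero (Ls.cons Ent.zero (Ls.cons Ent.zero (Ls.cons Ent.zero (Ls.cons Ent.zero (Ls.cons Ent.zero (Ls.cons Ent.zero (Ls.cons Ent.zero (Ls.cons Ent.zero (Ls.cons Ent.zero Ls.nil)))))))))))))))))))))))))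
 (Ls.cons (Ls.cons Ent.zero (Ls.cons Ent.zero (Ls.cons Ent.zero (Ls.cons Ent.zero (Ls.cons Ent.zero (Ls.cons Ent.zero (Ls.cons Ent.zero (Ls.cons Ent.zero (Ls.cons Ent.zero (Ls.cons Ent.zero (Ls.cons Ent.zero (Ls.cons Ent.zero (Ls.cons Ent.zero (Ls.cons Ent.zero (Ls.cons Ent.zero (Ls.cons Ent.zero (Ls.cons Ent.zero (Ls.cons Ent.zero (Ls.cons Ent.zero (Ls.cons Ent.zero (Ls.cons Ent.zero (Ls.cons Ent.zero (Ls.cons Ent.zero (Ls.cons Ent.zero (Ls.cons Ent.zero Ls.nil)))))))))))))))))))))))))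
 (Ls.cons (Ls.cons Ent.zero (Ls.cons Ent.zero (Ls.cons Ent.zero (Ls.cons Ent.zero (Ls.cons Ent.zero (Ls.cons Ent.zero (Ls.cons Ent.zero (Ls.cons Ent.zero (Ls.cons Ent.zero (Ls.cons Ent.zero (Ls.cons Ent.zero (Ls.cons Ent.zero (Ls.cons Ent.zero (Ls.cons Ent.zero (Ls.cons Ent.zero (Ls.cons Ent.zero (Ls.cons Ent.zero (Ls.cons Ent.zero (Ls.cons Ent.zero (Ls.cons Ent.zero (Ls.cons Ent.zero (Ls.cons Ent.zero (Ls.cons Ent.zero (Ls.cons Ent.zero (Ls.cons Ent.zero Ls.nil)))))))))))))))))))))))))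
 Ls.nil))))))))))))))))))))

noncomputable def boxF0 : L3 := (Ls.cons bxF0_14 (Ls.cons bxF0_13 (Ls.cons bxF0_12 (Ls.cons bxF0_11 (Ls.cons bxF0_10 (Ls.cons bxF0_9 (Ls.cons bxF0_8 (Ls.cons bxF0_7 (Ls.cons bxF0_6 (Ls.cons bxF0_5 (Ls.cons bxF0_4 (Ls.cons bxF0_3 (Ls.cons bxF0_2 (Ls.cons bxF0_1 (Ls.cons bxF0_0 Ls.nil)))))))))))))))

noncomputable def bsF1 : Ls L3 := Ls.cons boxF0 Ls.nil

end Vale.Agent.P181.K
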