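import Vale.Agent.P181.Six.F.D1_0
import Vale.Agent.P181.Six.F.B0

set_option maxRecDepth 100000
set_option maxHeartbeats 0

namespace Vale.Agent.P181.K

noncomputable def cF1_0_0 : L2 :=
 (Ls.cons Ls.nil
 (Ls.cons (Ls.cons Ent.zero (Ls.cons Ent.zero (Ls.cons Ent.zero (Ls.cons Ent.zero (Ls.cons Ent.zero (Ls.cons Ent.zero (Ls.cons Ent.zero (Ls.cons Ent.zero (Ls.cons Ent.zero (Ls.cons Ent.zero (Ls.cons Ent.zero (Ls.cons Ent.zero (Ls.cons Ent.zero (Ls.cons (Ent.pos F1_11_1_0) (Ls.cons Ent.zero (Ls.cons Ent.zero (Ls.cons Ent.zero (Ls.cons Ent.zero (Ls.cons Ent.zero (Ls.cons Ent.zero (Ls.cons (Ent.neg F1_4_1_0) (Ls.cons (Ent.pos F1_3_1_0) (Ls.cons (Ent.neg F1_2_1_0) Ls.nil)))))))))))))))))))))))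
 (Ls.cons (Ls.cons Ent.zero (Ls.cons Ent.zero (Ls.cons Ent.zero (Ls.cons Ent.zero (Ls.cons Ent.zero (Ls.cons Ent.zero (Ls.cons Ent.zero (Ls.cons Ent.zero (Ls.cons Ent.zero (Ls.cons Ent.zero (Ls.cons Ent.zero (Ls.cons Ent.zero (Ls.cons Ent.zero (Ls.cons (Ent.neg F1_11_2_0) (Ls.cons Ent.zero (Ls.cons Ent.zero (Ls.cons Ent.zero (Ls.cons Ent.zero (Ls.cons Ent.zero (Ls.cons Ent.zero (Ls.cons (Ent.pos F1_4_2_0) (Ls.cons (Ent.neg F1_3_2_0) Ls.nil))))))))))))))))))))))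
 (Ls.cons (Ls.cons Ent.zero (Ls.cons Ent.zero (Ls.cons Ent.zero (Ls.cons Ent.zero (Ls.cons Ent.zero (Ls.cons Ent.zero (Ls.cons Ent.zero (Ls.cons Ent.zero (Ls.cons Ent.zero (Ls.cons Ent.zero (Ls.cons Ent.zero (Ls.cons Ent.zero (Ls.cons Ent.zero (Ls.cons (Ent.pos F1_11_3_0) (Ls.cons Ent.zero (Ls.cons Ent.zero (Ls.cons Ent.zero (Ls.cons Ent.zero (Ls.cons Ent.zero (Ls.cons Ent.zero (Ls.cons (Ent.neg F1_4_3_0) Ls.nil)))))))))))))))))))))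
 (Ls.cons (Ls.cons Ent.zero (Ls.cons Ent.zero (Ls.cons Ent.zero (Ls.cons Ent.zero (Ls.cons Ent.zero (Ls.cons Ent.zero (Ls.cons Ent.zero (Ls.cons Ent.zero (Ls.cons Ent.zero (Ls.cons Ent.zero (Ls.cons Ent.zero (Ls.cons Ent.zero (Ls.cons Ent.zero (Ls.cons (Ent.neg F1_11_4_0) (Ls.cons Ent.zero (Ls.cons Ent.zero (Ls.cons Ent.zero (Ls.cons Ent.zero (Ls.cons Ent.zero (Ls.cons Ent.zero Ls.nil))))))))))))))))))))
 (Ls.cons (Ls.cons Ent.zero (Ls.cons Ent.zero (Ls.cons Ent.zero (Ls.cons Ent.zero (Ls.cons Ent.zero (Ls.cons Ent.zero (Ls.cons Ent.zero (Ls.cons Ent.zero (Ls.cons Ent.zero (Ls.cons Ent.zero (Ls.cons Ent.zero (Ls.cons Ent.zero (Ls.cons Ent.zero (Ls.cons Ent.zero (Ls.cons Ent.zero (Ls.cons Ent.zero (Ls.cons Ent.zero (Ls.cons Ent.zero (Ls.cons Ent.zero Ls.nil)))))))))))))))))))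
 (Ls.cons (Ls.cons Ent.zero (Ls.cons Ent.zero (Ls.cons Ent.zero (Ls.cons Ent.zero (Ls.cons Ent.zero (Ls.cons Ent.zero (Ls.cons Ent.zero (Ls.cons Ent.zero (Ls.cons Ent.zero (Ls.cons Ent.zero (Ls.cons Ent.zero (Ls.cons Ent.zero (Ls.cons Ent.zero (Ls.cons Ent.zero (Ls.cons Ent.zero (Ls.cons Ent.zero (Ls.cons Ent.zero (Ls.cons Ent.zero Ls.nil))))))))))))))))))
 (Ls.cons (Ls.cons Ent.zero (Ls.cons Ent.zero (Ls.cons Ent.zero (Ls.cons Ent.zero (Ls.cons Ent.zero (Ls.cons Ent.zero (Ls.cons Ent.zero (Ls.cons Ent.zero (Ls.cons Ent.zero (Ls.cons Ent.zero (Ls.cons Ent.zero (Ls.cons Ent.zero (Ls.cons Ent.zero (Ls.cons Ent.zero (Ls.cons Ent.zero (Ls.cons Ent.zero (Ls.cons Ent.zero Ls.nil)))))))))))))))))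
 (Ls.cons (Ls.cons Ent.zero (Ls.cons Ent.zero (Ls.cons Ent.zero (Ls.cons Ent.zero (Ls.cons Ent.zero (Ls.cons Ent.zero (Ls.cons Ent.zero (Ls.cons Ent.zero (Ls.cons Ent.zero (Ls.cons Ent.zero (Ls.cons Ent.zero (Ls.cons Ent.zero (Ls.cons Ent.zero (Ls.cons Ent.zero (Ls.cons Ent.zero (Ls.cons Ent.zero Ls.nil))))))))))))))))
 (Ls.cons (Ls.cons Ent.zero (Ls.cons Ent.zero (Ls.cons Ent.zero (Ls.cons Ent.zero (Ls.cons Ent.zero (Ls.cons Ent.zero (Ls.cons Ent.zero (Ls.cons Ent.zero (Ls.cons Ent.zero (Ls.cons Ent.zero (Ls.cons Ent.zero (Ls.cons Ent.zero (Ls.cons Ent.zero (Ls.cons Ent.zero (Ls.cons Ent.zero Ls.nil)))))))))))))))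
 (Ls.cons (Ls.cons Ent.zero (Ls.cons Ent.zero (Ls.cons Ent.zero (Ls.cons Ent.zero (Ls.cons Ent.zero (Ls.cons Ent.zero (Ls.cons Ent.zero (Ls.cons Ent.zero (Ls.cons Ent.zero (Ls.cons Ent.zero (Ls.cons Ent.zero (Ls.cons Ent.zero (Ls.cons Ent.zero (Ls.cons Ent.zero Ls.nil))))))))))))))
 (Ls.cons (Ls.cons Ent.zero (Ls.cons Ent.zero (Ls.cons Ent.zero (Ls.cons Ent.zero (Ls.cons Ent.zero (Ls.cons Ent.zero (Ls.cons Ent.zero (Ls.cons Ent.zero (Ls.cons Ent.zero (Ls.cons Ent.zero (Ls.cons Ent.zero (Ls.cons Ent.zero (Ls.cons Ent.zero Ls.nil)))))))))))))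
 (Ls.cons (Ls.cons Ent.zero (Ls.cons Ent.zero (Ls.cons Ent.zero (Ls.cons Ent.zero (Ls.cons Ent.zero (Ls.cons Ent.zero (Ls.cons Ent.zero (Ls.cons Ent.zero (Ls.cons Ent.zero (Ls.cons Ent.zero (Ls.cons Ent.zero (Ls.cons Ent.zero Ls.nil))))))))))))
 (Ls.cons (Ls.cons Ent.zero (Ls.cons Ent.zero (Ls.cons Ent.zero (Ls.cons Ent.zero (Ls.cons Ent.zero (Ls.cons Ent.zero (Ls.cons Ent.zero (Ls.cons Ent.zero (Ls.cons Ent.zero (Ls.cons Ent.zero (Ls.cons Ent.zero Ls.nil)))))))))))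
 (Ls.cons (Ls.cons Ent.zero (Ls.cons Ent.zero (Ls.cons Ent.zero (Ls.cons Ent.zero (Ls.cons Ent.zero (Ls.cons Ent.zero (Ls.cons Ent.zero (Ls.cons Ent.zero (Ls.cons Ent.zero (Ls.cons Ent.zero Ls.nil))))))))))
 (Ls.cons (Ls.cons Ent.zero (Ls.cons Ent.zero (Ls.cons Ent.zero (Ls.cons Ent.zero (Ls.cons Ent.zero (Ls.cons Ent.zero (Ls.cons Ent.zero (Ls.cons Ent.zero (Ls.cons Ent.zero Ls.nil)))))))))
 (Ls.cons (Ls.cons Ent.zero (Ls.cons Ent.zero (Ls.cons Ent.zero (Ls.cons Ent.zero (Ls.cons Ent.zero (Ls.cons Ent.zero (Ls.cons Ent.zero (Ls.cons Ent.zero Ls.nil))))))))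
 (Ls.cons (Ls.cons Ent.zero (Ls.cons Ent.zero (Ls.cons Ent.zero (Ls.cons Ent.zero (Ls.cons Ent.zero (Ls.cons Ent.zero (Ls.cons Ent.zero Ls.nil)))))))
 (Ls.cons (Ls.cons Ent.zero (Ls.cons Ent.zero (Ls.cons Ent.zero (Ls.cons Ent.zero (Ls.cons Ent.zero (Ls.cons Ent.zero Ls.nil))))))
 (Ls.cons (Ls.cons Ent.zero (Ls.cons Ent.zero (Ls.cons Ent.zero (Ls.cons Ent.zero (Ls.cons Ent.zero Ls.nil)))))
 Ls.nil))))))))))))))))))))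

noncomputable def cF1_1_0 : L2 :=
 (Ls.cons Ls.nil
 (Ls.cons Ls.nil
 (Ls.cons (Ls.cons Ent.zero (Ls.cons Ent.zero (Ls.cons Ent.zero (Ls.cons Ent.zero (Ls.cons Ent.zero (Ls.cons Ent.zero (Ls.cons Ent.zero (Ls.cons Ent.zero (Ls.cons Ent.zero (Ls.cons Ent.zero (Ls.cons Ent.zero (Ls.cons Ent.zero (Ls.cons Ent.zero (Ls.cons (Ent.pos F1_11_2_1) (Ls.cons Ent.zero (Ls.cons Ent.zero (Ls.cons Ent.zero (Ls.cons Ent.zero (Ls.cons Ent.zero (Ls.cons Ent.zero (Ls.cons (Ent.neg F1_4_2_1) (Ls.cons (Ent.pos F1_3_2_1) Ls.nil))))))))))))))))))))))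
 (Ls.cons (Ls.cons Ent.zero (Ls.cons Ent.zero (Ls.cons Ent.zero (Ls.cons Ent.zero (Ls.cons Ent.zero (Ls.cons Ent.zero (Ls.cons Ent.zero (Ls.cons Ent.zero (Ls.cons Ent.zero (Ls.cons Ent.zero (Ls.cons Ent.zero (Ls.cons Ent.zero (Ls.cons Ent.zero (Ls.cons (Ent.neg F1_11_3_1) (Ls.cons Ent.zero (Ls.cons Ent.zero (Ls.cons Ent.zero (Ls.cons Ent.zero (Ls.cons Ent.zero (Ls.cons Ent.zero (Ls.cons (Ent.pos F1_4_3_1) Ls.nil)))))))))))))))))))))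
 (Ls.cons (Ls.cons Ent.zero (Ls.cons Ent.zero (Ls.cons Ent.zero (Ls.cons Ent.zero (Ls.cons Ent.zero (Ls.cons Ent.zero (Ls.cons Ent.zero (Ls.cons Ent.zero (Ls.cons Ent.zero (Ls.cons Ent.zero (Ls.cons Ent.zero (Ls.cons Ent.zero (Ls.cons Ent.zero (Ls.cons (Ent.pos F1_11_4_1) (Ls.cons Ent.zero (Ls.cons Ent.zero (Ls.cons Ent.zero (Ls.cons Ent.zero (Ls.cons Ent.zero (Ls.cons Ent.zero Ls.nil))))))))))))))))))))
 (Ls.cons (Ls.cons Ent.zero (Ls.cons Ent.zero (Ls.cons Ent.zero (Ls.cons Ent.zero (Ls.cons Ent.zero (Ls.cons Ent.zero (Ls.cons Ent.zero (Ls.cons Ent.zero (Ls.cons Ent.zero (Ls.cons Ent.zero (Ls.cons Ent.zero (Ls.cons Ent.zero (Ls.cons Ent.zero (Ls.cons Ent.zero (Ls.cons Ent.zero (Ls.cons Ent.zero (Ls.cons Ent.zero (Ls.cons Ent.zero (Ls.cons Ent.zero Ls.nil)))))))))))))))))))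
 (Ls.cons (Ls.cons Ent.zero (Ls.cons Ent.zero (Ls.cons Ent.zero (Ls.cons Ent.zero (Ls.cons Ent.zero (Ls.cons Ent.zero (Ls.cons Ent.zero (Ls.cons Ent.zero (Ls.cons Ent.zero (Ls.cons Ent.zero (Ls.cons Ent.zero (Ls.cons Ent.zero (Ls.cons Ent.zero (Ls.cons Ent.zero (Ls.cons Ent.zero (Ls.cons Ent.zero (Ls.cons Ent.zero (Ls.cons Ent.zero Ls.nil))))))))))))))))))
 (Ls.cons (Ls.cons Ent.zero (Ls.cons Ent.zero (Ls.cons Ent.zero (Ls.cons Ent.zero (Ls.cons Ent.zero (Ls.cons Ent.zero (Ls.cons Ent.zero (Ls.cons Ent.zero (Ls.cons Ent.zero (Ls.cons Ent.zero (Ls.cons Ent.zero (Ls.cons Ent.zero (Ls.cons Ent.zero (Ls.cons Ent.zero (Ls.cons Ent.zero (Ls.cons Ent.zero (Ls.cons Ent.zero Ls.nil)))))))))))))))))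
 (Ls.cons (Ls.cons Ent.zero (Ls.cons Ent.zero (Ls.cons Ent.zero (Ls.cons Ent.zero (Ls.cons Ent.zero (Ls.cons Ent.zero (Ls.cons Ent.zero (Ls.cons Ent.zero (Ls.cons Ent.zero (Ls.cons Ent.zero (Ls.cons Ent.zero (Ls.cons Ent.zero (Ls.cons Ent.zero (Ls.cons Ent.zero (Ls.cons Ent.zero (Ls.cons Ent.zero Ls.nil))))))))))))))))
 (Ls.cons (Ls.cons Ent.zero (Ls.cons Ent.zero (Ls.cons Ent.zero (Ls.cons Ent.zero (Ls.cons Ent.zero (Ls.cons Ent.zero (Ls.cons Ent.zero (Ls.cons Ent.zero (Ls.cons Ent.zero (Ls.cons Ent.zero (Ls.cons Ent.zero (Ls.cons Ent.zero (Ls.cons Ent.zero (Ls.cons Ent.zero (Ls.cons Ent.zero Ls.nil)))))))))))))))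
 (Ls.cons (Ls.cons Ent.zero (Ls.cons Ent.zero (Ls.cons Ent.zero (Ls.cons Ent.zero (Ls.cons Ent.zero (Ls.cons Ent.zero (Ls.cons Ent.zero (Ls.cons Ent.zero (Ls.cons Ent.zero (Ls.cons Ent.zero (Ls.cons Ent.zero (Ls.cons Ent.zero (Ls.cons Ent.zero (Ls.cons Ent.zero Ls.nil))))))))))))))
 (Ls.cons (Ls.cons Ent.zero (Ls.cons Ent.zero (Ls.cons Ent.zero (Ls.cons Ent.zero (Ls.cons Ent.zero (Ls.cons Ent.zero (Ls.cons Ent.zero (Ls.cons Ent.zero (Ls.cons Ent.zero (Ls.cons Ent.zero (Ls.cons Ent.zero (Ls.cons Ent.zero (Ls.cons Ent.zero Ls.nil)))))))))))))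
 (Ls.cons (Ls.cons Ent.zero (Ls.cons Ent.zero (Ls.cons Ent.zero (Ls.cons Ent.zero (Ls.cons Ent.zero (Ls.cons Ent.zero (Ls.cons Ent.zero (Ls.cons Ent.zero (Ls.cons Ent.zero (Ls.cons Ent.zero (Ls.cons Ent.zero (Ls.cons Ent.zero Ls.nil))))))))))))
 (Ls.cons (Ls.cons Ent.zero (Ls.cons Ent.zero (Ls.cons Ent.zero (Ls.cons Ent.zero (Ls.cons Ent.zero (Ls.cons Ent.zero (Ls.cons Ent.zero (Ls.cons Ent.zero (Ls.cons Ent.zero (Ls.cons Ent.zero (Ls.cons Ent.zero Ls.nil)))))))))))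
 (Ls.cons (Ls.cons Ent.zero (Ls.cons Ent.zero (Ls.cons Ent.zero (Ls.cons Ent.zero (Ls.cons Ent.zero (Ls.cons Ent.zero (Ls.cons Ent.zero (Ls.cons Ent.zero (Ls.cons Ent.zero (Ls.cons Ent.zero Ls.nil))))))))))
 (Ls.cons (Ls.cons Ent.zero (Ls.cons Ent.zero (Ls.cons Ent.zero (Ls.cons Ent.zero (Ls.cons Ent.zero (Ls.cons Ent.zero (Ls.cons Ent.zero (Ls.cons Ent.zero (Ls.cons Ent.zero Ls.nil)))))))))
 (Ls.cons (Ls.cons Ent.zero (Ls.cons Ent.zero (Ls.cons Ent.zero (Ls.cons Ent.zero (Ls.cons Ent.zero (Ls.cons Ent.zero (Ls.cons Ent.zero (Ls.cons Ent.zero Ls.nil))))))))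
 (Ls.cons (Ls.cons Ent.zero (Ls.cons Ent.zero (Ls.cons Ent.zero (Ls.cons Ent.zero (Ls.cons Ent.zero (Ls.cons Ent.zero (Ls.cons Ent.zero Ls.nil)))))))
 (Ls.cons Ls.nil
 (Ls.cons Ls.nil
 Ls.nil))))))))))))))))))))

noncomputable def cF1_2_0 : L2 :=
 (Ls.cons Ls.nil
 (Ls.cons Ls.nil
 (Ls.cons Ls.nil
 (Ls.cons (Ls.cons Ent.zero (Ls.cons Ent.zero (Ls.cons Ent.zero (Ls.cons Ent.zero (Ls.cons Ent.zero (Ls.cons Ent.zero (Ls.cons Ent.zero (Ls.cons Ent.zero (Ls.cons Ent.zero (Ls.cons Ent.zero (Ls.cons Ent.zero (Ls.cons Ent.zero (Ls.cons Ent.zero (Ls.cons (Ent.pos F1_11_3_2) (Ls.cons Ent.zero (Ls.cons Ent.zero (Ls.cons Ent.zero (Ls.cons Ent.zero (Ls.cons Ent.zero (Ls.cons Ent.zero (Ls.cons (Ent.neg F1_4_3_2) Ls.nil)))))))))))))))))))))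
 (Ls.cons (Ls.cons Ent.zero (Ls.cons Ent.zero (Ls.cons Ent.zero (Ls.cons Ent.zero (Ls.cons Ent.zero (Ls.cons Ent.zero (Ls.cons Ent.zero (Ls.cons Ent.zero (Ls.cons Ent.zero (Ls.cons Ent.zero (Ls.cons Ent.zero (Ls.cons Ent.zero (Ls.cons Ent.zero (Ls.cons (Ent.neg F1_11_4_2) (Ls.cons Ent.zero (Ls.cons Ent.zero (Ls.cons Ent.zero (Ls.cons Ent.zero (Ls.cons Ent.zero (Ls.cons Ent.zero Ls.nil))))))))))))))))))))
 (Ls.cons (Ls.cons Ent.zero (Ls.cons Ent.zero (Ls.cons Ent.zero (Ls.cons Ent.zero (Ls.cons Ent.zero (Ls.cons Ent.zero (Ls.cons Ent.zero (Ls.cons Ent.zero (Ls.cons Ent.zero (Ls.cons Ent.zero (Ls.cons Ent.zero (Ls.cons Ent.zero (Ls.cons Ent.zero (Ls.cons Ent.zero (Ls.cons Ent.zero (Ls.cons Ent.zero (Ls.cons Ent.zero (Ls.cons Ent.zero (Ls.cons Ent.zero Ls.nil)))))))))))))))))))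
 (Ls.cons (Ls.cons Ent.zero (Ls.cons Ent.zero (Ls.cons Ent.zero (Ls.cons Ent.zero (Ls.cons Ent.zero (Ls.cons Ent.zero (Ls.cons Ent.zero (Ls.cons Ent.zero (Ls.cons Ent.zero (Ls.cons Ent.zero (Ls.cons Ent.zero (Ls.cons Ent.zero (Ls.cons Ent.zero (Ls.cons Ent.zero (Ls.cons Ent.zero (Ls.cons Ent.zero (Ls.cons Ent.zero (Ls.cons Ent.zero Ls.nil))))))))))))))))))
 (Ls.cons (Ls.cons Ent.zero (Ls.cons Ent.zero (Ls.cons Ent.zero (Ls.cons Ent.zero (Ls.cons Ent.zero (Ls.cons Ent.zero (Ls.cons Ent.zero (Ls.cons Ent.zero (Ls.cons Ent.zero (Ls.cons Ent.zero (Ls.cons Ent.zero (Ls.cons Ent.zero (Ls.cons Ent.zero (Ls.cons Ent.zero (Ls.cons Ent.zero (Ls.cons Ent.zero (Ls.cons Ent.zero Ls.nil)))))))))))))))))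
 (Ls.cons (Ls.cons Ent.zero (Ls.cons Ent.zero (Ls.cons Ent.zero (Ls.cons Ent.zero (Ls.cons Ent.zero (Ls.cons Ent.zero (Ls.cons Ent.zero (Ls.cons Ent.zero (Ls.cons Ent.zero (Ls.cons Ent.zero (Ls.cons Ent.zero (Ls.cons Ent.zero (Ls.cons Ent.zero (Ls.cons Ent.zero (Ls.cons Ent.zero (Ls.cons Ent.zero Ls.nil))))))))))))))))
 (Ls.cons (Ls.cons Ent.zero (Ls.cons Ent.zero (Ls.cons Ent.zero (Ls.cons Ent.zero (Ls.cons Ent.zero (Ls.cons Ent.zero (Ls.cons Ent.zero (Ls.cons Ent.zero (Ls.cons Ent.zero (Ls.cons Ent.zero (Ls.cons Ent.zero (Ls.cons Ent.zero (Ls.cons Ent.zero (Ls.cons Ent.zero (Ls.cons Ent.zero Ls.nil)))))))))))))))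
 (Ls.cons (Ls.cons Ent.zero (Ls.cons Ent.zero (Ls.cons Ent.zero (Ls.cons Ent.zero (Ls.cons Ent.zero (Ls.cons Ent.zero (Ls.cons Ent.zero (Ls.cons Ent.zero (Ls.cons Ent.zero (Ls.cons Ent.zero (Ls.cons Ent.zero (Ls.cons Ent.zero (Ls.cons Ent.zero (Ls.cons Ent.zero Ls.nil))))))))))))))
 (Ls.cons (Ls.cons Ent.zero (Ls.cons Ent.zero (Ls.cons Ent.zero (Ls.cons Ent.zero (Ls.cons Ent.zero (Ls.cons Ent.zero (Ls.cons Ent.zero (Ls.cons Ent.zero (Ls.cons Ent.zero (Ls.cons Ent.zero (Ls.cons Ent.zero (Ls.cons Ent.zero (Ls.cons Ent.zero Ls.nil)))))))))))))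
 (Ls.cons (Ls.cons Ent.zero (Ls.cons Ent.zero (Ls.cons Ent.zero (Ls.cons Ent.zero (Ls.cons Ent.zero (Ls.cons Ent.zero (Ls.cons Ent.zero (Ls.cons Ent.zero (Ls.cons Ent.zero (Ls.cons Ent.zero (Ls.cons Ent.zero (Ls.cons Ent.zero Ls.nil))))))))))))
 (Ls.cons (Ls.cons Ent.zero (Ls.cons Ent.zero (Ls.cons Ent.zero (Ls.cons Ent.zero (Ls.cons Ent.zero (Ls.cons Ent.zero (Ls.cons Ent.zero (Ls.cons Ent.zero (Ls.cons Ent.zero (Ls.cons Ent.zero (Ls.cons Ent.zero Ls.nil)))))))))))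
 (Ls.cons (Ls.cons Ent.zero (Ls.cons Ent.zero (Ls.cons Ent.zero (Ls.cons Ent.zero (Ls.cons Ent.zero (Ls.cons Ent.zero (Ls.cons Ent.zero (Ls.cons Ent.zero (Ls.cons Ent.zero (Ls.cons Ent.zero Ls.nil))))))))))
 (Ls.cons (Ls.cons Ent.zero (Ls.cons Ent.zero (Ls.cons Ent.zero (Ls.cons Ent.zero (Ls.cons Ent.zero (Ls.cons Ent.zero (Ls.cons Ent.zero (Ls.cons Ent.zero (Ls.cons Ent.zero Ls.nil)))))))))
 (Ls.cons (Ls.cons Ent.zero (Ls.cons Ent.zero (Ls.cons Ent.zero (Ls.cons Ent.zero (Ls.cons Ent.zero (Ls.cons Ent.zero (Ls.cons Ent.zero (Ls.cons Ent.zero Ls.nil))))))))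
 (Ls.cons (Ls.cons Ent.zero (Ls.cons Ent.zero (Ls.cons Ent.zero (Ls.cons Ent.zero (Ls.cons Ent.zero (Ls.cons Ent.zero (Ls.cons Ent.zero Ls.nil)))))))
 (Ls.cons Ls.nil
 (Ls.cons Ls.nil
 Ls.nil))))))))))))))))))))

noncomputable def cF1_3_0 : L2 :=
 (Ls.cons Ls.nil
 (Ls.cons Ls.nil
 (Ls.cons Ls.nil
 (Ls.cons Ls.nil
 (Ls.cons (Ls.cons Ent.zero (Ls.cons Ent.zero (Ls.cons Ent.zero (Ls.cons Ent.zero (Ls.cons Ent.zero (Ls.cons Ent.zero (Ls.cons Ent.zero (Ls.cons Ent.zero (Ls.cons Ent.zero (Ls.cons Ent.zero (Ls.cons Ent.zero (Ls.cons Ent.zero (Ls.cons Ent.zero (Ls.cons (Ent.pos F1_11_4_3) (Ls.cons Ent.zero (Ls.cons Ent.zero (Ls.cons Ent.zero (Ls.cons Ent.zero (Ls.cons Ent.zero (Ls.cons Ent.zero Ls.nil))))))))))))))))))))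
 (Ls.cons (Ls.cons Ent.zero (Ls.cons Ent.zero (Ls.cons Ent.zero (Ls.cons Ent.zero (Ls.cons Ent.zero (Ls.cons Ent.zero (Ls.cons Ent.zero (Ls.cons Ent.zero (Ls.cons Ent.zero (Ls.cons Ent.zero (Ls.cons Ent.zero (Ls.cons Ent.zero (Ls.cons Ent.zero (Ls.cons Ent.zero (Ls.cons Ent.zero (Ls.cons Ent.zero (Ls.cons Ent.zero (Ls.cons Ent.zero (Ls.cons Ent.zero Ls.nil)))))))))))))))))))
 (Ls.cons (Ls.cons Ent.zero (Ls.cons Ent.zero (Ls.cons Ent.zero (Ls.cons Ent.zero (Ls.cons Ent.zero (Ls.cons Ent.zero (Ls.cons Ent.zero (Ls.cons Ent.zero (Ls.cons Ent.zero (Ls.cons Ent.zero (Ls.cons Ent.zero (Ls.cons Ent.zero (Ls.cons Ent.zero (Ls.cons Ent.zero (Ls.cons Ent.zero (Ls.cons Ent.zero (Ls.cons Ent.zero (Ls.cons Ent.zero Ls.nil))))))))))))))))))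
 (Ls.cons (Ls.cons Ent.zero (Ls.cons Ent.zero (Ls.cons Ent.zero (Ls.cons Ent.zero (Ls.cons Ent.zero (Ls.cons Ent.zero (Ls.cons Ent.zero (Ls.cons Ent.zero (Ls.cons Ent.zero (Ls.cons Ent.zero (Ls.cons Ent.zero (Ls.cons Ent.zero (Ls.cons Ent.zero (Ls.cons Ent.zero (Ls.cons Ent.zero (Ls.cons Ent.zero (Ls.cons Ent.zero Ls.nil)))))))))))))))))
 (Ls.cons (Ls.cons Ent.zero (Ls.cons Ent.zero (Ls.cons Ent.zero (Ls.cons Ent.zero (Ls.cons Ent.zero (Ls.cons Ent.zero (Ls.cons Ent.zero (Ls.cons Ent.zero (Ls.cons Ent.zero (Ls.cons Ent.zero (Ls.cons Ent.zero (Ls.cons Ent.zero (Ls.cons Ent.zero (Ls.cons Ent.zero (Ls.cons Ent.zero (Ls.cons Ent.zero Ls.nil))))))))))))))))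
 (Ls.cons (Ls.cons Ent.zero (Ls.cons Ent.zero (Ls.cons Ent.zero (Ls.cons Ent.zero (Ls.cons Ent.zero (Ls.cons Ent.zero (Ls.cons Ent.zero (Ls.cons Ent.zero (Ls.cons Ent.zero (Ls.cons Ent.zero (Ls.cons Ent.zero (Ls.cons Ent.zero (Ls.cons Ent.zero (Ls.cons Ent.zero (Ls.cons Ent.zero Ls.nil)))))))))))))))
 (Ls.cons (Ls.cons Ent.zero (Ls.cons Ent.zero (Ls.cons Ent.zero (Ls.cons Ent.zero (Ls.cons Ent.zero (Ls.cons Ent.zero (Ls.cons Ent.zero (Ls.cons Ent.zero (Ls.cons Ent.zero (Ls.cons Ent.zero (Ls.cons Ent.zero (Ls.cons Ent.zero (Ls.cons Ent.zero (Ls.cons Ent.zero Ls.nil))))))))))))))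
 (Ls.cons (Ls.cons Ent.zero (Ls.cons Ent.zero (Ls.cons Ent.zero (Ls.cons Ent.zero (Ls.cons Ent.zero (Ls.cons Ent.zero (Ls.cons Ent.zero (Ls.cons Ent.zero (Ls.cons Ent.zero (Ls.cons Ent.zero (Ls.cons Ent.zero (Ls.cons Ent.zero (Ls.cons Ent.zero Ls.nil)))))))))))))
 (Ls.cons (Ls.cons Ent.zero (Ls.cons Ent.zero (Ls.cons Ent.zero (Ls.cons Ent.zero (Ls.cons Ent.zero (Ls.cons Ent.zero (Ls.cons Ent.zero (Ls.cons Ent.zero (Ls.cons Ent.zero (Ls.cons Ent.zero (Ls.cons Ent.zero (Ls.cons Ent.zero Ls.nil))))))))))))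
 (Ls.cons (Ls.cons Ent.zero (Ls.cons Ent.zero (Ls.cons Ent.zero (Ls.cons Ent.zero (Ls.cons Ent.zero (Ls.cons Ent.zero (Ls.cons Ent.zero (Ls.cons Ent.zero (Ls.cons Ent.zero (Ls.cons Ent.zero (Ls.cons Ent.zero Ls.nil)))))))))))
 (Ls.cons (Ls.cons Ent.zero (Ls.cons Ent.zero (Ls.cons Ent.zero (Ls.cons Ent.zero (Ls.cons Ent.zero (Ls.cons Ent.zero (Ls.cons Ent.zero (Ls.cons Ent.zero (Ls.cons Ent.zero (Ls.cons Ent.zero Ls.nil))))))))))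
 (Ls.cons (Ls.cons Ent.zero (Ls.cons Ent.zero (Ls.cons Ent.zero (Ls.cons Ent.zero (Ls.cons Ent.zero (Ls.cons Ent.zero (Ls.cons Ent.zero (Ls.cons Ent.zero (Ls.cons Ent.zero Ls.nil)))))))))
 (Ls.cons (Ls.cons Ent.zero (Ls.cons Ent.zero (Ls.cons Ent.zero (Ls.cons Ent.zero (Ls.cons Ent.zero (Ls.cons Ent.zero (Ls.cons Ent.zero (Ls.cons Ent.zero Ls.nil))))))))
 (Ls.cons (Ls.cons Ent.zero (Ls.cons Ent.zero (Ls.cons Ent.zero (Ls.cons Ent.zero (Ls.cons Ent.zero (Ls.cons Ent.zero (Ls.cons Ent.zero Ls.nil)))))))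
 (Ls.cons Ls.nil
 (Ls.cons Ls.nil
 Ls.nil))))))))))))))))))))

noncomputable def cF1_4_0 : L2 :=
 (Ls.cons Ls.nil
 (Ls.cons Ls.nil
 (Ls.cons Ls.nil
 (Ls.cons Ls.nil
 (Ls.cons Ls.nil
 (Ls.cons (Ls.cons Ent.zero (Ls.cons Ent.zero (Ls.cons Ent.zero (Ls.cons Ent.zero (Ls.cons Ent.zero (Ls.cons Ent.zero (Ls.cons Ent.zero (Ls.cons Ent.zero (Ls.cons Ent.zero (Ls.cons Ent.zero (Ls.cons Ent.zero (Ls.cons Ent.zero (Ls.cons Ent.zero (Ls.cons Ent.zero (Ls.cons Ent.zero (Ls.cons Ent.zero (Ls.cons Ent.zero (Ls.cons Ent.zero (Ls.cons Ent.zero Ls.nil)))))))))))))))))))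
 (Ls.cons (Ls.cons Ent.zero (Ls.cons Ent.zero (Ls.cons Ent.zero (Ls.cons Ent.zero (Ls.cons Ent.zero (Ls.cons Ent.zero (Ls.cons Ent.zero (Ls.cons Ent.zero (Ls.cons Ent.zero (Ls.cons Ent.zero (Ls.cons Ent.zero (Ls.cons Ent.zero (Ls.cons Ent.zero (Ls.cons Ent.zero (Ls.cons Ent.zero (Ls.cons Ent.zero (Ls.cons Ent.zero (Ls.cons Ent.zero Ls.nil))))))))))))))))))
 (Ls.cons (Ls.cons Ent.zero (Ls.cons Ent.zero (Ls.cons Ent.zero (Ls.cons Ent.zero (Ls.cons Ent.zero (Ls.cons Ent.zero (Ls.cons Ent.zero (Ls.cons Ent.zero (Ls.cons Ent.zero (Ls.cons Ent.zero (Ls.cons Ent.zero (Ls.cons Ent.zero (Ls.cons Ent.zero (Ls.cons Ent.zero (Ls.cons Ent.zero (Ls.cons Ent.zero (Ls.cons Ent.zero Ls.nil)))))))))))))))))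
 (Ls.cons (Ls.cons Ent.zero (Ls.cons Ent.zero (Ls.cons Ent.zero (Ls.cons Ent.zero (Ls.cons Ent.zero (Ls.cons Ent.zero (Ls.cons Ent.zero (Ls.cons Ent.zero (Ls.cons Ent.zero (Ls.cons Ent.zero (Ls.cons Ent.zero (Ls.cons Ent.zero (Ls.cons Ent.zero (Ls.cons Ent.zero (Ls.cons Ent.zero (Ls.cons Ent.zero Ls.nil))))))))))))))))
 (Ls.cons (Ls.cons Ent.zero (Ls.cons Ent.zero (Ls.cons Ent.zero (Ls.cons Ent.zero (Ls.cons Ent.zero (Ls.cons Ent.zero (Ls.cons Ent.zero (Ls.cons Ent.zero (Ls.cons Ent.zero (Ls.cons Ent.zero (Ls.cons Ent.zero (Ls.cons Ent.zero (Ls.cons Ent.zero (Ls.cons Ent.zero (Ls.cons Ent.zero Ls.nil)))))))))))))))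
 (Ls.cons (Ls.cons Ent.zero (Ls.cons Ent.zero (Ls.cons Ent.zero (Ls.cons Ent.zero (Ls.cons Ent.zero (Ls.cons Ent.zero (Ls.cons Ent.zero (Ls.cons Ent.zero (Ls.cons Ent.zero (Ls.cons Ent.zero (Ls.cons Ent.zero (Ls.cons Ent.zero (Ls.cons Ent.zero (Ls.cons Ent.zero Ls.nil))))))))))))))
 (Ls.cons (Ls.cons Ent.zero (Ls.cons Ent.zero (Ls.cons Ent.zero (Ls.cons Ent.zero (Ls.cons Ent.zero (Ls.cons Ent.zero (Ls.cons Ent.zero (Ls.cons Ent.zero (Ls.cons Ent.zero (Ls.cons Ent.zero (Ls.cons Ent.zero (Ls.cons Ent.zero (Ls.cons Ent.zero Ls.nil)))))))))))))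
 (Ls.cons (Ls.cons Ent.zero (Ls.cons Ent.zero (Ls.cons Ent.zero (Ls.cons Ent.zero (Ls.cons Ent.zero (Ls.cons Ent.zero (Ls.cons Ent.zero (Ls.cons Ent.zero (Ls.cons Ent.zero (Ls.cons Ent.zero (Ls.cons Ent.zero (Ls.cons Ent.zero Ls.nil))))))))))))
 (Ls.cons (Ls.cons Ent.zero (Ls.cons Ent.zero (Ls.cons Ent.zero (Ls.cons Ent.zero (Ls.cons Ent.zero (Ls.cons Ent.zero (Ls.cons Ent.zero (Ls.cons Ent.zero (Ls.cons Ent.zero (Ls.cons Ent.zero (Ls.cons Ent.zero Ls.nil)))))))))))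
 (Ls.cons (Ls.cons Ent.zero (Ls.cons Ent.zero (Ls.cons Ent.zero (Ls.cons Ent.zero (Ls.cons Ent.zero (Ls.cons Ent.zero (Ls.cons Ent.zero (Ls.cons Ent.zero (Ls.cons Ent.zero (Ls.cons Ent.zero Ls.nil))))))))))
 (Ls.cons (Ls.cons Ent.zero (Ls.cons Ent.zero (Ls.cons Ent.zero (Ls.cons Ent.zero (Ls.cons Ent.zero (Ls.cons Ent.zero (Ls.cons Ent.zero (Ls.cons Ent.zero (Ls.cons Ent.zero Ls.nil)))))))))
 (Ls.cons (Ls.cons Ent.zero (Ls.cons Ent.zero (Ls.cons Ent.zero (Ls.cons Ent.zero (Ls.cons Ent.zero (Ls.cons Ent.zero (Ls.cons Ent.zero (Ls.cons Ent.zero Ls.nil))))))))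
 (Ls.cons (Ls.cons Ent.zero (Ls.cons Ent.zero (Ls.cons Ent.zero (Ls.cons Ent.zero (Ls.cons Ent.zero (Ls.cons Ent.zero (Ls.cons Ent.zero Ls.nil)))))))
 (Ls.cons Ls.nil
 (Ls.cons Ls.nil
 Ls.nil))))))))))))))))))))

noncomputable def cF1_5_0 : L2 :=
 (Ls.cons Ls.nil
 (Ls.cons Ls.nil
 (Ls.cons Ls.nil
 (Ls.cons Ls.nil
 (Ls.cons Ls.nil
 (Ls.cons Ls.nil
 (Ls.cons (Ls.cons Ent.zero (Ls.cons Ent.zero (Ls.cons Ent.zero (Ls.cons Ent.zero (Ls.cons Ent.zero (Ls.cons Ent.zero (Ls.cons Ent.zero (Ls.cons Ent.zero (Ls.cons Ent.zero (Ls.cons Ent.zero (Ls.cons Ent.zero (Ls.cons Ent.zero (Ls.cons Ent.zero (Ls.cons Ent.zero (Ls.cons Ent.zero (Ls.cons Ent.zero (Ls.cons Ent.zero (Ls.cons Ent.zero Ls.nil))))))))))))))))))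
 (Ls.cons (Ls.cons Ent.zero (Ls.cons Ent.zero (Ls.cons Ent.zero (Ls.cons Ent.zero (Ls.cons Ent.zero (Ls.cons Ent.zero (Ls.cons Ent.zero (Ls.cons Ent.zero (Ls.cons Ent.zero (Ls.cons Ent.zero (Ls.cons Ent.zero (Ls.cons Ent.zero (Ls.cons Ent.zero (Ls.cons Ent.zero (Ls.cons Ent.zero (Ls.cons Ent.zero (Ls.cons Ent.zero Ls.nil)))))))))))))))))
 (Ls.cons (Ls.cons Ent.zero (Ls.cons Ent.zero (Ls.cons Ent.zero (Ls.cons Ent.zero (Ls.cons Ent.zero (Ls.cons Ent.zero (Ls.cons Ent.zero (Ls.cons Ent.zero (Ls.cons Ent.zero (Ls.cons Ent.zero (Ls.cons Ent.zero (Ls.cons Ent.zero (Ls.cons Ent.zero (Ls.cons Ent.zero (Ls.cons Ent.zero (Ls.cons Ent.zero Ls.nil))))))))))))))))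
 (Ls.cons (Ls.cons Ent.zero (Ls.cons Ent.zero (Ls.cons Ent.zero (Ls.cons Ent.zero (Ls.cons Ent.zero (Ls.cons Ent.zero (Ls.cons Ent.zero (Ls.cons Ent.zero (Ls.cons Ent.zero (Ls.cons Ent.zero (Ls.cons Ent.zero (Ls.cons Ent.zero (Ls.cons Ent.zero (Ls.cons Ent.zero (Ls.cons Ent.zero Ls.nil)))))))))))))))
 (Ls.cons (Ls.cons Ent.zero (Ls.cons Ent.zero (Ls.cons Ent.zero (Ls.cons Ent.zero (Ls.cons Ent.zero (Ls.cons Ent.zero (Ls.cons Ent.zero (Ls.cons Ent.zero (Ls.cons Ent.zero (Ls.cons Ent.zero (Ls.cons Ent.zero (Ls.cons Ent.zero (Ls.cons Ent.zero (Ls.cons Ent.zero Ls.nil))))))))))))))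
 (Ls.cons (Ls.cons Ent.zero (Ls.cons Ent.zero (Ls.cons Ent.zero (Ls.cons Ent.zero (Ls.cons Ent.zero (Ls.cons Ent.zero (Ls.cons Ent.zero (Ls.cons Ent.zero (Ls.cons Ent.zero (Ls.cons Ent.zero (Ls.cons Ent.zero (Ls.cons Ent.zero (Ls.cons Ent.zero Ls.nil)))))))))))))
 (Ls.cons (Ls.cons Ent.zero (Ls.cons Ent.zero (Ls.cons Ent.zero (Ls.cons Ent.zero (Ls.cons Ent.zero (Ls.cons Ent.zero (Ls.cons Ent.zero (Ls.cons Ent.zero (Ls.cons Ent.zero (Ls.cons Ent.zero (Ls.cons Ent.zero (Ls.cons Ent.zero Ls.nil))))))))))))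
 (Ls.cons (Ls.cons Ent.zero (Ls.cons Ent.zero (Ls.cons Ent.zero (Ls.cons Ent.zero (Ls.cons Ent.zero (Ls.cons Ent.zero (Ls.cons Ent.zero (Ls.cons Ent.zero (Ls.cons Ent.zero (Ls.cons Ent.zero (Ls.cons Ent.zero Ls.nil)))))))))))
 (Ls.cons (Ls.cons Ent.zero (Ls.cons Ent.zero (Ls.cons Ent.zero (Ls.cons Ent.zero (Ls.cons Ent.zero (Ls.cons Ent.zero (Ls.cons Ent.zero (Ls.cons Ent.zero (Ls.cons Ent.zero (Ls.cons Ent.zero Ls.nil))))))))))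
 (Ls.cons (Ls.cons Ent.zero (Ls.cons Ent.zero (Ls.cons Ent.zero (Ls.cons Ent.zero (Ls.cons Ent.zero (Ls.cons Ent.zero (Ls.cons Ent.zero (Ls.cons Ent.zero (Ls.cons Ent.zero Ls.nil)))))))))
 (Ls.cons (Ls.cons Ent.zero (Ls.cons Ent.zero (Ls.cons Ent.zero (Ls.cons Ent.zero (Ls.cons Ent.zero (Ls.cons Ent.zero (Ls.cons Ent.zero (Ls.cons Ent.zero Ls.nil))))))))
 (Ls.cons Ls.nil
 (Ls.cons Ls.nil
 (Ls.cons Ls.nil
 Ls.nil))))))))))))))))))))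

noncomputable def cF1_6_0 : L2 :=
 (Ls.cons Ls.nil
 (Ls.cons Ls.nil
 (Ls.cons Ls.nil
 (Ls.cons Ls.nil
 (Ls.cons Ls.nil
 (Ls.cons Ls.nil
 (Ls.cons Ls.nil
 (Ls.cons (Ls.cons Ent.zero (Ls.cons Ent.zero (Ls.cons Ent.zero (Ls.cons Ent.zero (Ls.cons Ent.zero (Ls.cons Ent.zero (Ls.cons Ent.zero (Ls.cons Ent.zero (Ls.cons Ent.zero (Ls.cons Ent.zero (Ls.cons Ent.zero (Ls.cons Ent.zero (Ls.cons Ent.zero (Ls.cons Ent.zero (Ls.cons Ent.zero (Ls.cons Ent.zero (Ls.cons Ent.zero Ls.nil)))))))))))))))))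
 (Ls.cons (Ls.cons Ent.zero (Ls.cons Ent.zero (Ls.cons Ent.zero (Ls.cons Ent.zero (Ls.cons Ent.zero (Ls.cons Ent.zero (Ls.cons Ent.zero (Ls.cons Ent.zero (Ls.cons Ent.zero (Ls.cons Ent.zero (Ls.cons Ent.zero (Ls.cons Ent.zero (Ls.cons Ent.zero (Ls.cons Ent.zero (Ls.cons Ent.zero (Ls.cons Ent.zero Ls.nil))))))))))))))))
 (Ls.cons (Ls.cons Ent.zero (Ls.cons Ent.zero (Ls.cons Ent.zero (Ls.cons Ent.zero (Ls.cons Ent.zero (Ls.cons Ent.zero (Ls.cons Ent.zero (Ls.cons Ent.zero (Ls.cons Ent.zero (Ls.cons Ent.zero (Ls.cons Ent.zero (Ls.cons Ent.zero (Ls.cons Ent.zero (Ls.cons Ent.zero (Ls.cons Ent.zero Ls.nil)))))))))))))))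
 (Ls.cons (Ls.cons Ent.zero (Ls.cons Ent.zero (Ls.cons Ent.zero (Ls.cons Ent.zero (Ls.cons Ent.zero (Ls.cons Ent.zero (Ls.cons Ent.zero (Ls.cons Ent.zero (Ls.cons Ent.zero (Ls.cons Ent.zero (Ls.cons Ent.zero (Ls.cons Ent.zero (Ls.cons Ent.zero (Ls.cons Ent.zero Ls.nil))))))))))))))
 (Ls.cons (Ls.cons Ent.zero (Ls.cons Ent.zero (Ls.cons Ent.zero (Ls.cons Ent.zero (Ls.cons Ent.zero (Ls.cons Ent.zero (Ls.cons Ent.zero (Ls.cons Ent.zero (Ls.cons Ent.zero (Ls.cons Ent.zero (Ls.cons Ent.zero (Ls.cons Ent.zero (Ls.cons Ent.zero Ls.nil)))))))))))))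
 (Ls.cons (Ls.cons Ent.zero (Ls.cons Ent.zero (Ls.cons Ent.zero (Ls.cons Ent.zero (Ls.cons Ent.zero (Ls.cons Ent.zero (Ls.cons Ent.zero (Ls.cons Ent.zero (Ls.cons Ent.zero (Ls.cons Ent.zero (Ls.cons Ent.zero (Ls.cons Ent.zero Ls.nil))))))))))))
 (Ls.cons (Ls.cons Ent.zero (Ls.cons Ent.zero (Ls.cons Ent.zero (Ls.cons Ent.zero (Ls.cons Ent.zero (Ls.cons Ent.zero (Ls.cons Ent.zero (Ls.cons Ent.zero (Ls.cons Ent.zero (Ls.cons Ent.zero (Ls.cons Ent.zero Ls.nil)))))))))))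
 (Ls.cons (Ls.cons Ent.zero (Ls.cons Ent.zero (Ls.cons Ent.zero (Ls.cons Ent.zero (Ls.cons Ent.zero (Ls.cons Ent.zero (Ls.cons Ent.zero (Ls.cons Ent.zero (Ls.cons Ent.zero (Ls.cons Ent.zero Ls.nil))))))))))
 (Ls.cons (Ls.cons Ent.zero (Ls.cons Ent.zero (Ls.cons Ent.zero (Ls.cons Ent.zero (Ls.cons Ent.zero (Ls.cons Ent.zero (Ls.cons Ent.zero (Ls.cons Ent.zero (Ls.cons Ent.zero Ls.nil)))))))))
 (Ls.cons (Ls.cons Ent.zero (Ls.cons Ent.zero (Ls.cons Ent.zero (Ls.cons Ent.zero (Ls.cons Ent.zero (Ls.cons Ent.zero (Ls.cons Ent.zero (Ls.cons Ent.zero Ls.nil))))))))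
 (Ls.cons Ls.nil
 (Ls.cons Ls.nil
 (Ls.cons Ls.nil
 Ls.nil))))))))))))))))))))

noncomputable def cF1_7_0 : L2 :=
 (Ls.cons Ls.nil
 (Ls.cons Ls.nil
 (Ls.cons Ls.nil
 (Ls.cons Ls.nil
 (Ls.cons Ls.nil
 (Ls.cons Ls.nil
 (Ls.cons Ls.nil
 (Ls.cons Ls.nil
 (Ls.cons (Ls.cons Ent.zero (Ls.cons Ent.zero (Ls.cons Ent.zero (Ls.cons Ent.zero (Ls.cons Ent.zero (Ls.cons Ent.zero (Ls.cons Ent.zero (Ls.cons Ent.zero (Ls.cons Ent.zero (Ls.cons Ent.zero (Ls.cons Ent.zero (Ls.cons Ent.zero (Ls.cons Ent.zero (Ls.cons Ent.zero (Ls.cons Ent.zero (Ls.cons Ent.zero Ls.nil))))))))))))))))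
 (Ls.cons (Ls.cons Ent.zero (Ls.cons Ent.zero (Ls.cons Ent.zero (Ls.cons Ent.zero (Ls.cons Ent.zero (Ls.cons Ent.zero (Ls.cons Ent.zero (Ls.cons Ent.zero (Ls.cons Ent.zero (Ls.cons Ent.zero (Ls.cons Ent.zero (Ls.cons Ent.zero (Ls.cons Ent.zero (Ls.cons Ent.zero (Ls.cons Ent.zero Ls.nil)))))))))))))))
 (Ls.cons (Ls.cons Ent.zero (Ls.cons Ent.zero (Ls.cons Ent.zero (Ls.cons Ent.zero (Ls.cons Ent.zero (Ls.cons Ent.zero (Ls.cons Ent.zero (Ls.cons Ent.zero (Ls.cons Ent.zero (Ls.cons Ent.zero (Ls.cons Ent.zero (Ls.cons Ent.zero (Ls.cons Ent.zero (Ls.cons Ent.zero Ls.nil))))))))))))))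
 (Ls.cons (Ls.cons Ent.zero (Ls.cons Ent.zero (Ls.cons Ent.zero (Ls.cons Ent.zero (Ls.cons Ent.zero (Ls.cons Ent.zero (Ls.cons Ent.zero (Ls.cons Ent.zero (Ls.cons Ent.zero (Ls.cons Ent.zero (Ls.cons Ent.zero (Ls.cons Ent.zero (Ls.cons Ent.zero Ls.nil)))))))))))))
 (Ls.cons (Ls.cons Ent.zero (Ls.cons Ent.zero (Ls.cons Ent.zero (Ls.cons Ent.zero (Ls.cons Ent.zero (Ls.cons Ent.zero (Ls.cons Ent.zero (Ls.cons Ent.zero (Ls.cons Ent.zero (Ls.cons Ent.zero (Ls.cons Ent.zero (Ls.cons Ent.zero Ls.nil))))))))))))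
 (Ls.cons (Ls.cons Ent.zero (Ls.cons Ent.zero (Ls.cons Ent.zero (Ls.cons Ent.zero (Ls.cons Ent.zero (Ls.cons Ent.zero (Ls.cons Ent.zero (Ls.cons Ent.zero (Ls.cons Ent.zero (Ls.cons Ent.zero (Ls.cons Ent.zero Ls.nil)))))))))))
 (Ls.cons (Ls.cons Ent.zero (Ls.cons Ent.zero (Ls.cons Ent.zero (Ls.cons Ent.zero (Ls.cons Ent.zero (Ls.cons Ent.zero (Ls.cons Ent.zero (Ls.cons Ent.zero (Ls.cons Ent.zero (Ls.cons Ent.zero Ls.nil))))))))))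
 (Ls.cons (Ls.cons Ent.zero (Ls.cons Ent.zero (Ls.cons Ent.zero (Ls.cons Ent.zero (Ls.cons Ent.zero (Ls.cons Ent.zero (Ls.cons Ent.zero (Ls.cons Ent.zero (Ls.cons Ent.zero Ls.nil)))))))))
 (Ls.cons (Ls.cons Ent.zero (Ls.cons Ent.zero (Ls.cons Ent.zero (Ls.cons Ent.zero (Ls.cons Ent.zero (Ls.cons Ent.zero (Ls.cons Ent.zero (Ls.cons Ent.zero Ls.nil))))))))
 (Ls.cons Ls.nil
 (Ls.cons Ls.nil
 (Ls.cons Ls.nil
 Ls.nil))))))))))))))))))))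

noncomputable def cF1_8_0 : L2 :=
 (Ls.cons Ls.nil
 (Ls.cons Ls.nil
 (Ls.cons Ls.nil
 (Ls.cons Ls.nil
 (Ls.cons Ls.nil
 (Ls.cons Ls.nil
 (Ls.cons Ls.nil
 (Ls.cons Ls.nil
 (Ls.cons Ls.nil
 (Ls.cons (Ls.cons Ent.zero (Ls.cons Ent.zero (Ls.cons Ent.zero (Ls.cons Ent.zero (Ls.cons Ent.zero (Ls.cons Ent.zero (Ls.cons Ent.zero (Ls.cons Ent.zero (Ls.cons Ent.zero (Ls.cons Ent.zero (Ls.cons Ent.zero (Ls.cons Ent.zero (Ls.cons Ent.zero (Ls.cons Ent.zero (Ls.cons Ent.zero Ls.nil)))))))))))))))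
 (Ls.cons (Ls.cons Ent.zero (Ls.cons Ent.zero (Ls.cons Ent.zero (Ls.cons Ent.zero (Ls.cons Ent.zero (Ls.cons Ent.zero (Ls.cons Ent.zero (Ls.cons Ent.zero (Ls.cons Ent.zero (Ls.cons Ent.zero (Ls.cons Ent.zero (Ls.cons Ent.zero (Ls.cons Ent.zero (Ls.cons Ent.zero Ls.nil))))))))))))))
 (Ls.cons (Ls.cons Ent.zero (Ls.cons Ent.zero (Ls.cons Ent.zero (Ls.cons Ent.zero (Ls.cons Ent.zero (Ls.cons Ent.zero (Ls.cons Ent.zero (Ls.cons Ent.zero (Ls.cons Ent.zero (Ls.cons Ent.zero (Ls.cons Ent.zero (Ls.cons Ent.zero (Ls.cons Ent.zero Ls.nil)))))))))))))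
 (Ls.cons (Ls.cons Ent.zero (Ls.cons Ent.zero (Ls.cons Ent.zero (Ls.cons Ent.zero (Ls.cons Ent.zero (Ls.cons Ent.zero (Ls.cons Ent.zero (Ls.cons Ent.zero (Ls.cons Ent.zero (Ls.cons Ent.zero (Ls.cons Ent.zero (Ls.cons Ent.zero Ls.nil))))))))))))
 (Ls.cons (Ls.cons Ent.zero (Ls.cons Ent.zero (Ls.cons Ent.zero (Ls.cons Ent.zero (Ls.cons Ent.zero (Ls.cons Ent.zero (Ls.cons Ent.zero (Ls.cons Ent.zero (Ls.cons Ent.zero (Ls.cons Ent.zero (Ls.cons Ent.zero Ls.nil)))))))))))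
 (Ls.cons (Ls.cons Ent.zero (Ls.cons Ent.zero (Ls.cons Ent.zero (Ls.cons Ent.zero (Ls.cons Ent.zero (Ls.cons Ent.zero (Ls.cons Ent.zero (Ls.cons Ent.zero (Ls.cons Ent.zero (Ls.cons Ent.zero Ls.nil))))))))))
 (Ls.cons (Ls.cons Ent.zero (Ls.cons Ent.zero (Ls.cons Ent.zero (Ls.cons Ent.zero (Ls.cons Ent.zero (Ls.cons Ent.zero (Ls.cons Ent.zero (Ls.cons Ent.zero (Ls.cons Ent.zero Ls.nil)))))))))
 (Ls.cons (Ls.cons Ent.zero (Ls.cons Ent.zero (Ls.cons Ent.zero (Ls.cons Ent.zero (Ls.cons Ent.zero (Ls.cons Ent.zero (Ls.cons Ent.zero (Ls.cons Ent.zero Ls.nil))))))))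
 (Ls.cons Ls.nil
 (Ls.cons Ls.nil
 (Ls.cons Ls.nil
 Ls.nil))))))))))))))))))))

noncomputable def cF1_9_0 : L2 :=
 (Ls.cons Ls.nil
 (Ls.cons Ls.nil
 (Ls.cons Ls.nil
 (Ls.cons Ls.nil
 (Ls.cons Ls.nil
 (Ls.cons Ls.nil
 (Ls.cons Ls.nil
 (Ls.cons Ls.nil
 (Ls.cons Ls.nil
 (Ls.cons Ls.nil
 (Ls.cons (Ls.cons Ent.zero (Ls.cons Ent.zero (Ls.cons Ent.zero (Ls.cons Ent.zero (Ls.cons Ent.zero (Ls.cons Ent.zero (Ls.cons Ent.zero (Ls.cons Ent.zero (Ls.cons Ent.zero (Ls.cons Ent.zero (Ls.cons Ent.zero (Ls.cons Ent.zero (Ls.cons Ent.zero (Ls.cons Ent.zero Ls.nil))))))))))))))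
 (Ls.cons (Ls.cons Ent.zero (Ls.cons Ent.zero (Ls.cons Ent.zero (Ls.cons Ent.zero (Ls.cons Ent.zero (Ls.cons Ent.zero (Ls.cons Ent.zero (Ls.cons Ent.zero (Ls.cons Ent.zero (Ls.cons Ent.zero (Ls.cons Ent.zero (Ls.cons Ent.zero (Ls.cons Ent.zero Ls.nil)))))))))))))
 (Ls.cons (Ls.cons Ent.zero (Ls.cons Ent.zero (Ls.cons Ent.zero (Ls.cons Ent.zero (Ls.cons Ent.zero (Ls.cons Ent.zero (Ls.cons Ent.zero (Ls.cons Ent.zero (Ls.cons Ent.zero (Ls.cons Ent.zero (Ls.cons Ent.zero (Ls.cons Ent.zero Ls.nil))))))))))))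
 (Ls.cons (Ls.cons Ent.zero (Ls.cons Ent.zero (Ls.cons Ent.zero (Ls.cons Ent.zero (Ls.cons Ent.zero (Ls.cons Ent.zero (Ls.cons Ent.zero (Ls.cons Ent.zero (Ls.cons Ent.zero (Ls.cons Ent.zero (Ls.cons Ent.zero Ls.nil)))))))))))
 (Ls.cons (Ls.cons Ent.zero (Ls.cons Ent.zero (Ls.cons Ent.zero (Ls.cons Ent.zero (Ls.cons Ent.zero (Ls.cons Ent.zero (Ls.cons Ent.zero (Ls.cons Ent.zero (Ls.cons Ent.zero (Ls.cons Ent.zero Ls.nil))))))))))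
 (Ls.cons (Ls.cons Ent.zero (Ls.cons Ent.zero (Ls.cons Ent.zero (Ls.cons Ent.zero (Ls.cons Ent.zero (Ls.cons Ent.zero (Ls.cons Ent.zero (Ls.cons Ent.zero (Ls.cons Ent.zero Ls.nil)))))))))
 (Ls.cons (Ls.cons Ent.zero (Ls.cons Ent.zero (Ls.cons Ent.zero (Ls.cons Ent.zero (Ls.cons Ent.zero (Ls.cons Ent.zero (Ls.cons Ent.zero (Ls.cons Ent.zero Ls.nil))))))))
 (Ls.cons Ls.nil
 (Ls.cons Ls.nil
 (Ls.cons Ls.nil
 Ls.nil))))))))))))))))))))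

noncomputable def cF1_10_0 : L2 :=
 (Ls.cons Ls.nil
 (Ls.cons Ls.nil
 (Ls.cons Ls.nil
 (Ls.cons Ls.nil
 (Ls.cons Ls.nil
 (Ls.cons Ls.nil
 (Ls.cons Ls.nil
 (Ls.cons Ls.nil
 (Ls.cons Ls.nil
 (Ls.cons Ls.nil
 (Ls.cons Ls.nil
 (Ls.cons (Ls.cons Ent.zero (Ls.cons Ent.zero (Ls.cons Ent.zero (Ls.cons Ent.zero (Ls.cons Ent.zero (Ls.cons Ent.zero (Ls.cons Ent.zero (Ls.cons Ent.zero (Ls.cons Ent.zero (Ls.cons Ent.zero (Ls.cons Ent.zero (Ls.cons Ent.zero (Ls.cons Ent.zero Ls.nil)))))))))))))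
 (Ls.cons (Ls.cons Ent.zero (Ls.cons Ent.zero (Ls.cons Ent.zero (Ls.cons Ent.zero (Ls.cons Ent.zero (Ls.cons Ent.zero (Ls.cons Ent.zero (Ls.cons Ent.zero (Ls.cons Ent.zero (Ls.cons Ent.zero (Ls.cons Ent.zero (Ls.cons Ent.zero Ls.nil))))))))))))
 (Ls.cons (Ls.cons Ent.zero (Ls.cons Ent.zero (Ls.cons Ent.zero (Ls.cons Ent.zero (Ls.cons Ent.zero (Ls.cons Ent.zero (Ls.cons Ent.zero (Ls.cons Ent.zero (Ls.cons Ent.zero (Ls.cons Ent.zero (Ls.cons Ent.zero Ls.nil)))))))))))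
 (Ls.cons (Ls.cons Ent.zero (Ls.cons Ent.zero (Ls.cons Ent.zero (Ls.cons Ent.zero (Ls.cons Ent.zero (Ls.cons Ent.zero (Ls.cons Ent.zero (Ls.cons Ent.zero (Ls.cons Ent.zero (Ls.cons Ent.zero Ls.nil))))))))))
 (Ls.cons (Ls.cons Ent.zero (Ls.cons Ent.zero (Ls.cons Ent.zero (Ls.cons Ent.zero (Ls.cons Ent.zero (Ls.cons Ent.zero (Ls.cons Ent.zero (Ls.cons Ent.zero (Ls.cons Ent.zero Ls.nil)))))))))
 (Ls.cons Ls.nil
 (Ls.cons Ls.nil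
 (Ls.cons Ls.nil
 (Ls.cons Ls.nil
 Ls.nil))))))))))))))))))))

noncomputable def cF1_11_0 : L2 :=
 (Ls.cons Ls.nil
 (Ls.cons Ls.nil
 (Ls.cons Ls.nil
 (Ls.cons Ls.nil
 (Ls.cons Ls.nil
 (Ls.cons Ls.nil
 (Ls.cons Ls.nil
 (Ls.cons Ls.nil
 (Ls.cons Ls.nil
 (Ls.cons Ls.nil
 (Ls.cons Ls.nil
 (Ls.cons Ls.nil
 (Ls.cons (Ls.cons Ent.zero (Ls.cons Ent.zero (Ls.cons Ent.zero (Ls.cons Ent.zero (Ls.cons Ent.zero (Ls.cons Ent.zero (Ls.cons Ent.zero (Ls.cons Ent.zero (Ls.cons Ent.zero (Ls.cons Ent.zero (Ls.cons Ent.zero (Ls.cons Ent.zero Ls.nil))))))))))))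
 (Ls.cons (Ls.cons Ent.zero (Ls.cons Ent.zero (Ls.cons Ent.zero (Ls.cons Ent.zero (Ls.cons Ent.zero (Ls.cons Ent.zero (Ls.cons Ent.zero (Ls.cons Ent.zero (Ls.cons Ent.zero (Ls.cons Ent.zero (Ls.cons Ent.zero Ls.nil)))))))))))
 (Ls.cons (Ls.cons Ent.zero (Ls.cons Ent.zero (Ls.cons Ent.zero (Ls.cons Ent.zero (Ls.cons Ent.zero (Ls.cons Ent.zero (Ls.cons Ent.zero (Ls.cons Ent.zero (Ls.cons Ent.zero (Ls.cons Ent.zero Ls.nil))))))))))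
 (Ls.cons (Ls.cons Ent.zero (Ls.cons Ent.zero (Ls.cons Ent.zero (Ls.cons Ent.zero (Ls.cons Ent.zero (Ls.cons Ent.zero (Ls.cons Ent.zero (Ls.cons Ent.zero (Ls.cons Ent.zero Ls.nil)))))))))
 (Ls.cons Ls.nil
 (Ls.cons Ls.nil
 (Ls.cons Ls.nil
 (Ls.cons Ls.nil
 Ls.nil))))))))))))))))))))

noncomputable def cF1_12_0 : L2 :=
 (Ls.cons Ls.nil
 (Ls.cons Ls.nil
 (Ls.cons Ls.nil
 (Ls.cons Ls.nil
 (Ls.cons Ls.nil
 (Ls.cons Ls.nil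
 (Ls.cons Ls.nil
 (Ls.cons Ls.nil
 (Ls.cons Ls.nil
 (Ls.cons Ls.nil
 (Ls.cons Ls.nil
 (Ls.cons Ls.nil
 (Ls.cons Ls.nil
 (Ls.cons (Ls.cons Ent.zero (Ls.cons Ent.zero (Ls.cons Ent.zero (Ls.cons Ent.zero (Ls.cons Ent.zero (Ls.cons Ent.zero (Ls.cons Ent.zero (Ls.cons Ent.zero (Ls.cons Ent.zero (Ls.cons Ent.zero (Ls.cons Ent.zero Ls.nil)))))))))))
 (Ls.cons (Ls.cons Ent.zero (Ls.cons Ent.zero (Ls.cons Ent.zero (Ls.cons Ent.zero (Ls.cons Ent.zero (Ls.cons Ent.zero (Ls.cons Ent.zero (Ls.cons Ent.zero (Ls.cons Ent.zero (Ls.cons Ent.zero Ls.nil))))))))))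
 (Ls.cons (Ls.cons Ent.zero (Ls.cons Ent.zero (Ls.cons Ent.zero (Ls.cons Ent.zero (Ls.cons Ent.zero (Ls.cons Ent.zero (Ls.cons Ent.zero (Ls.cons Ent.zero (Ls.cons Ent.zero Ls.nil)))))))))
 (Ls.cons Ls.nil
 (Ls.cons Ls.nil
 (Ls.cons Ls.nil
 (Ls.cons Ls.nil
 Ls.nil))))))))))))))))))))

noncomputable def cF1_13_0 : L2 :=
 (Ls.cons Ls.nil
 (Ls.cons Ls.nil
 (Ls.cons Ls.nil
 (Ls.cons Ls.nil
 (Ls.cons Ls.nil
 (Ls.cons Ls.nil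
 (Ls.cons Ls.nil
 (Ls.cons Ls.nil
 (Ls.cons Ls.nil
 (Ls.cons Ls.nil
 (Ls.cons Ls.nil
 (Ls.cons Ls.nil
 (Ls.cons Ls.nil
 (Ls.cons Ls.nil
 (Ls.cons (Ls.cons Ent.zero (Ls.cons Ent.zero (Ls.cons Ent.zero (Ls.cons Ent.zero (Ls.cons Ent.zero (Ls.cons Ent.zero (Ls.cons Ent.zero (Ls.cons Ent.zero (Ls.cons Ent.zero (Ls.cons Ent.zero Ls.nil))))))))))
 (Ls.cons (Ls.cons Ent.zero (Ls.cons Ent.zero (Ls.cons Ent.zero (Ls.cons Ent.zero (Ls.cons Ent.zero (Ls.cons Ent.zero (Ls.cons Ent.zero (Ls.cons Ent.zero (Ls.cons Ent.zero Ls.nil)))))))))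
 (Ls.cons Ls.nil
 (Ls.cons Ls.nil
 (Ls.cons Ls.nil
 (Ls.cons Ls.nil
 Ls.nil))))))))))))))))))))

noncomputable def cF1_14_0 : L2 :=
 (Ls.cons Ls.nil
 (Ls.cons Ls.nil
 (Ls.cons Ls.nil
 (Ls.cons Ls.nil
 (Ls.cons Ls.nil
 (Ls.cons Ls.nil
 (Ls.cons Ls.nil
 (Ls.cons Ls.nil
 (Ls.cons Ls.nil
 (Ls.cons Ls.nil
 (Ls.cons Ls.nil
 (Ls.cons Ls.nil
 (Ls.cons Ls.nil
 (Ls.cons Ls.nil
 (Ls.cons Ls.nil
 (Ls.cons (Ls.cons Ent.zero (Ls.cons Ent.zero (Ls.cons Ent.zero (Ls.cons Ent.zero (Ls.cons Ent.zero (Ls.cons Ent.zero (Ls.cons Ent.zero (Ls.cons Ent.zero (Ls.cons Ent.zero Ls.nil)))))))))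
 (Ls.cons Ls.nil
 (Ls.cons Ls.nil
 (Ls.cons Ls.nil
 (Ls.cons Ls.nil
 Ls.nil))))))))))))))))))))

noncomputable def tbF1 : L3 := (Ls.cons cF1_0_0 (Ls.cons cF1_1_0 (Ls.cons cF1_2_0 (Ls.cons cF1_3_0 (Ls.cons cF1_4_0 (Ls.cons cF1_5_0 (Ls.cons cF1_6_0 (Ls.cons cF1_7_0 (Ls.cons cF1_8_0 (Ls.cons cF1_9_0 (Ls.cons cF1_10_0 (Ls.cons cF1_11_0 (Ls.cons cF1_12_0 (Ls.cons cF1_13_0 (Ls.cons cF1_14_0 Ls.nil)))))))))))))))

noncomputable def bxF1_0 : L2 :=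
 (Ls.cons (Ls.cons Ent.zero (Ls.cons Ent.zero (Ls.cons Ent.zero (Ls.cons Ent.zero (Ls.cons Ent.zero (Ls.cons Ent.zero (Ls.cons Ent.zero (Ls.cons Ent.zero (Ls.cons Ent.zero (Ls.cons Ent.zero (Ls.cons Ent.zero (Ls.cons Ent.zero (Ls.cons Ent.zero (Ls.cons Ent.zero (Ls.cons Ent.zero (Ls.cons Ent.zero (Ls.cons Ent.zero (Ls.cons Ent.zero (Ls.cons Ent.zero (Ls.cons Ent.zero (Ls.cons Ent.zero (Ls.cons Ent.zero (Ls.cons Ent.zero (Ls.cons Ent.zero (Ls.cons Ent.zero Ls.nil)))))))))))))))))))))))))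
 (Ls.cons (Ls.cons Ent.zero (Ls.cons Ent.zero (Ls.cons Ent.zero (Ls.cons Ent.zero (Ls.cons Ent.zero (Ls.cons Ent.zero (Ls.cons Ent.zero (Ls.cons Ent.zero (Ls.cons Ent.zero (Ls.cons Ent.zero (Ls.cons Ent.zero (Ls.cons Ent.zero (Ls.cons Ent.zero (Ls.cons Ent.zero (Ls.cons Ent.zero (Ls.cons Ent.zero (Ls.cons Ent.zero (Ls.cons Ent.zero (Ls.cons Ent.zero (Ls.cons Ent.zero (Ls.cons Ent.zero (Ls.cons Ent.zero (Ls.cons Ent.zero (Ls.cons Ent.zero (Ls.cons Ent.zero Ls.nil)))))))))))))))))))))))))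
 (Ls.cons (Ls.cons Ent.zero (Ls.cons Ent.zero (Ls.cons Ent.zero (Ls.cons Ent.zero (Ls.cons Ent.zero (Ls.cons Ent.zero (Ls.cons Ent.zero (Ls.cons Ent.zero (Ls.cons Ent.zero (Ls.cons Ent.zero (Ls.cons Ent.zero (Ls.cons Ent.zero (Ls.cons Ent.zero (Ls.cons Ent.zero (Ls.cons Ent.zero (Ls.cons Ent.zero (Ls.cons Ent.zero (Ls.cons Ent.zero (Ls.cons Ent.zero (Ls.cons Ent.zero (Ls.cons Ent.zero (Ls.cons Ent.zero (Ls.cons Ent.zero (Ls.cons Ent.zero (Ls.cons Ent.zero Ls.nil)))))))))))))))))))))))))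
 (Ls.cons (Ls.cons Ent.zero (Ls.cons Ent.zero (Ls.cons Ent.zero (Ls.cons Ent.zero (Ls.cons Ent.zero (Ls.cons Ent.zero (Ls.cons Ent.zero (Ls.cons Ent.zero (Ls.cons Ent.zero (Ls.cons Ent.zero (Ls.cons Ent.zero (Ls.cons Ent.zero (Ls.cons Ent.zero (Ls.cons Ent.zero (Ls.cons Ent.zero (Ls.cons Ent.zero (Ls.cons Ent.zero (Ls.cons Ent.zero (Ls.cons Ent.zero (Ls.cons Ent.zero (Ls.cons Ent.zero (Ls.cons Ent.zero (Ls.cons Ent.zero (Ls.cons Ent.zero (Ls.cons Ent.zero Ls.nil)))))))))))))))))))))))))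
 (Ls.cons (Ls.cons Ent.zero (Ls.cons Ent.zero (Ls.cons Ent.zero (Ls.cons Ent.zero (Ls.cons Ent.zero (Ls.cons Ent.zero (Ls.cons Ent.zero (Ls.cons Ent.zero (Ls.cons Ent.zero (Ls.cons Ent.zero (Ls.cons Ent.zero (Ls.cons Ent.zero (Ls.cons Ent.zero (Ls.cons Ent.zero (Ls.cons Ent.zero (Ls.cons Ent.zero (Ls.cons Ent.zero (Ls.cons Ent.zero (Ls.cons Ent.zero (Ls.cons Ent.zero (Ls.cons Ent.zero (Ls.cons Ent.zero (Ls.cons Ent.zero (Ls.cons Ent.zero (Ls.cons Ent.zero Ls.nil)))))))))))))))))))))))))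
 (Ls.cons (Ls.cons Ent.zero (Ls.cons Ent.zero (Ls.cons Ent.zero (Ls.cons Ent.zero (Ls.cons Ent.zero (Ls.cons Ent.zero (Ls.cons Ent.zero (Ls.cons Ent.zero (Ls.cons Ent.zero (Ls.cons Ent.zero (Ls.cons Ent.zero (Ls.cons Ent.zero (Ls.cons Ent.zero (Ls.cons Ent.zero (Ls.cons Ent.zero (Ls.cons Ent.zero (Ls.cons Ent.zero (Ls.cons Ent.zero (Ls.cons Ent.zero (Ls.cons Ent.zero (Ls.cons Ent.zero (Ls.cons Ent.zero (Ls.cons Ent.zero (Ls.cons Ent.zero (Ls.cons Ent.zero Ls.nil)))))))))))))))))))))))))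
 (Ls.cons (Ls.cons Ent.zero (Ls.cons Ent.zero (Ls.cons Ent.zero (Ls.cons Ent.zero (Ls.cons Ent.zero (Ls.cons Ent.zero (Ls.cons Ent.zero (Ls.cons Ent.zero (Ls.cons Ent.zero (Ls.cons Ent.zero (Ls.cons Ent.zero (Ls.cons Ent.zero (Ls.cons Ent.zero (Ls.cons Ent.zero (Ls.cons Ent.zero (Ls.cons Ent.zero (Ls.cons Ent.zero (Ls.cons Ent.zero (Ls.cons Ent.zero (Ls.cons Ent.zero (Ls.cons Ent.zero (Ls.cons Ent.zero (Ls.cons Ent.zero (Ls.cons Ent.zero (Ls.cons Ent.zero Ls.nil)))))))))))))))))))))))))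
 (Ls.cons (Ls.cons Ent.zero (Ls.cons Ent.zero (Ls.cons Ent.zero (Ls.cons Ent.zero (Ls.cons Ent.zero (Ls.cons Ent.zero (Ls.cons Ent.zero (Ls.cons Ent.zero (Ls.cons Ent.zero (Ls.cons Ent.zero (Ls.cons Ent.zero (Ls.cons Ent.zero (Ls.cons Ent.zero (Ls.cons Ent.zero (Ls.cons Ent.zero (Ls.cons Ent.zero (Ls.cons Ent.zero (Ls.cons Ent.zero (Ls.cons Ent.zero (Ls.cons Ent.zero (Ls.cons Ent.zero (Ls.cons Ent.zero (Ls.cons Ent.zero (Ls.cons Ent.zero (Ls.cons Ent.zero Ls.nil)))))))))))))))))))))))))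
 (Ls.cons (Ls.cons Ent.zero (Ls.cons Ent.zero (Ls.cons Ent.zero (Ls.cons Ent.zero (Ls.cons Ent.zero (Ls.cons Ent.zero (Ls.cons Ent.zero (Ls.cons Ent.zero (Ls.cons Ent.zero (Ls.cons Ent.zero (Ls.cons Ent.zero (Ls.cons Ent.zero (Ls.cons Ent.zero (Ls.cons Ent.zero (Ls.cons Ent.zero (Ls.cons Ent.zero (Ls.cons Ent.zero (Ls.cons Ent.zero (Ls.cons Ent.zero (Ls.cons Ent.zero (Ls.cons (Ent.pos F1_11_4_0) (Ls.cons (Ent.neg F1_11_3_0) (Ls.cons (Ent.pos F1_11_2_0) (Ls.cons (Ent.neg F1_11_1_0) (Ls.cons Ent.zero Ls.nil)))))))))))))))))))))))))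
 (Ls.cons (Ls.cons Ent.zero (Ls.cons Ent.zero (Ls.cons Ent.zero (Ls.cons Ent.zero (Ls.cons Ent.zero (Ls.cons Ent.zero (Ls.cons Ent.zero (Ls.cons Ent.zero (Ls.cons Ent.zero (Ls.cons Ent.zero (Ls.cons Ent.zero (Ls.cons Ent.zero (Ls.cons Ent.zero (Ls.cons Ent.zero (Ls.cons Ent.zero (Ls.cons Ent.zero (Ls.cons Ent.zero (Ls.cons Ent.zero (Ls.cons Ent.zero (Ls.cons Ent.zero (Ls.cons Ent.zero (Ls.cons Ent.zero (Ls.cons Ent.zero (Ls.cons Ent.zero (Ls.cons Ent.zero Ls.nil)))))))))))))))))))))))))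
 (Ls.cons (Ls.cons Ent.zero (Ls.cons Ent.zero (Ls.cons Ent.zero (Ls.cons Ent.zero (Ls.cons Ent.zero (Ls.cons Ent.zero (Ls.cons Ent.zero (Ls.cons Ent.zero (Ls.cons Ent.zero (Ls.cons Ent.zero (Ls.cons Ent.zero (Ls.cons Ent.zero (Ls.cons Ent.zero (Ls.cons Ent.zero (Ls.cons Ent.zero (Ls.cons Ent.zero (Ls.cons Ent.zero (Ls.cons Ent.zero (Ls.cons Ent.zero (Ls.cons Ent.zero (Ls.cons Ent.zero (Ls.cons Ent.zero (Ls.cons Ent.zero (Ls.cons Ent.zero (Ls.cons Ent.zero Ls.nil)))))))))))))))))))))))))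
 (Ls.cons (Ls.cons Ent.zero (Ls.cons Ent.zero (Ls.cons Ent.zero (Ls.cons Ent.zero (Ls.cons Ent.zero (Ls.cons Ent.zero (Ls.cons Ent.zero (Ls.cons Ent.zero (Ls.cons Ent.zero (Ls.cons Ent.zero (Ls.cons Ent.zero (Ls.cons Ent.zero (Ls.cons Ent.zero (Ls.cons Ent.zero (Ls.cons Ent.zero (Ls.cons Ent.zero (Ls.cons Ent.zero (Ls.cons Ent.zero (Ls.cons Ent.zero (Ls.cons Ent.zero (Ls.cons Ent.zero (Ls.cons Ent.zero (Ls.cons Ent.zero (Ls.cons Ent.zero (Ls.cons Ent.zero Ls.nil)))))))))))))))))))))))))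
 (Ls.cons (Ls.cons Ent.zero (Ls.cons Ent.zero (Ls.cons Ent.zero (Ls.cons Ent.zero (Ls.cons Ent.zero (Ls.cons Ent.zero (Ls.cons Ent.zero (Ls.cons Ent.zero (Ls.cons Ent.zero (Ls.cons Ent.zero (Ls.cons Ent.zero (Ls.cons Ent.zero (Ls.cons Ent.zero (Ls.cons Ent.zero (Ls.cons Ent.zero (Ls.cons Ent.zero (Ls.cons Ent.zero (Ls.cons Ent.zero (Ls.cons Ent.zero (Ls.cons Ent.zero (Ls.cons Ent.zero (Ls.cons Ent.zero (Ls.cons Ent.zero (Ls.cons Ent.zero (Ls.cons Ent.zero Ls.nil)))))))))))))))))))))))))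
 (Ls.cons (Ls.cons Ent.zero (Ls.cons Ent.zero (Ls.cons Ent.zero (Ls.cons Ent.zero (Ls.cons Ent.zero (Ls.cons Ent.zero (Ls.cons Ent.zero (Ls.cons Ent.zero (Ls.cons Ent.zero (Ls.cons Ent.zero (Ls.cons Ent.zero (Ls.cons Ent.zero (Ls.cons Ent.zero (Ls.cons Ent.zero (Ls.cons Ent.zero (Ls.cons Ent.zero (Ls.cons Ent.zero (Ls.cons Ent.zero (Ls.cons Ent.zero (Ls.cons Ent.zero (Ls.cons Ent.zero (Ls.cons Ent.zero (Ls.cons Ent.zero (Ls.cons Ent.zero (Ls.cons Ent.zero Ls.nil)))))))))))))))))))))))))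
 (Ls.cons (Ls.cons Ent.zero (Ls.cons Ent.zero (Ls.cons Ent.zero (Ls.cons Ent.zero (Ls.cons Ent.zero (Ls.cons Ent.zero (Ls.cons Ent.zero (Ls.cons Ent.zero (Ls.cons Ent.zero (Ls.cons Ent.zero (Ls.cons Ent.zero (Ls.cons Ent.zero (Ls.cons Ent.zero (Ls.cons Ent.zero (Ls.cons Ent.zero (Ls.cons Ent.zero (Ls.cons Ent.zero (Ls.cons Ent.zero (Ls.cons Ent.zero (Ls.cons Ent.zero (Ls.cons Ent.zero (Ls.cons Ent.zero (Ls.cons Ent.zero (Ls.cons Ent.zero (Ls.cons Ent.zero Ls.nil)))))))))))))))))))))))))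
 (Ls.cons (Ls.cons Ent.zero (Ls.cons Ent.zero (Ls.cons Ent.zero (Ls.cons Ent.zero (Ls.cons Ent.zero (Ls.cons Ent.zero (Ls.cons Ent.zero (Ls.cons Ent.zero (Ls.cons Ent.zero (Ls.cons Ent.zero (Ls.cons Ent.zero (Ls.cons Ent.zero (Ls.cons Ent.zero (Ls.cons (Ent.neg F1_11_4_0) (Ls.cons Ent.zero (Ls.cons Ent.zero (Ls.cons Ent.zero (Ls.cons Ent.zero (Ls.cons Ent.zero (Ls.cons Ent.zero (Ls.cons Ent.zero (Ls.cons (Ent.pos F1_4_3_0) (Ls.cons (Ent.neg F1_4_2_0) (Ls.cons (Ent.pos F1_4_1_0) (Ls.cons Ent.zero Ls.nil)))))))))))))))))))))))))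
 (Ls.cons (Ls.cons Ent.zero (Ls.cons Ent.zero (Ls.cons Ent.zero (Ls.cons Ent.zero (Ls.cons Ent.zero (Ls.cons Ent.zero (Ls.cons Ent.zero (Ls.cons Ent.zero (Ls.cons Ent.zero (Ls.cons Ent.zero (Ls.cons Ent.zero (Ls.cons Ent.zero (Ls.cons Ent.zero (Ls.cons (Ent.pos F1_11_3_0) (Ls.cons Ent.zero (Ls.cons Ent.zero (Ls.cons Ent.zero (Ls.cons Ent.zero (Ls.cons Ent.zero (Ls.cons Ent.zero (Ls.cons (Ent.neg F1_4_3_0) (Ls.cons Ent.zero (Ls.cons (Ent.pos F1_3_2_0) (Ls.cons (Ent.neg F1_3_1_0) (Ls.cons Ent.zero Ls.nil)))))))))))))))))))))))))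
 (Ls.cons (Ls.cons Ent.zero (Ls.cons Ent.zero (Ls.cons Ent.zero (Ls.cons Ent.zero (Ls.cons Ent.zero (Ls.cons Ent.zero (Ls.cons Ent.zero (Ls.cons Ent.zero (Ls.cons Ent.zero (Ls.cons Ent.zero (Ls.cons Ent.zero (Ls.cons Ent.zero (Ls.cons Ent.zero (Ls.cons (Ent.neg F1_11_2_0) (Ls.cons Ent.zero (Ls.cons Ent.zero (Ls.cons Ent.zero (Ls.cons Ent.zero (Ls.cons Ent.zero (Ls.cons Ent.zero (Ls.cons (Ent.pos F1_4_2_0) (Ls.cons (Ent.neg F1_3_2_0) (Ls.cons Ent.zero (Ls.cons (Ent.pos F1_2_1_0) (Ls.cons Ent.zero Ls.nil)))))))))))))))))))))))))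
 (Ls.cons (Ls.cons Ent.zero (Ls.cons Ent.zero (Ls.cons Ent.zero (Ls.cons Ent.zero (Ls.cons Ent.zero (Ls.cons Ent.zero (Ls.cons Ent.zero (Ls.cons Ent.zero (Ls.cons Ent.zero (Ls.cons Ent.zero (Ls.cons Ent.zero (Ls.cons Ent.zero (Ls.cons Ent.zero (Ls.cons (Ent.pos F1_11_1_0) (Ls.cons Ent.zero (Ls.cons Ent.zero (Ls.cons Ent.zero (Ls.cons Ent.zero (Ls.cons Ent.zero (Ls.cons Ent.zero (Ls.cons (Ent.neg F1_4_1_0) (Ls.cons (Ent.pos F1_3_1_0) (Ls.cons (Ent.neg F1_2_1_0) (Ls.cons Ent.zero (Ls.cons Ent.zero Ls.nil)))))))))))))))))))))))))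
 (Ls.cons (Ls.cons Ent.zero (Ls.cons Ent.zero (Ls.cons Ent.zero (Ls.cons Ent.zero (Ls.cons Ent.zero (Ls.cons Ent.zero (Ls.cons Ent.zero (Ls.cons Ent.zero (Ls.cons Ent.zero (Ls.cons Ent.zero (Ls.cons Ent.zero (Ls.cons Ent.zero (Ls.cons Ent.zero (Ls.cons Ent.zero (Ls.cons Ent.zero (Ls.cons Ent.zero (Ls.cons Ent.zero (Ls.cons Ent.zero (Ls.cons Ent.zero (Ls.cons Ent.zero (Ls.cons Ent.zero (Ls.cons Ent.zero (Ls.cons Ent.zero (Ls.cons Ent.zero (Ls.cons Ent.zero Ls.nil)))))))))))))))))))))))))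
 Ls.nil))))))))))))))))))))

noncomputable def bxF1_1 : L2 :=
 (Ls.cons (Ls.cons Ent.zero (Ls.cons Ent.zero (Ls.cons Ent.zero (Ls.cons Ent.zero (Ls.cons Ent.zero (Ls.cons Ent.zero (Ls.cons Ent.zero (Ls.cons Ent.zero (Ls.cons Ent.zero (Ls.cons Ent.zero (Ls.cons Ent.zero (Ls.cons Ent.zero (Ls.cons Ent.zero (Ls.cons Ent.zero (Ls.cons Ent.zero (Ls.cons Ent.zero (Ls.cons Ent.zero (Ls.cons Ent.zero (Ls.cons Ent.zero (Ls.cons Ent.zero (Ls.cons Ent.zero (Ls.cons Ent.zero (Ls.cons Ent.zero (Ls.cons Ent.zero (Ls.cons Ent.zero Ls.nil)))))))))))))))))))))))))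
 (Ls.cons (Ls.cons Ent.zero (Ls.cons Ent.zero (Ls.cons Ent.zero (Ls.cons Ent.zero (Ls.cons Ent.zero (Ls.cons Ent.zero (Ls.cons Ent.zero (Ls.cons Ent.zero (Ls.cons Ent.zero (Ls.cons Ent.zero (Ls.cons Ent.zero (Ls.cons Ent.zero (Ls.cons Ent.zero (Ls.cons Ent.zero (Ls.cons Ent.zero (Ls.cons Ent.zero (Ls.cons Ent.zero (Ls.cons Ent.zero (Ls.cons Ent.zero (Ls.cons Ent.zero (Ls.cons Ent.zero (Ls.cons Ent.zero (Ls.cons Ent.zero (Ls.cons Ent.zero (Ls.cons Ent.zero Ls.nil)))))))))))))))))))))))))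
 (Ls.cons (Ls.cons Ent.zero (Ls.cons Ent.zero (Ls.cons Ent.zero (Ls.cons Ent.zero (Ls.cons Ent.zero (Ls.cons Ent.zero (Ls.cons Ent.zero (Ls.cons Ent.zero (Ls.cons Ent.zero (Ls.cons Ent.zero (Ls.cons Ent.zero (Ls.cons Ent.zero (Ls.cons Ent.zero (Ls.cons Ent.zero (Ls.cons Ent.zero (Ls.cons Ent.zero (Ls.cons Ent.zero (Ls.cons Ent.zero (Ls.cons Ent.zero (Ls.cons Ent.zero (Ls.cons Ent.zero (Ls.cons Ent.zero (Ls.cons Ent.zero (Ls.cons Ent.zero (Ls.cons Ent.zero Ls.nil)))))))))))))))))))))))))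
 (Ls.cons (Ls.cons Ent.zero (Ls.cons Ent.zero (Ls.cons Ent.zero (Ls.cons Ent.zero (Ls.cons Ent.zero (Ls.cons Ent.zero (Ls.cons Ent.zero (Ls.cons Ent.zero (Ls.cons Ent.zero (Ls.cons Ent.zero (Ls.cons Ent.zero (Ls.cons Ent.zero (Ls.cons Ent.zero (Ls.cons Ent.zero (Ls.cons Ent.zero (Ls.cons Ent.zero (Ls.cons Ent.zero (Ls.cons Ent.zero (Ls.cons Ent.zero (Ls.cons Ent.zero (Ls.cons Ent.zero (Ls.cons Ent.zero (Ls.cons Ent.zero (Ls.cons Ent.zero (Ls.cons Ent.zero Ls.nil)))))))))))))))))))))))))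
 (Ls.cons (Ls.cons Ent.zero (Ls.cons Ent.zero (Ls.cons Ent.zero (Ls.cons Ent.zero (Ls.cons Ent.zero (Ls.cons Ent.zero (Ls.cons Ent.zero (Ls.cons Ent.zero (Ls.cons Ent.zero (Ls.cons Ent.zero (Ls.cons Ent.zero (Ls.cons Ent.zero (Ls.cons Ent.zero (Ls.cons Ent.zero (Ls.cons Ent.zero (Ls.cons Ent.zero (Ls.cons Ent.zero (Ls.cons Ent.zero (Ls.cons Ent.zero (Ls.cons Ent.zero (Ls.cons Ent.zero (Ls.cons Ent.zero (Ls.cons Ent.zero (Ls.cons Ent.zero (Ls.cons Ent.zero Ls.nil)))))))))))))))))))))))))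
 (Ls.cons (Ls.cons Ent.zero (Ls.cons Ent.zero (Ls.cons Ent.zero (Ls.cons Ent.zero (Ls.cons Ent.zero (Ls.cons Ent.zero (Ls.cons Ent.zero (Ls.cons Ent.zero (Ls.cons Ent.zero (Ls.cons Ent.zero (Ls.cons Ent.zero (Ls.cons Ent.zero (Ls.cons Ent.zero (Ls.cons Ent.zero (Ls.cons Ent.zero (Ls.cons Ent.zero (Ls.cons Ent.zero (Ls.cons Ent.zero (Ls.cons Ent.zero (Ls.cons Ent.zero (Ls.cons Ent.zero (Ls.cons Ent.zero (Ls.cons Ent.zero (Ls.cons Ent.zero (Ls.cons Ent.zero Ls.nil)))))))))))))))))))))))))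
 (Ls.cons (Ls.cons Ent.zero (Ls.cons Ent.zero (Ls.cons Ent.zero (Ls.cons Ent.zero (Ls.cons Ent.zero (Ls.cons Ent.zero (Ls.cons Ent.zero (Ls.cons Ent.zero (Ls.cons Ent.zero (Ls.cons Ent.zero (Ls.cons Ent.zero (Ls.cons Ent.zero (Ls.cons Ent.zero (Ls.cons Ent.zero (Ls.cons Ent.zero (Ls.cons Ent.zero (Ls.cons Ent.zero (Ls.cons Ent.zero (Ls.cons Ent.zero (Ls.cons Ent.zero (Ls.cons Ent.zero (Ls.cons Ent.zero (Ls.cons Ent.zero (Ls.cons Ent.zero (Ls.cons Ent.zero Ls.nil)))))))))))))))))))))))))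
 (Ls.cons (Ls.cons Ent.zero (Ls.cons Ent.zero (Ls.cons Ent.zero (Ls.cons Ent.zero (Ls.cons Ent.zero (Ls.cons Ent.zero (Ls.cons Ent.zero (Ls.cons Ent.zero (Ls.cons Ent.zero (Ls.cons Ent.zero (Ls.cons Ent.zero (Ls.cons Ent.zero (Ls.cons Ent.zero (Ls.cons Ent.zero (Ls.cons Ent.zero (Ls.cons Ent.zero (Ls.cons Ent.zero (Ls.cons Ent.zero (Ls.cons Ent.zero (Ls.cons Ent.zero (Ls.cons Ent.zero (Ls.cons Ent.zero (Ls.cons Ent.zero (Ls.cons Ent.zero (Ls.cons Ent.zero Ls.nil)))))))))))))))))))))))))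
 (Ls.cons (Ls.cons Ent.zero (Ls.cons Ent.zero (Ls.cons Ent.zero (Ls.cons Ent.zero (Ls.cons Ent.zero (Ls.cons Ent.zero (Ls.cons Ent.zero (Ls.cons Ent.zero (Ls.cons Ent.zero (Ls.cons Ent.zero (Ls.cons Ent.zero (Ls.cons Ent.zero (Ls.cons Ent.zero (Ls.cons Ent.zero (Ls.cons Ent.zero (Ls.cons Ent.zero (Ls.cons Ent.zero (Ls.cons Ent.zero (Ls.cons Ent.zero (Ls.cons Ent.zero (Ls.cons (Ent.neg F1_11_4_1) (Ls.cons (Ent.pos F1_11_3_1) (Ls.cons (Ent.neg F1_11_2_1) (Ls.cons Ent.zero (Ls.cons (Ent.pos F1_11_1_0) Ls.nil)))))))))))))))))))))))))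
 (Ls.cons (Ls.cons Ent.zero (Ls.cons Ent.zero (Ls.cons Ent.zero (Ls.cons Ent.zero (Ls.cons Ent.zero (Ls.cons Ent.zero (Ls.cons Ent.zero (Ls.cons Ent.zero (Ls.cons Ent.zero (Ls.cons Ent.zero (Ls.cons Ent.zero (Ls.cons Ent.zero (Ls.cons Ent.zero (Ls.cons Ent.zero (Ls.cons Ent.zero (Ls.cons Ent.zero (Ls.cons Ent.zero (Ls.cons Ent.zero (Ls.cons Ent.zero (Ls.cons Ent.zero (Ls.cons Ent.zero (Ls.cons Ent.zero (Ls.cons Ent.zero (Ls.cons Ent.zero (Ls.cons Ent.zero Ls.nil)))))))))))))))))))))))))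
 (Ls.cons (Ls.cons Ent.zero (Ls.cons Ent.zero (Ls.cons Ent.zero (Ls.cons Ent.zero (Ls.cons Ent.zero (Ls.cons Ent.zero (Ls.cons Ent.zero (Ls.cons Ent.zero (Ls.cons Ent.zero (Ls.cons Ent.zero (Ls.cons Ent.zero (Ls.cons Ent.zero (Ls.cons Ent.zero (Ls.cons Ent.zero (Ls.cons Ent.zero (Ls.cons Ent.zero (Ls.cons Ent.zero (Ls.cons Ent.zero (Ls.cons Ent.zero (Ls.cons Ent.zero (Ls.cons Ent.zero (Ls.cons Ent.zero (Ls.cons Ent.zero (Ls.cons Ent.zero (Ls.cons Ent.zero Ls.nil)))))))))))))))))))))))))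
 (Ls.cons (Ls.cons Ent.zero (Ls.cons Ent.zero (Ls.cons Ent.zero (Ls.cons Ent.zero (Ls.cons Ent.zero (Ls.cons Ent.zero (Ls.cons Ent.zero (Ls.cons Ent.zero (Ls.cons Ent.zero (Ls.cons Ent.zero (Ls.cons Ent.zero (Ls.cons Ent.zero (Ls.cons Ent.zero (Ls.cons Ent.zero (Ls.cons Ent.zero (Ls.cons Ent.zero (Ls.cons Ent.zero (Ls.cons Ent.zero (Ls.cons Ent.zero (Ls.cons Ent.zero (Ls.cons Ent.zero (Ls.cons Ent.zero (Ls.cons Ent.zero (Ls.cons Ent.zero (Ls.cons Ent.zero Ls.nil)))))))))))))))))))))))))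
 (Ls.cons (Ls.cons Ent.zero (Ls.cons Ent.zero (Ls.cons Ent.zero (Ls.cons Ent.zero (Ls.cons Ent.zero (Ls.cons Ent.zero (Ls.cons Ent.zero (Ls.cons Ent.zero (Ls.cons Ent.zero (Ls.cons Ent.zero (Ls.cons Ent.zero (Ls.cons Ent.zero (Ls.cons Ent.zero (Ls.cons Ent.zero (Ls.cons Ent.zero (Ls.cons Ent.zero (Ls.cons Ent.zero (Ls.cons Ent.zero (Ls.cons Ent.zero (Ls.cons Ent.zero (Ls.cons Ent.zero (Ls.cons Ent.zero (Ls.cons Ent.zero (Ls.cons Ent.zero (Ls.cons Ent.zero Ls.nil)))))))))))))))))))))))))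
 (Ls.cons (Ls.cons Ent.zero (Ls.cons Ent.zero (Ls.cons Ent.zero (Ls.cons Ent.zero (Ls.cons Ent.zero (Ls.cons Ent.zero (Ls.cons Ent.zero (Ls.cons Ent.zero (Ls.cons Ent.zero (Ls.cons Ent.zero (Ls.cons Ent.zero (Ls.cons Ent.zero (Ls.cons Ent.zero (Ls.cons Ent.zero (Ls.cons Ent.zero (Ls.cons Ent.zero (Ls.cons Ent.zero (Ls.cons Ent.zero (Ls.cons Ent.zero (Ls.cons Ent.zero (Ls.cons Ent.zero (Ls.cons Ent.zero (Ls.cons Ent.zero (Ls.cons Ent.zero (Ls.cons Ent.zero Ls.nil)))))))))))))))))))))))))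
 (Ls.cons (Ls.cons Ent.zero (Ls.cons Ent.zero (Ls.cons Ent.zero (Ls.cons Ent.zero (Ls.cons Ent.zero (Ls.cons Ent.zero (Ls.cons Ent.zero (Ls.cons Ent.zero (Ls.cons Ent.zero (Ls.cons Ent.zero (Ls.cons Ent.zero (Ls.cons Ent.zero (Ls.cons Ent.zero (Ls.cons Ent.zero (Ls.cons Ent.zero (Ls.cons Ent.zero (Ls.cons Ent.zero (Ls.cons Ent.zero (Ls.cons Ent.zero (Ls.cons Ent.zero (Ls.cons Ent.zero (Ls.cons Ent.zero (Ls.cons Ent.zero (Ls.cons Ent.zero (Ls.cons Ent.zero Ls.nil)))))))))))))))))))))))))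
 (Ls.cons (Ls.cons Ent.zero (Ls.cons Ent.zero (Ls.cons Ent.zero (Ls.cons Ent.zero (Ls.cons Ent.zero (Ls.cons Ent.zero (Ls.cons Ent.zero (Ls.cons Ent.zero (Ls.cons Ent.zero (Ls.cons Ent.zero (Ls.cons Ent.zero (Ls.cons Ent.zero (Ls.cons Ent.zero (Ls.cons (Ent.pos F1_11_4_1) (Ls.cons Ent.zero (Ls.cons Ent.zero (Ls.cons Ent.zero (Ls.cons Ent.zero (Ls.cons Ent.zero (Ls.cons Ent.zero (Ls.cons Ent.zero (Ls.cons (Ent.neg F1_4_3_1) (Ls.cons (Ent.pos F1_4_2_1) (Ls.cons Ent.zero (Ls.cons (Ent.neg F1_4_1_0) Ls.nil)))))))))))))))))))))))))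
 (Ls.cons (Ls.cons Ent.zero (Ls.cons Ent.zero (Ls.cons Ent.zero (Ls.cons Ent.zero (Ls.cons Ent.zero (Ls.cons Ent.zero (Ls.cons Ent.zero (Ls.cons Ent.zero (Ls.cons Ent.zero (Ls.cons Ent.zero (Ls.cons Ent.zero (Ls.cons Ent.zero (Ls.cons Ent.zero (Ls.cons (Ent.neg F1_11_3_1) (Ls.cons Ent.zero (Ls.cons Ent.zero (Ls.cons Ent.zero (Ls.cons Ent.zero (Ls.cons Ent.zero (Ls.cons Ent.zero (Ls.cons (Ent.pos F1_4_3_1) (Ls.cons Ent.zero (Ls.cons (Ent.neg F1_3_2_1) (Ls.cons Ent.zero (Ls.cons (Ent.pos F1_3_1_0) Ls.nil)))))))))))))))))))))))))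
 (Ls.cons (Ls.cons Ent.zero (Ls.cons Ent.zero (Ls.cons Ent.zero (Ls.cons Ent.zero (Ls.cons Ent.zero (Ls.cons Ent.zero (Ls.cons Ent.zero (Ls.cons Ent.zero (Ls.cons Ent.zero (Ls.cons Ent.zero (Ls.cons Ent.zero (Ls.cons Ent.zero (Ls.cons Ent.zero (Ls.cons (Ent.pos F1_11_2_1) (Ls.cons Ent.zero (Ls.cons Ent.zero (Ls.cons Ent.zero (Ls.cons Ent.zero (Ls.cons Ent.zero (Ls.cons Ent.zero (Ls.cons (Ent.neg F1_4_2_1) (Ls.cons (Ent.pos F1_3_2_1) (Ls.cons Ent.zero (Ls.cons Ent.zero (Ls.cons (Ent.neg F1_2_1_0) Ls.nil)))))))))))))))))))))))))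
 (Ls.cons (Ls.cons Ent.zero (Ls.cons Ent.zero (Ls.cons Ent.zero (Ls.cons Ent.zero (Ls.cons Ent.zero (Ls.cons Ent.zero (Ls.cons Ent.zero (Ls.cons Ent.zero (Ls.cons Ent.zero (Ls.cons Ent.zero (Ls.cons Ent.zero (Ls.cons Ent.zero (Ls.cons Ent.zero (Ls.cons Ent.zero (Ls.cons Ent.zero (Ls.cons Ent.zero (Ls.cons Ent.zero (Ls.cons Ent.zero (Ls.cons Ent.zero (Ls.cons Ent.zero (Ls.cons Ent.zero (Ls.cons Ent.zero (Ls.cons Ent.zero (Ls.cons Ent.zero (Ls.cons Ent.zero Ls.nil)))))))))))))))))))))))))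
 (Ls.cons (Ls.cons Ent.zero (Ls.cons Ent.zero (Ls.cons Ent.zero (Ls.cons Ent.zero (Ls.cons Ent.zero (Ls.cons Ent.zero (Ls.cons Ent.zero (Ls.cons Ent.zero (Ls.cons Ent.zero (Ls.cons Ent.zero (Ls.cons Ent.zero (Ls.cons Ent.zero (Ls.cons Ent.zero (Ls.cons (Ent.neg F1_11_1_0) (Ls.cons Ent.zero (Ls.cons Ent.zero (Ls.cons Ent.zero (Ls.cons Ent.zero (Ls.cons Ent.zero (Ls.cons Ent.zero (Ls.cons (Ent.pos F1_4_1_0) (Ls.cons (Ent.neg F1_3_1_0) (Ls.cons (Ent.pos F1_2_1_0) (Ls.cons Ent.zero (Ls.cons Ent.zero Ls.nil)))))))))))))))))))))))))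
 Ls.nil))))))))))))))))))))

noncomputable def bxF1_2 : L2 :=
 (Ls.cons (Ls.cons Ent.zero (Ls.cons Ent.zero (Ls.cons Ent.zero (Ls.cons Ent.zero (Ls.cons Ent.zero (Ls.cons Ent.zero (Ls.cons Ent.zero (Ls.cons Ent.zero (Ls.cons Ent.zero (Ls.cons Ent.zero (Ls.cons Ent.zero (Ls.cons Ent.zero (Ls.cons Ent.zero (Ls.cons Ent.zero (Ls.cons Ent.zero (Ls.cons Ent.zero (Ls.cons Ent.zero (Ls.cons Ent.zero (Ls.cons Ent.zero (Ls.cons Ent.zero (Ls.cons Ent.zero (Ls.cons Ent.zero (Ls.cons Ent.zero (Ls.cons Ent.zero (Ls.cons Ent.zero Ls.nil)))))))))))))))))))))))))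
 (Ls.cons (Ls.cons Ent.zero (Ls.cons Ent.zero (Ls.cons Ent.zero (Ls.cons Ent.zero (Ls.cons Ent.zero (Ls.cons Ent.zero (Ls.cons Ent.zero (Ls.cons Ent.zero (Ls.cons Ent.zero (Ls.cons Ent.zero (Ls.cons Ent.zero (Ls.cons Ent.zero (Ls.cons Ent.zero (Ls.cons Ent.zero (Ls.cons Ent.zero (Ls.cons Ent.zero (Ls.cons Ent.zero (Ls.cons Ent.zero (Ls.cons Ent.zero (Ls.cons Ent.zero (Ls.cons Ent.zero (Ls.cons Ent.zero (Ls.cons Ent.zero (Ls.cons Ent.zero (Ls.cons Ent.zero Ls.nil)))))))))))))))))))))))))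
 (Ls.cons (Ls.cons Ent.zero (Ls.cons Ent.zero (Ls.cons Ent.zero (Ls.cons Ent.zero (Ls.cons Ent.zero (Ls.cons Ent.zero (Ls.cons Ent.zero (Ls.cons Ent.zero (Ls.cons Ent.zero (Ls.cons Ent.zero (Ls.cons Ent.zero (Ls.cons Ent.zero (Ls.cons Ent.zero (Ls.cons Ent.zero (Ls.cons Ent.zero (Ls.cons Ent.zero (Ls.cons Ent.zero (Ls.cons Ent.zero (Ls.cons Ent.zero (Ls.cons Ent.zero (Ls.cons Ent.zero (Ls.cons Ent.zero (Ls.cons Ent.zero (Ls.cons Ent.zero (Ls.cons Ent.zero Ls.nil)))))))))))))))))))))))))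
 (Ls.cons (Ls.cons Ent.zero (Ls.cons Ent.zero (Ls.cons Ent.zero (Ls.cons Ent.zero (Ls.cons Ent.zero (Ls.cons Ent.zero (Ls.cons Ent.zero (Ls.cons Ent.zero (Ls.cons Ent.zero (Ls.cons Ent.zero (Ls.cons Ent.zero (Ls.cons Ent.zero (Ls.cons Ent.zero (Ls.cons Ent.zero (Ls.cons Ent.zero (Ls.cons Ent.zero (Ls.cons Ent.zero (Ls.cons Ent.zero (Ls.cons Ent.zero (Ls.cons Ent.zero (Ls.cons Ent.zero (Ls.cons Ent.zero (Ls.cons Ent.zero (Ls.cons Ent.zero (Ls.cons Ent.zero Ls.nil)))))))))))))))))))))))))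
 (Ls.cons (Ls.cons Ent.zero (Ls.cons Ent.zero (Ls.cons Ent.zero (Ls.cons Ent.zero (Ls.cons Ent.zero (Ls.cons Ent.zero (Ls.cons Ent.zero (Ls.cons Ent.zero (Ls.cons Ent.zero (Ls.cons Ent.zero (Ls.cons Ent.zero (Ls.cons Ent.zero (Ls.cons Ent.zero (Ls.cons Ent.zero (Ls.cons Ent.zero (Ls.cons Ent.zero (Ls.cons Ent.zero (Ls.cons Ent.zero (Ls.cons Ent.zero (Ls.cons Ent.zero (Ls.cons Ent.zero (Ls.cons Ent.zero (Ls.cons Ent.zero (Ls.cons Ent.zero (Ls.cons Ent.zero Ls.nil)))))))))))))))))))))))))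
 (Ls.cons (Ls.cons Ent.zero (Ls.cons Ent.zero (Ls.cons Ent.zero (Ls.cons Ent.zero (Ls.cons Ent.zero (Ls.cons Ent.zero (Ls.cons Ent.zero (Ls.cons Ent.zero (Ls.cons Ent.zero (Ls.cons Ent.zero (Ls.cons Ent.zero (Ls.cons Ent.zero (Ls.cons Ent.zero (Ls.cons Ent.zero (Ls.cons Ent.zero (Ls.cons Ent.zero (Ls.cons Ent.zero (Ls.cons Ent.zero (Ls.cons Ent.zero (Ls.cons Ent.zero (Ls.cons Ent.zero (Ls.cons Ent.zero (Ls.cons Ent.zero (Ls.cons Ent.zero (Ls.cons Ent.zero Ls.nil)))))))))))))))))))))))))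
 (Ls.cons (Ls.cons Ent.zero (Ls.cons Ent.zero (Ls.cons Ent.zero (Ls.cons Ent.zero (Ls.cons Ent.zero (Ls.cons Ent.zero (Ls.cons Ent.zero (Ls.cons Ent.zero (Ls.cons Ent.zero (Ls.cons Ent.zero (Ls.cons Ent.zero (Ls.cons Ent.zero (Ls.cons Ent.zero (Ls.cons Ent.zero (Ls.cons Ent.zero (Ls.cons Ent.zero (Ls.cons Ent.zero (Ls.cons Ent.zero (Ls.cons Ent.zero (Ls.cons Ent.zero (Ls.cons Ent.zero (Ls.cons Ent.zero (Ls.cons Ent.zero (Ls.cons Ent.zero (Ls.cons Ent.zero Ls.nil)))))))))))))))))))))))))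
 (Ls.cons (Ls.cons Ent.zero (Ls.cons Ent.zero (Ls.cons Ent.zero (Ls.cons Ent.zero (Ls.cons Ent.zero (Ls.cons Ent.zero (Ls.cons Ent.zero (Ls.cons Ent.zero (Ls.cons Ent.zero (Ls.cons Ent.zero (Ls.cons Ent.zero (Ls.cons Ent.zero (Ls.cons Ent.zero (Ls.cons Ent.zero (Ls.cons Ent.zero (Ls.cons Ent.zero (Ls.cons Ent.zero (Ls.cons Ent.zero (Ls.cons Ent.zero (Ls.cons Ent.zero (Ls.cons Ent.zero (Ls.cons Ent.zero (Ls.cons Ent.zero (Ls.cons Ent.zero (Ls.cons Ent.zero Ls.nil)))))))))))))))))))))))))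
 (Ls.cons (Ls.cons Ent.zero (Ls.cons Ent.zero (Ls.cons Ent.zero (Ls.cons Ent.zero (Ls.cons Ent.zero (Ls.cons Ent.zero (Ls.cons Ent.zero (Ls.cons Ent.zero (Ls.cons Ent.zero (Ls.cons Ent.zero (Ls.cons Ent.zero (Ls.cons Ent.zero (Ls.cons Ent.zero (Ls.cons Ent.zero (Ls.cons Ent.zero (Ls.cons Ent.zero (Ls.cons Ent.zero (Ls.cons Ent.zero (Ls.cons Ent.zero (Ls.cons Ent.zero (Ls.cons (Ent.pos F1_11_4_2) (Ls.cons (Ent.neg F1_11_3_2) (Ls.cons Ent.zero (Ls.cons (Ent.pos F1_11_2_1) (Ls.cons (Ent.neg F1_11_2_0) Ls.nil)))))))))))))))))))))))))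
 (Ls.cons (Ls.cons Ent.zero (Ls.cons Ent.zero (Ls.cons Ent.zero (Ls.cons Ent.zero (Ls.cons Ent.zero (Ls.cons Ent.zero (Ls.cons Ent.zero (Ls.cons Ent.zero (Ls.cons Ent.zero (Ls.cons Ent.zero (Ls.cons Ent.zero (Ls.cons Ent.zero (Ls.cons Ent.zero (Ls.cons Ent.zero (Ls.cons Ent.zero (Ls.cons Ent.zero (Ls.cons Ent.zero (Ls.cons Ent.zero (Ls.cons Ent.zero (Ls.cons Ent.zero (Ls.cons Ent.zero (Ls.cons Ent.zero (Ls.cons Ent.zero (Ls.cons Ent.zero (Ls.cons Ent.zero Ls.nil)))))))))))))))))))))))))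
 (Ls.cons (Ls.cons Ent.zero (Ls.cons Ent.zero (Ls.cons Ent.zero (Ls.cons Ent.zero (Ls.cons Ent.zero (Ls.cons Ent.zero (Ls.cons Ent.zero (Ls.cons Ent.zero (Ls.cons Ent.zero (Ls.cons Ent.zero (Ls.cons Ent.zero (Ls.cons Ent.zero (Ls.cons Ent.zero (Ls.cons Ent.zero (Ls.cons Ent.zero (Ls.cons Ent.zero (Ls.cons Ent.zero (Ls.cons Ent.zero (Ls.cons Ent.zero (Ls.cons Ent.zero (Ls.cons Ent.zero (Ls.cons Ent.zero (Ls.cons Ent.zero (Ls.cons Ent.zero (Ls.cons Ent.zero Ls.nil)))))))))))))))))))))))))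
 (Ls.cons (Ls.cons Ent.zero (Ls.cons Ent.zero (Ls.cons Ent.zero (Ls.cons Ent.zero (Ls.cons Ent.zero (Ls.cons Ent.zero (Ls.cons Ent.zero (Ls.cons Ent.zero (Ls.cons Ent.zero (Ls.cons Ent.zero (Ls.cons Ent.zero (Ls.cons Ent.zero (Ls.cons Ent.zero (Ls.cons Ent.zero (Ls.cons Ent.zero (Ls.cons Ent.zero (Ls.cons Ent.zero (Ls.cons Ent.zero (Ls.cons Ent.zero (Ls.cons Ent.zero (Ls.cons Ent.zero (Ls.cons Ent.zero (Ls.cons Ent.zero (Ls.cons Ent.zero (Ls.cons Ent.zero Ls.nil)))))))))))))))))))))))))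
 (Ls.cons (Ls.cons Ent.zero (Ls.cons Ent.zero (Ls.cons Ent.zero (Ls.cons Ent.zero (Ls.cons Ent.zero (Ls.cons Ent.zero (Ls.cons Ent.zero (Ls.cons Ent.zero (Ls.cons Ent.zero (Ls.cons Ent.zero (Ls.cons Ent.zero (Ls.cons Ent.zero (Ls.cons Ent.zero (Ls.cons Ent.zero (Ls.cons Ent.zero (Ls.cons Ent.zero (Ls.cons Ent.zero (Ls.cons Ent.zero (Ls.cons Ent.zero (Ls.cons Ent.zero (Ls.cons Ent.zero (Ls.cons Ent.zero (Ls.cons Ent.zero (Ls.cons Ent.zero (Ls.cons Ent.zero Ls.nil)))))))))))))))))))))))))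
 (Ls.cons (Ls.cons Ent.zero (Ls.cons Ent.zero (Ls.cons Ent.zero (Ls.cons Ent.zero (Ls.cons Ent.zero (Ls.cons Ent.zero (Ls.cons Ent.zero (Ls.cons Ent.zero (Ls.cons Ent.zero (Ls.cons Ent.zero (Ls.cons Ent.zero (Ls.cons Ent.zero (Ls.cons Ent.zero (Ls.cons Ent.zero (Ls.cons Ent.zero (Ls.cons Ent.zero (Ls.cons Ent.zero (Ls.cons Ent.zero (Ls.cons Ent.zero (Ls.cons Ent.zero (Ls.cons Ent.zero (Ls.cons Ent.zero (Ls.cons Ent.zero (Ls.cons Ent.zero (Ls.cons Ent.zero Ls.nil)))))))))))))))))))))))))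
 (Ls.cons (Ls.cons Ent.zero (Ls.cons Ent.zero (Ls.cons Ent.zero (Ls.cons Ent.zero (Ls.cons Ent.zero (Ls.cons Ent.zero (Ls.cons Ent.zero (Ls.cons Ent.zero (Ls.cons Ent.zero (Ls.cons Ent.zero (Ls.cons Ent.zero (Ls.cons Ent.zero (Ls.cons Ent.zero (Ls.cons Ent.zero (Ls.cons Ent.zero (Ls.cons Ent.zero (Ls.cons Ent.zero (Ls.cons Ent.zero (Ls.cons Ent.zero (Ls.cons Ent.zero (Ls.cons Ent.zero (Ls.cons Ent.zero (Ls.cons Ent.zero (Ls.cons Ent.zero (Ls.cons Ent.zero Ls.nil)))))))))))))))))))))))))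
 (Ls.cons (Ls.cons Ent.zero (Ls.cons Ent.zero (Ls.cons Ent.zero (Ls.cons Ent.zero (Ls.cons Ent.zero (Ls.cons Ent.zero (Ls.cons Ent.zero (Ls.cons Ent.zero (Ls.cons Ent.zero (Ls.cons Ent.zero (Ls.cons Ent.zero (Ls.cons Ent.zero (Ls.cons Ent.zero (Ls.cons (Ent.neg F1_11_4_2) (Ls.cons Ent.zero (Ls.cons Ent.zero (Ls.cons Ent.zero (Ls.cons Ent.zero (Ls.cons Ent.zero (Ls.cons Ent.zero (Ls.cons Ent.zero (Ls.cons (Ent.pos F1_4_3_2) (Ls.cons Ent.zero (Ls.cons (Ent.neg F1_4_2_1) (Ls.cons (Ent.pos F1_4_2_0) Ls.nil)))))))))))))))))))))))))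
 (Ls.cons (Ls.cons Ent.zero (Ls.cons Ent.zero (Ls.cons Ent.zero (Ls.cons Ent.zero (Ls.cons Ent.zero (Ls.cons Ent.zero (Ls.cons Ent.zero (Ls.cons Ent.zero (Ls.cons Ent.zero (Ls.cons Ent.zero (Ls.cons Ent.zero (Ls.cons Ent.zero (Ls.cons Ent.zero (Ls.cons (Ent.pos F1_11_3_2) (Ls.cons Ent.zero (Ls.cons Ent.zero (Ls.cons Ent.zero (Ls.cons Ent.zero (Ls.cons Ent.zero (Ls.cons Ent.zero (Ls.cons (Ent.neg F1_4_3_2) (Ls.cons Ent.zero (Ls.cons Ent.zero (Ls.cons (Ent.pos F1_3_2_1) (Ls.cons (Ent.neg F1_3_2_0) Ls.nil)))))))))))))))))))))))))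
 (Ls.cons (Ls.cons Ent.zero (Ls.cons Ent.zero (Ls.cons Ent.zero (Ls.cons Ent.zero (Ls.cons Ent.zero (Ls.cons Ent.zero (Ls.cons Ent.zero (Ls.cons Ent.zero (Ls.cons Ent.zero (Ls.cons Ent.zero (Ls.cons Ent.zero (Ls.cons Ent.zero (Ls.cons Ent.zero (Ls.cons Ent.zero (Ls.cons Ent.zero (Ls.cons Ent.zero (Ls.cons Ent.zero (Ls.cons Ent.zero (Ls.cons Ent.zero (Ls.cons Ent.zero (Ls.cons Ent.zero (Ls.cons Ent.zero (Ls.cons Ent.zero (Ls.cons Ent.zero (Ls.cons Ent.zero Ls.nil)))))))))))))))))))))))))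
 (Ls.cons (Ls.cons Ent.zero (Ls.cons Ent.zero (Ls.cons Ent.zero (Ls.cons Ent.zero (Ls.cons Ent.zero (Ls.cons Ent.zero (Ls.cons Ent.zero (Ls.cons Ent.zero (Ls.cons Ent.zero (Ls.cons Ent.zero (Ls.cons Ent.zero (Ls.cons Ent.zero (Ls.cons Ent.zero (Ls.cons (Ent.neg F1_11_2_1) (Ls.cons Ent.zero (Ls.cons Ent.zero (Ls.cons Ent.zero (Ls.cons Ent.zero (Ls.cons Ent.zero (Ls.cons Ent.zero (Ls.cons (Ent.pos F1_4_2_1) (Ls.cons (Ent.neg F1_3_2_1) (Ls.cons Ent.zero (Ls.cons Ent.zero (Ls.cons (Ent.pos F1_2_1_0) Ls.nil)))))))))))))))))))))))))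
 (Ls.cons (Ls.cons Ent.zero (Ls.cons Ent.zero (Ls.cons Ent.zero (Ls.cons Ent.zero (Ls.cons Ent.zero (Ls.cons Ent.zero (Ls.cons Ent.zero (Ls.cons Ent.zero (Ls.cons Ent.zero (Ls.cons Ent.zero (Ls.cons Ent.zero (Ls.cons Ent.zero (Ls.cons Ent.zero (Ls.cons (Ent.pos F1_11_2_0) (Ls.cons Ent.zero (Ls.cons Ent.zero (Ls.cons Ent.zero (Ls.cons Ent.zero (Ls.cons Ent.zero (Ls.cons Ent.zero (Ls.cons (Ent.neg F1_4_2_0) (Ls.cons (Ent.pos F1_3_2_0) (Ls.cons Ent.zero (Ls.cons (Ent.neg F1_2_1_0) (Ls.cons Ent.zero Ls.nil)))))))))))))))))))))))))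
 Ls.nil))))))))))))))))))))

noncomputable def bxF1_3 : L2 :=
 (Ls.cons (Ls.cons Ent.zero (Ls.cons Ent.zero (Ls.cons Ent.zero (Ls.cons Ent.zero (Ls.cons Ent.zero (Ls.cons Ent.zero (Ls.cons Ent.zero (Ls.cons Ent.zero (Ls.cons Ent.zero (Ls.cons Ent.zero (Ls.cons Ent.zero (Ls.cons Ent.zero (Ls.cons Ent.zero (Ls.cons Ent.zero (Ls.cons Ent.zero (Ls.cons Ent.zero (Ls.cons Ent.zero (Ls.cons Ent.zero (Ls.cons Ent.zero (Ls.cons Ent.zero (Ls.cons Ent.zero (Ls.cons Ent.zero (Ls.cons Ent.zero (Ls.cons Ent.zero (Ls.cons Ent.zero Ls.nil)))))))))))))))))))))))))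
 (Ls.cons (Ls.cons Ent.zero (Ls.cons Ent.zero (Ls.cons Ent.zero (Ls.cons Ent.zero (Ls.cons Ent.zero (Ls.cons Ent.zero (Ls.cons Ent.zero (Ls.cons Ent.zero (Ls.cons Ent.zero (Ls.cons Ent.zero (Ls.cons Ent.zero (Ls.cons Ent.zero (Ls.cons Ent.zero (Ls.cons Ent.zero (Ls.cons Ent.zero (Ls.cons Ent.zero (Ls.cons Ent.zero (Ls.cons Ent.zero (Ls.cons Ent.zero (Ls.cons Ent.zero (Ls.cons Ent.zero (Ls.cons Ent.zero (Ls.cons Ent.zero (Ls.cons Ent.zero (Ls.cons Ent.zero Ls.nil)))))))))))))))))))))))))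
 (Ls.cons (Ls.cons Ent.zero (Ls.cons Ent.zero (Ls.cons Ent.zero (Ls.cons Ent.zero (Ls.cons Ent.zero (Ls.cons Ent.zero (Ls.cons Ent.zero (Ls.cons Ent.zero (Ls.cons Ent.zero (Ls.cons Ent.zero (Ls.cons Ent.zero (Ls.cons Ent.zero (Ls.cons Ent.zero (Ls.cons Ent.zero (Ls.cons Ent.zero (Ls.cons Ent.zero (Ls.cons Ent.zero (Ls.cons Ent.zero (Ls.cons Ent.zero (Ls.cons Ent.zero (Ls.cons Ent.zero (Ls.cons Ent.zero (Ls.cons Ent.zero (Ls.cons Ent.zero (Ls.cons Ent.zero Ls.nil)))))))))))))))))))))))))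
 (Ls.cons (Ls.cons Ent.zero (Ls.cons Ent.zero (Ls.cons Ent.zero (Ls.cons Ent.zero (Ls.cons Ent.zero (Ls.cons Ent.zero (Ls.cons Ent.zero (Ls.cons Ent.zero (Ls.cons Ent.zero (Ls.cons Ent.zero (Ls.cons Ent.zero (Ls.cons Ent.zero (Ls.cons Ent.zero (Ls.cons Ent.zero (Ls.cons Ent.zero (Ls.cons Ent.zero (Ls.cons Ent.zero (Ls.cons Ent.zero (Ls.cons Ent.zero (Ls.cons Ent.zero (Ls.cons Ent.zero (Ls.cons Ent.zero (Ls.cons Ent.zero (Ls.cons Ent.zero (Ls.cons Ent.zero Ls.nil)))))))))))))))))))))))))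
 (Ls.cons (Ls.cons Ent.zero (Ls.cons Ent.zero (Ls.cons Ent.zero (Ls.cons Ent.zero (Ls.cons Ent.zero (Ls.cons Ent.zero (Ls.cons Ent.zero (Ls.cons Ent.zero (Ls.cons Ent.zero (Ls.cons Ent.zero (Ls.cons Ent.zero (Ls.cons Ent.zero (Ls.cons Ent.zero (Ls.cons Ent.zero (Ls.cons Ent.zero (Ls.cons Ent.zero (Ls.cons Ent.zero (Ls.cons Ent.zero (Ls.cons Ent.zero (Ls.cons Ent.zero (Ls.cons Ent.zero (Ls.cons Ent.zero (Ls.cons Ent.zero (Ls.cons Ent.zero (Ls.cons Ent.zero Ls.nil)))))))))))))))))))))))))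
 (Ls.cons (Ls.cons Ent.zero (Ls.cons Ent.zero (Ls.cons Ent.zero (Ls.cons Ent.zero (Ls.cons Ent.zero (Ls.cons Ent.zero (Ls.cons Ent.zero (Ls.cons Ent.zero (Ls.cons Ent.zero (Ls.cons Ent.zero (Ls.cons Ent.zero (Ls.cons Ent.zero (Ls.cons Ent.zero (Ls.cons Ent.zero (Ls.cons Ent.zero (Ls.cons Ent.zero (Ls.cons Ent.zero (Ls.cons Ent.zero (Ls.cons Ent.zero (Ls.cons Ent.zero (Ls.cons Ent.zero (Ls.cons Ent.zero (Ls.cons Ent.zero (Ls.cons Ent.zero (Ls.cons Ent.zero Ls.nil)))))))))))))))))))))))))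
 (Ls.cons (Ls.cons Ent.zero (Ls.cons Ent.zero (Ls.cons Ent.zero (Ls.cons Ent.zero (Ls.cons Ent.zero (Ls.cons Ent.zero (Ls.cons Ent.zero (Ls.cons Ent.zero (Ls.cons Ent.zero (Ls.cons Ent.zero (Ls.cons Ent.zero (Ls.cons Ent.zero (Ls.cons Ent.zero (Ls.cons Ent.zero (Ls.cons Ent.zero (Ls.cons Ent.zero (Ls.cons Ent.zero (Ls.cons Ent.zero (Ls.cons Ent.zero (Ls.cons Ent.zero (Ls.cons Ent.zero (Ls.cons Ent.zero (Ls.cons Ent.zero (Ls.cons Ent.zero (Ls.cons Ent.zero Ls.nil)))))))))))))))))))))))))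
 (Ls.cons (Ls.cons Ent.zero (Ls.cons Ent.zero (Ls.cons Ent.zero (Ls.cons Ent.zero (Ls.cons Ent.zero (Ls.cons Ent.zero (Ls.cons Ent.zero (Ls.cons Ent.zero (Ls.cons Ent.zero (Ls.cons Ent.zero (Ls.cons Ent.zero (Ls.cons Ent.zero (Ls.cons Ent.zero (Ls.cons Ent.zero (Ls.cons Ent.zero (Ls.cons Ent.zero (Ls.cons Ent.zero (Ls.cons Ent.zero (Ls.cons Ent.zero (Ls.cons Ent.zero (Ls.cons Ent.zero (Ls.cons Ent.zero (Ls.cons Ent.zero (Ls.cons Ent.zero (Ls.cons Ent.zero Ls.nil)))))))))))))))))))))))))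
 (Ls.cons (Ls.cons Ent.zero (Ls.cons Ent.zero (Ls.cons Ent.zero (Ls.cons Ent.zero (Ls.cons Ent.zero (Ls.cons Ent.zero (Ls.cons Ent.zero (Ls.cons Ent.zero (Ls.cons Ent.zero (Ls.cons Ent.zero (Ls.cons Ent.zero (Ls.cons Ent.zero (Ls.cons Ent.zero (Ls.cons Ent.zero (Ls.cons Ent.zero (Ls.cons Ent.zero (Ls.cons Ent.zero (Ls.cons Ent.zero (Ls.cons Ent.zero (Ls.cons Ent.zero (Ls.cons (Ent.neg F1_11_4_3) (Ls.cons Ent.zero (Ls.cons (Ent.pos F1_11_3_2) (Ls.cons (Ent.neg F1_11_3_1) (Ls.cons (Ent.pos F1_11_3_0) Ls.nil)))))))))))))))))))))))))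
 (Ls.cons (Ls.cons Ent.zero (Ls.cons Ent.zero (Ls.cons Ent.zero (Ls.cons Ent.zero (Ls.cons Ent.zero (Ls.cons Ent.zero (Ls.cons Ent.zero (Ls.cons Ent.zero (Ls.cons Ent.zero (Ls.cons Ent.zero (Ls.cons Ent.zero (Ls.cons Ent.zero (Ls.cons Ent.zero (Ls.cons Ent.zero (Ls.cons Ent.zero (Ls.cons Ent.zero (Ls.cons Ent.zero (Ls.cons Ent.zero (Ls.cons Ent.zero (Ls.cons Ent.zero (Ls.cons Ent.zero (Ls.cons Ent.zero (Ls.cons Ent.zero (Ls.cons Ent.zero (Ls.cons Ent.zero Ls.nil)))))))))))))))))))))))))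
 (Ls.cons (Ls.cons Ent.zero (Ls.cons Ent.zero (Ls.cons Ent.zero (Ls.cons Ent.zero (Ls.cons Ent.zero (Ls.cons Ent.zero (Ls.cons Ent.zero (Ls.cons Ent.zero (Ls.cons Ent.zero (Ls.cons Ent.zero (Ls.cons Ent.zero (Ls.cons Ent.zero (Ls.cons Ent.zero (Ls.cons Ent.zero (Ls.cons Ent.zero (Ls.cons Ent.zero (Ls.cons Ent.zero (Ls.cons Ent.zero (Ls.cons Ent.zero (Ls.cons Ent.zero (Ls.cons Ent.zero (Ls.cons Ent.zero (Ls.cons Ent.zero (Ls.cons Ent.zero (Ls.cons Ent.zero Ls.nil)))))))))))))))))))))))))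
 (Ls.cons (Ls.cons Ent.zero (Ls.cons Ent.zero (Ls.cons Ent.zero (Ls.cons Ent.zero (Ls.cons Ent.zero (Ls.cons Ent.zero (Ls.cons Ent.zero (Ls.cons Ent.zero (Ls.cons Ent.zero (Ls.cons Ent.zero (Ls.cons Ent.zero (Ls.cons Ent.zero (Ls.cons Ent.zero (Ls.cons Ent.zero (Ls.cons Ent.zero (Ls.cons Ent.zero (Ls.cons Ent.zero (Ls.cons Ent.zero (Ls.cons Ent.zero (Ls.cons Ent.zero (Ls.cons Ent.zero (Ls.cons Ent.zero (Ls.cons Ent.zero (Ls.cons Ent.zero (Ls.cons Ent.zero Ls.nil)))))))))))))))))))))))))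
 (Ls.cons (Ls.cons Ent.zero (Ls.cons Ent.zero (Ls.cons Ent.zero (Ls.cons Ent.zero (Ls.cons Ent.zero (Ls.cons Ent.zero (Ls.cons Ent.zero (Ls.cons Ent.zero (Ls.cons Ent.zero (Ls.cons Ent.zero (Ls.cons Ent.zero (Ls.cons Ent.zero (Ls.cons Ent.zero (Ls.cons Ent.zero (Ls.cons Ent.zero (Ls.cons Ent.zero (Ls.cons Ent.zero (Ls.cons Ent.zero (Ls.cons Ent.zero (Ls.cons Ent.zero (Ls.cons Ent.zero (Ls.cons Ent.zero (Ls.cons Ent.zero (Ls.cons Ent.zero (Ls.cons Ent.zero Ls.nil)))))))))))))))))))))))))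
 (Ls.cons (Ls.cons Ent.zero (Ls.cons Ent.zero (Ls.cons Ent.zero (Ls.cons Ent.zero (Ls.cons Ent.zero (Ls.cons Ent.zero (Ls.cons Ent.zero (Ls.cons Ent.zero (Ls.cons Ent.zero (Ls.cons Ent.zero (Ls.cons Ent.zero (Ls.cons Ent.zero (Ls.cons Ent.zero (Ls.cons Ent.zero (Ls.cons Ent.zero (Ls.cons Ent.zero (Ls.cons Ent.zero (Ls.cons Ent.zero (Ls.cons Ent.zero (Ls.cons Ent.zero (Ls.cons Ent.zero (Ls.cons Ent.zero (Ls.cons Ent.zero (Ls.cons Ent.zero (Ls.cons Ent.zero Ls.nil)))))))))))))))))))))))))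
 (Ls.cons (Ls.cons Ent.zero (Ls.cons Ent.zero (Ls.cons Ent.zero (Ls.cons Ent.zero (Ls.cons Ent.zero (Ls.cons Ent.zero (Ls.cons Ent.zero (Ls.cons Ent.zero (Ls.cons Ent.zero (Ls.cons Ent.zero (Ls.cons Ent.zero (Ls.cons Ent.zero (Ls.cons Ent.zero (Ls.cons Ent.zero (Ls.cons Ent.zero (Ls.cons Ent.zero (Ls.cons Ent.zero (Ls.cons Ent.zero (Ls.cons Ent.zero (Ls.cons Ent.zero (Ls.cons Ent.zero (Ls.cons Ent.zero (Ls.cons Ent.zero (Ls.cons Ent.zero (Ls.cons Ent.zero Ls.nil)))))))))))))))))))))))))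
 (Ls.cons (Ls.cons Ent.zero (Ls.cons Ent.zero (Ls.cons Ent.zero (Ls.cons Ent.zero (Ls.cons Ent.zero (Ls.cons Ent.zero (Ls.cons Ent.zero (Ls.cons Ent.zero (Ls.cons Ent.zero (Ls.cons Ent.zero (Ls.cons Ent.zero (Ls.cons Ent.zero (Ls.cons Ent.zero (Ls.cons (Ent.pos F1_11_4_3) (Ls.cons Ent.zero (Ls.cons Ent.zero (Ls.cons Ent.zero (Ls.cons Ent.zero (Ls.cons Ent.zero (Ls.cons Ent.zero (Ls.cons Ent.zero (Ls.cons Ent.zero (Ls.cons (Ent.neg F1_4_3_2) (Ls.cons (Ent.pos F1_4_3_1) (Ls.cons (Ent.neg F1_4_3_0) Ls.nil)))))))))))))))))))))))))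
 (Ls.cons (Ls.cons Ent.zero (Ls.cons Ent.zero (Ls.cons Ent.zero (Ls.cons Ent.zero (Ls.cons Ent.zero (Ls.cons Ent.zero (Ls.cons Ent.zero (Ls.cons Ent.zero (Ls.cons Ent.zero (Ls.cons Ent.zero (Ls.cons Ent.zero (Ls.cons Ent.zero (Ls.cons Ent.zero (Ls.cons Ent.zero (Ls.cons Ent.zero (Ls.cons Ent.zero (Ls.cons Ent.zero (Ls.cons Ent.zero (Ls.cons Ent.zero (Ls.cons Ent.zero (Ls.cons Ent.zero (Ls.cons Ent.zero (Ls.cons Ent.zero (Ls.cons Ent.zero (Ls.cons Ent.zero Ls.nil)))))))))))))))))))))))))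
 (Ls.cons (Ls.cons Ent.zero (Ls.cons Ent.zero (Ls.cons Ent.zero (Ls.cons Ent.zero (Ls.cons Ent.zero (Ls.cons Ent.zero (Ls.cons Ent.zero (Ls.cons Ent.zero (Ls.cons Ent.zero (Ls.cons Ent.zero (Ls.cons Ent.zero (Ls.cons Ent.zero (Ls.cons Ent.zero (Ls.cons (Ent.neg F1_11_3_2) (Ls.cons Ent.zero (Ls.cons Ent.zero (Ls.cons Ent.zero (Ls.cons Ent.zero (Ls.cons Ent.zero (Ls.cons Ent.zero (Ls.cons (Ent.pos F1_4_3_2) (Ls.cons Ent.zero (Ls.cons Ent.zero (Ls.cons (Ent.neg F1_3_2_1) (Ls.cons (Ent.pos F1_3_2_0) Ls.nil)))))))))))))))))))))))))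
 (Ls.cons (Ls.cons Ent.zero (Ls.cons Ent.zero (Ls.cons Ent.zero (Ls.cons Ent.zero (Ls.cons Ent.zero (Ls.cons Ent.zero (Ls.cons Ent.zero (Ls.cons Ent.zero (Ls.cons Ent.zero (Ls.cons Ent.zero (Ls.cons Ent.zero (Ls.cons Ent.zero (Ls.cons Ent.zero (Ls.cons (Ent.pos F1_11_3_1) (Ls.cons Ent.zero (Ls.cons Ent.zero (Ls.cons Ent.zero (Ls.cons Ent.zero (Ls.cons Ent.zero (Ls.cons Ent.zero (Ls.cons (Ent.neg F1_4_3_1) (Ls.cons Ent.zero (Ls.cons (Ent.pos F1_3_2_1) (Ls.cons Ent.zero (Ls.cons (Ent.neg F1_3_1_0) Ls.nil)))))))))))))))))))))))))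
 (Ls.cons (Ls.cons Ent.zero (Ls.cons Ent.zero (Ls.cons Ent.zero (Ls.cons Ent.zero (Ls.cons Ent.zero (Ls.cons Ent.zero (Ls.cons Ent.zero (Ls.cons Ent.zero (Ls.cons Ent.zero (Ls.cons Ent.zero (Ls.cons Ent.zero (Ls.cons Ent.zero (Ls.cons Ent.zero (Ls.cons (Ent.neg F1_11_3_0) (Ls.cons Ent.zero (Ls.cons Ent.zero (Ls.cons Ent.zero (Ls.cons Ent.zero (Ls.cons Ent.zero (Ls.cons Ent.zero (Ls.cons (Ent.pos F1_4_3_0) (Ls.cons Ent.zero (Ls.cons (Ent.neg F1_3_2_0) (Ls.cons (Ent.pos F1_3_1_0) (Ls.cons Ent.zero Ls.nil)))))))))))))))))))))))))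
 Ls.nil))))))))))))))))))))

noncomputable def bxF1_4 : L2 :=
 (Ls.cons (Ls.cons Ent.zero (Ls.cons Ent.zero (Ls.cons Ent.zero (Ls.cons Ent.zero (Ls.cons Ent.zero (Ls.cons Ent.zero (Ls.cons Ent.zero (Ls.cons Ent.zero (Ls.cons Ent.zero (Ls.cons Ent.zero (Ls.cons Ent.zero (Ls.cons Ent.zero (Ls.cons Ent.zero (Ls.cons Ent.zero (Ls.cons Ent.zero (Ls.cons Ent.zero (Ls.cons Ent.zero (Ls.cons Ent.zero (Ls.cons Ent.zero (Ls.cons Ent.zero (Ls.cons Ent.zero (Ls.cons Ent.zero (Ls.cons Ent.zero (Ls.cons Ent.zero (Ls.cons Ent.zero Ls.nil)))))))))))))))))))))))))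
 (Ls.cons (Ls.cons Ent.zero (Ls.cons Ent.zero (Ls.cons Ent.zero (Ls.cons Ent.zero (Ls.cons Ent.zero (Ls.cons Ent.zero (Ls.cons Ent.zero (Ls.cons Ent.zero (Ls.cons Ent.zero (Ls.cons Ent.zero (Ls.cons Ent.zero (Ls.cons Ent.zero (Ls.cons Ent.zero (Ls.cons Ent.zero (Ls.cons Ent.zero (Ls.cons Ent.zero (Ls.cons Ent.zero (Ls.cons Ent.zero (Ls.cons Ent.zero (Ls.cons Ent.zero (Ls.cons Ent.zero (Ls.cons Ent.zero (Ls.cons Ent.zero (Ls.cons Ent.zero (Ls.cons Ent.zero Ls.nil)))))))))))))))))))))))))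
 (Ls.cons (Ls.cons Ent.zero (Ls.cons Ent.zero (Ls.cons Ent.zero (Ls.cons Ent.zero (Ls.cons Ent.zero (Ls.cons Ent.zero (Ls.cons Ent.zero (Ls.cons Ent.zero (Ls.cons Ent.zero (Ls.cons Ent.zero (Ls.cons Ent.zero (Ls.cons Ent.zero (Ls.cons Ent.zero (Ls.cons Ent.zero (Ls.cons Ent.zero (Ls.cons Ent.zero (Ls.cons Ent.zero (Ls.cons Ent.zero (Ls.cons Ent.zero (Ls.cons Ent.zero (Ls.cons Ent.zero (Ls.cons Ent.zero (Ls.cons Ent.zero (Ls.cons Ent.zero (Ls.cons Ent.zero Ls.nil)))))))))))))))))))))))))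
 (Ls.cons (Ls.cons Ent.zero (Ls.cons Ent.zero (Ls.cons Ent.zero (Ls.cons Ent.zero (Ls.cons Ent.zero (Ls.cons Ent.zero (Ls.cons Ent.zero (Ls.cons Ent.zero (Ls.cons Ent.zero (Ls.cons Ent.zero (Ls.cons Ent.zero (Ls.cons Ent.zero (Ls.cons Ent.zero (Ls.cons Ent.zero (Ls.cons Ent.zero (Ls.cons Ent.zero (Ls.cons Ent.zero (Ls.cons Ent.zero (Ls.cons Ent.zero (Ls.cons Ent.zero (Ls.cons Ent.zero (Ls.cons Ent.zero (Ls.cons Ent.zero (Ls.cons Ent.zero (Ls.cons Ent.zero Ls.nil)))))))))))))))))))))))))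
 (Ls.cons (Ls.cons Ent.zero (Ls.cons Ent.zero (Ls.cons Ent.zero (Ls.cons Ent.zero (Ls.cons Ent.zero (Ls.cons Ent.zero (Ls.cons Ent.zero (Ls.cons Ent.zero (Ls.cons Ent.zero (Ls.cons Ent.zero (Ls.cons Ent.zero (Ls.cons Ent.zero (Ls.cons Ent.zero (Ls.cons Ent.zero (Ls.cons Ent.zero (Ls.cons Ent.zero (Ls.cons Ent.zero (Ls.cons Ent.zero (Ls.cons Ent.zero (Ls.cons Ent.zero (Ls.cons Ent.zero (Ls.cons Ent.zero (Ls.cons Ent.zero (Ls.cons Ent.zero (Ls.cons Ent.zero Ls.nil)))))))))))))))))))))))))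
 (Ls.cons (Ls.cons Ent.zero (Ls.cons Ent.zero (Ls.cons Ent.zero (Ls.cons Ent.zero (Ls.cons Ent.zero (Ls.cons Ent.zero (Ls.cons Ent.zero (Ls.cons Ent.zero (Ls.cons Ent.zero (Ls.cons Ent.zero (Ls.cons Ent.zero (Ls.cons Ent.zero (Ls.cons Ent.zero (Ls.cons Ent.zero (Ls.cons Ent.zero (Ls.cons Ent.zero (Ls.cons Ent.zero (Ls.cons Ent.zero (Ls.cons Ent.zero (Ls.cons Ent.zero (Ls.cons Ent.zero (Ls.cons Ent.zero (Ls.cons Ent.zero (Ls.cons Ent.zero (Ls.cons Ent.zero Ls.nil)))))))))))))))))))))))))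
 (Ls.cons (Ls.cons Ent.zero (Ls.cons Ent.zero (Ls.cons Ent.zero (Ls.cons Ent.zero (Ls.cons Ent.zero (Ls.cons Ent.zero (Ls.cons Ent.zero (Ls.cons Ent.zero (Ls.cons Ent.zero (Ls.cons Ent.zero (Ls.cons Ent.zero (Ls.cons Ent.zero (Ls.cons Ent.zero (Ls.cons Ent.zero (Ls.cons Ent.zero (Ls.cons Ent.zero (Ls.cons Ent.zero (Ls.cons Ent.zero (Ls.cons Ent.zero (Ls.cons Ent.zero (Ls.cons Ent.zero (Ls.cons Ent.zero (Ls.cons Ent.zero (Ls.cons Ent.zero (Ls.cons Ent.zero Ls.nil)))))))))))))))))))))))))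
 (Ls.cons (Ls.cons Ent.zero (Ls.cons Ent.zero (Ls.cons Ent.zero (Ls.cons Ent.zero (Ls.cons Ent.zero (Ls.cons Ent.zero (Ls.cons Ent.zero (Ls.cons Ent.zero (Ls.cons Ent.zero (Ls.cons Ent.zero (Ls.cons Ent.zero (Ls.cons Ent.zero (Ls.cons Ent.zero (Ls.cons Ent.zero (Ls.cons Ent.zero (Ls.cons Ent.zero (Ls.cons Ent.zero (Ls.cons Ent.zero (Ls.cons Ent.zero (Ls.cons Ent.zero (Ls.cons Ent.zero (Ls.cons Ent.zero (Ls.cons Ent.zero (Ls.cons Ent.zero (Ls.cons Ent.zero Ls.nil)))))))))))))))))))))))))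
 (Ls.cons (Ls.cons Ent.zero (Ls.cons Ent.zero (Ls.cons Ent.zero (Ls.cons Ent.zero (Ls.cons Ent.zero (Ls.cons Ent.zero (Ls.cons Ent.zero (Ls.cons Ent.zero (Ls.cons Ent.zero (Ls.cons Ent.zero (Ls.cons Ent.zero (Ls.cons Ent.zero (Ls.cons Ent.zero (Ls.cons Ent.zero (Ls.cons Ent.zero (Ls.cons Ent.zero (Ls.cons Ent.zero (Ls.cons Ent.zero (Ls.cons Ent.zero (Ls.cons Ent.zero (Ls.cons Ent.zero (Ls.cons (Ent.pos F1_11_4_3) (Ls.cons (Ent.neg F1_11_4_2) (Ls.cons (Ent.pos F1_11_4_1) (Ls.cons (Ent.neg F1_11_4_0) Ls.nil)))))))))))))))))))))))))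
 (Ls.cons (Ls.cons Ent.zero (Ls.cons Ent.zero (Ls.cons Ent.zero (Ls.cons Ent.zero (Ls.cons Ent.zero (Ls.cons Ent.zero (Ls.cons Ent.zero (Ls.cons Ent.zero (Ls.cons Ent.zero (Ls.cons Ent.zero (Ls.cons Ent.zero (Ls.cons Ent.zero (Ls.cons Ent.zero (Ls.cons Ent.zero (Ls.cons Ent.zero (Ls.cons Ent.zero (Ls.cons Ent.zero (Ls.cons Ent.zero (Ls.cons Ent.zero (Ls.cons Ent.zero (Ls.cons Ent.zero (Ls.cons Ent.zero (Ls.cons Ent.zero (Ls.cons Ent.zero (Ls.cons Ent.zero Ls.nil)))))))))))))))))))))))))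
 (Ls.cons (Ls.cons Ent.zero (Ls.cons Ent.zero (Ls.cons Ent.zero (Ls.cons Ent.zero (Ls.cons Ent.zero (Ls.cons Ent.zero (Ls.cons Ent.zero (Ls.cons Ent.zero (Ls.cons Ent.zero (Ls.cons Ent.zero (Ls.cons Ent.zero (Ls.cons Ent.zero (Ls.cons Ent.zero (Ls.cons Ent.zero (Ls.cons Ent.zero (Ls.cons Ent.zero (Ls.cons Ent.zero (Ls.cons Ent.zero (Ls.cons Ent.zero (Ls.cons Ent.zero (Ls.cons Ent.zero (Ls.cons Ent.zero (Ls.cons Ent.zero (Ls.cons Ent.zero (Ls.cons Ent.zero Ls.nil)))))))))))))))))))))))))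
 (Ls.cons (Ls.cons Ent.zero (Ls.cons Ent.zero (Ls.cons Ent.zero (Ls.cons Ent.zero (Ls.cons Ent.zero (Ls.cons Ent.zero (Ls.cons Ent.zero (Ls.cons Ent.zero (Ls.cons Ent.zero (Ls.cons Ent.zero (Ls.cons Ent.zero (Ls.cons Ent.zero (Ls.cons Ent.zero (Ls.cons Ent.zero (Ls.cons Ent.zero (Ls.cons Ent.zero (Ls.cons Ent.zero (Ls.cons Ent.zero (Ls.cons Ent.zero (Ls.cons Ent.zero (Ls.cons Ent.zero (Ls.cons Ent.zero (Ls.cons Ent.zero (Ls.cons Ent.zero (Ls.cons Ent.zero Ls.nil)))))))))))))))))))))))))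
 (Ls.cons (Ls.cons Ent.zero (Ls.cons Ent.zero (Ls.cons Ent.zero (Ls.cons Ent.zero (Ls.cons Ent.zero (Ls.cons Ent.zero (Ls.cons Ent.zero (Ls.cons Ent.zero (Ls.cons Ent.zero (Ls.cons Ent.zero (Ls.cons Ent.zero (Ls.cons Ent.zero (Ls.cons Ent.zero (Ls.cons Ent.zero (Ls.cons Ent.zero (Ls.cons Ent.zero (Ls.cons Ent.zero (Ls.cons Ent.zero (Ls.cons Ent.zero (Ls.cons Ent.zero (Ls.cons Ent.zero (Ls.cons Ent.zero (Ls.cons Ent.zero (Ls.cons Ent.zero (Ls.cons Ent.zero Ls.nil)))))))))))))))))))))))))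
 (Ls.cons (Ls.cons Ent.zero (Ls.cons Ent.zero (Ls.cons Ent.zero (Ls.cons Ent.zero (Ls.cons Ent.zero (Ls.cons Ent.zero (Ls.cons Ent.zero (Ls.cons Ent.zero (Ls.cons Ent.zero (Ls.cons Ent.zero (Ls.cons Ent.zero (Ls.cons Ent.zero (Ls.cons Ent.zero (Ls.cons Ent.zero (Ls.cons Ent.zero (Ls.cons Ent.zero (Ls.cons Ent.zero (Ls.cons Ent.zero (Ls.cons Ent.zero (Ls.cons Ent.zero (Ls.cons Ent.zero (Ls.cons Ent.zero (Ls.cons Ent.zero (Ls.cons Ent.zero (Ls.cons Ent.zero Ls.nil)))))))))))))))))))))))))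
 (Ls.cons (Ls.cons Ent.zero (Ls.cons Ent.zero (Ls.cons Ent.zero (Ls.cons Ent.zero (Ls.cons Ent.zero (Ls.cons Ent.zero (Ls.cons Ent.zero (Ls.cons Ent.zero (Ls.cons Ent.zero (Ls.cons Ent.zero (Ls.cons Ent.zero (Ls.cons Ent.zero (Ls.cons Ent.zero (Ls.cons Ent.zero (Ls.cons Ent.zero (Ls.cons Ent.zero (Ls.cons Ent.zero (Ls.cons Ent.zero (Ls.cons Ent.zero (Ls.cons Ent.zero (Ls.cons Ent.zero (Ls.cons Ent.zero (Ls.cons Ent.zero (Ls.cons Ent.zero (Ls.cons Ent.zero Ls.nil)))))))))))))))))))))))))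
 (Ls.cons (Ls.cons Ent.zero (Ls.cons Ent.zero (Ls.cons Ent.zero (Ls.cons Ent.zero (Ls.cons Ent.zero (Ls.cons Ent.zero (Ls.cons Ent.zero (Ls.cons Ent.zero (Ls.cons Ent.zero (Ls.cons Ent.zero (Ls.cons Ent.zero (Ls.cons Ent.zero (Ls.cons Ent.zero (Ls.cons Ent.zero (Ls.cons Ent.zero (Ls.cons Ent.zero (Ls.cons Ent.zero (Ls.cons Ent.zero (Ls.cons Ent.zero (Ls.cons Ent.zero (Ls.cons Ent.zero (Ls.cons Ent.zero (Ls.cons Ent.zero (Ls.cons Ent.zero (Ls.cons Ent.zero Ls.nil)))))))))))))))))))))))))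
 (Ls.cons (Ls.cons Ent.zero (Ls.cons Ent.zero (Ls.cons Ent.zero (Ls.cons Ent.zero (Ls.cons Ent.zero (Ls.cons Ent.zero (Ls.cons Ent.zero (Ls.cons Ent.zero (Ls.cons Ent.zero (Ls.cons Ent.zero (Ls.cons Ent.zero (Ls.cons Ent.zero (Ls.cons Ent.zero (Ls.cons (Ent.neg F1_11_4_3) (Ls.cons Ent.zero (Ls.cons Ent.zero (Ls.cons Ent.zero (Ls.cons Ent.zero (Ls.cons Ent.zero (Ls.cons Ent.zero (Ls.cons Ent.zero (Ls.cons Ent.zero (Ls.cons (Ent.pos F1_4_3_2) (Ls.cons (Ent.neg F1_4_3_1) (Ls.cons (Ent.pos F1_4_3_0) Ls.nil)))))))))))))))))))))))))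
 (Ls.cons (Ls.cons Ent.zero (Ls.cons Ent.zero (Ls.cons Ent.zero (Ls.cons Ent.zero (Ls.cons Ent.zero (Ls.cons Ent.zero (Ls.cons Ent.zero (Ls.cons Ent.zero (Ls.cons Ent.zero (Ls.cons Ent.zero (Ls.cons Ent.zero (Ls.cons Ent.zero (Ls.cons Ent.zero (Ls.cons (Ent.pos F1_11_4_2) (Ls.cons Ent.zero (Ls.cons Ent.zero (Ls.cons Ent.zero (Ls.cons Ent.zero (Ls.cons Ent.zero (Ls.cons Ent.zero (Ls.cons Ent.zero (Ls.cons (Ent.neg F1_4_3_2) (Ls.cons Ent.zero (Ls.cons (Ent.pos F1_4_2_1) (Ls.cons (Ent.neg F1_4_2_0) Ls.nil)))))))))))))))))))))))))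
 (Ls.cons (Ls.cons Ent.zero (Ls.cons Ent.zero (Ls.cons Ent.zero (Ls.cons Ent.zero (Ls.cons Ent.zero (Ls.cons Ent.zero (Ls.cons Ent.zero (Ls.cons Ent.zero (Ls.cons Ent.zero (Ls.cons Ent.zero (Ls.cons Ent.zero (Ls.cons Ent.zero (Ls.cons Ent.zero (Ls.cons (Ent.neg F1_11_4_1) (Ls.cons Ent.zero (Ls.cons Ent.zero (Ls.cons Ent.zero (Ls.cons Ent.zero (Ls.cons Ent.zero (Ls.cons Ent.zero (Ls.cons Ent.zero (Ls.cons (Ent.pos F1_4_3_1) (Ls.cons (Ent.neg F1_4_2_1) (Ls.cons Ent.zero (Ls.cons (Ent.pos F1_4_1_0) Ls.nil)))))))))))))))))))))))))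
 (Ls.cons (Ls.cons Ent.zero (Ls.cons Ent.zero (Ls.cons Ent.zero (Ls.cons Ent.zero (Ls.cons Ent.zero (Ls.cons Ent.zero (Ls.cons Ent.zero (Ls.cons Ent.zero (Ls.cons Ent.zero (Ls.cons Ent.zero (Ls.cons Ent.zero (Ls.cons Ent.zero (Ls.cons Ent.zero (Ls.cons (Ent.pos F1_11_4_0) (Ls.cons Ent.zero (Ls.cons Ent.zero (Ls.cons Ent.zero (Ls.cons Ent.zero (Ls.cons Ent.zero (Ls.cons Ent.zero (Ls.cons Ent.zero (Ls.cons (Ent.neg F1_4_3_0) (Ls.cons (Ent.pos F1_4_2_0) (Ls.cons (Ent.neg F1_4_1_0) (Ls.cons Ent.zero Ls.nil)))))))))))))))))))))))))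
 Ls.nil))))))))))))))))))))

noncomputable def bxF1_5 : L2 :=
 (Ls.cons (Ls.cons Ent.zero (Ls.cons Ent.zero (Ls.cons Ent.zero (Ls.cons Ent.zero (Ls.cons Ent.zero (Ls.cons Ent.zero (Ls.cons Ent.zero (Ls.cons Ent.zero (Ls.cons Ent.zero (Ls.cons Ent.zero (Ls.cons Ent.zero (Ls.cons Ent.zero (Ls.cons Ent.zero (Ls.cons Ent.zero (Ls.cons Ent.zero (Ls.cons Ent.zero (Ls.cons Ent.zero (Ls.cons Ent.zero (Ls.cons Ent.zero (Ls.cons Ent.zero (Ls.cons Ent.zero (Ls.cons Ent.zero (Ls.cons Ent.zero (Ls.cons Ent.zero (Ls.cons Ent.zero Ls.nil)))))))))))))))))))))))))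
 (Ls.cons (Ls.cons Ent.zero (Ls.cons Ent.zero (Ls.cons Ent.zero (Ls.cons Ent.zero (Ls.cons Ent.zero (Ls.cons Ent.zero (Ls.cons Ent.zero (Ls.cons Ent.zero (Ls.cons Ent.zero (Ls.cons Ent.zero (Ls.cons Ent.zero (Ls.cons Ent.zero (Ls.cons Ent.zero (Ls.cons Ent.zero (Ls.cons Ent.zero (Ls.cons Ent.zero (Ls.cons Ent.zero (Ls.cons Ent.zero (Ls.cons Ent.zero (Ls.cons Ent.zero (Ls.cons Ent.zero (Ls.cons Ent.zero (Ls.cons Ent.zero (Ls.cons Ent.zero (Ls.cons Ent.zero Ls.nil)))))))))))))))))))))))))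
 (Ls.cons (Ls.cons Ent.zero (Ls.cons Ent.zero (Ls.cons Ent.zero (Ls.cons Ent.zero (Ls.cons Ent.zero (Ls.cons Ent.zero (Ls.cons Ent.zero (Ls.cons Ent.zero (Ls.cons Ent.zero (Ls.cons Ent.zero (Ls.cons Ent.zero (Ls.cons Ent.zero (Ls.cons Ent.zero (Ls.cons Ent.zero (Ls.cons Ent.zero (Ls.cons Ent.zero (Ls.cons Ent.zero (Ls.cons Ent.zero (Ls.cons Ent.zero (Ls.cons Ent.zero (Ls.cons Ent.zero (Ls.cons Ent.zero (Ls.cons Ent.zero (Ls.cons Ent.zero (Ls.cons Ent.zero Ls.nil)))))))))))))))))))))))))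
 (Ls.cons (Ls.cons Ent.zero (Ls.cons Ent.zero (Ls.cons Ent.zero (Ls.cons Ent.zero (Ls.cons Ent.zero (Ls.cons Ent.zero (Ls.cons Ent.zero (Ls.cons Ent.zero (Ls.cons Ent.zero (Ls.cons Ent.zero (Ls.cons Ent.zero (Ls.cons Ent.zero (Ls.cons Ent.zero (Ls.cons Ent.zero (Ls.cons Ent.zero (Ls.cons Ent.zero (Ls.cons Ent.zero (Ls.cons Ent.zero (Ls.cons Ent.zero (Ls.cons Ent.zero (Ls.cons Ent.zero (Ls.cons Ent.zero (Ls.cons Ent.zero (Ls.cons Ent.zero (Ls.cons Ent.zero Ls.nil)))))))))))))))))))))))))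
 (Ls.cons (Ls.cons Ent.zero (Ls.cons Ent.zero (Ls.cons Ent.zero (Ls.cons Ent.zero (Ls.cons Ent.zero (Ls.cons Ent.zero (Ls.cons Ent.zero (Ls.cons Ent.zero (Ls.cons Ent.zero (Ls.cons Ent.zero (Ls.cons Ent.zero (Ls.cons Ent.zero (Ls.cons Ent.zero (Ls.cons Ent.zero (Ls.cons Ent.zero (Ls.cons Ent.zero (Ls.cons Ent.zero (Ls.cons Ent.zero (Ls.cons Ent.zero (Ls.cons Ent.zero (Ls.cons Ent.zero (Ls.cons Ent.zero (Ls.cons Ent.zero (Ls.cons Ent.zero (Ls.cons Ent.zero Ls.nil)))))))))))))))))))))))))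
 (Ls.cons (Ls.cons Ent.zero (Ls.cons Ent.zero (Ls.cons Ent.zero (Ls.cons Ent.zero (Ls.cons Ent.zero (Ls.cons Ent.zero (Ls.cons Ent.zero (Ls.cons Ent.zero (Ls.cons Ent.zero (Ls.cons Ent.zero (Ls.cons Ent.zero (Ls.cons Ent.zero (Ls.cons Ent.zero (Ls.cons Ent.zero (Ls.cons Ent.zero (Ls.cons Ent.zero (Ls.cons Ent.zero (Ls.cons Ent.zero (Ls.cons Ent.zero (Ls.cons Ent.zero (Ls.cons Ent.zero (Ls.cons Ent.zero (Ls.cons Ent.zero (Ls.cons Ent.zero (Ls.cons Ent.zero Ls.nil)))))))))))))))))))))))))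
 (Ls.cons (Ls.cons Ent.zero (Ls.cons Ent.zero (Ls.cons Ent.zero (Ls.cons Ent.zero (Ls.cons Ent.zero (Ls.cons Ent.zero (Ls.cons Ent.zero (Ls.cons Ent.zero (Ls.cons Ent.zero (Ls.cons Ent.zero (Ls.cons Ent.zero (Ls.cons Ent.zero (Ls.cons Ent.zero (Ls.cons Ent.zero (Ls.cons Ent.zero (Ls.cons Ent.zero (Ls.cons Ent.zero (Ls.cons Ent.zero (Ls.cons Ent.zero (Ls.cons Ent.zero (Ls.cons Ent.zero (Ls.cons Ent.zero (Ls.cons Ent.zero (Ls.cons Ent.zero (Ls.cons Ent.zero Ls.nil)))))))))))))))))))))))))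
 (Ls.cons (Ls.cons Ent.zero (Ls.cons Ent.zero (Ls.cons Ent.zero (Ls.cons Ent.zero (Ls.cons Ent.zero (Ls.cons Ent.zero (Ls.cons Ent.zero (Ls.cons Ent.zero (Ls.cons Ent.zero (Ls.cons Ent.zero (Ls.cons Ent.zero (Ls.cons Ent.zero (Ls.cons Ent.zero (Ls.cons Ent.zero (Ls.cons Ent.zero (Ls.cons Ent.zero (Ls.cons Ent.zero (Ls.cons Ent.zero (Ls.cons Ent.zero (Ls.cons Ent.zero (Ls.cons Ent.zero (Ls.cons Ent.zero (Ls.cons Ent.zero (Ls.cons Ent.zero (Ls.cons Ent.zero Ls.nil)))))))))))))))))))))))))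
 (Ls.cons (Ls.cons Ent.zero (Ls.cons Ent.zero (Ls.cons Ent.zero (Ls.cons Ent.zero (Ls.cons Ent.zero (Ls.cons Ent.zero (Ls.cons Ent.zero (Ls.cons Ent.zero (Ls.cons Ent.zero (Ls.cons Ent.zero (Ls.cons Ent.zero (Ls.cons Ent.zero (Ls.cons Ent.zero (Ls.cons Ent.zero (Ls.cons Ent.zero (Ls.cons Ent.zero (Ls.cons Ent.zero (Ls.cons Ent.zero (Ls.cons Ent.zero (Ls.cons Ent.zero (Ls.cons Ent.zero (Ls.cons Ent.zero (Ls.cons Ent.zero (Ls.cons Ent.zero (Ls.cons Ent.zero Ls.nil)))))))))))))))))))))))))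
 (Ls.cons (Ls.cons Ent.zero (Ls.cons Ent.zero (Ls.cons Ent.zero (Ls.cons Ent.zero (Ls.cons Ent.zero (Ls.cons Ent.zero (Ls.cons Ent.zero (Ls.cons Ent.zero (Ls.cons Ent.zero (Ls.cons Ent.zero (Ls.cons Ent.zero (Ls.cons Ent.zero (Ls.cons Ent.zero (Ls.cons Ent.zero (Ls.cons Ent.zero (Ls.cons Ent.zero (Ls.cons Ent.zero (Ls.cons Ent.zero (Ls.cons Ent.zero (Ls.cons Ent.zero (Ls.cons Ent.zero (Ls.cons Ent.zero (Ls.cons Ent.zero (Ls.cons Ent.zero (Ls.cons Ent.zero Ls.nil)))))))))))))))))))))))))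
 (Ls.cons (Ls.cons Ent.zero (Ls.cons Ent.zero (Ls.cons Ent.zero (Ls.cons Ent.zero (Ls.cons Ent.zero (Ls.cons Ent.zero (Ls.cons Ent.zero (Ls.cons Ent.zero (Ls.cons Ent.zero (Ls.cons Ent.zero (Ls.cons Ent.zero (Ls.cons Ent.zero (Ls.cons Ent.zero (Ls.cons Ent.zero (Ls.cons Ent.zero (Ls.cons Ent.zero (Ls.cons Ent.zero (Ls.cons Ent.zero (Ls.cons Ent.zero (Ls.cons Ent.zero (Ls.cons Ent.zero (Ls.cons Ent.zero (Ls.cons Ent.zero (Ls.cons Ent.zero (Ls.cons Ent.zero Ls.nil)))))))))))))))))))))))))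
 (Ls.cons (Ls.cons Ent.zero (Ls.cons Ent.zero (Ls.cons Ent.zero (Ls.cons Ent.zero (Ls.cons Ent.zero (Ls.cons Ent.zero (Ls.cons Ent.zero (Ls.cons Ent.zero (Ls.cons Ent.zero (Ls.cons Ent.zero (Ls.cons Ent.zero (Ls.cons Ent.zero (Ls.cons Ent.zero (Ls.cons Ent.zero (Ls.cons Ent.zero (Ls.cons Ent.zero (Ls.cons Ent.zero (Ls.cons Ent.zero (Ls.cons Ent.zero (Ls.cons Ent.zero (Ls.cons Ent.zero (Ls.cons Ent.zero (Ls.cons Ent.zero (Ls.cons Ent.zero (Ls.cons Ent.zero Ls.nil)))))))))))))))))))))))))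
 (Ls.cons (Ls.cons Ent.zero (Ls.cons Ent.zero (Ls.cons Ent.zero (Ls.cons Ent.zero (Ls.cons Ent.zero (Ls.cons Ent.zero (Ls.cons Ent.zero (Ls.cons Ent.zero (Ls.cons Ent.zero (Ls.cons Ent.zero (Ls.cons Ent.zero (Ls.cons Ent.zero (Ls.cons Ent.zero (Ls.cons Ent.zero (Ls.cons Ent.zero (Ls.cons Ent.zero (Ls.cons Ent.zero (Ls.cons Ent.zero (Ls.cons Ent.zero (Ls.cons Ent.zero (Ls.cons Ent.zero (Ls.cons Ent.zero (Ls.cons Ent.zero (Ls.cons Ent.zero (Ls.cons Ent.zero Ls.nil)))))))))))))))))))))))))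
 (Ls.cons (Ls.cons Ent.zero (Ls.cons Ent.zero (Ls.cons Ent.zero (Ls.cons Ent.zero (Ls.cons Ent.zero (Ls.cons Ent.zero (Ls.cons Ent.zero (Ls.cons Ent.zero (Ls.cons Ent.zero (Ls.cons Ent.zero (Ls.cons Ent.zero (Ls.cons Ent.zero (Ls.cons Ent.zero (Ls.cons Ent.zero (Ls.cons Ent.zero (Ls.cons Ent.zero (Ls.cons Ent.zero (Ls.cons Ent.zero (Ls.cons Ent.zero (Ls.cons Ent.zero (Ls.cons Ent.zero (Ls.cons Ent.zero (Ls.cons Ent.zero (Ls.cons Ent.zero (Ls.cons Ent.zero Ls.nil)))))))))))))))))))))))))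
 (Ls.cons (Ls.cons Ent.zero (Ls.cons Ent.zero (Ls.cons Ent.zero (Ls.cons Ent.zero (Ls.cons Ent.zero (Ls.cons Ent.zero (Ls.cons Ent.zero (Ls.cons Ent.zero (Ls.cons Ent.zero (Ls.cons Ent.zero (Ls.cons Ent.zero (Ls.cons Ent.zero (Ls.cons Ent.zero (Ls.cons Ent.zero (Ls.cons Ent.zero (Ls.cons Ent.zero (Ls.cons Ent.zero (Ls.cons Ent.zero (Ls.cons Ent.zero (Ls.cons Ent.zero (Ls.cons Ent.zero (Ls.cons Ent.zero (Ls.cons Ent.zero (Ls.cons Ent.zero (Ls.cons Ent.zero Ls.nil)))))))))))))))))))))))))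
 (Ls.cons (Ls.cons Ent.zero (Ls.cons Ent.zero (Ls.cons Ent.zero (Ls.cons Ent.zero (Ls.cons Ent.zero (Ls.cons Ent.zero (Ls.cons Ent.zero (Ls.cons Ent.zero (Ls.cons Ent.zero (Ls.cons Ent.zero (Ls.cons Ent.zero (Ls.cons Ent.zero (Ls.cons Ent.zero (Ls.cons Ent.zero (Ls.cons Ent.zero (Ls.cons Ent.zero (Ls.cons Ent.zero (Ls.cons Ent.zero (Ls.cons Ent.zero (Ls.cons Ent.zero (Ls.cons Ent.zero (Ls.cons Ent.zero (Ls.cons Ent.zero (Ls.cons Ent.zero (Ls.cons Ent.zero Ls.nil)))))))))))))))))))))))))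
 (Ls.cons (Ls.cons Ent.zero (Ls.cons Ent.zero (Ls.cons Ent.zero (Ls.cons Ent.zero (Ls.cons Ent.zero (Ls.cons Ent.zero (Ls.cons Ent.zero (Ls.cons Ent.zero (Ls.cons Ent.zero (Ls.cons Ent.zero (Ls.cons Ent.zero (Ls.cons Ent.zero (Ls.cons Ent.zero (Ls.cons Ent.zero (Ls.cons Ent.zero (Ls.cons Ent.zero (Ls.cons Ent.zero (Ls.cons Ent.zero (Ls.cons Ent.zero (Ls.cons Ent.zero (Ls.cons Ent.zero (Ls.cons Ent.zero (Ls.cons Ent.zero (Ls.cons Ent.zero (Ls.cons Ent.zero Ls.nil)))))))))))))))))))))))))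
 (Ls.cons (Ls.cons Ent.zero (Ls.cons Ent.zero (Ls.cons Ent.zero (Ls.cons Ent.zero (Ls.cons Ent.zero (Ls.cons Ent.zero (Ls.cons Ent.zero (Ls.cons Ent.zero (Ls.cons Ent.zero (Ls.cons Ent.zero (Ls.cons Ent.zero (Ls.cons Ent.zero (Ls.cons Ent.zero (Ls.cons Ent.zero (Ls.cons Ent.zero (Ls.cons Ent.zero (Ls.cons Ent.zero (Ls.cons Ent.zero (Ls.cons Ent.zero (Ls.cons Ent.zero (Ls.cons Ent.zero (Ls.cons Ent.zero (Ls.cons Ent.zero (Ls.cons Ent.zero (Ls.cons Ent.zero Ls.nil)))))))))))))))))))))))))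
 (Ls.cons (Ls.cons Ent.zero (Ls.cons Ent.zero (Ls.cons Ent.zero (Ls.cons Ent.zero (Ls.cons Ent.zero (Ls.cons Ent.zero (Ls.cons Ent.zero (Ls.cons Ent.zero (Ls.cons Ent.zero (Ls.cons Ent.zero (Ls.cons Ent.zero (Ls.cons Ent.zero (Ls.cons Ent.zero (Ls.cons Ent.zero (Ls.cons Ent.zero (Ls.cons Ent.zero (Ls.cons Ent.zero (Ls.cons Ent.zero (Ls.cons Ent.zero (Ls.cons Ent.zero (Ls.cons Ent.zero (Ls.cons Ent.zero (Ls.cons Ent.zero (Ls.cons Ent.zero (Ls.cons Ent.zero Ls.nil)))))))))))))))))))))))))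
 (Ls.cons (Ls.cons Ent.zero (Ls.cons Ent.zero (Ls.cons Ent.zero (Ls.cons Ent.zero (Ls.cons Ent.zero (Ls.cons Ent.zero (Ls.cons Ent.zero (Ls.cons Ent.zero (Ls.cons Ent.zero (Ls.cons Ent.zero (Ls.cons Ent.zero (Ls.cons Ent.zero (Ls.cons Ent.zero (Ls.cons Ent.zero (Ls.cons Ent.zero (Ls.cons Ent.zero (Ls.cons Ent.zero (Ls.cons Ent.zero (Ls.cons Ent.zero (Ls.cons Ent.zero (Ls.cons Ent.zero (Ls.cons Ent.zero (Ls.cons Ent.zero (Ls.cons Ent.zero (Ls.cons Ent.zero Ls.nil)))))))))))))))))))))))))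
 Ls.nil))))))))))))))))))))

noncomputable def bxF1_6 : L2 :=
 (Ls.cons (Ls.cons Ent.zero (Ls.cons Ent.zero (Ls.cons Ent.zero (Ls.cons Ent.zero (Ls.cons Ent.zero (Ls.cons Ent.zero (Ls.cons Ent.zero (Ls.cons Ent.zero (Ls.cons Ent.zero (Ls.cons Ent.zero (Ls.cons Ent.zero (Ls.cons Ent.zero (Ls.cons Ent.zero (Ls.cons Ent.zero (Ls.cons Ent.zero (Ls.cons Ent.zero (Ls.cons Ent.zero (Ls.cons Ent.zero (Ls.cons Ent.zero (Ls.cons Ent.zero (Ls.cons Ent.zero (Ls.cons Ent.zero (Ls.cons Ent.zero (Ls.cons Ent.zero (Ls.cons Ent.zero Ls.nil)))))))))))))))))))))))))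
 (Ls.cons (Ls.cons Ent.zero (Ls.cons Ent.zero (Ls.cons Ent.zero (Ls.cons Ent.zero (Ls.cons Ent.zero (Ls.cons Ent.zero (Ls.cons Ent.zero (Ls.cons Ent.zero (Ls.cons Ent.zero (Ls.cons Ent.zero (Ls.cons Ent.zero (Ls.cons Ent.zero (Ls.cons Ent.zero (Ls.cons Ent.zero (Ls.cons Ent.zero (Ls.cons Ent.zero (Ls.cons Ent.zero (Ls.cons Ent.zero (Ls.cons Ent.zero (Ls.cons Ent.zero (Ls.cons Ent.zero (Ls.cons Ent.zero (Ls.cons Ent.zero (Ls.cons Ent.zero (Ls.cons Ent.zero Ls.nil)))))))))))))))))))))))))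
 (Ls.cons (Ls.cons Ent.zero (Ls.cons Ent.zero (Ls.cons Ent.zero (Ls.cons Ent.zero (Ls.cons Ent.zero (Ls.cons Ent.zero (Ls.cons Ent.zero (Ls.cons Ent.zero (Ls.cons Ent.zero (Ls.cons Ent.zero (Ls.cons Ent.zero (Ls.cons Ent.zero (Ls.cons Ent.zero (Ls.cons Ent.zero (Ls.cons Ent.zero (Ls.cons Ent.zero (Ls.cons Ent.zero (Ls.cons Ent.zero (Ls.cons Ent.zero (Ls.cons Ent.zero (Ls.cons Ent.zero (Ls.cons Ent.zero (Ls.cons Ent.zero (Ls.cons Ent.zero (Ls.cons Ent.zero Ls.nil)))))))))))))))))))))))))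
 (Ls.cons (Ls.cons Ent.zero (Ls.cons Ent.zero (Ls.cons Ent.zero (Ls.cons Ent.zero (Ls.cons Ent.zero (Ls.cons Ent.zero (Ls.cons Ent.zero (Ls.cons Ent.zero (Ls.cons Ent.zero (Ls.cons Ent.zero (Ls.cons Ent.zero (Ls.cons Ent.zero (Ls.cons Ent.zero (Ls.cons Ent.zero (Ls.cons Ent.zero (Ls.cons Ent.zero (Ls.cons Ent.zero (Ls.cons Ent.zero (Ls.cons Ent.zero (Ls.cons Ent.zero (Ls.cons Ent.zero (Ls.cons Ent.zero (Ls.cons Ent.zero (Ls.cons Ent.zero (Ls.cons Ent.zero Ls.nil)))))))))))))))))))))))))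
 (Ls.cons (Ls.cons Ent.zero (Ls.cons Ent.zero (Ls.cons Ent.zero (Ls.cons Ent.zero (Ls.cons Ent.zero (Ls.cons Ent.zero (Ls.cons Ent.zero (Ls.cons Ent.zero (Ls.cons Ent.zero (Ls.cons Ent.zero (Ls.cons Ent.zero (Ls.cons Ent.zero (Ls.cons Ent.zero (Ls.cons Ent.zero (Ls.cons Ent.zero (Ls.cons Ent.zero (Ls.cons Ent.zero (Ls.cons Ent.zero (Ls.cons Ent.zero (Ls.cons Ent.zero (Ls.cons Ent.zero (Ls.cons Ent.zero (Ls.cons Ent.zero (Ls.cons Ent.zero (Ls.cons Ent.zero Ls.nil)))))))))))))))))))))))))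
 (Ls.cons (Ls.cons Ent.zero (Ls.cons Ent.zero (Ls.cons Ent.zero (Ls.cons Ent.zero (Ls.cons Ent.zero (Ls.cons Ent.zero (Ls.cons Ent.zero (Ls.cons Ent.zero (Ls.cons Ent.zero (Ls.cons Ent.zero (Ls.cons Ent.zero (Ls.cons Ent.zero (Ls.cons Ent.zero (Ls.cons Ent.zero (Ls.cons Ent.zero (Ls.cons Ent.zero (Ls.cons Ent.zero (Ls.cons Ent.zero (Ls.cons Ent.zero (Ls.cons Ent.zero (Ls.cons Ent.zero (Ls.cons Ent.zero (Ls.cons Ent.zero (Ls.cons Ent.zero (Ls.cons Ent.zero Ls.nil)))))))))))))))))))))))))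
 (Ls.cons (Ls.cons Ent.zero (Ls.cons Ent.zero (Ls.cons Ent.zero (Ls.cons Ent.zero (Ls.cons Ent.zero (Ls.cons Ent.zero (Ls.cons Ent.zero (Ls.cons Ent.zero (Ls.cons Ent.zero (Ls.cons Ent.zero (Ls.cons Ent.zero (Ls.cons Ent.zero (Ls.cons Ent.zero (Ls.cons Ent.zero (Ls.cons Ent.zero (Ls.cons Ent.zero (Ls.cons Ent.zero (Ls.cons Ent.zero (Ls.cons Ent.zero (Ls.cons Ent.zero (Ls.cons Ent.zero (Ls.cons Ent.zero (Ls.cons Ent.zero (Ls.cons Ent.zero (Ls.cons Ent.zero Ls.nil)))))))))))))))))))))))))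
 (Ls.cons (Ls.cons Ent.zero (Ls.cons Ent.zero (Ls.cons Ent.zero (Ls.cons Ent.zero (Ls.cons Ent.zero (Ls.cons Ent.zero (Ls.cons Ent.zero (Ls.cons Ent.zero (Ls.cons Ent.zero (Ls.cons Ent.zero (Ls.cons Ent.zero (Ls.cons Ent.zero (Ls.cons Ent.zero (Ls.cons Ent.zero (Ls.cons Ent.zero (Ls.cons Ent.zero (Ls.cons Ent.zero (Ls.cons Ent.zero (Ls.cons Ent.zero (Ls.cons Ent.zero (Ls.cons Ent.zero (Ls.cons Ent.zero (Ls.cons Ent.zero (Ls.cons Ent.zero (Ls.cons Ent.zero Ls.nil)))))))))))))))))))))))))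
 (Ls.cons (Ls.cons Ent.zero (Ls.cons Ent.zero (Ls.cons Ent.zero (Ls.cons Ent.zero (Ls.cons Ent.zero (Ls.cons Ent.zero (Ls.cons Ent.zero (Ls.cons Ent.zero (Ls.cons Ent.zero (Ls.cons Ent.zero (Ls.cons Ent.zero (Ls.cons Ent.zero (Ls.cons Ent.zero (Ls.cons Ent.zero (Ls.cons Ent.zero (Ls.cons Ent.zero (Ls.cons Ent.zero (Ls.cons Ent.zero (Ls.cons Ent.zero (Ls.cons Ent.zero (Ls.cons Ent.zero (Ls.cons Ent.zero (Ls.cons Ent.zero (Ls.cons Ent.zero (Ls.cons Ent.zero Ls.nil)))))))))))))))))))))))))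
 (Ls.cons (Ls.cons Ent.zero (Ls.cons Ent.zero (Ls.cons Ent.zero (Ls.cons Ent.zero (Ls.cons Ent.zero (Ls.cons Ent.zero (Ls.cons Ent.zero (Ls.cons Ent.zero (Ls.cons Ent.zero (Ls.cons Ent.zero (Ls.cons Ent.zero (Ls.cons Ent.zero (Ls.cons Ent.zero (Ls.cons Ent.zero (Ls.cons Ent.zero (Ls.cons Ent.zero (Ls.cons Ent.zero (Ls.cons Ent.zero (Ls.cons Ent.zero (Ls.cons Ent.zero (Ls.cons Ent.zero (Ls.cons Ent.zero (Ls.cons Ent.zero (Ls.cons Ent.zero (Ls.cons Ent.zero Ls.nil)))))))))))))))))))))))))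
 (Ls.cons (Ls.cons Ent.zero (Ls.cons Ent.zero (Ls.cons Ent.zero (Ls.cons Ent.zero (Ls.cons Ent.zero (Ls.cons Ent.zero (Ls.cons Ent.zero (Ls.cons Ent.zero (Ls.cons Ent.zero (Ls.cons Ent.zero (Ls.cons Ent.zero (Ls.cons Ent.zero (Ls.cons Ent.zero (Ls.cons Ent.zero (Ls.cons Ent.zero (Ls.cons Ent.zero (Ls.cons Ent.zero (Ls.cons Ent.zero (Ls.cons Ent.zero (Ls.cons Ent.zero (Ls.cons Ent.zero (Ls.cons Ent.zero (Ls.cons Ent.zero (Ls.cons Ent.zero (Ls.cons Ent.zero Ls.nil)))))))))))))))))))))))))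
 (Ls.cons (Ls.cons Ent.zero (Ls.cons Ent.zero (Ls.cons Ent.zero (Ls.cons Ent.zero (Ls.cons Ent.zero (Ls.cons Ent.zero (Ls.cons Ent.zero (Ls.cons Ent.zero (Ls.cons Ent.zero (Ls.cons Ent.zero (Ls.cons Ent.zero (Ls.cons Ent.zero (Ls.cons Ent.zero (Ls.cons Ent.zero (Ls.cons Ent.zero (Ls.cons Ent.zero (Ls.cons Ent.zero (Ls.cons Ent.zero (Ls.cons Ent.zero (Ls.cons Ent.zero (Ls.cons Ent.zero (Ls.cons Ent.zero (Ls.cons Ent.zero (Ls.cons Ent.zero (Ls.cons Ent.zero Ls.nil)))))))))))))))))))))))))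
 (Ls.cons (Ls.cons Ent.zero (Ls.cons Ent.zero (Ls.cons Ent.zero (Ls.cons Ent.zero (Ls.cons Ent.zero (Ls.cons Ent.zero (Ls.cons Ent.zero (Ls.cons Ent.zero (Ls.cons Ent.zero (Ls.cons Ent.zero (Ls.cons Ent.zero (Ls.cons Ent.zero (Ls.cons Ent.zero (Ls.cons Ent.zero (Ls.cons Ent.zero (Ls.cons Ent.zero (Ls.cons Ent.zero (Ls.cons Ent.zero (Ls.cons Ent.zero (Ls.cons Ent.zero (Ls.cons Ent.zero (Ls.cons Ent.zero (Ls.cons Ent.zero (Ls.cons Ent.zero (Ls.cons Ent.zero Ls.nil)))))))))))))))))))))))))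
 (Ls.cons (Ls.cons Ent.zero (Ls.cons Ent.zero (Ls.cons Ent.zero (Ls.cons Ent.zero (Ls.cons Ent.zero (Ls.cons Ent.zero (Ls.cons Ent.zero (Ls.cons Ent.zero (Ls.cons Ent.zero (Ls.cons Ent.zero (Ls.cons Ent.zero (Ls.cons Ent.zero (Ls.cons Ent.zero (Ls.cons Ent.zero (Ls.cons Ent.zero (Ls.cons Ent.zero (Ls.cons Ent.zero (Ls.cons Ent.zero (Ls.cons Ent.zero (Ls.cons Ent.zero (Ls.cons Ent.zero (Ls.cons Ent.zero (Ls.cons Ent.zero (Ls.cons Ent.zero (Ls.cons Ent.zero Ls.nil)))))))))))))))))))))))))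
 (Ls.cons (Ls.cons Ent.zero (Ls.cons Ent.zero (Ls.cons Ent.zero (Ls.cons Ent.zero (Ls.cons Ent.zero (Ls.cons Ent.zero (Ls.cons Ent.zero (Ls.cons Ent.zero (Ls.cons Ent.zero (Ls.cons Ent.zero (Ls.cons Ent.zero (Ls.cons Ent.zero (Ls.cons Ent.zero (Ls.cons Ent.zero (Ls.cons Ent.zero (Ls.cons Ent.zero (Ls.cons Ent.zero (Ls.cons Ent.zero (Ls.cons Ent.zero (Ls.cons Ent.zero (Ls.cons Ent.zero (Ls.cons Ent.zero (Ls.cons Ent.zero (Ls.cons Ent.zero (Ls.cons Ent.zero Ls.nil)))))))))))))))))))))))))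
 (Ls.cons (Ls.cons Ent.zero (Ls.cons Ent.zero (Ls.cons Ent.zero (Ls.cons Ent.zero (Ls.cons Ent.zero (Ls.cons Ent.zero (Ls.cons Ent.zero (Ls.cons Ent.zero (Ls.cons Ent.zero (Ls.cons Ent.zero (Ls.cons Ent.zero (Ls.cons Ent.zero (Ls.cons Ent.zero (Ls.cons Ent.zero (Ls.cons Ent.zero (Ls.cons Ent.zero (Ls.cons Ent.zero (Ls.cons Ent.zero (Ls.cons Ent.zero (Ls.cons Ent.zero (Ls.cons Ent.zero (Ls.cons Ent.zero (Ls.cons Ent.zero (Ls.cons Ent.zero (Ls.cons Ent.zero Ls.nil)))))))))))))))))))))))))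
 (Ls.cons (Ls.cons Ent.zero (Ls.cons Ent.zero (Ls.cons Ent.zero (Ls.cons Ent.zero (Ls.cons Ent.zero (Ls.cons Ent.zero (Ls.cons Ent.zero (Ls.cons Ent.zero (Ls.cons Ent.zero (Ls.cons Ent.zero (Ls.cons Ent.zero (Ls.cons Ent.zero (Ls.cons Ent.zero (Ls.cons Ent.zero (Ls.cons Ent.zero (Ls.cons Ent.zero (Ls.cons Ent.zero (Ls.cons Ent.zero (Ls.cons Ent.zero (Ls.cons Ent.zero (Ls.cons Ent.zero (Ls.cons Ent.zero (Ls.cons Ent.zero (Ls.cons Ent.zero (Ls.cons Ent.zero Ls.nil)))))))))))))))))))))))))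
 (Ls.cons (Ls.cons Ent.zero (Ls.cons Ent.zero (Ls.cons Ent.zero (Ls.cons Ent.zero (Ls.cons Ent.zero (Ls.cons Ent.zero (Ls.cons Ent.zero (Ls.cons Ent.zero (Ls.cons Ent.zero (Ls.cons Ent.zero (Ls.cons Ent.zero (Ls.cons Ent.zero (Ls.cons Ent.zero (Ls.cons Ent.zero (Ls.cons Ent.zero (Ls.cons Ent.zero (Ls.cons Ent.zero (Ls.cons Ent.zero (Ls.cons Ent.zero (Ls.cons Ent.zero (Ls.cons Ent.zero (Ls.cons Ent.zero (Ls.cons Ent.zero (Ls.cons Ent.zero (Ls.cons Ent.zero Ls.nil)))))))))))))))))))))))))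
 (Ls.cons (Ls.cons Ent.zero (Ls.cons Ent.zero (Ls.cons Ent.zero (Ls.cons Ent.zero (Ls.cons Ent.zero (Ls.cons Ent.zero (Ls.cons Ent.zero (Ls.cons Ent.zero (Ls.cons Ent.zero (Ls.cons Ent.zero (Ls.cons Ent.zero (Ls.cons Ent.zero (Ls.cons Ent.zero (Ls.cons Ent.zero (Ls.cons Ent.zero (Ls.cons Ent.zero (Ls.cons Ent.zero (Ls.cons Ent.zero (Ls.cons Ent.zero (Ls.cons Ent.zero (Ls.cons Ent.zero (Ls.cons Ent.zero (Ls.cons Ent.zero (Ls.cons Ent.zero (Ls.cons Ent.zero Ls.nil)))))))))))))))))))))))))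
 (Ls.cons (Ls.cons Ent.zero (Ls.cons Ent.zero (Ls.cons Ent.zero (Ls.cons Ent.zero (Ls.cons Ent.zero (Ls.cons Ent.zero (Ls.cons Ent.zero (Ls.cons Ent.zero (Ls.cons Ent.zero (Ls.cons Ent.zero (Ls.cons Ent.zero (Ls.cons Ent.zero (Ls.cons Ent.zero (Ls.cons Ent.zero (Ls.cons Ent.zero (Ls.cons Ent.zero (Ls.cons Ent.zero (Ls.cons Ent.zero (Ls.cons Ent.zero (Ls.cons Ent.zero (Ls.cons Ent.zero (Ls.cons Ent.zero (Ls.cons Ent.zero (Ls.cons Ent.zero (Ls.cons Ent.zero Ls.nil)))))))))))))))))))))))))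
 Ls.nil))))))))))))))))))))

noncomputable def bxF1_7 : L2 :=
 (Ls.cons (Ls.cons Ent.zero (Ls.cons Ent.zero (Ls.cons Ent.zero (Ls.cons Ent.zero (Ls.cons Ent.zero (Ls.cons Ent.zero (Ls.cons Ent.zero (Ls.cons Ent.zero (Ls.cons Ent.zero (Ls.cons Ent.zero (Ls.cons Ent.zero (Ls.cons Ent.zero (Ls.cons Ent.zero (Ls.cons Ent.zero (Ls.cons Ent.zero (Ls.cons Ent.zero (Ls.cons Ent.zero (Ls.cons Ent.zero (Ls.cons Ent.zero (Ls.cons Ent.zero (Ls.cons Ent.zero (Ls.cons Ent.zero (Ls.cons Ent.zero (Ls.cons Ent.zero (Ls.cons Ent.zero Ls.nil)))))))))))))))))))))))))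
 (Ls.cons (Ls.cons Ent.zero (Ls.cons Ent.zero (Ls.cons Ent.zero (Ls.cons Ent.zero (Ls.cons Ent.zero (Ls.cons Ent.zero (Ls.cons Ent.zero (Ls.cons Ent.zero (Ls.cons Ent.zero (Ls.cons Ent.zero (Ls.cons Ent.zero (Ls.cons Ent.zero (Ls.cons Ent.zero (Ls.cons Ent.zero (Ls.cons Ent.zero (Ls.cons Ent.zero (Ls.cons Ent.zero (Ls.cons Ent.zero (Ls.cons Ent.zero (Ls.cons Ent.zero (Ls.cons Ent.zero (Ls.cons Ent.zero (Ls.cons Ent.zero (Ls.cons Ent.zero (Ls.cons Ent.zero Ls.nil)))))))))))))))))))))))))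
 (Ls.cons (Ls.cons Ent.zero (Ls.cons Ent.zero (Ls.cons Ent.zero (Ls.cons Ent.zero (Ls.cons Ent.zero (Ls.cons Ent.zero (Ls.cons Ent.zero (Ls.cons Ent.zero (Ls.cons Ent.zero (Ls.cons Ent.zero (Ls.cons Ent.zero (Ls.cons Ent.zero (Ls.cons Ent.zero (Ls.cons Ent.zero (Ls.cons Ent.zero (Ls.cons Ent.zero (Ls.cons Ent.zero (Ls.cons Ent.zero (Ls.cons Ent.zero (Ls.cons Ent.zero (Ls.cons Ent.zero (Ls.cons Ent.zero (Ls.cons Ent.zero (Ls.cons Ent.zero (Ls.cons Ent.zero Ls.nil)))))))))))))))))))))))))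
 (Ls.cons (Ls.cons Ent.zero (Ls.cons Ent.zero (Ls.cons Ent.zero (Ls.cons Ent.zero (Ls.cons Ent.zero (Ls.cons Ent.zero (Ls.cons Ent.zero (Ls.cons Ent.zero (Ls.cons Ent.zero (Ls.cons Ent.zero (Ls.cons Ent.zero (Ls.cons Ent.zero (Ls.cons Ent.zero (Ls.cons Ent.zero (Ls.cons Ent.zero (Ls.cons Ent.zero (Ls.cons Ent.zero (Ls.cons Ent.zero (Ls.cons Ent.zero (Ls.cons Ent.zero (Ls.cons Ent.zero (Ls.cons Ent.zero (Ls.cons Ent.zero (Ls.cons Ent.zero (Ls.cons Ent.zero Ls.nil)))))))))))))))))))))))))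
 (Ls.cons (Ls.cons Ent.zero (Ls.cons Ent.zero (Ls.cons Ent.zero (Ls.cons Ent.zero (Ls.cons Ent.zero (Ls.cons Ent.zero (Ls.cons Ent.zero (Ls.cons Ent.zero (Ls.cons Ent.zero (Ls.cons Ent.zero (Ls.cons Ent.zero (Ls.cons Ent.zero (Ls.cons Ent.zero (Ls.cons Ent.zero (Ls.cons Ent.zero (Ls.cons Ent.zero (Ls.cons Ent.zero (Ls.cons Ent.zero (Ls.cons Ent.zero (Ls.cons Ent.zero (Ls.cons Ent.zero (Ls.cons Ent.zero (Ls.cons Ent.zero (Ls.cons Ent.zero (Ls.cons Ent.zero Ls.nil)))))))))))))))))))))))))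
 (Ls.cons (Ls.cons Ent.zero (Ls.cons Ent.zero (Ls.cons Ent.zero (Ls.cons Ent.zero (Ls.cons Ent.zero (Ls.cons Ent.zero (Ls.cons Ent.zero (Ls.cons Ent.zero (Ls.cons Ent.zero (Ls.cons Ent.zero (Ls.cons Ent.zero (Ls.cons Ent.zero (Ls.cons Ent.zero (Ls.cons Ent.zero (Ls.cons Ent.zero (Ls.cons Ent.zero (Ls.cons Ent.zero (Ls.cons Ent.zero (Ls.cons Ent.zero (Ls.cons Ent.zero (Ls.cons Ent.zero (Ls.cons Ent.zero (Ls.cons Ent.zero (Ls.cons Ent.zero (Ls.cons Ent.zero Ls.nil)))))))))))))))))))))))))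
 (Ls.cons (Ls.cons Ent.zero (Ls.cons Ent.zero (Ls.cons Ent.zero (Ls.cons Ent.zero (Ls.cons Ent.zero (Ls.cons Ent.zero (Ls.cons Ent.zero (Ls.cons Ent.zero (Ls.cons Ent.zero (Ls.cons Ent.zero (Ls.cons Ent.zero (Ls.cons Ent.zero (Ls.cons Ent.zero (Ls.cons Ent.zero (Ls.cons Ent.zero (Ls.cons Ent.zero (Ls.cons Ent.zero (Ls.cons Ent.zero (Ls.cons Ent.zero (Ls.cons Ent.zero (Ls.cons Ent.zero (Ls.cons Ent.zero (Ls.cons Ent.zero (Ls.cons Ent.zero (Ls.cons Ent.zero Ls.nil)))))))))))))))))))))))))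
 (Ls.cons (Ls.cons Ent.zero (Ls.cons Ent.zero (Ls.cons Ent.zero (Ls.cons Ent.zero (Ls.cons Ent.zero (Ls.cons Ent.zero (Ls.cons Ent.zero (Ls.cons Ent.zero (Ls.cons Ent.zero (Ls.cons Ent.zero (Ls.cons Ent.zero (Ls.cons Ent.zero (Ls.cons Ent.zero (Ls.cons Ent.zero (Ls.cons Ent.zero (Ls.cons Ent.zero (Ls.cons Ent.zero (Ls.cons Ent.zero (Ls.cons Ent.zero (Ls.cons Ent.zero (Ls.cons Ent.zero (Ls.cons Ent.zero (Ls.cons Ent.zero (Ls.cons Ent.zero (Ls.cons Ent.zero Ls.nil)))))))))))))))))))))))))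
 (Ls.cons (Ls.cons Ent.zero (Ls.cons Ent.zero (Ls.cons Ent.zero (Ls.cons Ent.zero (Ls.cons Ent.zero (Ls.cons Ent.zero (Ls.cons Ent.zero (Ls.cons Ent.zero (Ls.cons Ent.zero (Ls.cons Ent.zero (Ls.cons Ent.zero (Ls.cons Ent.zero (Ls.cons Ent.zero (Ls.cons Ent.zero (Ls.cons Ent.zero (Ls.cons Ent.zero (Ls.cons Ent.zero (Ls.cons Ent.zero (Ls.cons Ent.zero (Ls.cons Ent.zero (Ls.cons Ent.zero (Ls.cons Ent.zero (Ls.cons Ent.zero (Ls.cons Ent.zero (Ls.cons Ent.zero Ls.nil)))))))))))))))))))))))))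
 (Ls.cons (Ls.cons Ent.zero (Ls.cons Ent.zero (Ls.cons Ent.zero (Ls.cons Ent.zero (Ls.cons Ent.zero (Ls.cons Ent.zero (Ls.cons Ent.zero (Ls.cons Ent.zero (Ls.cons Ent.zero (Ls.cons Ent.zero (Ls.cons Ent.zero (Ls.cons Ent.zero (Ls.cons Ent.zero (Ls.cons Ent.zero (Ls.cons Ent.zero (Ls.cons Ent.zero (Ls.cons Ent.zero (Ls.cons Ent.zero (Ls.cons Ent.zero (Ls.cons Ent.zero (Ls.cons Ent.zero (Ls.cons Ent.zero (Ls.cons Ent.zero (Ls.cons Ent.zero (Ls.cons Ent.zero Ls.nil)))))))))))))))))))))))))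
 (Ls.cons (Ls.cons Ent.zero (Ls.cons Ent.zero (Ls.cons Ent.zero (Ls.cons Ent.zero (Ls.cons Ent.zero (Ls.cons Ent.zero (Ls.cons Ent.zero (Ls.cons Ent.zero (Ls.cons Ent.zero (Ls.cons Ent.zero (Ls.cons Ent.zero (Ls.cons Ent.zero (Ls.cons Ent.zero (Ls.cons Ent.zero (Ls.cons Ent.zero (Ls.cons Ent.zero (Ls.cons Ent.zero (Ls.cons Ent.zero (Ls.cons Ent.zero (Ls.cons Ent.zero (Ls.cons Ent.zero (Ls.cons Ent.zero (Ls.cons Ent.zero (Ls.cons Ent.zero (Ls.cons Ent.zero Ls.nil)))))))))))))))))))))))))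
 (Ls.cons (Ls.cons Ent.zero (Ls.cons Ent.zero (Ls.cons Ent.zero (Ls.cons Ent.zero (Ls.cons Ent.zero (Ls.cons Ent.zero (Ls.cons Ent.zero (Ls.cons Ent.zero (Ls.cons Ent.zero (Ls.cons Ent.zero (Ls.cons Ent.zero (Ls.cons Ent.zero (Ls.cons Ent.zero (Ls.cons Ent.zero (Ls.cons Ent.zero (Ls.cons Ent.zero (Ls.cons Ent.zero (Ls.cons Ent.zero (Ls.cons Ent.zero (Ls.cons Ent.zero (Ls.cons Ent.zero (Ls.cons Ent.zero (Ls.cons Ent.zero (Ls.cons Ent.zero (Ls.cons Ent.zero Ls.nil)))))))))))))))))))))))))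
 (Ls.cons (Ls.cons Ent.zero (Ls.cons Ent.zero (Ls.cons Ent.zero (Ls.cons Ent.zero (Ls.cons Ent.zero (Ls.cons Ent.zero (Ls.cons Ent.zero (Ls.cons Ent.zero (Ls.cons Ent.zero (Ls.cons Ent.zero (Ls.cons Ent.zero (Ls.cons Ent.zero (Ls.cons Ent.zero (Ls.cons Ent.zero (Ls.cons Ent.zero (Ls.cons Ent.zero (Ls.cons Ent.zero (Ls.cons Ent.zero (Ls.cons Ent.zero (Ls.cons Ent.zero (Ls.cons Ent.zero (Ls.cons Ent.zero (Ls.cons Ent.zero (Ls.cons Ent.zero (Ls.cons Ent.zero Ls.nil)))))))))))))))))))))))))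
 (Ls.cons (Ls.cons Ent.zero (Ls.cons Ent.zero (Ls.cons Ent.zero (Ls.cons Ent.zero (Ls.cons Ent.zero (Ls.cons Ent.zero (Ls.cons Ent.zero (Ls.cons Ent.zero (Ls.cons Ent.zero (Ls.cons Ent.zero (Ls.cons Ent.zero (Ls.cons Ent.zero (Ls.cons Ent.zero (Ls.cons Ent.zero (Ls.cons Ent.zero (Ls.cons Ent.zero (Ls.cons Ent.zero (Ls.cons Ent.zero (Ls.cons Ent.zero (Ls.cons Ent.zero (Ls.cons Ent.zero (Ls.cons Ent.zero (Ls.cons Ent.zero (Ls.cons Ent.zero (Ls.cons Ent.zero Ls.nil)))))))))))))))))))))))))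
 (Ls.cons (Ls.cons Ent.zero (Ls.cons Ent.zero (Ls.cons Ent.zero (Ls.cons Ent.zero (Ls.cons Ent.zero (Ls.cons Ent.zero (Ls.cons Ent.zero (Ls.cons Ent.zero (Ls.cons Ent.zero (Ls.cons Ent.zero (Ls.cons Ent.zero (Ls.cons Ent.zero (Ls.cons Ent.zero (Ls.cons Ent.zero (Ls.cons Ent.zero (Ls.cons Ent.zero (Ls.cons Ent.zero (Ls.cons Ent.zero (Ls.cons Ent.zero (Ls.cons Ent.zero (Ls.cons Ent.zero (Ls.cons Ent.zero (Ls.cons Ent.zero (Ls.cons Ent.zero (Ls.cons Ent.zero Ls.nil)))))))))))))))))))))))))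
 (Ls.cons (Ls.cons Ent.zero (Ls.cons Ent.zero (Ls.cons Ent.zero (Ls.cons Ent.zero (Ls.cons Ent.zero (Ls.cons Ent.zero (Ls.cons Ent.zero (Ls.cons Ent.zero (Ls.cons Ent.zero (Ls.cons Ent.zero (Ls.cons Ent.zero (Ls.cons Ent.zero (Ls.cons Ent.zero (Ls.cons Ent.zero (Ls.cons Ent.zero (Ls.cons Ent.zero (Ls.cons Ent.zero (Ls.cons Ent.zero (Ls.cons Ent.zero (Ls.cons Ent.zero (Ls.cons Ent.zero (Ls.cons Ent.zero (Ls.cons Ent.zero (Ls.cons Ent.zero (Ls.cons Ent.zero Ls.nil)))))))))))))))))))))))))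
 (Ls.cons (Ls.cons Ent.zero (Ls.cons Ent.zero (Ls.cons Ent.zero (Ls.cons Ent.zero (Ls.cons Ent.zero (Ls.cons Ent.zero (Ls.cons Ent.zero (Ls.cons Ent.zero (Ls.cons Ent.zero (Ls.cons Ent.zero (Ls.cons Ent.zero (Ls.cons Ent.zero (Ls.cons Ent.zero (Ls.cons Ent.zero (Ls.cons Ent.zero (Ls.cons Ent.zero (Ls.cons Ent.zero (Ls.cons Ent.zero (Ls.cons Ent.zero (Ls.cons Ent.zero (Ls.cons Ent.zero (Ls.cons Ent.zero (Ls.cons Ent.zero (Ls.cons Ent.zero (Ls.cons Ent.zero Ls.nil)))))))))))))))))))))))))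
 (Ls.cons (Ls.cons Ent.zero (Ls.cons Ent.zero (Ls.cons Ent.zero (Ls.cons Ent.zero (Ls.cons Ent.zero (Ls.cons Ent.zero (Ls.cons Ent.zero (Ls.cons Ent.zero (Ls.cons Ent.zero (Ls.cons Ent.zero (Ls.cons Ent.zero (Ls.cons Ent.zero (Ls.cons Ent.zero (Ls.cons Ent.zero (Ls.cons Ent.zero (Ls.cons Ent.zero (Ls.cons Ent.zero (Ls.cons Ent.zero (Ls.cons Ent.zero (Ls.cons Ent.zero (Ls.cons Ent.zero (Ls.cons Ent.zero (Ls.cons Ent.zero (Ls.cons Ent.zero (Ls.cons Ent.zero Ls.nil)))))))))))))))))))))))))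
 (Ls.cons (Ls.cons Ent.zero (Ls.cons Ent.zero (Ls.cons Ent.zero (Ls.cons Ent.zero (Ls.cons Ent.zero (Ls.cons Ent.zero (Ls.cons Ent.zero (Ls.cons Ent.zero (Ls.cons Ent.zero (Ls.cons Ent.zero (Ls.cons Ent.zero (Ls.cons Ent.zero (Ls.cons Ent.zero (Ls.cons Ent.zero (Ls.cons Ent.zero (Ls.cons Ent.zero (Ls.cons Ent.zero (Ls.cons Ent.zero (Ls.cons Ent.zero (Ls.cons Ent.zero (Ls.cons Ent.zero (Ls.cons Ent.zero (Ls.cons Ent.zero (Ls.cons Ent.zero (Ls.cons Ent.zero Ls.nil)))))))))))))))))))))))))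
 (Ls.cons (Ls.cons Ent.zero (Ls.cons Ent.zero (Ls.cons Ent.zero (Ls.cons Ent.zero (Ls.cons Ent.zero (Ls.cons Ent.zero (Ls.cons Ent.zero (Ls.cons Ent.zero (Ls.cons Ent.zero (Ls.cons Ent.zero (Ls.cons Ent.zero (Ls.cons Ent.zero (Ls.cons Ent.zero (Ls.cons Ent.zero (Ls.cons Ent.zero (Ls.cons Ent.zero (Ls.cons Ent.zero (Ls.cons Ent.zero (Ls.cons Ent.zero (Ls.cons Ent.zero (Ls.cons Ent.zero (Ls.cons Ent.zero (Ls.cons Ent.zero (Ls.cons Ent.zero (Ls.cons Ent.zero Ls.nil)))))))))))))))))))))))))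
 Ls.nil))))))))))))))))))))

noncomputable def bxF1_8 : L2 :=
 (Ls.cons (Ls.cons Ent.zero (Ls.cons Ent.zero (Ls.cons Ent.zero (Ls.cons Ent.zero (Ls.cons Ent.zero (Ls.cons Ent.zero (Ls.cons Ent.zero (Ls.cons Ent.zero (Ls.cons Ent.zero (Ls.cons Ent.zero (Ls.cons Ent.zero (Ls.cons Ent.zero (Ls.cons Ent.zero (Ls.cons Ent.zero (Ls.cons Ent.zero (Ls.cons Ent.zero (Ls.cons Ent.zero (Ls.cons Ent.zero (Ls.cons Ent.zero (Ls.cons Ent.zero (Ls.cons Ent.zero (Ls.cons Ent.zero (Ls.cons Ent.zero (Ls.cons Ent.zero (Ls.cons Ent.zero Ls.nil)))))))))))))))))))))))))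
 (Ls.cons (Ls.cons Ent.zero (Ls.cons Ent.zero (Ls.cons Ent.zero (Ls.cons Ent.zero (Ls.cons Ent.zero (Ls.cons Ent.zero (Ls.cons Ent.zero (Ls.cons Ent.zero (Ls.cons Ent.zero (Ls.cons Ent.zero (Ls.cons Ent.zero (Ls.cons Ent.zero (Ls.cons Ent.zero (Ls.cons Ent.zero (Ls.cons Ent.zero (Ls.cons Ent.zero (Ls.cons Ent.zero (Ls.cons Ent.zero (Ls.cons Ent.zero (Ls.cons Ent.zero (Ls.cons Ent.zero (Ls.cons Ent.zero (Ls.cons Ent.zero (Ls.cons Ent.zero (Ls.cons Ent.zero Ls.nil)))))))))))))))))))))))))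
 (Ls.cons (Ls.cons Ent.zero (Ls.cons Ent.zero (Ls.cons Ent.zero (Ls.cons Ent.zero (Ls.cons Ent.zero (Ls.cons Ent.zero (Ls.cons Ent.zero (Ls.cons Ent.zero (Ls.cons Ent.zero (Ls.cons Ent.zero (Ls.cons Ent.zero (Ls.cons Ent.zero (Ls.cons Ent.zero (Ls.cons Ent.zero (Ls.cons Ent.zero (Ls.cons Ent.zero (Ls.cons Ent.zero (Ls.cons Ent.zero (Ls.cons Ent.zero (Ls.cons Ent.zero (Ls.cons Ent.zero (Ls.cons Ent.zero (Ls.cons Ent.zero (Ls.cons Ent.zero (Ls.cons Ent.zero Ls.nil)))))))))))))))))))))))))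
 (Ls.cons (Ls.cons Ent.zero (Ls.cons Ent.zero (Ls.cons Ent.zero (Ls.cons Ent.zero (Ls.cons Ent.zero (Ls.cons Ent.zero (Ls.cons Ent.zero (Ls.cons Ent.zero (Ls.cons Ent.zero (Ls.cons Ent.zero (Ls.cons Ent.zero (Ls.cons Ent.zero (Ls.cons Ent.zero (Ls.cons Ent.zero (Ls.cons Ent.zero (Ls.cons Ent.zero (Ls.cons Ent.zero (Ls.cons Ent.zero (Ls.cons Ent.zero (Ls.cons Ent.zero (Ls.cons Ent.zero (Ls.cons Ent.zero (Ls.cons Ent.zero (Ls.cons Ent.zero (Ls.cons Ent.zero Ls.nil)))))))))))))))))))))))))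
 (Ls.cons (Ls.cons Ent.zero (Ls.cons Ent.zero (Ls.cons Ent.zero (Ls.cons Ent.zero (Ls.cons Ent.zero (Ls.cons Ent.zero (Ls.cons Ent.zero (Ls.cons Ent.zero (Ls.cons Ent.zero (Ls.cons Ent.zero (Ls.cons Ent.zero (Ls.cons Ent.zero (Ls.cons Ent.zero (Ls.cons Ent.zero (Ls.cons Ent.zero (Ls.cons Ent.zero (Ls.cons Ent.zero (Ls.cons Ent.zero (Ls.cons Ent.zero (Ls.cons Ent.zero (Ls.cons Ent.zero (Ls.cons Ent.zero (Ls.cons Ent.zero (Ls.cons Ent.zero (Ls.cons Ent.zero Ls.nil)))))))))))))))))))))))))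
 (Ls.cons (Ls.cons Ent.zero (Ls.cons Ent.zero (Ls.cons Ent.zero (Ls.cons Ent.zero (Ls.cons Ent.zero (Ls.cons Ent.zero (Ls.cons Ent.zero (Ls.cons Ent.zero (Ls.cons Ent.zero (Ls.cons Ent.zero (Ls.cons Ent.zero (Ls.cons Ent.zero (Ls.cons Ent.zero (Ls.cons Ent.zero (Ls.cons Ent.zero (Ls.cons Ent.zero (Ls.cons Ent.zero (Ls.cons Ent.zero (Ls.cons Ent.zero (Ls.cons Ent.zero (Ls.cons Ent.zero (Ls.cons Ent.zero (Ls.cons Ent.zero (Ls.cons Ent.zero (Ls.cons Ent.zero Ls.nil)))))))))))))))))))))))))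
 (Ls.cons (Ls.cons Ent.zero (Ls.cons Ent.zero (Ls.cons Ent.zero (Ls.cons Ent.zero (Ls.cons Ent.zero (Ls.cons Ent.zero (Ls.cons Ent.zero (Ls.cons Ent.zero (Ls.cons Ent.zero (Ls.cons Ent.zero (Ls.cons Ent.zero (Ls.cons Ent.zero (Ls.cons Ent.zero (Ls.cons Ent.zero (Ls.cons Ent.zero (Ls.cons Ent.zero (Ls.cons Ent.zero (Ls.cons Ent.zero (Ls.cons Ent.zero (Ls.cons Ent.zero (Ls.cons Ent.zero (Ls.cons Ent.zero (Ls.cons Ent.zero (Ls.cons Ent.zero (Ls.cons Ent.zero Ls.nil)))))))))))))))))))))))))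
 (Ls.cons (Ls.cons Ent.zero (Ls.cons Ent.zero (Ls.cons Ent.zero (Ls.cons Ent.zero (Ls.cons Ent.zero (Ls.cons Ent.zero (Ls.cons Ent.zero (Ls.cons Ent.zero (Ls.cons Ent.zero (Ls.cons Ent.zero (Ls.cons Ent.zero (Ls.cons Ent.zero (Ls.cons Ent.zero (Ls.cons Ent.zero (Ls.cons Ent.zero (Ls.cons Ent.zero (Ls.cons Ent.zero (Ls.cons Ent.zero (Ls.cons Ent.zero (Ls.cons Ent.zero (Ls.cons Ent.zero (Ls.cons Ent.zero (Ls.cons Ent.zero (Ls.cons Ent.zero (Ls.cons Ent.zero Ls.nil)))))))))))))))))))))))))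
 (Ls.cons (Ls.cons Ent.zero (Ls.cons Ent.zero (Ls.cons Ent.zero (Ls.cons Ent.zero (Ls.cons Ent.zero (Ls.cons Ent.zero (Ls.cons Ent.zero (Ls.cons Ent.zero (Ls.cons Ent.zero (Ls.cons Ent.zero (Ls.cons Ent.zero (Ls.cons Ent.zero (Ls.cons Ent.zero (Ls.cons Ent.zero (Ls.cons Ent.zero (Ls.cons Ent.zero (Ls.cons Ent.zero (Ls.cons Ent.zero (Ls.cons Ent.zero (Ls.cons Ent.zero (Ls.cons Ent.zero (Ls.cons Ent.zero (Ls.cons Ent.zero (Ls.cons Ent.zero (Ls.cons Ent.zero Ls.nil)))))))))))))))))))))))))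
 (Ls.cons (Ls.cons Ent.zero (Ls.cons Ent.zero (Ls.cons Ent.zero (Ls.cons Ent.zero (Ls.cons Ent.zero (Ls.cons Ent.zero (Ls.cons Ent.zero (Ls.cons Ent.zero (Ls.cons Ent.zero (Ls.cons Ent.zero (Ls.cons Ent.zero (Ls.cons Ent.zero (Ls.cons Ent.zero (Ls.cons Ent.zero (Ls.cons Ent.zero (Ls.cons Ent.zero (Ls.cons Ent.zero (Ls.cons Ent.zero (Ls.cons Ent.zero (Ls.cons Ent.zero (Ls.cons Ent.zero (Ls.cons Ent.zero (Ls.cons Ent.zero (Ls.cons Ent.zero (Ls.cons Ent.zero Ls.nil)))))))))))))))))))))))))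
 (Ls.cons (Ls.cons Ent.zero (Ls.cons Ent.zero (Ls.cons Ent.zero (Ls.cons Ent.zero (Ls.cons Ent.zero (Ls.cons Ent.zero (Ls.cons Ent.zero (Ls.cons Ent.zero (Ls.cons Ent.zero (Ls.cons Ent.zero (Ls.cons Ent.zero (Ls.cons Ent.zero (Ls.cons Ent.zero (Ls.cons Ent.zero (Ls.cons Ent.zero (Ls.cons Ent.zero (Ls.cons Ent.zero (Ls.cons Ent.zero (Ls.cons Ent.zero (Ls.cons Ent.zero (Ls.cons Ent.zero (Ls.cons Ent.zero (Ls.cons Ent.zero (Ls.cons Ent.zero (Ls.cons Ent.zero Ls.nil)))))))))))))))))))))))))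
 (Ls.cons (Ls.cons Ent.zero (Ls.cons Ent.zero (Ls.cons Ent.zero (Ls.cons Ent.zero (Ls.cons Ent.zero (Ls.cons Ent.zero (Ls.cons Ent.zero (Ls.cons Ent.zero (Ls.cons Ent.zero (Ls.cons Ent.zero (Ls.cons Ent.zero (Ls.cons Ent.zero (Ls.cons Ent.zero (Ls.cons Ent.zero (Ls.cons Ent.zero (Ls.cons Ent.zero (Ls.cons Ent.zero (Ls.cons Ent.zero (Ls.cons Ent.zero (Ls.cons Ent.zero (Ls.cons Ent.zero (Ls.cons Ent.zero (Ls.cons Ent.zero (Ls.cons Ent.zero (Ls.cons Ent.zero Ls.nil)))))))))))))))))))))))))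
 (Ls.cons (Ls.cons Ent.zero (Ls.cons Ent.zero (Ls.cons Ent.zero (Ls.cons Ent.zero (Ls.cons Ent.zero (Ls.cons Ent.zero (Ls.cons Ent.zero (Ls.cons Ent.zero (Ls.cons Ent.zero (Ls.cons Ent.zero (Ls.cons Ent.zero (Ls.cons Ent.zero (Ls.cons Ent.zero (Ls.cons Ent.zero (Ls.cons Ent.zero (Ls.cons Ent.zero (Ls.cons Ent.zero (Ls.cons Ent.zero (Ls.cons Ent.zero (Ls.cons Ent.zero (Ls.cons Ent.zero (Ls.cons Ent.zero (Ls.cons Ent.zero (Ls.cons Ent.zero (Ls.cons Ent.zero Ls.nil)))))))))))))))))))))))))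
 (Ls.cons (Ls.cons Ent.zero (Ls.cons Ent.zero (Ls.cons Ent.zero (Ls.cons Ent.zero (Ls.cons Ent.zero (Ls.cons Ent.zero (Ls.cons Ent.zero (Ls.cons Ent.zero (Ls.cons Ent.zero (Ls.cons Ent.zero (Ls.cons Ent.zero (Ls.cons Ent.zero (Ls.cons Ent.zero (Ls.cons Ent.zero (Ls.cons Ent.zero (Ls.cons Ent.zero (Ls.cons Ent.zero (Ls.cons Ent.zero (Ls.cons Ent.zero (Ls.cons Ent.zero (Ls.cons Ent.zero (Ls.cons Ent.zero (Ls.cons Ent.zero (Ls.cons Ent.zero (Ls.cons Ent.zero Ls.nil)))))))))))))))))))))))))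
 (Ls.cons (Ls.cons Ent.zero (Ls.cons Ent.zero (Ls.cons Ent.zero (Ls.cons Ent.zero (Ls.cons Ent.zero (Ls.cons Ent.zero (Ls.cons Ent.zero (Ls.cons Ent.zero (Ls.cons Ent.zero (Ls.cons Ent.zero (Ls.cons Ent.zero (Ls.cons Ent.zero (Ls.cons Ent.zero (Ls.cons Ent.zero (Ls.cons Ent.zero (Ls.cons Ent.zero (Ls.cons Ent.zero (Ls.cons Ent.zero (Ls.cons Ent.zero (Ls.cons Ent.zero (Ls.cons Ent.zero (Ls.cons Ent.zero (Ls.cons Ent.zero (Ls.cons Ent.zero (Ls.cons Ent.zero Ls.nil)))))))))))))))))))))))))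
 (Ls.cons (Ls.cons Ent.zero (Ls.cons Ent.zero (Ls.cons Ent.zero (Ls.cons Ent.zero (Ls.cons Ent.zero (Ls.cons Ent.zero (Ls.cons Ent.zero (Ls.cons Ent.zero (Ls.cons Ent.zero (Ls.cons Ent.zero (Ls.cons Ent.zero (Ls.cons Ent.zero (Ls.cons Ent.zero (Ls.cons Ent.zero (Ls.cons Ent.zero (Ls.cons Ent.zero (Ls.cons Ent.zero (Ls.cons Ent.zero (Ls.cons Ent.zero (Ls.cons Ent.zero (Ls.cons Ent.zero (Ls.cons Ent.zero (Ls.cons Ent.zero (Ls.cons Ent.zero (Ls.cons Ent.zero Ls.nil)))))))))))))))))))))))))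
 (Ls.cons (Ls.cons Ent.zero (Ls.cons Ent.zero (Ls.cons Ent.zero (Ls.cons Ent.zero (Ls.cons Ent.zero (Ls.cons Ent.zero (Ls.cons Ent.zero (Ls.cons Ent.zero (Ls.cons Ent.zero (Ls.cons Ent.zero (Ls.cons Ent.zero (Ls.cons Ent.zero (Ls.cons Ent.zero (Ls.cons Ent.zero (Ls.cons Ent.zero (Ls.cons Ent.zero (Ls.cons Ent.zero (Ls.cons Ent.zero (Ls.cons Ent.zero (Ls.cons Ent.zero (Ls.cons Ent.zero (Ls.cons Ent.zero (Ls.cons Ent.zero (Ls.cons Ent.zero (Ls.cons Ent.zero Ls.nil)))))))))))))))))))))))))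
 (Ls.cons (Ls.cons Ent.zero (Ls.cons Ent.zero (Ls.cons Ent.zero (Ls.cons Ent.zero (Ls.cons Ent.zero (Ls.cons Ent.zero (Ls.cons Ent.zero (Ls.cons Ent.zero (Ls.cons Ent.zero (Ls.cons Ent.zero (Ls.cons Ent.zero (Ls.cons Ent.zero (Ls.cons Ent.zero (Ls.cons Ent.zero (Ls.cons Ent.zero (Ls.cons Ent.zero (Ls.cons Ent.zero (Ls.cons Ent.zero (Ls.cons Ent.zero (Ls.cons Ent.zero (Ls.cons Ent.zero (Ls.cons Ent.zero (Ls.cons Ent.zero (Ls.cons Ent.zero (Ls.cons Ent.zero Ls.nil)))))))))))))))))))))))))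
 (Ls.cons (Ls.cons Ent.zero (Ls.cons Ent.zero (Ls.cons Ent.zero (Ls.cons Ent.zero (Ls.cons Ent.zero (Ls.cons Ent.zero (Ls.cons Ent.zero (Ls.cons Ent.zero (Ls.cons Ent.zero (Ls.cons Ent.zero (Ls.cons Ent.zero (Ls.cons Ent.zero (Ls.cons Ent.zero (Ls.cons Ent.zero (Ls.cons Ent.zero (Ls.cons Ent.zero (Ls.cons Ent.zero (Ls.cons Ent.zero (Ls.cons Ent.zero (Ls.cons Ent.zero (Ls.cons Ent.zero (Ls.cons Ent.zero (Ls.cons Ent.zero (Ls.cons Ent.zero (Ls.cons Ent.zero Ls.nil)))))))))))))))))))))))))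
 (Ls.cons (Ls.cons Ent.zero (Ls.cons Ent.zero (Ls.cons Ent.zero (Ls.cons Ent.zero (Ls.cons Ent.zero (Ls.cons Ent.zero (Ls.cons Ent.zero (Ls.cons Ent.zero (Ls.cons Ent.zero (Ls.cons Ent.zero (Ls.cons Ent.zero (Ls.cons Ent.zero (Ls.cons Ent.zero (Ls.cons Ent.zero (Ls.cons Ent.zero (Ls.cons Ent.zero (Ls.cons Ent.zero (Ls.cons Ent.zero (Ls.cons Ent.zero (Ls.cons Ent.zero (Ls.cons Ent.zero (Ls.cons Ent.zero (Ls.cons Ent.zero (Ls.cons Ent.zero (Ls.cons Ent.zero Ls.nil)))))))))))))))))))))))))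
 Ls.nil))))))))))))))))))))

noncomputable def bxF1_9 : L2 :=
 (Ls.cons (Ls.cons Ent.zero (Ls.cons Ent.zero (Ls.cons Ent.zero (Ls.cons Ent.zero (Ls.cons Ent.zero (Ls.cons Ent.zero (Ls.cons Ent.zero (Ls.cons Ent.zero (Ls.cons Ent.zero (Ls.cons Ent.zero (Ls.cons Ent.zero (Ls.cons Ent.zero (Ls.cons Ent.zero (Ls.cons Ent.zero (Ls.cons Ent.zero (Ls.cons Ent.zero (Ls.cons Ent.zero (Ls.cons Ent.zero (Ls.cons Ent.zero (Ls.cons Ent.zero (Ls.cons Ent.zero (Ls.cons Ent.zero (Ls.cons Ent.zero (Ls.cons Ent.zero (Ls.cons Ent.zero Ls.nil)))))))))))))))))))))))))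
 (Ls.cons (Ls.cons Ent.zero (Ls.cons Ent.zero (Ls.cons Ent.zero (Ls.cons Ent.zero (Ls.cons Ent.zero (Ls.cons Ent.zero (Ls.cons Ent.zero (Ls.cons Ent.zero (Ls.cons Ent.zero (Ls.cons Ent.zero (Ls.cons Ent.zero (Ls.cons Ent.zero (Ls.cons Ent.zero (Ls.cons Ent.zero (Ls.cons Ent.zero (Ls.cons Ent.zero (Ls.cons Ent.zero (Ls.cons Ent.zero (Ls.cons Ent.zero (Ls.cons Ent.zero (Ls.cons Ent.zero (Ls.cons Ent.zero (Ls.cons Ent.zero (Ls.cons Ent.zero (Ls.cons Ent.zero Ls.nil)))))))))))))))))))))))))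
 (Ls.cons (Ls.cons Ent.zero (Ls.cons Ent.zero (Ls.cons Ent.zero (Ls.cons Ent.zero (Ls.cons Ent.zero (Ls.cons Ent.zero (Ls.cons Ent.zero (Ls.cons Ent.zero (Ls.cons Ent.zero (Ls.cons Ent.zero (Ls.cons Ent.zero (Ls.cons Ent.zero (Ls.cons Ent.zero (Ls.cons Ent.zero (Ls.cons Ent.zero (Ls.cons Ent.zero (Ls.cons Ent.zero (Ls.cons Ent.zero (Ls.cons Ent.zero (Ls.cons Ent.zero (Ls.cons Ent.zero (Ls.cons Ent.zero (Ls.cons Ent.zero (Ls.cons Ent.zero (Ls.cons Ent.zero Ls.nil)))))))))))))))))))))))))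
 (Ls.cons (Ls.cons Ent.zero (Ls.cons Ent.zero (Ls.cons Ent.zero (Ls.cons Ent.zero (Ls.cons Ent.zero (Ls.cons Ent.zero (Ls.cons Ent.zero (Ls.cons Ent.zero (Ls.cons Ent.zero (Ls.cons Ent.zero (Ls.cons Ent.zero (Ls.cons Ent.zero (Ls.cons Ent.zero (Ls.cons Ent.zero (Ls.cons Ent.zero (Ls.cons Ent.zero (Ls.cons Ent.zero (Ls.cons Ent.zero (Ls.cons Ent.zero (Ls.cons Ent.zero (Ls.cons Ent.zero (Ls.cons Ent.zero (Ls.cons Ent.zero (Ls.cons Ent.zero (Ls.cons Ent.zero Ls.nil)))))))))))))))))))))))))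
 (Ls.cons (Ls.cons Ent.zero (Ls.cons Ent.zero (Ls.cons Ent.zero (Ls.cons Ent.zero (Ls.cons Ent.zero (Ls.cons Ent.zero (Ls.cons Ent.zero (Ls.cons Ent.zero (Ls.cons Ent.zero (Ls.cons Ent.zero (Ls.cons Ent.zero (Ls.cons Ent.zero (Ls.cons Ent.zero (Ls.cons Ent.zero (Ls.cons Ent.zero (Ls.cons Ent.zero (Ls.cons Ent.zero (Ls.cons Ent.zero (Ls.cons Ent.zero (Ls.cons Ent.zero (Ls.cons Ent.zero (Ls.cons Ent.zero (Ls.cons Ent.zero (Ls.cons Ent.zero (Ls.cons Ent.zero Ls.nil)))))))))))))))))))))))))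
 (Ls.cons (Ls.cons Ent.zero (Ls.cons Ent.zero (Ls.cons Ent.zero (Ls.cons Ent.zero (Ls.cons Ent.zero (Ls.cons Ent.zero (Ls.cons Ent.zero (Ls.cons Ent.zero (Ls.cons Ent.zero (Ls.cons Ent.zero (Ls.cons Ent.zero (Ls.cons Ent.zero (Ls.cons Ent.zero (Ls.cons Ent.zero (Ls.cons Ent.zero (Ls.cons Ent.zero (Ls.cons Ent.zero (Ls.cons Ent.zero (Ls.cons Ent.zero (Ls.cons Ent.zero (Ls.cons Ent.zero (Ls.cons Ent.zero (Ls.cons Ent.zero (Ls.cons Ent.zero (Ls.cons Ent.zero Ls.nil)))))))))))))))))))))))))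
 (Ls.cons (Ls.cons Ent.zero (Ls.cons Ent.zero (Ls.cons Ent.zero (Ls.cons Ent.zero (Ls.cons Ent.zero (Ls.cons Ent.zero (Ls.cons Ent.zero (Ls.cons Ent.zero (Ls.cons Ent.zero (Ls.cons Ent.zero (Ls.cons Ent.zero (Ls.cons Ent.zero (Ls.cons Ent.zero (Ls.cons Ent.zero (Ls.cons Ent.zero (Ls.cons Ent.zero (Ls.cons Ent.zero (Ls.cons Ent.zero (Ls.cons Ent.zero (Ls.cons Ent.zero (Ls.cons Ent.zero (Ls.cons Ent.zero (Ls.cons Ent.zero (Ls.cons Ent.zero (Ls.cons Ent.zero Ls.nil)))))))))))))))))))))))))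
 (Ls.cons (Ls.cons Ent.zero (Ls.cons Ent.zero (Ls.cons Ent.zero (Ls.cons Ent.zero (Ls.cons Ent.zero (Ls.cons Ent.zero (Ls.cons Ent.zero (Ls.cons Ent.zero (Ls.cons Ent.zero (Ls.cons Ent.zero (Ls.cons Ent.zero (Ls.cons Ent.zero (Ls.cons Ent.zero (Ls.cons Ent.zero (Ls.cons Ent.zero (Ls.cons Ent.zero (Ls.cons Ent.zero (Ls.cons Ent.zero (Ls.cons Ent.zero (Ls.cons Ent.zero (Ls.cons Ent.zero (Ls.cons Ent.zero (Ls.cons Ent.zero (Ls.cons Ent.zero (Ls.cons Ent.zero Ls.nil)))))))))))))))))))))))))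
 (Ls.cons (Ls.cons Ent.zero (Ls.cons Ent.zero (Ls.cons Ent.zero (Ls.cons Ent.zero (Ls.cons Ent.zero (Ls.cons Ent.zero (Ls.cons Ent.zero (Ls.cons Ent.zero (Ls.cons Ent.zero (Ls.cons Ent.zero (Ls.cons Ent.zero (Ls.cons Ent.zero (Ls.cons Ent.zero (Ls.cons Ent.zero (Ls.cons Ent.zero (Ls.cons Ent.zero (Ls.cons Ent.zero (Ls.cons Ent.zero (Ls.cons Ent.zero (Ls.cons Ent.zero (Ls.cons Ent.zero (Ls.cons Ent.zero (Ls.cons Ent.zero (Ls.cons Ent.zero (Ls.cons Ent.zero Ls.nil)))))))))))))))))))))))))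
 (Ls.cons (Ls.cons Ent.zero (Ls.cons Ent.zero (Ls.cons Ent.zero (Ls.cons Ent.zero (Ls.cons Ent.zero (Ls.cons Ent.zero (Ls.cons Ent.zero (Ls.cons Ent.zero (Ls.cons Ent.zero (Ls.cons Ent.zero (Ls.cons Ent.zero (Ls.cons Ent.zero (Ls.cons Ent.zero (Ls.cons Ent.zero (Ls.cons Ent.zero (Ls.cons Ent.zero (Ls.cons Ent.zero (Ls.cons Ent.zero (Ls.cons Ent.zero (Ls.cons Ent.zero (Ls.cons Ent.zero (Ls.cons Ent.zero (Ls.cons Ent.zero (Ls.cons Ent.zero (Ls.cons Ent.zero Ls.nil)))))))))))))))))))))))))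
 (Ls.cons (Ls.cons Ent.zero (Ls.cons Ent.zero (Ls.cons Ent.zero (Ls.cons Ent.zero (Ls.cons Ent.zero (Ls.cons Ent.zero (Ls.cons Ent.zero (Ls.cons Ent.zero (Ls.cons Ent.zero (Ls.cons Ent.zero (Ls.cons Ent.zero (Ls.cons Ent.zero (Ls.cons Ent.zero (Ls.cons Ent.zero (Ls.cons Ent.zero (Ls.cons Ent.zero (Ls.cons Ent.zero (Ls.cons Ent.zero (Ls.cons Ent.zero (Ls.cons Ent.zero (Ls.cons Ent.zero (Ls.cons Ent.zero (Ls.cons Ent.zero (Ls.cons Ent.zero (Ls.cons Ent.zero Ls.nil)))))))))))))))))))))))))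
 (Ls.cons (Ls.cons Ent.zero (Ls.cons Ent.zero (Ls.cons Ent.zero (Ls.cons Ent.zero (Ls.cons Ent.zero (Ls.cons Ent.zero (Ls.cons Ent.zero (Ls.cons Ent.zero (Ls.cons Ent.zero (Ls.cons Ent.zero (Ls.cons Ent.zero (Ls.cons Ent.zero (Ls.cons Ent.zero (Ls.cons Ent.zero (Ls.cons Ent.zero (Ls.cons Ent.zero (Ls.cons Ent.zero (Ls.cons Ent.zero (Ls.cons Ent.zero (Ls.cons Ent.zero (Ls.cons Ent.zero (Ls.cons Ent.zero (Ls.cons Ent.zero (Ls.cons Ent.zero (Ls.cons Ent.zero Ls.nil)))))))))))))))))))))))))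
 (Ls.cons (Ls.cons Ent.zero (Ls.cons Ent.zero (Ls.cons Ent.zero (Ls.cons Ent.zero (Ls.cons Ent.zero (Ls.cons Ent.zero (Ls.cons Ent.zero (Ls.cons Ent.zero (Ls.cons Ent.zero (Ls.cons Ent.zero (Ls.cons Ent.zero (Ls.cons Ent.zero (Ls.cons Ent.zero (Ls.cons Ent.zero (Ls.cons Ent.zero (Ls.cons Ent.zero (Ls.cons Ent.zero (Ls.cons Ent.zero (Ls.cons Ent.zero (Ls.cons Ent.zero (Ls.cons Ent.zero (Ls.cons Ent.zero (Ls.cons Ent.zero (Ls.cons Ent.zero (Ls.cons Ent.zero Ls.nil)))))))))))))))))))))))))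
 (Ls.cons (Ls.cons Ent.zero (Ls.cons Ent.zero (Ls.cons Ent.zero (Ls.cons Ent.zero (Ls.cons Ent.zero (Ls.cons Ent.zero (Ls.cons Ent.zero (Ls.cons Ent.zero (Ls.cons Ent.zero (Ls.cons Ent.zero (Ls.cons Ent.zero (Ls.cons Ent.zero (Ls.cons Ent.zero (Ls.cons Ent.zero (Ls.cons Ent.zero (Ls.cons Ent.zero (Ls.cons Ent.zero (Ls.cons Ent.zero (Ls.cons Ent.zero (Ls.cons Ent.zero (Ls.cons Ent.zero (Ls.cons Ent.zero (Ls.cons Ent.zero (Ls.cons Ent.zero (Ls.cons Ent.zero Ls.nil)))))))))))))))))))))))))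
 (Ls.cons (Ls.cons Ent.zero (Ls.cons Ent.zero (Ls.cons Ent.zero (Ls.cons Ent.zero (Ls.cons Ent.zero (Ls.cons Ent.zero (Ls.cons Ent.zero (Ls.cons Ent.zero (Ls.cons Ent.zero (Ls.cons Ent.zero (Ls.cons Ent.zero (Ls.cons Ent.zero (Ls.cons Ent.zero (Ls.cons Ent.zero (Ls.cons Ent.zero (Ls.cons Ent.zero (Ls.cons Ent.zero (Ls.cons Ent.zero (Ls.cons Ent.zero (Ls.cons Ent.zero (Ls.cons Ent.zero (Ls.cons Ent.zero (Ls.cons Ent.zero (Ls.cons Ent.zero (Ls.cons Ent.zero Ls.nil)))))))))))))))))))))))))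
 (Ls.cons (Ls.cons Ent.zero (Ls.cons Ent.zero (Ls.cons Ent.zero (Ls.cons Ent.zero (Ls.cons Ent.zero (Ls.cons Ent.zero (Ls.cons Ent.zero (Ls.cons Ent.zero (Ls.cons Ent.zero (Ls.cons Ent.zero (Ls.cons Ent.zero (Ls.cons Ent.zero (Ls.cons Ent.zero (Ls.cons Ent.zero (Ls.cons Ent.zero (Ls.cons Ent.zero (Ls.cons Ent.zero (Ls.cons Ent.zero (Ls.cons Ent.zero (Ls.cons Ent.zero (Ls.cons Ent.zero (Ls.cons Ent.zero (Ls.cons Ent.zero (Ls.cons Ent.zero (Ls.cons Ent.zero Ls.nil)))))))))))))))))))))))))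
 (Ls.cons (Ls.cons Ent.zero (Ls.cons Ent.zero (Ls.cons Ent.zero (Ls.cons Ent.zero (Ls.cons Ent.zero (Ls.cons Ent.zero (Ls.cons Ent.zero (Ls.cons Ent.zero (Ls.cons Ent.zero (Ls.cons Ent.zero (Ls.cons Ent.zero (Ls.cons Ent.zero (Ls.cons Ent.zero (Ls.cons Ent.zero (Ls.cons Ent.zero (Ls.cons Ent.zero (Ls.cons Ent.zero (Ls.cons Ent.zero (Ls.cons Ent.zero (Ls.cons Ent.zero (Ls.cons Ent.zero (Ls.cons Ent.zero (Ls.cons Ent.zero (Ls.cons Ent.zero (Ls.cons Ent.zero Ls.nil)))))))))))))))))))))))))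
 (Ls.cons (Ls.cons Ent.zero (Ls.cons Ent.zero (Ls.cons Ent.zero (Ls.cons Ent.zero (Ls.cons Ent.zero (Ls.cons Ent.zero (Ls.cons Ent.zero (Ls.cons Ent.zero (Ls.cons Ent.zero (Ls.cons Ent.zero (Ls.cons Ent.zero (Ls.cons Ent.zero (Ls.cons Ent.zero (Ls.cons Ent.zero (Ls.cons Ent.zero (Ls.cons Ent.zero (Ls.cons Ent.zero (Ls.cons Ent.zero (Ls.cons Ent.zero (Ls.cons Ent.zero (Ls.cons Ent.zero (Ls.cons Ent.zero (Ls.cons Ent.zero (Ls.cons Ent.zero (Ls.cons Ent.zero Ls.nil)))))))))))))))))))))))))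
 (Ls.cons (Ls.cons Ent.zero (Ls.cons Ent.zero (Ls.cons Ent.zero (Ls.cons Ent.zero (Ls.cons Ent.zero (Ls.cons Ent.zero (Ls.cons Ent.zero (Ls.cons Ent.zero (Ls.cons Ent.zero (Ls.cons Ent.zero (Ls.cons Ent.zero (Ls.cons Ent.zero (Ls.cons Ent.zero (Ls.cons Ent.zero (Ls.cons Ent.zero (Ls.cons Ent.zero (Ls.cons Ent.zero (Ls.cons Ent.zero (Ls.cons Ent.zero (Ls.cons Ent.zero (Ls.cons Ent.zero (Ls.cons Ent.zero (Ls.cons Ent.zero (Ls.cons Ent.zero (Ls.cons Ent.zero Ls.nil)))))))))))))))))))))))))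
 (Ls.cons (Ls.cons Ent.zero (Ls.cons Ent.zero (Ls.cons Ent.zero (Ls.cons Ent.zero (Ls.cons Ent.zero (Ls.cons Ent.zero (Ls.cons Ent.zero (Ls.cons Ent.zero (Ls.cons Ent.zero (Ls.cons Ent.zero (Ls.cons Ent.zero (Ls.cons Ent.zero (Ls.cons Ent.zero (Ls.cons Ent.zero (Ls.cons Ent.zero (Ls.cons Ent.zero (Ls.cons Ent.zero (Ls.cons Ent.zero (Ls.cons Ent.zero (Ls.cons Ent.zero (Ls.cons Ent.zero (Ls.cons Ent.zero (Ls.cons Ent.zero (Ls.cons Ent.zero (Ls.cons Ent.zero Ls.nil)))))))))))))))))))))))))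
 Ls.nil))))))))))))))))))))

noncomputable def bxF1_10 : L2 :=
 (Ls.cons (Ls.cons Ent.zero (Ls.cons Ent.zero (Ls.cons Ent.zero (Ls.cons Ent.zero (Ls.cons Ent.zero (Ls.cons Ent.zero (Ls.cons Ent.zero (Ls.cons Ent.zero (Ls.cons Ent.zero (Ls.cons Ent.zero (Ls.cons Ent.zero (Ls.cons Ent.zero (Ls.cons Ent.zero (Ls.cons Ent.zero (Ls.cons Ent.zero (Ls.cons Ent.zero (Ls.cons Ent.zero (Ls.cons Ent.zero (Ls.cons Ent.zero (Ls.cons Ent.zero (Ls.cons Ent.zero (Ls.cons Ent.zero (Ls.cons Ent.zero (Ls.cons Ent.zero (Ls.cons Ent.zero Ls.nil)))))))))))))))))))))))))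
 (Ls.cons (Ls.cons Ent.zero (Ls.cons Ent.zero (Ls.cons Ent.zero (Ls.cons Ent.zero (Ls.cons Ent.zero (Ls.cons Ent.zero (Ls.cons Ent.zero (Ls.cons Ent.zero (Ls.cons Ent.zero (Ls.cons Ent.zero (Ls.cons Ent.zero (Ls.cons Ent.zero (Ls.cons Ent.zero (Ls.cons Ent.zero (Ls.cons Ent.zero (Ls.cons Ent.zero (Ls.cons Ent.zero (Ls.cons Ent.zero (Ls.cons Ent.zero (Ls.cons Ent.zero (Ls.cons Ent.zero (Ls.cons Ent.zero (Ls.cons Ent.zero (Ls.cons Ent.zero (Ls.cons Ent.zero Ls.nil)))))))))))))))))))))))))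
 (Ls.cons (Ls.cons Ent.zero (Ls.cons Ent.zero (Ls.cons Ent.zero (Ls.cons Ent.zero (Ls.cons Ent.zero (Ls.cons Ent.zero (Ls.cons Ent.zero (Ls.cons Ent.zero (Ls.cons Ent.zero (Ls.cons Ent.zero (Ls.cons Ent.zero (Ls.cons Ent.zero (Ls.cons Ent.zero (Ls.cons Ent.zero (Ls.cons Ent.zero (Ls.cons Ent.zero (Ls.cons Ent.zero (Ls.cons Ent.zero (Ls.cons Ent.zero (Ls.cons Ent.zero (Ls.cons Ent.zero (Ls.cons Ent.zero (Ls.cons Ent.zero (Ls.cons Ent.zero (Ls.cons Ent.zero Ls.nil)))))))))))))))))))))))))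
 (Ls.cons (Ls.cons Ent.zero (Ls.cons Ent.zero (Ls.cons Ent.zero (Ls.cons Ent.zero (Ls.cons Ent.zero (Ls.cons Ent.zero (Ls.cons Ent.zero (Ls.cons Ent.zero (Ls.cons Ent.zero (Ls.cons Ent.zero (Ls.cons Ent.zero (Ls.cons Ent.zero (Ls.cons Ent.zero (Ls.cons Ent.zero (Ls.cons Ent.zero (Ls.cons Ent.zero (Ls.cons Ent.zero (Ls.cons Ent.zero (Ls.cons Ent.zero (Ls.cons Ent.zero (Ls.cons Ent.zero (Ls.cons Ent.zero (Ls.cons Ent.zero (Ls.cons Ent.zero (Ls.cons Ent.zero Ls.nil)))))))))))))))))))))))))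
 (Ls.cons (Ls.cons Ent.zero (Ls.cons Ent.zero (Ls.cons Ent.zero (Ls.cons Ent.zero (Ls.cons Ent.zero (Ls.cons Ent.zero (Ls.cons Ent.zero (Ls.cons Ent.zero (Ls.cons Ent.zero (Ls.cons Ent.zero (Ls.cons Ent.zero (Ls.cons Ent.zero (Ls.cons Ent.zero (Ls.cons Ent.zero (Ls.cons Ent.zero (Ls.cons Ent.zero (Ls.cons Ent.zero (Ls.cons Ent.zero (Ls.cons Ent.zero (Ls.cons Ent.zero (Ls.cons Ent.zero (Ls.cons Ent.zero (Ls.cons Ent.zero (Ls.cons Ent.zero (Ls.cons Ent.zero Ls.nil)))))))))))))))))))))))))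
 (Ls.cons (Ls.cons Ent.zero (Ls.cons Ent.zero (Ls.cons Ent.zero (Ls.cons Ent.zero (Ls.cons Ent.zero (Ls.cons Ent.zero (Ls.cons Ent.zero (Ls.cons Ent.zero (Ls.cons Ent.zero (Ls.cons Ent.zero (Ls.cons Ent.zero (Ls.cons Ent.zero (Ls.cons Ent.zero (Ls.cons Ent.zero (Ls.cons Ent.zero (Ls.cons Ent.zero (Ls.cons Ent.zero (Ls.cons Ent.zero (Ls.cons Ent.zero (Ls.cons Ent.zero (Ls.cons Ent.zero (Ls.cons Ent.zero (Ls.cons Ent.zero (Ls.cons Ent.zero (Ls.cons Ent.zero Ls.nil)))))))))))))))))))))))))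
 (Ls.cons (Ls.cons Ent.zero (Ls.cons Ent.zero (Ls.cons Ent.zero (Ls.cons Ent.zero (Ls.cons Ent.zero (Ls.cons Ent.zero (Ls.cons Ent.zero (Ls.cons Ent.zero (Ls.cons Ent.zero (Ls.cons Ent.zero (Ls.cons Ent.zero (Ls.cons Ent.zero (Ls.cons Ent.zero (Ls.cons Ent.zero (Ls.cons Ent.zero (Ls.cons Ent.zero (Ls.cons Ent.zero (Ls.cons Ent.zero (Ls.cons Ent.zero (Ls.cons Ent.zero (Ls.cons Ent.zero (Ls.cons Ent.zero (Ls.cons Ent.zero (Ls.cons Ent.zero (Ls.cons Ent.zero Ls.nil)))))))))))))))))))))))))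
 (Ls.cons (Ls.cons Ent.zero (Ls.cons Ent.zero (Ls.cons Ent.zero (Ls.cons Ent.zero (Ls.cons Ent.zero (Ls.cons Ent.zero (Ls.cons Ent.zero (Ls.cons Ent.zero (Ls.cons Ent.zero (Ls.cons Ent.zero (Ls.cons Ent.zero (Ls.cons Ent.zero (Ls.cons Ent.zero (Ls.cons Ent.zero (Ls.cons Ent.zero (Ls.cons Ent.zero (Ls.cons Ent.zero (Ls.cons Ent.zero (Ls.cons Ent.zero (Ls.cons Ent.zero (Ls.cons Ent.zero (Ls.cons Ent.zero (Ls.cons Ent.zero (Ls.cons Ent.zero (Ls.cons Ent.zero Ls.nil)))))))))))))))))))))))))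
 (Ls.cons (Ls.cons Ent.zero (Ls.cons Ent.zero (Ls.cons Ent.zero (Ls.cons Ent.zero (Ls.cons Ent.zero (Ls.cons Ent.zero (Ls.cons Ent.zero (Ls.cons Ent.zero (Ls.cons Ent.zero (Ls.cons Ent.zero (Ls.cons Ent.zero (Ls.cons Ent.zero (Ls.cons Ent.zero (Ls.cons Ent.zero (Ls.cons Ent.zero (Ls.cons Ent.zero (Ls.cons Ent.zero (Ls.cons Ent.zero (Ls.cons Ent.zero (Ls.cons Ent.zero (Ls.cons Ent.zero (Ls.cons Ent.zero (Ls.cons Ent.zero (Ls.cons Ent.zero (Ls.cons Ent.zero Ls.nil)))))))))))))))))))))))))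
 (Ls.cons (Ls.cons Ent.zero (Ls.cons Ent.zero (Ls.cons Ent.zero (Ls.cons Ent.zero (Ls.cons Ent.zero (Ls.cons Ent.zero (Ls.cons Ent.zero (Ls.cons Ent.zero (Ls.cons Ent.zero (Ls.cons Ent.zero (Ls.cons Ent.zero (Ls.cons Ent.zero (Ls.cons Ent.zero (Ls.cons Ent.zero (Ls.cons Ent.zero (Ls.cons Ent.zero (Ls.cons Ent.zero (Ls.cons Ent.zero (Ls.cons Ent.zero (Ls.cons Ent.zero (Ls.cons Ent.zero (Ls.cons Ent.zero (Ls.cons Ent.zero (Ls.cons Ent.zero (Ls.cons Ent.zero Ls.nil)))))))))))))))))))))))))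
 (Ls.cons (Ls.cons Ent.zero (Ls.cons Ent.zero (Ls.cons Ent.zero (Ls.cons Ent.zero (Ls.cons Ent.zero (Ls.cons Ent.zero (Ls.cons Ent.zero (Ls.cons Ent.zero (Ls.cons Ent.zero (Ls.cons Ent.zero (Ls.cons Ent.zero (Ls.cons Ent.zero (Ls.cons Ent.zero (Ls.cons Ent.zero (Ls.cons Ent.zero (Ls.cons Ent.zero (Ls.cons Ent.zero (Ls.cons Ent.zero (Ls.cons Ent.zero (Ls.cons Ent.zero (Ls.cons Ent.zero (Ls.cons Ent.zero (Ls.cons Ent.zero (Ls.cons Ent.zero (Ls.cons Ent.zero Ls.nil)))))))))))))))))))))))))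
 (Ls.cons (Ls.cons Ent.zero (Ls.cons Ent.zero (Ls.cons Ent.zero (Ls.cons Ent.zero (Ls.cons Ent.zero (Ls.cons Ent.zero (Ls.cons Ent.zero (Ls.cons Ent.zero (Ls.cons Ent.zero (Ls.cons Ent.zero (Ls.cons Ent.zero (Ls.cons Ent.zero (Ls.cons Ent.zero (Ls.cons Ent.zero (Ls.cons Ent.zero (Ls.cons Ent.zero (Ls.cons Ent.zero (Ls.cons Ent.zero (Ls.cons Ent.zero (Ls.cons Ent.zero (Ls.cons Ent.zero (Ls.cons Ent.zero (Ls.cons Ent.zero (Ls.cons Ent.zero (Ls.cons Ent.zero Ls.nil)))))))))))))))))))))))))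
 (Ls.cons (Ls.cons Ent.zero (Ls.cons Ent.zero (Ls.cons Ent.zero (Ls.cons Ent.zero (Ls.cons Ent.zero (Ls.cons Ent.zero (Ls.cons Ent.zero (Ls.cons Ent.zero (Ls.cons Ent.zero (Ls.cons Ent.zero (Ls.cons Ent.zero (Ls.cons Ent.zero (Ls.cons Ent.zero (Ls.cons Ent.zero (Ls.cons Ent.zero (Ls.cons Ent.zero (Ls.cons Ent.zero (Ls.cons Ent.zero (Ls.cons Ent.zero (Ls.cons Ent.zero (Ls.cons Ent.zero (Ls.cons Ent.zero (Ls.cons Ent.zero (Ls.cons Ent.zero (Ls.cons Ent.zero Ls.nil)))))))))))))))))))))))))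
 (Ls.cons (Ls.cons Ent.zero (Ls.cons Ent.zero (Ls.cons Ent.zero (Ls.cons Ent.zero (Ls.cons Ent.zero (Ls.cons Ent.zero (Ls.cons Ent.zero (Ls.cons Ent.zero (Ls.cons Ent.zero (Ls.cons Ent.zero (Ls.cons Ent.zero (Ls.cons Ent.zero (Ls.cons Ent.zero (Ls.cons Ent.zero (Ls.cons Ent.zero (Ls.cons Ent.zero (Ls.cons Ent.zero (Ls.cons Ent.zero (Ls.cons Ent.zero (Ls.cons Ent.zero (Ls.cons Ent.zero (Ls.cons Ent.zero (Ls.cons Ent.zero (Ls.cons Ent.zero (Ls.cons Ent.zero Ls.nil)))))))))))))))))))))))))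
 (Ls.cons (Ls.cons Ent.zero (Ls.cons Ent.zero (Ls.cons Ent.zero (Ls.cons Ent.zero (Ls.cons Ent.zero (Ls.cons Ent.zero (Ls.cons Ent.zero (Ls.cons Ent.zero (Ls.cons Ent.zero (Ls.cons Ent.zero (Ls.cons Ent.zero (Ls.cons Ent.zero (Ls.cons Ent.zero (Ls.cons Ent.zero (Ls.cons Ent.zero (Ls.cons Ent.zero (Ls.cons Ent.zero (Ls.cons Ent.zero (Ls.cons Ent.zero (Ls.cons Ent.zero (Ls.cons Ent.zero (Ls.cons Ent.zero (Ls.cons Ent.zero (Ls.cons Ent.zero (Ls.cons Ent.zero Ls.nil)))))))))))))))))))))))))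
 (Ls.cons (Ls.cons Ent.zero (Ls.cons Ent.zero (Ls.cons Ent.zero (Ls.cons Ent.zero (Ls.cons Ent.zero (Ls.cons Ent.zero (Ls.cons Ent.zero (Ls.cons Ent.zero (Ls.cons Ent.zero (Ls.cons Ent.zero (Ls.cons Ent.zero (Ls.cons Ent.zero (Ls.cons Ent.zero (Ls.cons Ent.zero (Ls.cons Ent.zero (Ls.cons Ent.zero (Ls.cons Ent.zero (Ls.cons Ent.zero (Ls.cons Ent.zero (Ls.cons Ent.zero (Ls.cons Ent.zero (Ls.cons Ent.zero (Ls.cons Ent.zero (Ls.cons Ent.zero (Ls.cons Ent.zero Ls.nil)))))))))))))))))))))))))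
 (Ls.cons (Ls.cons Ent.zero (Ls.cons Ent.zero (Ls.cons Ent.zero (Ls.cons Ent.zero (Ls.cons Ent.zero (Ls.cons Ent.zero (Ls.cons Ent.zero (Ls.cons Ent.zero (Ls.cons Ent.zero (Ls.cons Ent.zero (Ls.cons Ent.zero (Ls.cons Ent.zero (Ls.cons Ent.zero (Ls.cons Ent.zero (Ls.cons Ent.zero (Ls.cons Ent.zero (Ls.cons Ent.zero (Ls.cons Ent.zero (Ls.cons Ent.zero (Ls.cons Ent.zero (Ls.cons Ent.zero (Ls.cons Ent.zero (Ls.cons Ent.zero (Ls.cons Ent.zero (Ls.cons Ent.zero Ls.nil)))))))))))))))))))))))))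
 (Ls.cons (Ls.cons Ent.zero (Ls.cons Ent.zero (Ls.cons Ent.zero (Ls.cons Ent.zero (Ls.cons Ent.zero (Ls.cons Ent.zero (Ls.cons Ent.zero (Ls.cons Ent.zero (Ls.cons Ent.zero (Ls.cons Ent.zero (Ls.cons Ent.zero (Ls.cons Ent.zero (Ls.cons Ent.zero (Ls.cons Ent.zero (Ls.cons Ent.zero (Ls.cons Ent.zero (Ls.cons Ent.zero (Ls.cons Ent.zero (Ls.cons Ent.zero (Ls.cons Ent.zero (Ls.cons Ent.zero (Ls.cons Ent.zero (Ls.cons Ent.zero (Ls.cons Ent.zero (Ls.cons Ent.zero Ls.nil)))))))))))))))))))))))))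
 (Ls.cons (Ls.cons Ent.zero (Ls.cons Ent.zero (Ls.cons Ent.zero (Ls.cons Ent.zero (Ls.cons Ent.zero (Ls.cons Ent.zero (Ls.cons Ent.zero (Ls.cons Ent.zero (Ls.cons Ent.zero (Ls.cons Ent.zero (Ls.cons Ent.zero (Ls.cons Ent.zero (Ls.cons Ent.zero (Ls.cons Ent.zero (Ls.cons Ent.zero (Ls.cons Ent.zero (Ls.cons Ent.zero (Ls.cons Ent.zero (Ls.cons Ent.zero (Ls.cons Ent.zero (Ls.cons Ent.zero (Ls.cons Ent.zero (Ls.cons Ent.zero (Ls.cons Ent.zero (Ls.cons Ent.zero Ls.nil)))))))))))))))))))))))))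
 (Ls.cons (Ls.cons Ent.zero (Ls.cons Ent.zero (Ls.cons Ent.zero (Ls.cons Ent.zero (Ls.cons Ent.zero (Ls.cons Ent.zero (Ls.cons Ent.zero (Ls.cons Ent.zero (Ls.cons Ent.zero (Ls.cons Ent.zero (Ls.cons Ent.zero (Ls.cons Ent.zero (Ls.cons Ent.zero (Ls.cons Ent.zero (Ls.cons Ent.zero (Ls.cons Ent.zero (Ls.cons Ent.zero (Ls.cons Ent.zero (Ls.cons Ent.zero (Ls.cons Ent.zero (Ls.cons Ent.zero (Ls.cons Ent.zero (Ls.cons Ent.zero (Ls.cons Ent.zero (Ls.cons Ent.zero Ls.nil)))))))))))))))))))))))))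
 Ls.nil))))))))))))))))))))

noncomputable def bxF1_11 : L2 :=
 (Ls.cons (Ls.cons Ent.zero (Ls.cons Ent.zero (Ls.cons Ent.zero (Ls.cons Ent.zero (Ls.cons Ent.zero (Ls.cons Ent.zero (Ls.cons Ent.zero (Ls.cons Ent.zero (Ls.cons Ent.zero (Ls.cons Ent.zero (Ls.cons Ent.zero (Ls.cons Ent.zero (Ls.cons Ent.zero (Ls.cons Ent.zero (Ls.cons Ent.zero (Ls.cons Ent.zero (Ls.cons Ent.zero (Ls.cons Ent.zero (Ls.cons Ent.zero (Ls.cons Ent.zero (Ls.cons Ent.zero (Ls.cons Ent.zero (Ls.cons Ent.zero (Ls.cons Ent.zero (Ls.cons Ent.zero Ls.nil)))))))))))))))))))))))))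
 (Ls.cons (Ls.cons Ent.zero (Ls.cons Ent.zero (Ls.cons Ent.zero (Ls.cons Ent.zero (Ls.cons Ent.zero (Ls.cons Ent.zero (Ls.cons Ent.zero (Ls.cons Ent.zero (Ls.cons Ent.zero (Ls.cons Ent.zero (Ls.cons Ent.zero (Ls.cons Ent.zero (Ls.cons Ent.zero (Ls.cons Ent.zero (Ls.cons Ent.zero (Ls.cons Ent.zero (Ls.cons Ent.zero (Ls.cons Ent.zero (Ls.cons Ent.zero (Ls.cons Ent.zero (Ls.cons Ent.zero (Ls.cons Ent.zero (Ls.cons Ent.zero (Ls.cons Ent.zero (Ls.cons Ent.zero Ls.nil)))))))))))))))))))))))))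
 (Ls.cons (Ls.cons Ent.zero (Ls.cons Ent.zero (Ls.cons Ent.zero (Ls.cons Ent.zero (Ls.cons Ent.zero (Ls.cons Ent.zero (Ls.cons Ent.zero (Ls.cons Ent.zero (Ls.cons Ent.zero (Ls.cons Ent.zero (Ls.cons Ent.zero (Ls.cons Ent.zero (Ls.cons Ent.zero (Ls.cons Ent.zero (Ls.cons Ent.zero (Ls.cons Ent.zero (Ls.cons Ent.zero (Ls.cons Ent.zero (Ls.cons Ent.zero (Ls.cons Ent.zero (Ls.cons Ent.zero (Ls.cons Ent.zero (Ls.cons Ent.zero (Ls.cons Ent.zero (Ls.cons Ent.zero Ls.nil)))))))))))))))))))))))))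
 (Ls.cons (Ls.cons Ent.zero (Ls.cons Ent.zero (Ls.cons Ent.zero (Ls.cons Ent.zero (Ls.cons Ent.zero (Ls.cons Ent.zero (Ls.cons Ent.zero (Ls.cons Ent.zero (Ls.cons Ent.zero (Ls.cons Ent.zero (Ls.cons Ent.zero (Ls.cons Ent.zero (Ls.cons Ent.zero (Ls.cons Ent.zero (Ls.cons Ent.zero (Ls.cons Ent.zero (Ls.cons Ent.zero (Ls.cons Ent.zero (Ls.cons Ent.zero (Ls.cons Ent.zero (Ls.cons Ent.zero (Ls.cons Ent.zero (Ls.cons Ent.zero (Ls.cons Ent.zero (Ls.cons Ent.zero Ls.nil)))))))))))))))))))))))))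
 (Ls.cons (Ls.cons Ent.zero (Ls.cons Ent.zero (Ls.cons Ent.zero (Ls.cons Ent.zero (Ls.cons Ent.zero (Ls.cons Ent.zero (Ls.cons Ent.zero (Ls.cons Ent.zero (Ls.cons Ent.zero (Ls.cons Ent.zero (Ls.cons Ent.zero (Ls.cons Ent.zero (Ls.cons Ent.zero (Ls.cons Ent.zero (Ls.cons Ent.zero (Ls.cons Ent.zero (Ls.cons Ent.zero (Ls.cons Ent.zero (Ls.cons Ent.zero (Ls.cons Ent.zero (Ls.cons Ent.zero (Ls.cons Ent.zero (Ls.cons Ent.zero (Ls.cons Ent.zero (Ls.cons Ent.zero Ls.nil)))))))))))))))))))))))))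
 (Ls.cons (Ls.cons Ent.zero (Ls.cons Ent.zero (Ls.cons Ent.zero (Ls.cons Ent.zero (Ls.cons Ent.zero (Ls.cons Ent.zero (Ls.cons Ent.zero (Ls.cons Ent.zero (Ls.cons Ent.zero (Ls.cons Ent.zero (Ls.cons Ent.zero (Ls.cons Ent.zero (Ls.cons Ent.zero (Ls.cons Ent.zero (Ls.cons Ent.zero (Ls.cons Ent.zero (Ls.cons Ent.zero (Ls.cons Ent.zero (Ls.cons Ent.zero (Ls.cons Ent.zero (Ls.cons Ent.zero (Ls.cons Ent.zero (Ls.cons Ent.zero (Ls.cons Ent.zero (Ls.cons Ent.zero Ls.nil)))))))))))))))))))))))))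
 (Ls.cons (Ls.cons Ent.zero (Ls.cons Ent.zero (Ls.cons Ent.zero (Ls.cons Ent.zero (Ls.cons Ent.zero (Ls.cons Ent.zero (Ls.cons Ent.zero (Ls.cons Ent.zero (Ls.cons Ent.zero (Ls.cons Ent.zero (Ls.cons Ent.zero (Ls.cons Ent.zero (Ls.cons Ent.zero (Ls.cons Ent.zero (Ls.cons Ent.zero (Ls.cons Ent.zero (Ls.cons Ent.zero (Ls.cons Ent.zero (Ls.cons Ent.zero (Ls.cons Ent.zero (Ls.cons Ent.zero (Ls.cons Ent.zero (Ls.cons Ent.zero (Ls.cons Ent.zero (Ls.cons Ent.zero Ls.nil)))))))))))))))))))))))))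
 (Ls.cons (Ls.cons Ent.zero (Ls.cons Ent.zero (Ls.cons Ent.zero (Ls.cons Ent.zero (Ls.cons Ent.zero (Ls.cons Ent.zero (Ls.cons Ent.zero (Ls.cons Ent.zero (Ls.cons Ent.zero (Ls.cons Ent.zero (Ls.cons Ent.zero (Ls.cons Ent.zero (Ls.cons Ent.zero (Ls.cons Ent.zero (Ls.cons Ent.zero (Ls.cons Ent.zero (Ls.cons Ent.zero (Ls.cons Ent.zero (Ls.cons Ent.zero (Ls.cons Ent.zero (Ls.cons Ent.zero (Ls.cons Ent.zero (Ls.cons Ent.zero (Ls.cons Ent.zero (Ls.cons Ent.zero Ls.nil)))))))))))))))))))))))))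
 (Ls.cons (Ls.cons Ent.zero (Ls.cons Ent.zero (Ls.cons Ent.zero (Ls.cons Ent.zero (Ls.cons Ent.zero (Ls.cons Ent.zero (Ls.cons Ent.zero (Ls.cons Ent.zero (Ls.cons Ent.zero (Ls.cons Ent.zero (Ls.cons Ent.zero (Ls.cons Ent.zero (Ls.cons Ent.zero (Ls.cons Ent.zero (Ls.cons Ent.zero (Ls.cons Ent.zero (Ls.cons Ent.zero (Ls.cons Ent.zero (Ls.cons Ent.zero (Ls.cons Ent.zero (Ls.cons Ent.zero (Ls.cons Ent.zero (Ls.cons Ent.zero (Ls.cons Ent.zero (Ls.cons Ent.zero Ls.nil)))))))))))))))))))))))))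
 (Ls.cons (Ls.cons Ent.zero (Ls.cons Ent.zero (Ls.cons Ent.zero (Ls.cons Ent.zero (Ls.cons Ent.zero (Ls.cons Ent.zero (Ls.cons Ent.zero (Ls.cons Ent.zero (Ls.cons Ent.zero (Ls.cons Ent.zero (Ls.cons Ent.zero (Ls.cons Ent.zero (Ls.cons Ent.zero (Ls.cons Ent.zero (Ls.cons Ent.zero (Ls.cons Ent.zero (Ls.cons Ent.zero (Ls.cons Ent.zero (Ls.cons Ent.zero (Ls.cons Ent.zero (Ls.cons Ent.zero (Ls.cons Ent.zero (Ls.cons Ent.zero (Ls.cons Ent.zero (Ls.cons Ent.zero Ls.nil)))))))))))))))))))))))))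
 (Ls.cons (Ls.cons Ent.zero (Ls.cons Ent.zero (Ls.cons Ent.zero (Ls.cons Ent.zero (Ls.cons Ent.zero (Ls.cons Ent.zero (Ls.cons Ent.zero (Ls.cons Ent.zero (Ls.cons Ent.zero (Ls.cons Ent.zero (Ls.cons Ent.zero (Ls.cons Ent.zero (Ls.cons Ent.zero (Ls.cons Ent.zero (Ls.cons Ent.zero (Ls.cons Ent.zero (Ls.cons Ent.zero (Ls.cons Ent.zero (Ls.cons Ent.zero (Ls.cons Ent.zero (Ls.cons Ent.zero (Ls.cons Ent.zero (Ls.cons Ent.zero (Ls.cons Ent.zero (Ls.cons Ent.zero Ls.nil)))))))))))))))))))))))))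
 (Ls.cons (Ls.cons Ent.zero (Ls.cons Ent.zero (Ls.cons Ent.zero (Ls.cons Ent.zero (Ls.cons Ent.zero (Ls.cons Ent.zero (Ls.cons Ent.zero (Ls.cons Ent.zero (Ls.cons Ent.zero (Ls.cons Ent.zero (Ls.cons Ent.zero (Ls.cons Ent.zero (Ls.cons Ent.zero (Ls.cons Ent.zero (Ls.cons Ent.zero (Ls.cons Ent.zero (Ls.cons Ent.zero (Ls.cons Ent.zero (Ls.cons Ent.zero (Ls.cons Ent.zero (Ls.cons Ent.zero (Ls.cons Ent.zero (Ls.cons Ent.zero (Ls.cons Ent.zero (Ls.cons Ent.zero Ls.nil)))))))))))))))))))))))))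
 (Ls.cons (Ls.cons Ent.zero (Ls.cons Ent.zero (Ls.cons Ent.zero (Ls.cons Ent.zero (Ls.cons Ent.zero (Ls.cons Ent.zero (Ls.cons Ent.zero (Ls.cons Ent.zero (Ls.cons Ent.zero (Ls.cons Ent.zero (Ls.cons Ent.zero (Ls.cons Ent.zero (Ls.cons Ent.zero (Ls.cons Ent.zero (Ls.cons Ent.zero (Ls.cons Ent.zero (Ls.cons Ent.zero (Ls.cons Ent.zero (Ls.cons Ent.zero (Ls.cons Ent.zero (Ls.cons Ent.zero (Ls.cons Ent.zero (Ls.cons Ent.zero (Ls.cons Ent.zero (Ls.cons Ent.zero Ls.nil)))))))))))))))))))))))))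
 (Ls.cons (Ls.cons Ent.zero (Ls.cons Ent.zero (Ls.cons Ent.zero (Ls.cons Ent.zero (Ls.cons Ent.zero (Ls.cons Ent.zero (Ls.cons Ent.zero (Ls.cons Ent.zero (Ls.cons Ent.zero (Ls.cons Ent.zero (Ls.cons Ent.zero (Ls.cons Ent.zero (Ls.cons Ent.zero (Ls.cons Ent.zero (Ls.cons Ent.zero (Ls.cons Ent.zero (Ls.cons Ent.zero (Ls.cons Ent.zero (Ls.cons Ent.zero (Ls.cons Ent.zero (Ls.cons Ent.zero (Ls.cons Ent.zero (Ls.cons Ent.zero (Ls.cons Ent.zero (Ls.cons Ent.zero Ls.nil)))))))))))))))))))))))))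
 (Ls.cons (Ls.cons Ent.zero (Ls.cons Ent.zero (Ls.cons Ent.zero (Ls.cons Ent.zero (Ls.cons Ent.zero (Ls.cons Ent.zero (Ls.cons Ent.zero (Ls.cons Ent.zero (Ls.cons Ent.zero (Ls.cons Ent.zero (Ls.cons Ent.zero (Ls.cons Ent.zero (Ls.cons Ent.zero (Ls.cons Ent.zero (Ls.cons Ent.zero (Ls.cons Ent.zero (Ls.cons Ent.zero (Ls.cons Ent.zero (Ls.cons Ent.zero (Ls.cons Ent.zero (Ls.cons Ent.zero (Ls.cons Ent.zero (Ls.cons Ent.zero (Ls.cons Ent.zero (Ls.cons Ent.zero Ls.nil)))))))))))))))))))))))))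
 (Ls.cons (Ls.cons Ent.zero (Ls.cons Ent.zero (Ls.cons Ent.zero (Ls.cons Ent.zero (Ls.cons Ent.zero (Ls.cons Ent.zero (Ls.cons Ent.zero (Ls.cons Ent.zero (Ls.cons Ent.zero (Ls.cons Ent.zero (Ls.cons Ent.zero (Ls.cons Ent.zero (Ls.cons Ent.zero (Ls.cons Ent.zero (Ls.cons Ent.zero (Ls.cons Ent.zero (Ls.cons Ent.zero (Ls.cons Ent.zero (Ls.cons Ent.zero (Ls.cons Ent.zero (Ls.cons Ent.zero (Ls.cons (Ent.neg F1_11_4_3) (Ls.cons (Ent.pos F1_11_4_2) (Ls.cons (Ent.neg F1_11_4_1) (Ls.cons (Ent.pos F1_11_4_0) Ls.nil)))))))))))))))))))))))))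
 (Ls.cons (Ls.cons Ent.zero (Ls.cons Ent.zero (Ls.cons Ent.zero (Ls.cons Ent.zero (Ls.cons Ent.zero (Ls.cons Ent.zero (Ls.cons Ent.zero (Ls.cons Ent.zero (Ls.cons Ent.zero (Ls.cons Ent.zero (Ls.cons Ent.zero (Ls.cons Ent.zero (Ls.cons Ent.zero (Ls.cons Ent.zero (Ls.cons Ent.zero (Ls.cons Ent.zero (Ls.cons Ent.zero (Ls.cons Ent.zero (Ls.cons Ent.zero (Ls.cons Ent.zero (Ls.cons (Ent.pos F1_11_4_3) (Ls.cons Ent.zero (Ls.cons (Ent.neg F1_11_3_2) (Ls.cons (Ent.pos F1_11_3_1) (Ls.cons (Ent.neg F1_11_3_0) Ls.nil)))))))))))))))))))))))))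
 (Ls.cons (Ls.cons Ent.zero (Ls.cons Ent.zero (Ls.cons Ent.zero (Ls.cons Ent.zero (Ls.cons Ent.zero (Ls.cons Ent.zero (Ls.cons Ent.zero (Ls.cons Ent.zero (Ls.cons Ent.zero (Ls.cons Ent.zero (Ls.cons Ent.zero (Ls.cons Ent.zero (Ls.cons Ent.zero (Ls.cons Ent.zero (Ls.cons Ent.zero (Ls.cons Ent.zero (Ls.cons Ent.zero (Ls.cons Ent.zero (Ls.cons Ent.zero (Ls.cons Ent.zero (Ls.cons (Ent.neg F1_11_4_2) (Ls.cons (Ent.pos F1_11_3_2) (Ls.cons Ent.zero (Ls.cons (Ent.neg F1_11_2_1) (Ls.cons (Ent.pos F1_11_2_0) Ls.nil)))))))))))))))))))))))))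
 (Ls.cons (Ls.cons Ent.zero (Ls.cons Ent.zero (Ls.cons Ent.zero (Ls.cons Ent.zero (Ls.cons Ent.zero (Ls.cons Ent.zero (Ls.cons Ent.zero (Ls.cons Ent.zero (Ls.cons Ent.zero (Ls.cons Ent.zero (Ls.cons Ent.zero (Ls.cons Ent.zero (Ls.cons Ent.zero (Ls.cons Ent.zero (Ls.cons Ent.zero (Ls.cons Ent.zero (Ls.cons Ent.zero (Ls.cons Ent.zero (Ls.cons Ent.zero (Ls.cons Ent.zero (Ls.cons (Ent.pos F1_11_4_1) (Ls.cons (Ent.neg F1_11_3_1) (Ls.cons (Ent.pos F1_11_2_1) (Ls.cons Ent.zero (Ls.cons (Ent.neg F1_11_1_0) Ls.nil)))))))))))))))))))))))))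
 (Ls.cons (Ls.cons Ent.zero (Ls.cons Ent.zero (Ls.cons Ent.zero (Ls.cons Ent.zero (Ls.cons Ent.zero (Ls.cons Ent.zero (Ls.cons Ent.zero (Ls.cons Ent.zero (Ls.cons Ent.zero (Ls.cons Ent.zero (Ls.cons Ent.zero (Ls.cons Ent.zero (Ls.cons Ent.zero (Ls.cons Ent.zero (Ls.cons Ent.zero (Ls.cons Ent.zero (Ls.cons Ent.zero (Ls.cons Ent.zero (Ls.cons Ent.zero (Ls.cons Ent.zero (Ls.cons (Ent.neg F1_11_4_0) (Ls.cons (Ent.pos F1_11_3_0) (Ls.cons (Ent.neg F1_11_2_0) (Ls.cons (Ent.pos F1_11_1_0) (Ls.cons Ent.zero Ls.nil)))))))))))))))))))))))))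
 Ls.nil))))))))))))))))))))

noncomputable def bxF1_12 : L2 :=
 (Ls.cons (Ls.cons Ent.zero (Ls.cons Ent.zero (Ls.cons Ent.zero (Ls.cons Ent.zero (Ls.cons Ent.zero (Ls.cons Ent.zero (Ls.cons Ent.zero (Ls.cons Ent.zero (Ls.cons Ent.zero (Ls.cons Ent.zero (Ls.cons Ent.zero (Ls.cons Ent.zero (Ls.cons Ent.zero (Ls.cons Ent.zero (Ls.cons Ent.zero (Ls.cons Ent.zero (Ls.cons Ent.zero (Ls.cons Ent.zero (Ls.cons Ent.zero (Ls.cons Ent.zero (Ls.cons Ent.zero (Ls.cons Ent.zero (Ls.cons Ent.zero (Ls.cons Ent.zero (Ls.cons Ent.zero Ls.nil)))))))))))))))))))))))))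
 (Ls.cons (Ls.cons Ent.zero (Ls.cons Ent.zero (Ls.cons Ent.zero (Ls.cons Ent.zero (Ls.cons Ent.zero (Ls.cons Ent.zero (Ls.cons Ent.zero (Ls.cons Ent.zero (Ls.cons Ent.zero (Ls.cons Ent.zero (Ls.cons Ent.zero (Ls.cons Ent.zero (Ls.cons Ent.zero (Ls.cons Ent.zero (Ls.cons Ent.zero (Ls.cons Ent.zero (Ls.cons Ent.zero (Ls.cons Ent.zero (Ls.cons Ent.zero (Ls.cons Ent.zero (Ls.cons Ent.zero (Ls.cons Ent.zero (Ls.cons Ent.zero (Ls.cons Ent.zero (Ls.cons Ent.zero Ls.nil)))))))))))))))))))))))))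
 (Ls.cons (Ls.cons Ent.zero (Ls.cons Ent.zero (Ls.cons Ent.zero (Ls.cons Ent.zero (Ls.cons Ent.zero (Ls.cons Ent.zero (Ls.cons Ent.zero (Ls.cons Ent.zero (Ls.cons Ent.zero (Ls.cons Ent.zero (Ls.cons Ent.zero (Ls.cons Ent.zero (Ls.cons Ent.zero (Ls.cons Ent.zero (Ls.cons Ent.zero (Ls.cons Ent.zero (Ls.cons Ent.zero (Ls.cons Ent.zero (Ls.cons Ent.zero (Ls.cons Ent.zero (Ls.cons Ent.zero (Ls.cons Ent.zero (Ls.cons Ent.zero (Ls.cons Ent.zero (Ls.cons Ent.zero Ls.nil)))))))))))))))))))))))))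
 (Ls.cons (Ls.cons Ent.zero (Ls.cons Ent.zero (Ls.cons Ent.zero (Ls.cons Ent.zero (Ls.cons Ent.zero (Ls.cons Ent.zero (Ls.cons Ent.zero (Ls.cons Ent.zero (Ls.cons Ent.zero (Ls.cons Ent.zero (Ls.cons Ent.zero (Ls.cons Ent.zero (Ls.cons Ent.zero (Ls.cons Ent.zero (Ls.cons Ent.zero (Ls.cons Ent.zero (Ls.cons Ent.zero (Ls.cons Ent.zero (Ls.cons Ent.zero (Ls.cons Ent.zero (Ls.cons Ent.zero (Ls.cons Ent.zero (Ls.cons Ent.zero (Ls.cons Ent.zero (Ls.cons Ent.zero Ls.nil)))))))))))))))))))))))))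
 (Ls.cons (Ls.cons Ent.zero (Ls.cons Ent.zero (Ls.cons Ent.zero (Ls.cons Ent.zero (Ls.cons Ent.zero (Ls.cons Ent.zero (Ls.cons Ent.zero (Ls.cons Ent.zero (Ls.cons Ent.zero (Ls.cons Ent.zero (Ls.cons Ent.zero (Ls.cons Ent.zero (Ls.cons Ent.zero (Ls.cons Ent.zero (Ls.cons Ent.zero (Ls.cons Ent.zero (Ls.cons Ent.zero (Ls.cons Ent.zero (Ls.cons Ent.zero (Ls.cons Ent.zero (Ls.cons Ent.zero (Ls.cons Ent.zero (Ls.cons Ent.zero (Ls.cons Ent.zero (Ls.cons Ent.zero Ls.nil)))))))))))))))))))))))))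
 (Ls.cons (Ls.cons Ent.zero (Ls.cons Ent.zero (Ls.cons Ent.zero (Ls.cons Ent.zero (Ls.cons Ent.zero (Ls.cons Ent.zero (Ls.cons Ent.zero (Ls.cons Ent.zero (Ls.cons Ent.zero (Ls.cons Ent.zero (Ls.cons Ent.zero (Ls.cons Ent.zero (Ls.cons Ent.zero (Ls.cons Ent.zero (Ls.cons Ent.zero (Ls.cons Ent.zero (Ls.cons Ent.zero (Ls.cons Ent.zero (Ls.cons Ent.zero (Ls.cons Ent.zero (Ls.cons Ent.zero (Ls.cons Ent.zero (Ls.cons Ent.zero (Ls.cons Ent.zero (Ls.cons Ent.zero Ls.nil)))))))))))))))))))))))))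
 (Ls.cons (Ls.cons Ent.zero (Ls.cons Ent.zero (Ls.cons Ent.zero (Ls.cons Ent.zero (Ls.cons Ent.zero (Ls.cons Ent.zero (Ls.cons Ent.zero (Ls.cons Ent.zero (Ls.cons Ent.zero (Ls.cons Ent.zero (Ls.cons Ent.zero (Ls.cons Ent.zero (Ls.cons Ent.zero (Ls.cons Ent.zero (Ls.cons Ent.zero (Ls.cons Ent.zero (Ls.cons Ent.zero (Ls.cons Ent.zero (Ls.cons Ent.zero (Ls.cons Ent.zero (Ls.cons Ent.zero (Ls.cons Ent.zero (Ls.cons Ent.zero (Ls.cons Ent.zero (Ls.cons Ent.zero Ls.nil)))))))))))))))))))))))))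
 (Ls.cons (Ls.cons Ent.zero (Ls.cons Ent.zero (Ls.cons Ent.zero (Ls.cons Ent.zero (Ls.cons Ent.zero (Ls.cons Ent.zero (Ls.cons Ent.zero (Ls.cons Ent.zero (Ls.cons Ent.zero (Ls.cons Ent.zero (Ls.cons Ent.zero (Ls.cons Ent.zero (Ls.cons Ent.zero (Ls.cons Ent.zero (Ls.cons Ent.zero (Ls.cons Ent.zero (Ls.cons Ent.zero (Ls.cons Ent.zero (Ls.cons Ent.zero (Ls.cons Ent.zero (Ls.cons Ent.zero (Ls.cons Ent.zero (Ls.cons Ent.zero (Ls.cons Ent.zero (Ls.cons Ent.zero Ls.nil)))))))))))))))))))))))))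
 (Ls.cons (Ls.cons Ent.zero (Ls.cons Ent.zero (Ls.cons Ent.zero (Ls.cons Ent.zero (Ls.cons Ent.zero (Ls.cons Ent.zero (Ls.cons Ent.zero (Ls.cons Ent.zero (Ls.cons Ent.zero (Ls.cons Ent.zero (Ls.cons Ent.zero (Ls.cons Ent.zero (Ls.cons Ent.zero (Ls.cons Ent.zero (Ls.cons Ent.zero (Ls.cons Ent.zero (Ls.cons Ent.zero (Ls.cons Ent.zero (Ls.cons Ent.zero (Ls.cons Ent.zero (Ls.cons Ent.zero (Ls.cons Ent.zero (Ls.cons Ent.zero (Ls.cons Ent.zero (Ls.cons Ent.zero Ls.nil)))))))))))))))))))))))))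
 (Ls.cons (Ls.cons Ent.zero (Ls.cons Ent.zero (Ls.cons Ent.zero (Ls.cons Ent.zero (Ls.cons Ent.zero (Ls.cons Ent.zero (Ls.cons Ent.zero (Ls.cons Ent.zero (Ls.cons Ent.zero (Ls.cons Ent.zero (Ls.cons Ent.zero (Ls.cons Ent.zero (Ls.cons Ent.zero (Ls.cons Ent.zero (Ls.cons Ent.zero (Ls.cons Ent.zero (Ls.cons Ent.zero (Ls.cons Ent.zero (Ls.cons Ent.zero (Ls.cons Ent.zero (Ls.cons Ent.zero (Ls.cons Ent.zero (Ls.cons Ent.zero (Ls.cons Ent.zero (Ls.cons Ent.zero Ls.nil)))))))))))))))))))))))))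
 (Ls.cons (Ls.cons Ent.zero (Ls.cons Ent.zero (Ls.cons Ent.zero (Ls.cons Ent.zero (Ls.cons Ent.zero (Ls.cons Ent.zero (Ls.cons Ent.zero (Ls.cons Ent.zero (Ls.cons Ent.zero (Ls.cons Ent.zero (Ls.cons Ent.zero (Ls.cons Ent.zero (Ls.cons Ent.zero (Ls.cons Ent.zero (Ls.cons Ent.zero (Ls.cons Ent.zero (Ls.cons Ent.zero (Ls.cons Ent.zero (Ls.cons Ent.zero (Ls.cons Ent.zero (Ls.cons Ent.zero (Ls.cons Ent.zero (Ls.cons Ent.zero (Ls.cons Ent.zero (Ls.cons Ent.zero Ls.nil)))))))))))))))))))))))))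
 (Ls.cons (Ls.cons Ent.zero (Ls.cons Ent.zero (Ls.cons Ent.zero (Ls.cons Ent.zero (Ls.cons Ent.zero (Ls.cons Ent.zero (Ls.cons Ent.zero (Ls.cons Ent.zero (Ls.cons Ent.zero (Ls.cons Ent.zero (Ls.cons Ent.zero (Ls.cons Ent.zero (Ls.cons Ent.zero (Ls.cons Ent.zero (Ls.cons Ent.zero (Ls.cons Ent.zero (Ls.cons Ent.zero (Ls.cons Ent.zero (Ls.cons Ent.zero (Ls.cons Ent.zero (Ls.cons Ent.zero (Ls.cons Ent.zero (Ls.cons Ent.zero (Ls.cons Ent.zero (Ls.cons Ent.zero Ls.nil)))))))))))))))))))))))))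
 (Ls.cons (Ls.cons Ent.zero (Ls.cons Ent.zero (Ls.cons Ent.zero (Ls.cons Ent.zero (Ls.cons Ent.zero (Ls.cons Ent.zero (Ls.cons Ent.zero (Ls.cons Ent.zero (Ls.cons Ent.zero (Ls.cons Ent.zero (Ls.cons Ent.zero (Ls.cons Ent.zero (Ls.cons Ent.zero (Ls.cons Ent.zero (Ls.cons Ent.zero (Ls.cons Ent.zero (Ls.cons Ent.zero (Ls.cons Ent.zero (Ls.cons Ent.zero (Ls.cons Ent.zero (Ls.cons Ent.zero (Ls.cons Ent.zero (Ls.cons Ent.zero (Ls.cons Ent.zero (Ls.cons Ent.zero Ls.nil)))))))))))))))))))))))))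
 (Ls.cons (Ls.cons Ent.zero (Ls.cons Ent.zero (Ls.cons Ent.zero (Ls.cons Ent.zero (Ls.cons Ent.zero (Ls.cons Ent.zero (Ls.cons Ent.zero (Ls.cons Ent.zero (Ls.cons Ent.zero (Ls.cons Ent.zero (Ls.cons Ent.zero (Ls.cons Ent.zero (Ls.cons Ent.zero (Ls.cons Ent.zero (Ls.cons Ent.zero (Ls.cons Ent.zero (Ls.cons Ent.zero (Ls.cons Ent.zero (Ls.cons Ent.zero (Ls.cons Ent.zero (Ls.cons Ent.zero (Ls.cons Ent.zero (Ls.cons Ent.zero (Ls.cons Ent.zero (Ls.cons Ent.zero Ls.nil)))))))))))))))))))))))))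
 (Ls.cons (Ls.cons Ent.zero (Ls.cons Ent.zero (Ls.cons Ent.zero (Ls.cons Ent.zero (Ls.cons Ent.zero (Ls.cons Ent.zero (Ls.cons Ent.zero (Ls.cons Ent.zero (Ls.cons Ent.zero (Ls.cons Ent.zero (Ls.cons Ent.zero (Ls.cons Ent.zero (Ls.cons Ent.zero (Ls.cons Ent.zero (Ls.cons Ent.zero (Ls.cons Ent.zero (Ls.cons Ent.zero (Ls.cons Ent.zero (Ls.cons Ent.zero (Ls.cons Ent.zero (Ls.cons Ent.zero (Ls.cons Ent.zero (Ls.cons Ent.zero (Ls.cons Ent.zero (Ls.cons Ent.zero Ls.nil)))))))))))))))))))))))))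
 (Ls.cons (Ls.cons Ent.zero (Ls.cons Ent.zero (Ls.cons Ent.zero (Ls.cons Ent.zero (Ls.cons Ent.zero (Ls.cons Ent.zero (Ls.cons Ent.zero (Ls.cons Ent.zero (Ls.cons Ent.zero (Ls.cons Ent.zero (Ls.cons Ent.zero (Ls.cons Ent.zero (Ls.cons Ent.zero (Ls.cons Ent.zero (Ls.cons Ent.zero (Ls.cons Ent.zero (Ls.cons Ent.zero (Ls.cons Ent.zero (Ls.cons Ent.zero (Ls.cons Ent.zero (Ls.cons Ent.zero (Ls.cons Ent.zero (Ls.cons Ent.zero (Ls.cons Ent.zero (Ls.cons Ent.zero Ls.nil)))))))))))))))))))))))))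
 (Ls.cons (Ls.cons Ent.zero (Ls.cons Ent.zero (Ls.cons Ent.zero (Ls.cons Ent.zero (Ls.cons Ent.zero (Ls.cons Ent.zero (Ls.cons Ent.zero (Ls.cons Ent.zero (Ls.cons Ent.zero (Ls.cons Ent.zero (Ls.cons Ent.zero (Ls.cons Ent.zero (Ls.cons Ent.zero (Ls.cons Ent.zero (Ls.cons Ent.zero (Ls.cons Ent.zero (Ls.cons Ent.zero (Ls.cons Ent.zero (Ls.cons Ent.zero (Ls.cons Ent.zero (Ls.cons Ent.zero (Ls.cons Ent.zero (Ls.cons Ent.zero (Ls.cons Ent.zero (Ls.cons Ent.zero Ls.nil)))))))))))))))))))))))))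
 (Ls.cons (Ls.cons Ent.zero (Ls.cons Ent.zero (Ls.cons Ent.zero (Ls.cons Ent.zero (Ls.cons Ent.zero (Ls.cons Ent.zero (Ls.cons Ent.zero (Ls.cons Ent.zero (Ls.cons Ent.zero (Ls.cons Ent.zero (Ls.cons Ent.zero (Ls.cons Ent.zero (Ls.cons Ent.zero (Ls.cons Ent.zero (Ls.cons Ent.zero (Ls.cons Ent.zero (Ls.cons Ent.zero (Ls.cons Ent.zero (Ls.cons Ent.zero (Ls.cons Ent.zero (Ls.cons Ent.zero (Ls.cons Ent.zero (Ls.cons Ent.zero (Ls.cons Ent.zero (Ls.cons Ent.zero Ls.nil)))))))))))))))))))))))))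
 (Ls.cons (Ls.cons Ent.zero (Ls.cons Ent.zero (Ls.cons Ent.zero (Ls.cons Ent.zero (Ls.cons Ent.zero (Ls.cons Ent.zero (Ls.cons Ent.zero (Ls.cons Ent.zero (Ls.cons Ent.zero (Ls.cons Ent.zero (Ls.cons Ent.zero (Ls.cons Ent.zero (Ls.cons Ent.zero (Ls.cons Ent.zero (Ls.cons Ent.zero (Ls.cons Ent.zero (Ls.cons Ent.zero (Ls.cons Ent.zero (Ls.cons Ent.zero (Ls.cons Ent.zero (Ls.cons Ent.zero (Ls.cons Ent.zero (Ls.cons Ent.zero (Ls.cons Ent.zero (Ls.cons Ent.zero Ls.nil)))))))))))))))))))))))))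
 (Ls.cons (Ls.cons Ent.zero (Ls.cons Ent.zero (Ls.cons Ent.zero (Ls.cons Ent.zero (Ls.cons Ent.zero (Ls.cons Ent.zero (Ls.cons Ent.zero (Ls.cons Ent.zero (Ls.cons Ent.zero (Ls.cons Ent.zero (Ls.cons Ent.zero (Ls.cons Ent.zero (Ls.cons Ent.zero (Ls.cons Ent.zero (Ls.cons Ent.zero (Ls.cons Ent.zero (Ls.cons Ent.zero (Ls.cons Ent.zero (Ls.cons Ent.zero (Ls.cons Ent.zero (Ls.cons Ent.zero (Ls.cons Ent.zero (Ls.cons Ent.zero (Ls.cons Ent.zero (Ls.cons Ent.zero Ls.nil)))))))))))))))))))))))))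
 Ls.nil))))))))))))))))))))

noncomputable def bxF1_13 : L2 :=
 (Ls.cons (Ls.cons Ent.zero (Ls.cons Ent.zero (Ls.cons Ent.zero (Ls.cons Ent.zero (Ls.cons Ent.zero (Ls.cons Ent.zero (Ls.cons Ent.zero (Ls.cons Ent.zero (Ls.cons Ent.zero (Ls.cons Ent.zero (Ls.cons Ent.zero (Ls.cons Ent.zero (Ls.cons Ent.zero (Ls.cons Ent.zero (Ls.cons Ent.zero (Ls.cons Ent.zero (Ls.cons Ent.zero (Ls.cons Ent.zero (Ls.cons Ent.zero (Ls.cons Ent.zero (Ls.cons Ent.zero (Ls.cons Ent.zero (Ls.cons Ent.zero (Ls.cons Ent.zero (Ls.cons Ent.zero Ls.nil)))))))))))))))))))))))))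
 (Ls.cons (Ls.cons Ent.zero (Ls.cons Ent.zero (Ls.cons Ent.zero (Ls.cons Ent.zero (Ls.cons Ent.zero (Ls.cons Ent.zero (Ls.cons Ent.zero (Ls.cons Ent.zero (Ls.cons Ent.zero (Ls.cons Ent.zero (Ls.cons Ent.zero (Ls.cons Ent.zero (Ls.cons Ent.zero (Ls.cons Ent.zero (Ls.cons Ent.zero (Ls.cons Ent.zero (Ls.cons Ent.zero (Ls.cons Ent.zero (Ls.cons Ent.zero (Ls.cons Ent.zero (Ls.cons Ent.zero (Ls.cons Ent.zero (Ls.cons Ent.zero (Ls.cons Ent.zero (Ls.cons Ent.zero Ls.nil)))))))))))))))))))))))))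
 (Ls.cons (Ls.cons Ent.zero (Ls.cons Ent.zero (Ls.cons Ent.zero (Ls.cons Ent.zero (Ls.cons Ent.zero (Ls.cons Ent.zero (Ls.cons Ent.zero (Ls.cons Ent.zero (Ls.cons Ent.zero (Ls.cons Ent.zero (Ls.cons Ent.zero (Ls.cons Ent.zero (Ls.cons Ent.zero (Ls.cons Ent.zero (Ls.cons Ent.zero (Ls.cons Ent.zero (Ls.cons Ent.zero (Ls.cons Ent.zero (Ls.cons Ent.zero (Ls.cons Ent.zero (Ls.cons Ent.zero (Ls.cons Ent.zero (Ls.cons Ent.zero (Ls.cons Ent.zero (Ls.cons Ent.zero Ls.nil)))))))))))))))))))))))))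
 (Ls.cons (Ls.cons Ent.zero (Ls.cons Ent.zero (Ls.cons Ent.zero (Ls.cons Ent.zero (Ls.cons Ent.zero (Ls.cons Ent.zero (Ls.cons Ent.zero (Ls.cons Ent.zero (Ls.cons Ent.zero (Ls.cons Ent.zero (Ls.cons Ent.zero (Ls.cons Ent.zero (Ls.cons Ent.zero (Ls.cons Ent.zero (Ls.cons Ent.zero (Ls.cons Ent.zero (Ls.cons Ent.zero (Ls.cons Ent.zero (Ls.cons Ent.zero (Ls.cons Ent.zero (Ls.cons Ent.zero (Ls.cons Ent.zero (Ls.cons Ent.zero (Ls.cons Ent.zero (Ls.cons Ent.zero Ls.nil)))))))))))))))))))))))))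
 (Ls.cons (Ls.cons Ent.zero (Ls.cons Ent.zero (Ls.cons Ent.zero (Ls.cons Ent.zero (Ls.cons Ent.zero (Ls.cons Ent.zero (Ls.cons Ent.zero (Ls.cons Ent.zero (Ls.cons Ent.zero (Ls.cons Ent.zero (Ls.cons Ent.zero (Ls.cons Ent.zero (Ls.cons Ent.zero (Ls.cons Ent.zero (Ls.cons Ent.zero (Ls.cons Ent.zero (Ls.cons Ent.zero (Ls.cons Ent.zero (Ls.cons Ent.zero (Ls.cons Ent.zero (Ls.cons Ent.zero (Ls.cons Ent.zero (Ls.cons Ent.zero (Ls.cons Ent.zero (Ls.cons Ent.zero Ls.nil)))))))))))))))))))))))))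
 (Ls.cons (Ls.cons Ent.zero (Ls.cons Ent.zero (Ls.cons Ent.zero (Ls.cons Ent.zero (Ls.cons Ent.zero (Ls.cons Ent.zero (Ls.cons Ent.zero (Ls.cons Ent.zero (Ls.cons Ent.zero (Ls.cons Ent.zero (Ls.cons Ent.zero (Ls.cons Ent.zero (Ls.cons Ent.zero (Ls.cons Ent.zero (Ls.cons Ent.zero (Ls.cons Ent.zero (Ls.cons Ent.zero (Ls.cons Ent.zero (Ls.cons Ent.zero (Ls.cons Ent.zero (Ls.cons Ent.zero (Ls.cons Ent.zero (Ls.cons Ent.zero (Ls.cons Ent.zero (Ls.cons Ent.zero Ls.nil)))))))))))))))))))))))))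
 (Ls.cons (Ls.cons Ent.zero (Ls.cons Ent.zero (Ls.cons Ent.zero (Ls.cons Ent.zero (Ls.cons Ent.zero (Ls.cons Ent.zero (Ls.cons Ent.zero (Ls.cons Ent.zero (Ls.cons Ent.zero (Ls.cons Ent.zero (Ls.cons Ent.zero (Ls.cons Ent.zero (Ls.cons Ent.zero (Ls.cons Ent.zero (Ls.cons Ent.zero (Ls.cons Ent.zero (Ls.cons Ent.zero (Ls.cons Ent.zero (Ls.cons Ent.zero (Ls.cons Ent.zero (Ls.cons Ent.zero (Ls.cons Ent.zero (Ls.cons Ent.zero (Ls.cons Ent.zero (Ls.cons Ent.zero Ls.nil)))))))))))))))))))))))))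
 (Ls.cons (Ls.cons Ent.zero (Ls.cons Ent.zero (Ls.cons Ent.zero (Ls.cons Ent.zero (Ls.cons Ent.zero (Ls.cons Ent.zero (Ls.cons Ent.zero (Ls.cons Ent.zero (Ls.cons Ent.zero (Ls.cons Ent.zero (Ls.cons Ent.zero (Ls.cons Ent.zero (Ls.cons Ent.zero (Ls.cons Ent.zero (Ls.cons Ent.zero (Ls.cons Ent.zero (Ls.cons Ent.zero (Ls.cons Ent.zero (Ls.cons Ent.zero (Ls.cons Ent.zero (Ls.cons Ent.zero (Ls.cons Ent.zero (Ls.cons Ent.zero (Ls.cons Ent.zero (Ls.cons Ent.zero Ls.nil)))))))))))))))))))))))))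
 (Ls.cons (Ls.cons Ent.zero (Ls.cons Ent.zero (Ls.cons Ent.zero (Ls.cons Ent.zero (Ls.cons Ent.zero (Ls.cons Ent.zero (Ls.cons Ent.zero (Ls.cons Ent.zero (Ls.cons Ent.zero (Ls.cons Ent.zero (Ls.cons Ent.zero (Ls.cons Ent.zero (Ls.cons Ent.zero (Ls.cons Ent.zero (Ls.cons Ent.zero (Ls.cons Ent.zero (Ls.cons Ent.zero (Ls.cons Ent.zero (Ls.cons Ent.zero (Ls.cons Ent.zero (Ls.cons Ent.zero (Ls.cons Ent.zero (Ls.cons Ent.zero (Ls.cons Ent.zero (Ls.cons Ent.zero Ls.nil)))))))))))))))))))))))))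
 (Ls.cons (Ls.cons Ent.zero (Ls.cons Ent.zero (Ls.cons Ent.zero (Ls.cons Ent.zero (Ls.cons Ent.zero (Ls.cons Ent.zero (Ls.cons Ent.zero (Ls.cons Ent.zero (Ls.cons Ent.zero (Ls.cons Ent.zero (Ls.cons Ent.zero (Ls.cons Ent.zero (Ls.cons Ent.zero (Ls.cons Ent.zero (Ls.cons Ent.zero (Ls.cons Ent.zero (Ls.cons Ent.zero (Ls.cons Ent.zero (Ls.cons Ent.zero (Ls.cons Ent.zero (Ls.cons Ent.zero (Ls.cons Ent.zero (Ls.cons Ent.zero (Ls.cons Ent.zero (Ls.cons Ent.zero Ls.nil)))))))))))))))))))))))))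
 (Ls.cons (Ls.cons Ent.zero (Ls.cons Ent.zero (Ls.cons Ent.zero (Ls.cons Ent.zero (Ls.cons Ent.zero (Ls.cons Ent.zero (Ls.cons Ent.zero (Ls.cons Ent.zero (Ls.cons Ent.zero (Ls.cons Ent.zero (Ls.cons Ent.zero (Ls.cons Ent.zero (Ls.cons Ent.zero (Ls.cons Ent.zero (Ls.cons Ent.zero (Ls.cons Ent.zero (Ls.cons Ent.zero (Ls.cons Ent.zero (Ls.cons Ent.zero (Ls.cons Ent.zero (Ls.cons Ent.zero (Ls.cons Ent.zero (Ls.cons Ent.zero (Ls.cons Ent.zero (Ls.cons Ent.zero Ls.nil)))))))))))))))))))))))))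
 (Ls.cons (Ls.cons Ent.zero (Ls.cons Ent.zero (Ls.cons Ent.zero (Ls.cons Ent.zero (Ls.cons Ent.zero (Ls.cons Ent.zero (Ls.cons Ent.zero (Ls.cons Ent.zero (Ls.cons Ent.zero (Ls.cons Ent.zero (Ls.cons Ent.zero (Ls.cons Ent.zero (Ls.cons Ent.zero (Ls.cons Ent.zero (Ls.cons Ent.zero (Ls.cons Ent.zero (Ls.cons Ent.zero (Ls.cons Ent.zero (Ls.cons Ent.zero (Ls.cons Ent.zero (Ls.cons Ent.zero (Ls.cons Ent.zero (Ls.cons Ent.zero (Ls.cons Ent.zero (Ls.cons Ent.zero Ls.nil)))))))))))))))))))))))))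
 (Ls.cons (Ls.cons Ent.zero (Ls.cons Ent.zero (Ls.cons Ent.zero (Ls.cons Ent.zero (Ls.cons Ent.zero (Ls.cons Ent.zero (Ls.cons Ent.zero (Ls.cons Ent.zero (Ls.cons Ent.zero (Ls.cons Ent.zero (Ls.cons Ent.zero (Ls.cons Ent.zero (Ls.cons Ent.zero (Ls.cons Ent.zero (Ls.cons Ent.zero (Ls.cons Ent.zero (Ls.cons Ent.zero (Ls.cons Ent.zero (Ls.cons Ent.zero (Ls.cons Ent.zero (Ls.cons Ent.zero (Ls.cons Ent.zero (Ls.cons Ent.zero (Ls.cons Ent.zero (Ls.cons Ent.zero Ls.nil)))))))))))))))))))))))))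
 (Ls.cons (Ls.cons Ent.zero (Ls.cons Ent.zero (Ls.cons Ent.zero (Ls.cons Ent.zero (Ls.cons Ent.zero (Ls.cons Ent.zero (Ls.cons Ent.zero (Ls.cons Ent.zero (Ls.cons Ent.zero (Ls.cons Ent.zero (Ls.cons Ent.zero (Ls.cons Ent.zero (Ls.cons Ent.zero (Ls.cons Ent.zero (Ls.cons Ent.zero (Ls.cons Ent.zero (Ls.cons Ent.zero (Ls.cons Ent.zero (Ls.cons Ent.zero (Ls.cons Ent.zero (Ls.cons Ent.zero (Ls.cons Ent.zero (Ls.cons Ent.zero (Ls.cons Ent.zero (Ls.cons Ent.zero Ls.nil)))))))))))))))))))))))))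
 (Ls.cons (Ls.cons Ent.zero (Ls.cons Ent.zero (Ls.cons Ent.zero (Ls.cons Ent.zero (Ls.cons Ent.zero (Ls.cons Ent.zero (Ls.cons Ent.zero (Ls.cons Ent.zero (Ls.cons Ent.zero (Ls.cons Ent.zero (Ls.cons Ent.zero (Ls.cons Ent.zero (Ls.cons Ent.zero (Ls.cons Ent.zero (Ls.cons Ent.zero (Ls.cons Ent.zero (Ls.cons Ent.zero (Ls.cons Ent.zero (Ls.cons Ent.zero (Ls.cons Ent.zero (Ls.cons Ent.zero (Ls.cons Ent.zero (Ls.cons Ent.zero (Ls.cons Ent.zero (Ls.cons Ent.zero Ls.nil)))))))))))))))))))))))))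
 (Ls.cons (Ls.cons Ent.zero (Ls.cons Ent.zero (Ls.cons Ent.zero (Ls.cons Ent.zero (Ls.cons Ent.zero (Ls.cons Ent.zero (Ls.cons Ent.zero (Ls.cons Ent.zero (Ls.cons Ent.zero (Ls.cons Ent.zero (Ls.cons Ent.zero (Ls.cons Ent.zero (Ls.cons Ent.zero (Ls.cons Ent.zero (Ls.cons Ent.zero (Ls.cons Ent.zero (Ls.cons Ent.zero (Ls.cons Ent.zero (Ls.cons Ent.zero (Ls.cons Ent.zero (Ls.cons Ent.zero (Ls.cons Ent.zero (Ls.cons Ent.zero (Ls.cons Ent.zero (Ls.cons Ent.zero Ls.nil)))))))))))))))))))))))))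
 (Ls.cons (Ls.cons Ent.zero (Ls.cons Ent.zero (Ls.cons Ent.zero (Ls.cons Ent.zero (Ls.cons Ent.zero (Ls.cons Ent.zero (Ls.cons Ent.zero (Ls.cons Ent.zero (Ls.cons Ent.zero (Ls.cons Ent.zero (Ls.cons Ent.zero (Ls.cons Ent.zero (Ls.cons Ent.zero (Ls.cons Ent.zero (Ls.cons Ent.zero (Ls.cons Ent.zero (Ls.cons Ent.zero (Ls.cons Ent.zero (Ls.cons Ent.zero (Ls.cons Ent.zero (Ls.cons Ent.zero (Ls.cons Ent.zero (Ls.cons Ent.zero (Ls.cons Ent.zero (Ls.cons Ent.zero Ls.nil)))))))))))))))))))))))))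
 (Ls.cons (Ls.cons Ent.zero (Ls.cons Ent.zero (Ls.cons Ent.zero (Ls.cons Ent.zero (Ls.cons Ent.zero (Ls.cons Ent.zero (Ls.cons Ent.zero (Ls.cons Ent.zero (Ls.cons Ent.zero (Ls.cons Ent.zero (Ls.cons Ent.zero (Ls.cons Ent.zero (Ls.cons Ent.zero (Ls.cons Ent.zero (Ls.cons Ent.zero (Ls.cons Ent.zero (Ls.cons Ent.zero (Ls.cons Ent.zero (Ls.cons Ent.zero (Ls.cons Ent.zero (Ls.cons Ent.zero (Ls.cons Ent.zero (Ls.cons Ent.zero (Ls.cons Ent.zero (Ls.cons Ent.zero Ls.nil)))))))))))))))))))))))))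
 (Ls.cons (Ls.cons Ent.zero (Ls.cons Ent.zero (Ls.cons Ent.zero (Ls.cons Ent.zero (Ls.cons Ent.zero (Ls.cons Ent.zero (Ls.cons Ent.zero (Ls.cons Ent.zero (Ls.cons Ent.zero (Ls.cons Ent.zero (Ls.cons Ent.zero (Ls.cons Ent.zero (Ls.cons Ent.zero (Ls.cons Ent.zero (Ls.cons Ent.zero (Ls.cons Ent.zero (Ls.cons Ent.zero (Ls.cons Ent.zero (Ls.cons Ent.zero (Ls.cons Ent.zero (Ls.cons Ent.zero (Ls.cons Ent.zero (Ls.cons Ent.zero (Ls.cons Ent.zero (Ls.cons Ent.zero Ls.nil)))))))))))))))))))))))))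
 (Ls.cons (Ls.cons Ent.zero (Ls.cons Ent.zero (Ls.cons Ent.zero (Ls.cons Ent.zero (Ls.cons Ent.zero (Ls.cons Ent.zero (Ls.cons Ent.zero (Ls.cons Ent.zero (Ls.cons Ent.zero (Ls.cons Ent.zero (Ls.cons Ent.zero (Ls.cons Ent.zero (Ls.cons Ent.zero (Ls.cons Ent.zero (Ls.cons Ent.zero (Ls.cons Ent.zero (Ls.cons Ent.zero (Ls.cons Ent.zero (Ls.cons Ent.zero (Ls.cons Ent.zero (Ls.cons Ent.zero (Ls.cons Ent.zero (Ls.cons Ent.zero (Ls.cons Ent.zero (Ls.cons Ent.zero Ls.nil)))))))))))))))))))))))))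
 Ls.nil))))))))))))))))))))

noncomputable def bxF1_14 : L2 :=
 (Ls.cons (Ls.cons Ent.zero (Ls.cons Ent.zero (Ls.cons Ent.zero (Ls.cons Ent.zero (Ls.cons Ent.zero (Ls.cons Ent.zero (Ls.cons Ent.zero (Ls.cons Ent.zero (Ls.cons Ent.zero (Ls.cons Ent.zero (Ls.cons Ent.zero (Ls.cons Ent.zero (Ls.cons Ent.zero (Ls.cons Ent.zero (Ls.cons Ent.zero (Ls.cons Ent.zero (Ls.cons Ent.zero (Ls.cons Ent.zero (Ls.cons Ent.zero (Ls.cons Ent.zero (Ls.cons Ent.zero (Ls.cons Ent.zero (Ls.cons Ent.zero (Ls.cons Ent.zero (Ls.cons Ent.zero Ls.nil)))))))))))))))))))))))))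
 (Ls.cons (Ls.cons Ent.zero (Ls.cons Ent.zero (Ls.cons Ent.zero (Ls.cons Ent.zero (Ls.cons Ent.zero (Ls.cons Ent.zero (Ls.cons Ent.zero (Ls.cons Ent.zero (Ls.cons Ent.zero (Ls.cons Ent.zero (Ls.cons Ent.zero (Ls.cons Ent.zero (Ls.cons Ent.zero (Ls.cons Ent.zero (Ls.cons Ent.zero (Ls.cons Ent.zero (Ls.cons Ent.zero (Ls.cons Ent.zero (Ls.cons Ent.zero (Ls.cons Ent.zero (Ls.cons Ent.zero (Ls.cons Ent.zero (Ls.cons Ent.zero (Ls.cons Ent.zero (Ls.cons Ent.zero Ls.nil)))))))))))))))))))))))))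
 (Ls.cons (Ls.cons Ent.zero (Ls.cons Ent.zero (Ls.cons Ent.zero (Ls.cons Ent.zero (Ls.cons Ent.zero (Ls.cons Ent.zero (Ls.cons Ent.zero (Ls.cons Ent.zero (Ls.cons Ent.zero (Ls.cons Ent.zero (Ls.cons Ent.zero (Ls.cons Ent.zero (Ls.cons Ent.zero (Ls.cons Ent.zero (Ls.cons Ent.zero (Ls.cons Ent.zero (Ls.cons Ent.zero (Ls.cons Ent.zero (Ls.cons Ent.zero (Ls.cons Ent.zero (Ls.cons Ent.zero (Ls.cons Ent.zero (Ls.cons Ent.zero (Ls.cons Ent.zero (Ls.cons Ent.zero Ls.nil)))))))))))))))))))))))))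
 (Ls.cons (Ls.cons Ent.zero (Ls.cons Ent.zero (Ls.cons Ent.zero (Ls.cons Ent.zero (Ls.cons Ent.zero (Ls.cons Ent.zero (Ls.cons Ent.zero (Ls.cons Ent.zero (Ls.cons Ent.zero (Ls.cons Ent.zero (Ls.cons Ent.zero (Ls.cons Ent.zero (Ls.cons Ent.zero (Ls.cons Ent.zero (Ls.cons Ent.zero (Ls.cons Ent.zero (Ls.cons Ent.zero (Ls.cons Ent.zero (Ls.cons Ent.zero (Ls.cons Ent.zero (Ls.cons Ent.zero (Ls.cons Ent.zero (Ls.cons Ent.zero (Ls.cons Ent.zero (Ls.cons Ent.zero Ls.nil)))))))))))))))))))))))))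
 (Ls.cons (Ls.cons Ent.zero (Ls.cons Ent.zero (Ls.cons Ent.zero (Ls.cons Ent.zero (Ls.cons Ent.zero (Ls.cons Ent.zero (Ls.cons Ent.zero (Ls.cons Ent.zero (Ls.cons Ent.zero (Ls.cons Ent.zero (Ls.cons Ent.zero (Ls.cons Ent.zero (Ls.cons Ent.zero (Ls.cons Ent.zero (Ls.cons Ent.zero (Ls.cons Ent.zero (Ls.cons Ent.zero (Ls.cons Ent.zero (Ls.cons Ent.zero (Ls.cons Ent.zero (Ls.cons Ent.zero (Ls.cons Ent.zero (Ls.cons Ent.zero (Ls.cons Ent.zero (Ls.cons Ent.zero Ls.nil)))))))))))))))))))))))))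
 (Ls.cons (Ls.cons Ent.zero (Ls.cons Ent.zero (Ls.cons Ent.zero (Ls.cons Ent.zero (Ls.cons Ent.zero (Ls.cons Ent.zero (Ls.cons Ent.zero (Ls.cons Ent.zero (Ls.cons Ent.zero (Ls.cons Ent.zero (Ls.cons Ent.zero (Ls.cons Ent.zero (Ls.cons Ent.zero (Ls.cons Ent.zero (Ls.cons Ent.zero (Ls.cons Ent.zero (Ls.cons Ent.zero (Ls.cons Ent.zero (Ls.cons Ent.zero (Ls.cons Ent.zero (Ls.cons Ent.zero (Ls.cons Ent.zero (Ls.cons Ent.zero (Ls.cons Ent.zero (Ls.cons Ent.zero Ls.nil)))))))))))))))))))))))))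
 (Ls.cons (Ls.cons Ent.zero (Ls.cons Ent.zero (Ls.cons Ent.zero (Ls.cons Ent.zero (Ls.cons Ent.zero (Ls.cons Ent.zero (Ls.cons Ent.zero (Ls.cons Ent.zero (Ls.cons Ent.zero (Ls.cons Ent.zero (Ls.cons Ent.zero (Ls.cons Ent.zero (Ls.cons Ent.zero (Ls.cons Ent.zero (Ls.cons Ent.zero (Ls.cons Ent.zero (Ls.cons Ent.zero (Ls.cons Ent.zero (Ls.cons Ent.zero (Ls.cons Ent.zero (Ls.cons Ent.zero (Ls.cons Ent.zero (Ls.cons Ent.zero (Ls.cons Ent.zero (Ls.cons Ent.zero Ls.nil)))))))))))))))))))))))))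
 (Ls.cons (Ls.cons Ent.zero (Ls.cons Ent.zero (Ls.cons Ent.zero (Ls.cons Ent.zero (Ls.cons Ent.zero (Ls.cons Ent.zero (Ls.cons Ent.zero (Ls.cons Ent.zero (Ls.cons Ent.zero (Ls.cons Ent.zero (Ls.cons Ent.zero (Ls.cons Ent.zero (Ls.cons Ent.zero (Ls.cons Ent.zero (Ls.cons Ent.zero (Ls.cons Ent.zero (Ls.cons Ent.zero (Ls.cons Ent.zero (Ls.cons Ent.zero (Ls.cons Ent.zero (Ls.cons Ent.zero (Ls.cons Ent.zero (Ls.cons Ent.zero (Ls.cons Ent.zero (Ls.cons Ent.zero Ls.nil)))))))))))))))))))))))))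
 (Ls.cons (Ls.cons Ent.zero (Ls.cons Ent.zero (Ls.cons Ent.zero (Ls.cons Ent.zero (Ls.cons Ent.zero (Ls.cons Ent.zero (Ls.cons Ent.zero (Ls.cons Ent.zero (Ls.cons Ent.zero (Ls.cons Ent.zero (Ls.cons Ent.zero (Ls.cons Ent.zero (Ls.cons Ent.zero (Ls.cons Ent.zero (Ls.cons Ent.zero (Ls.cons Ent.zero (Ls.cons Ent.zero (Ls.cons Ent.zero (Ls.cons Ent.zero (Ls.cons Ent.zero (Ls.cons Ent.zero (Ls.cons Ent.zero (Ls.cons Ent.zero (Ls.cons Ent.zero (Ls.cons Ent.zero Ls.nil)))))))))))))))))))))))))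
 (Ls.cons (Ls.cons Ent.zero (Ls.cons Ent.zero (Ls.cons Ent.zero (Ls.cons Ent.zero (Ls.cons Ent.zero (Ls.cons Ent.zero (Ls.cons Ent.zero (Ls.cons Ent.zero (Ls.cons Ent.zero (Ls.cons Ent.zero (Ls.cons Ent.zero (Ls.cons Ent.zero (Ls.cons Ent.zero (Ls.cons Ent.zero (Ls.cons Ent.zero (Ls.cons Ent.zero (Ls.cons Ent.zero (Ls.cons Ent.zero (Ls.cons Ent.zero (Ls.cons Ent.zero (Ls.cons Ent.zero (Ls.cons Ent.zero (Ls.cons Ent.zero (Ls.cons Ent.zero (Ls.cons Ent.zero Ls.nil)))))))))))))))))))))))))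
 (Ls.cons (Ls.cons Ent.zero (Ls.cons Ent.zero (Ls.cons Ent.zero (Ls.cons Ent.zero (Ls.cons Ent.zero (Ls.cons Ent.zero (Ls.cons Ent.zero (Ls.cons Ent.zero (Ls.cons Ent.zero (Ls.cons Ent.zero (Ls.cons Ent.zero (Ls.cons Ent.zero (Ls.cons Ent.zero (Ls.cons Ent.zero (Ls.cons Ent.zero (Ls.cons Ent.zero (Ls.cons Ent.zero (Ls.cons Ent.zero (Ls.cons Ent.zero (Ls.cons Ent.zero (Ls.cons Ent.zero (Ls.cons Ent.zero (Ls.cons Ent.zero (Ls.cons Ent.zero (Ls.cons Ent.zero Ls.nil)))))))))))))))))))))))))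
 (Ls.cons (Ls.cons Ent.zero (Ls.cons Ent.zero (Ls.cons Ent.zero (Ls.cons Ent.zero (Ls.cons Ent.zero (Ls.cons Ent.zero (Ls.cons Ent.zero (Ls.cons Ent.zero (Ls.cons Ent.zero (Ls.cons Ent.zero (Ls.cons Ent.zero (Ls.cons Ent.zero (Ls.cons Ent.zero (Ls.cons Ent.zero (Ls.cons Ent.zero (Ls.cons Ent.zero (Ls.cons Ent.zero (Ls.cons Ent.zero (Ls.cons Ent.zero (Ls.cons Ent.zero (Ls.cons Ent.zero (Ls.cons Ent.zero (Ls.cons Ent.zero (Ls.cons Ent.zero (Ls.cons Ent.zero Ls.nil)))))))))))))))))))))))))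
 (Ls.cons (Ls.cons Ent.zero (Ls.cons Ent.zero (Ls.cons Ent.zero (Ls.cons Ent.zero (Ls.cons Ent.zero (Ls.cons Ent.zero (Ls.cons Ent.zero (Ls.cons Ent.zero (Ls.cons Ent.zero (Ls.cons Ent.zero (Ls.cons Ent.zero (Ls.cons Ent.zero (Ls.cons Ent.zero (Ls.cons Ent.zero (Ls.cons Ent.zero (Ls.cons Ent.zero (Ls.cons Ent.zero (Ls.cons Ent.zero (Ls.cons Ent.zero (Ls.cons Ent.zero (Ls.cons Ent.zero (Ls.cons Ent.zero (Ls.cons Ent.zero (Ls.cons Ent.zero (Ls.cons Ent.zero Ls.nil)))))))))))))))))))))))))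
 (Ls.cons (Ls.cons Ent.zero (Ls.cons Ent.zero (Ls.cons Ent.zero (Ls.cons Ent.zero (Ls.cons Ent.zero (Ls.cons Ent.zero (Ls.cons Ent.zero (Ls.cons Ent.zero (Ls.cons Ent.zero (Ls.cons Ent.zero (Ls.cons Ent.zero (Ls.cons Ent.zero (Ls.cons Ent.zero (Ls.cons Ent.zero (Ls.cons Ent.zero (Ls.cons Ent.zero (Ls.cons Ent.zero (Ls.cons Ent.zero (Ls.cons Ent.zero (Ls.cons Ent.zero (Ls.cons Ent.zero (Ls.cons Ent.zero (Ls.cons Ent.zero (Ls.cons Ent.zero (Ls.cons Ent.zero Ls.nil)))))))))))))))))))))))))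
 (Ls.cons (Ls.cons Ent.zero (Ls.cons Ent.zero (Ls.cons Ent.zero (Ls.cons Ent.zero (Ls.cons Ent.zero (Ls.cons Ent.zero (Ls.cons Ent.zero (Ls.cons Ent.zero (Ls.cons Ent.zero (Ls.cons Ent.zero (Ls.cons Ent.zero (Ls.cons Ent.zero (Ls.cons Ent.zero (Ls.cons Ent.zero (Ls.cons Ent.zero (Ls.cons Ent.zero (Ls.cons Ent.zero (Ls.cons Ent.zero (Ls.cons Ent.zero (Ls.cons Ent.zero (Ls.cons Ent.zero (Ls.cons Ent.zero (Ls.cons Ent.zero (Ls.cons Ent.zero (Ls.cons Ent.zero Ls.nil)))))))))))))))))))))))))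
 (Ls.cons (Ls.cons Ent.zero (Ls.cons Ent.zero (Ls.cons Ent.zero (Ls.cons Ent.zero (Ls.cons Ent.zero (Ls.cons Ent.zero (Ls.cons Ent.zero (Ls.cons Ent.zero (Ls.cons Ent.zero (Ls.cons Ent.zero (Ls.cons Ent.zero (Ls.cons Ent.zero (Ls.cons Ent.zero (Ls.cons Ent.zero (Ls.cons Ent.zero (Ls.cons Ent.zero (Ls.cons Ent.zero (Ls.cons Ent.zero (Ls.cons Ent.zero (Ls.cons Ent.zero (Ls.cons Ent.zero (Ls.cons Ent.zero (Ls.cons Ent.zero (Ls.cons Ent.zero (Ls.cons Ent.zero Ls.nil)))))))))))))))))))))))))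
 (Ls.cons (Ls.cons Ent.zero (Ls.cons Ent.zero (Ls.cons Ent.zero (Ls.cons Ent.zero (Ls.cons Ent.zero (Ls.cons Ent.zero (Ls.cons Ent.zero (Ls.cons Ent.zero (Ls.cons Ent.zero (Ls.cons Ent.zero (Ls.cons Ent.zero (Ls.cons Ent.zero (Ls.cons Ent.zero (Ls.cons Ent.zero (Ls.cons Ent.zero (Ls.cons Ent.zero (Ls.cons Ent.zero (Ls.cons Ent.zero (Ls.cons Ent.zero (Ls.cons Ent.zero (Ls.cons Ent.zero (Ls.cons Ent.zero (Ls.cons Ent.zero (Ls.cons Ent.zero (Ls.cons Ent.zero Ls.nil)))))))))))))))))))))))))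
 (Ls.cons (Ls.cons Ent.zero (Ls.cons Ent.zero (Ls.cons Ent.zero (Ls.cons Ent.zero (Ls.cons Ent.zero (Ls.cons Ent.zero (Ls.cons Ent.zero (Ls.cons Ent.zero (Ls.cons Ent.zero (Ls.cons Ent.zero (Ls.cons Ent.zero (Ls.cons Ent.zero (Ls.cons Ent.zero (Ls.cons Ent.zero (Ls.cons Ent.zero (Ls.cons Ent.zero (Ls.cons Ent.zero (Ls.cons Ent.zero (Ls.cons Ent.zero (Ls.cons Ent.zero (Ls.cons Ent.zero (Ls.cons Ent.zero (Ls.cons Ent.zero (Ls.cons Ent.zero (Ls.cons Ent.zero Ls.nil)))))))))))))))))))))))))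
 (Ls.cons (Ls.cons Ent.zero (Ls.cons Ent.zero (Ls.cons Ent.zero (Ls.cons Ent.zero (Ls.cons Ent.zero (Ls.cons Ent.zero (Ls.cons Ent.zero (Ls.cons Ent.zero (Ls.cons Ent.zero (Ls.cons Ent.zero (Ls.cons Ent.zero (Ls.cons Ent.zero (Ls.cons Ent.zero (Ls.cons Ent.zero (Ls.cons Ent.zero (Ls.cons Ent.zero (Ls.cons Ent.zero (Ls.cons Ent.zero (Ls.cons Ent.zero (Ls.cons Ent.zero (Ls.cons Ent.zero (Ls.cons Ent.zero (Ls.cons Ent.zero (Ls.cons Ent.zero (Ls.cons Ent.zero Ls.nil)))))))))))))))))))))))))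
 (Ls.cons (Ls.cons Ent.zero (Ls.cons Ent.zero (Ls.cons Ent.zero (Ls.cons Ent.zero (Ls.cons Ent.zero (Ls.cons Ent.zero (Ls.cons Ent.zero (Ls.cons Ent.zero (Ls.cons Ent.zero (Ls.cons Ent.zero (Ls.cons Ent.zero (Ls.cons Ent.zero (Ls.cons Ent.zero (Ls.cons Ent.zero (Ls.cons Ent.zero (Ls.cons Ent.zero (Ls.cons Ent.zero (Ls.cons Ent.zero (Ls.cons Ent.zero (Ls.cons Ent.zero (Ls.cons Ent.zero (Ls.cons Ent.zero (Ls.cons Ent.zero (Ls.cons Ent.zero (Ls.cons Ent.zero Ls.nil)))))))))))))))))))))))))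
 Ls.nil))))))))))))))))))))

noncomputable def boxF1 : L3 := (Ls.cons bxF1_14 (Ls.cons bxF1_13 (Ls.cons bxF1_12 (Ls.cons bxF1_11 (Ls.cons bxF1_10 (Ls.cons bxF1_9 (Ls.cons bxF1_8 (Ls.cons bxF1_7 (Ls.cons bxF1_6 (Ls.cons bxF1_5 (Ls.cons bxF1_4 (Ls.cons bxF1_3 (Ls.cons bxF1_2 (Ls.cons bxF1_1 (Ls.cons bxF1_0 Ls.nil)))))))))))))))

noncomputable def bsF2 : Ls L3 := Ls.cons boxF1 bsF1

end Vale.Agent.P181.K
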