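import Vale.Agent.P181.Six.F.D4_0
import Vale.Agent.P181.Six.F.B3

set_option maxRecDepth 100000
set_option maxHeartbeats 0

namespace Vale.Agent.P181.K

noncomputable def cF4_0_0 : L2 :=
 (Ls.cons Ls.nil
 (Ls.cons (Ls.cons (Ent.pos F4_24_1_0) (Ls.cons (Ent.pos F4_23_1_0) (Ls.cons (Ent.pos F4_22_1_0) (Ls.cons (Ent.pos F4_21_1_0) (Ls.cons (Ent.pos F4_20_1_0) (Ls.cons (Ent.pos F4_19_1_0) (Ls.cons (Ent.pos F4_18_1_0) (Ls.cons (Ent.pos F4_17_1_0) (Ls.cons (Ent.neg F4_16_1_0) (Ls.cons (Ent.neg F4_15_1_0) (Ls.cons (Ent.neg F4_14_1_0) (Ls.cons (Ent.neg F4_13_1_0) (Ls.cons (Ent.neg F4_12_1_0) (Ls.cons (Ent.neg F4_11_1_0) (Ls.cons (Ent.neg F4_10_1_0) (Ls.cons (Ent.neg F4_9_1_0) (Ls.cons (Ent.neg F4_8_1_0) (Ls.cons (Ent.neg F4_7_1_0) (Ls.cons (Ent.neg F4_6_1_0) (Ls.cons (Ent.pos F4_5_1_0) (Ls.cons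 (Ent.neg F4_4_1_0) (Ls.cons (Ent.pos F4_3_1_0) (Ls.cons (Ent.neg F4_2_1_0) Ls.nil)))))))))))))))))))))))
 (Ls.cons (Ls.cons (Ent.neg F4_24_2_0) (Ls.cons (Ent.neg F4_23_2_0) (Ls.cons (Ent.neg F4_22_2_0) (Ls.cons (Ent.neg F4_21_2_0) (Ls.cons (Ent.neg F4_20_2_0) (Ls.cons (Ent.neg F4_19_2_0) (Ls.cons (Ent.neg F4_18_2_0) (Ls.cons (Ent.neg F4_17_2_0) (Ls.cons (Ent.pos F4_16_2_0) (Ls.cons (Ent.neg F4_15_2_0) (Ls.cons (Ent.pos F4_14_2_0) (Ls.cons (Ent.pos F4_13_2_0) (Ls.cons (Ent.pos F4_12_2_0) (Ls.cons (Ent.pos F4_11_2_0) (Ls.cons (Ent.pos F4_10_2_0) (Ls.cons (Ent.pos F4_9_2_0) (Ls.cons (Ent.pos F4_8_2_0) (Ls.cons (Ent.pos F4_7_2_0) (Ls.cons (Ent.pos F4_6_2_0) (Ls.cons (Ent.neg F4_5_2_0) (Ls.cons (Ent.pos F4_4_2_0) (Ls.cons (Ent.neg F4_3_2_0) Ls.nil))))))))))))))))))))))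
 (Ls.cons (Ls.cons (Ent.pos F4_24_3_0) (Ls.cons (Ent.pos F4_23_3_0) (Ls.cons (Ent.pos F4_22_3_0) (Ls.cons (Ent.pos F4_21_3_0) (Ls.cons (Ent.pos F4_20_3_0) (Ls.cons (Ent.pos F4_19_3_0) (Ls.cons (Ent.neg F4_18_3_0) (Ls.cons (Ent.pos F4_17_3_0) (Ls.cons (Ent.neg F4_16_3_0) (Ls.cons (Ent.pos F4_15_3_0) (Ls.cons (Ent.neg F4_14_3_0) (Ls.cons (Ent.neg F4_13_3_0) (Ls.cons (Ent.neg F4_12_3_0) (Ls.cons (Ent.neg F4_11_3_0) (Ls.cons (Ent.neg F4_10_3_0) (Ls.cons (Ent.neg F4_9_3_0) (Ls.cons (Ent.neg F4_8_3_0) (Ls.cons (Ent.neg F4_7_3_0) (Ls.cons (Ent.neg F4_6_3_0) (Ls.cons (Ent.neg F4_5_3_0) (Ls.cons (Ent.neg F4_4_3_0) Ls.nil)))))))))))))))))))))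
 (Ls.cons (Ls.cons Ent.zero (Ls.cons (Ent.pos F4_23_4_0) (Ls.cons (Ent.pos F4_22_4_0) (Ls.cons (Ent.pos F4_21_4_0) (Ls.cons (Ent.pos F4_20_4_0) (Ls.cons (Ent.pos F4_19_4_0) (Ls.cons (Ent.pos F4_18_4_0) (Ls.cons (Ent.neg F4_17_4_0) (Ls.cons (Ent.pos F4_16_4_0) (Ls.cons (Ent.neg F4_15_4_0) (Ls.cons (Ent.neg F4_14_4_0) (Ls.cons (Ent.neg F4_13_4_0) (Ls.cons (Ent.neg F4_12_4_0) (Ls.cons (Ent.neg F4_11_4_0) (Ls.cons (Ent.neg F4_10_4_0) (Ls.cons (Ent.neg F4_9_4_0) (Ls.cons (Ent.neg F4_8_4_0) (Ls.cons (Ent.neg F4_7_4_0) (Ls.cons (Ent.pos F4_6_4_0) (Ls.cons (Ent.neg F4_5_4_0) Ls.nil))))))))))))))))))))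
 (Ls.cons (Ls.cons Ent.zero (Ls.cons (Ent.pos F4_23_5_0) (Ls.cons (Ent.pos F4_22_5_0) (Ls.cons (Ent.pos F4_21_5_0) (Ls.cons (Ent.pos F4_20_5_0) (Ls.cons (Ent.pos F4_19_5_0) (Ls.cons (Ent.pos F4_18_5_0) (Ls.cons (Ent.pos F4_17_5_0) (Ls.cons (Ent.pos F4_16_5_0) (Ls.cons (Ent.pos F4_15_5_0) (Ls.cons (Ent.neg F4_14_5_0) (Ls.cons (Ent.neg F4_13_5_0) (Ls.cons (Ent.neg F4_12_5_0) (Ls.cons (Ent.neg F4_11_5_0) (Ls.cons (Ent.neg F4_10_5_0) (Ls.cons (Ent.neg F4_9_5_0) (Ls.cons (Ent.neg F4_8_5_0) (Ls.cons (Ent.neg F4_7_5_0) (Ls.cons (Ent.neg F4_6_5_0) Ls.nil)))))))))))))))))))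
 (Ls.cons (Ls.cons Ent.zero (Ls.cons Ent.zero (Ls.cons (Ent.pos F4_22_6_0) (Ls.cons (Ent.pos F4_21_6_0) (Ls.cons (Ent.pos F4_20_6_0) (Ls.cons (Ent.pos F4_19_6_0) (Ls.cons (Ent.pos F4_18_6_0) (Ls.cons (Ent.pos F4_17_6_0) (Ls.cons (Ent.pos F4_16_6_0) (Ls.cons (Ent.neg F4_15_6_0) (Ls.cons (Ent.neg F4_14_6_0) (Ls.cons (Ent.neg F4_13_6_0) (Ls.cons (Ent.neg F4_12_6_0) (Ls.cons (Ent.neg F4_11_6_0) (Ls.cons (Ent.neg F4_10_6_0) (Ls.cons (Ent.neg F4_9_6_0) (Ls.cons (Ent.neg F4_8_6_0) (Ls.cons (Ent.neg F4_7_6_0) Ls.nil))))))))))))))))))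
 (Ls.cons (Ls.cons Ent.zero (Ls.cons Ent.zero (Ls.cons Ent.zero (Ls.cons (Ent.pos F4_21_7_0) (Ls.cons (Ent.pos F4_20_7_0) (Ls.cons (Ent.pos F4_19_7_0) (Ls.cons (Ent.pos F4_18_7_0) (Ls.cons (Ent.pos F4_17_7_0) (Ls.cons (Ent.pos F4_16_7_0) (Ls.cons (Ent.pos F4_15_7_0) (Ls.cons (Ent.neg F4_14_7_0) (Ls.cons (Ent.neg F4_13_7_0) (Ls.cons (Ent.neg F4_12_7_0) (Ls.cons (Ent.neg F4_11_7_0) (Ls.cons (Ent.neg F4_10_7_0) (Ls.cons (Ent.neg F4_9_7_0) (Ls.cons (Ent.neg F4_8_7_0) Ls.nil)))))))))))))))))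
 (Ls.cons (Ls.cons Ent.zero (Ls.cons Ent.zero (Ls.cons (Ent.neg F4_22_8_0) (Ls.cons (Ent.neg F4_21_8_0) (Ls.cons (Ent.neg F4_20_8_0) (Ls.cons (Ent.neg F4_19_8_0) (Ls.cons (Ent.pos F4_18_8_0) (Ls.cons (Ent.pos F4_17_8_0) (Ls.cons (Ent.pos F4_16_8_0) (Ls.cons (Ent.pos F4_15_8_0) (Ls.cons (Ent.pos F4_14_8_0) (Ls.cons (Ent.neg F4_13_8_0) (Ls.cons (Ent.neg F4_12_8_0) (Ls.cons (Ent.neg F4_11_8_0) (Ls.cons (Ent.neg F4_10_8_0) (Ls.cons (Ent.neg F4_9_8_0) Ls.nil))))))))))))))))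
 (Ls.cons (Ls.cons Ent.zero (Ls.cons Ent.zero (Ls.cons (Ent.neg F4_22_9_0) (Ls.cons (Ent.neg F4_21_9_0) (Ls.cons (Ent.neg F4_20_9_0) (Ls.cons (Ent.neg F4_19_9_0) (Ls.cons (Ent.neg F4_18_9_0) (Ls.cons (Ent.pos F4_17_9_0) (Ls.cons (Ent.pos F4_16_9_0) (Ls.cons (Ent.pos F4_15_9_0) (Ls.cons (Ent.pos F4_14_9_0) (Ls.cons (Ent.pos F4_13_9_0) (Ls.cons (Ent.neg F4_12_9_0) (Ls.cons (Ent.neg F4_11_9_0) (Ls.cons (Ent.neg F4_10_9_0) Ls.nil)))))))))))))))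
 (Ls.cons (Ls.cons Ent.zero (Ls.cons Ent.zero (Ls.cons (Ent.neg F4_22_10_0) (Ls.cons (Ent.neg F4_21_10_0) (Ls.cons (Ent.neg F4_20_10_0) (Ls.cons (Ent.neg F4_19_10_0) (Ls.cons (Ent.neg F4_18_10_0) (Ls.cons (Ent.neg F4_17_10_0) (Ls.cons (Ent.neg F4_16_10_0) (Ls.cons (Ent.neg F4_15_10_0) (Ls.cons (Ent.neg F4_14_10_0) (Ls.cons (Ent.neg F4_13_10_0) (Ls.cons Ent.zero (Ls.cons (Ent.neg F4_11_10_0) Ls.nil))))))))))))))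
 (Ls.cons (Ls.cons Ent.zero (Ls.cons Ent.zero (Ls.cons (Ent.neg F4_22_11_0) (Ls.cons (Ent.neg F4_21_11_0) (Ls.cons (Ent.neg F4_20_11_0) (Ls.cons (Ent.neg F4_19_11_0) (Ls.cons (Ent.neg F4_18_11_0) (Ls.cons (Ent.neg F4_17_11_0) (Ls.cons (Ent.neg F4_16_11_0) (Ls.cons (Ent.neg F4_15_11_0) (Ls.cons (Ent.neg F4_14_11_0) (Ls.cons (Ent.pos F4_13_11_0) (Ls.cons (Ent.neg F4_12_11_0) Ls.nil)))))))))))))
 (Ls.cons (Ls.cons Ent.zero (Ls.cons Ent.zero (Ls.cons Ent.zero (Ls.cons (Ent.neg F4_21_12_0) (Ls.cons (Ent.neg F4_20_12_0) (Ls.cons (Ent.neg F4_19_12_0) (Ls.cons (Ent.neg F4_18_12_0) (Ls.cons (Ent.neg F4_17_12_0) (Ls.cons (Ent.neg F4_16_12_0) (Ls.cons (Ent.neg F4_15_12_0) (Ls.cons (Ent.neg F4_14_12_0) (Ls.cons (Ent.neg F4_13_12_0) Ls.nil))))))))))))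
 (Ls.cons (Ls.cons Ent.zero (Ls.cons Ent.zero (Ls.cons Ent.zero (Ls.cons Ent.zero (Ls.cons (Ent.neg F4_20_13_0) (Ls.cons (Ent.neg F4_19_13_0) (Ls.cons (Ent.neg F4_18_13_0) (Ls.cons (Ent.neg F4_17_13_0) (Ls.cons (Ent.neg F4_16_13_0) (Ls.cons (Ent.neg F4_15_13_0) (Ls.cons (Ent.neg F4_14_13_0) Ls.nil)))))))))))
 (Ls.cons (Ls.cons Ent.zero (Ls.cons Ent.zero (Ls.cons Ent.zero (Ls.cons Ent.zero (Ls.cons Ent.zero (Ls.cons (Ent.neg F4_19_14_0) (Ls.cons (Ent.neg F4_18_14_0) (Ls.cons (Ent.neg F4_17_14_0) (Ls.cons (Ent.neg F4_16_14_0) (Ls.cons (Ent.neg F4_15_14_0) Ls.nil))))))))))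
 (Ls.cons (Ls.cons Ent.zero (Ls.cons Ent.zero (Ls.cons Ent.zero (Ls.cons Ent.zero (Ls.cons Ent.zero (Ls.cons Ent.zero (Ls.cons Ent.zero (Ls.cons Ent.zero (Ls.cons (Ent.neg F4_16_15_0) Ls.nil)))))))))
 (Ls.cons (Ls.cons Ent.zero (Ls.cons Ent.zero (Ls.cons Ent.zero (Ls.cons Ent.zero (Ls.cons Ent.zero (Ls.cons Ent.zero (Ls.cons Ent.zero (Ls.cons (Ent.neg F4_17_16_0) Ls.nil))))))))
 (Ls.cons (Ls.cons Ent.zero (Ls.cons Ent.zero (Ls.cons Ent.zero (Ls.cons Ent.zero (Ls.cons Ent.zero (Ls.cons Ent.zero (Ls.cons Ent.zero Ls.nil)))))))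
 (Ls.cons (Ls.cons Ent.zero (Ls.cons Ent.zero (Ls.cons Ent.zero (Ls.cons Ent.zero (Ls.cons Ent.zero (Ls.cons Ent.zero Ls.nil))))))
 (Ls.cons (Ls.cons Ent.zero (Ls.cons Ent.zero (Ls.cons Ent.zero (Ls.cons Ent.zero (Ls.cons Ent.zero Ls.nil)))))
 Ls.nil))))))))))))))))))))

noncomputable def cF4_1_0 : L2 :=
 (Ls.cons Ls.nil
 (Ls.cons Ls.nil
 (Ls.cons (Ls.cons (Ent.pos F4_24_2_1) (Ls.cons (Ent.pos F4_23_2_1) (Ls.cons (Ent.pos F4_22_2_1) (Ls.cons (Ent.pos F4_21_2_1) (Ls.cons (Ent.pos F4_20_2_1) (Ls.cons (Ent.pos F4_19_2_1) (Ls.cons (Ent.pos F4_18_2_1) (Ls.cons (Ent.pos F4_17_2_1) (Ls.cons (Ent.neg F4_16_2_1) (Ls.cons (Ent.pos F4_15_2_1) (Ls.cons (Ent.neg F4_14_2_1) (Ls.cons (Ent.neg F4_13_2_1) (Ls.cons (Ent.neg F4_12_2_1) (Ls.cons (Ent.neg F4_11_2_1) (Ls.cons (Ent.neg F4_10_2_1) (Ls.cons (Ent.neg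 F4_9_2_1) (Ls.cons (Ent.neg F4_8_2_1) (Ls.cons (Ent.neg F4_7_2_1) (Ls.cons (Ent.neg F4_6_2_1) (Ls.cons (Ent.pos F4_5_2_1) (Ls.cons (Ent.neg F4_4_2_1) (Ls.cons (Ent.pos F4_3_2_1) Ls.nil))))))))))))))))))))))
 (Ls.cons (Ls.cons Ent.zero (Ls.cons (Ent.neg F4_23_3_1) (Ls.cons (Ent.neg F4_22_3_1) (Ls.cons (Ent.neg F4_21_3_1) (Ls.cons (Ent.neg F4_20_3_1) (Ls.cons (Ent.neg F4_19_3_1) (Ls.cons (Ent.pos F4_18_3_1) (Ls.cons (Ent.neg F4_17_3_1) (Ls.cons (Ent.pos F4_16_3_1) (Ls.cons (Ent.neg F4_15_3_1) (Ls.cons (Ent.pos F4_14_3_1) (Ls.cons (Ent.pos F4_13_3_1) (Ls.cons (Ent.pos F4_12_3_1) (Ls.cons (Ent.pos F4_11_3_1) (Ls.cons (Ent.pos F4_10_3_1) (Ls.cons (Ent.pos F4_9_3_1) (Ls.cons (Ent.pos F4_8_3_1) (Ls.cons (Ent.pos F4_7_3_1) (Ls.cons (Ent.pos F4_6_3_1) (Ls.cons (Ent.pos F4_5_3_1) (Ls.cons (Ent.pos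 F4_4_3_1) Ls.nil)))))))))))))))))))))
 (Ls.cons (Ls.cons Ent.zero (Ls.cons (Ent.neg F4_23_4_1) (Ls.cons (Ent.neg F4_22_4_1) (Ls.cons (Ent.neg F4_21_4_1) (Ls.cons (Ent.neg F4_20_4_1) (Ls.cons (Ent.neg F4_19_4_1) (Ls.cons (Ent.neg F4_18_4_1) (Ls.cons (Ent.pos F4_17_4_1) (Ls.cons (Ent.neg F4_16_4_1) (Ls.cons (Ent.pos F4_15_4_1) (Ls.cons (Ent.pos F4_14_4_1) (Ls.cons (Ent.pos F4_13_4_1) (Ls.cons (Ent.pos F4_12_4_1) (Ls.cons (Ent.pos F4_11_4_1) (Ls.cons (Ent.pos F4_10_4_1) (Ls.cons (Ent.pos F4_9_4_1) (Ls.cons (Ent.pos F4_8_4_1) (Ls.cons (Ent.pos F4_7_4_1) (Ls.cons (Ent.neg F4_6_4_1) (Ls.cons (Ent.pos F4_5_4_1) Ls.nil))))))))))))))))))))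
 (Ls.cons (Ls.cons Ent.zero (Ls.cons Ent.zero (Ls.cons Ent.zero (Ls.cons (Ent.neg F4_21_5_1) (Ls.cons (Ent.neg F4_20_5_1) (Ls.cons (Ent.neg F4_19_5_1) (Ls.cons (Ent.neg F4_18_5_1) (Ls.cons (Ent.neg F4_17_5_1) (Ls.cons (Ent.neg F4_16_5_1) (Ls.cons (Ent.neg F4_15_5_1) (Ls.cons (Ent.pos F4_14_5_1) (Ls.cons (Ent.pos F4_13_5_1) (Ls.cons (Ent.pos F4_12_5_1) (Ls.cons (Ent.pos F4_11_5_1) (Ls.cons (Ent.pos F4_10_5_1) (Ls.cons (Ent.pos F4_9_5_1) (Ls.cons (Ent.pos F4_8_5_1) (Ls.cons (Ent.pos F4_7_5_1) (Ls.cons (Ent.pos F4_6_5_1) Ls.nil)))))))))))))))))))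
 (Ls.cons (Ls.cons Ent.zero (Ls.cons Ent.zero (Ls.cons Ent.zero (Ls.cons (Ent.neg F4_21_6_1) (Ls.cons (Ent.neg F4_20_6_1) (Ls.cons (Ent.neg F4_19_6_1) (Ls.cons (Ent.neg F4_18_6_1) (Ls.cons (Ent.neg F4_17_6_1) (Ls.cons (Ent.neg F4_16_6_1) (Ls.cons (Ent.pos F4_15_6_1) (Ls.cons (Ent.pos F4_14_6_1) (Ls.cons (Ent.pos F4_13_6_1) (Ls.cons (Ent.pos F4_12_6_1) (Ls.cons (Ent.pos F4_11_6_1) (Ls.cons (Ent.pos F4_10_6_1) (Ls.cons (Ent.pos F4_9_6_1) (Ls.cons (Ent.pos F4_8_6_1) (Ls.cons (Ent.pos F4_7_6_1) Ls.nil))))))))))))))))))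
 (Ls.cons (Ls.cons Ent.zero (Ls.cons Ent.zero (Ls.cons Ent.zero (Ls.cons (Ent.neg F4_21_7_1) (Ls.cons (Ent.neg F4_20_7_1) (Ls.cons (Ent.neg F4_19_7_1) (Ls.cons (Ent.neg F4_18_7_1) (Ls.cons (Ent.neg F4_17_7_1) (Ls.cons (Ent.neg F4_16_7_1) (Ls.cons (Ent.neg F4_15_7_1) (Ls.cons (Ent.pos F4_14_7_1) (Ls.cons (Ent.pos F4_13_7_1) (Ls.cons (Ent.pos F4_12_7_1) (Ls.cons (Ent.pos F4_11_7_1) (Ls.cons (Ent.pos F4_10_7_1) (Ls.cons (Ent.pos F4_9_7_1) (Ls.cons (Ent.pos F4_8_7_1) Ls.nil)))))))))))))))))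
 (Ls.cons (Ls.cons Ent.zero (Ls.cons Ent.zero (Ls.cons Ent.zero (Ls.cons (Ent.pos F4_21_8_1) (Ls.cons (Ent.pos F4_20_8_1) (Ls.cons (Ent.pos F4_19_8_1) (Ls.cons (Ent.neg F4_18_8_1) (Ls.cons (Ent.neg F4_17_8_1) (Ls.cons (Ent.neg F4_16_8_1) (Ls.cons (Ent.neg F4_15_8_1) (Ls.cons (Ent.neg F4_14_8_1) (Ls.cons (Ent.pos F4_13_8_1) (Ls.cons (Ent.pos F4_12_8_1) (Ls.cons (Ent.pos F4_11_8_1) (Ls.cons (Ent.pos F4_10_8_1) (Ls.cons (Ent.pos F4_9_8_1) Ls.nil))))))))))))))))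
 (Ls.cons (Ls.cons Ent.zero (Ls.cons Ent.zero (Ls.cons Ent.zero (Ls.cons Ent.zero (Ls.cons (Ent.pos F4_20_9_1) (Ls.cons (Ent.pos F4_19_9_1) (Ls.cons (Ent.pos F4_18_9_1) (Ls.cons (Ent.neg F4_17_9_1) (Ls.cons (Ent.neg F4_16_9_1) (Ls.cons (Ent.neg F4_15_9_1) (Ls.cons (Ent.neg F4_14_9_1) (Ls.cons (Ent.neg F4_13_9_1) (Ls.cons (Ent.pos F4_12_9_1) (Ls.cons (Ent.pos F4_11_9_1) (Ls.cons (Ent.pos F4_10_9_1) Ls.nil)))))))))))))))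
 (Ls.cons (Ls.cons Ent.zero (Ls.cons Ent.zero (Ls.cons Ent.zero (Ls.cons Ent.zero (Ls.cons (Ent.pos F4_20_10_1) (Ls.cons (Ent.pos F4_19_10_1) (Ls.cons (Ent.pos F4_18_10_1) (Ls.cons (Ent.pos F4_17_10_1) (Ls.cons (Ent.pos F4_16_10_1) (Ls.cons (Ent.pos F4_15_10_1) (Ls.cons (Ent.pos F4_14_10_1) (Ls.cons (Ent.pos F4_13_10_1) (Ls.cons Ent.zero (Ls.cons (Ent.pos F4_11_10_1) Ls.nil))))))))))))))
 (Ls.cons (Ls.cons Ent.zero (Ls.cons Ent.zero (Ls.cons Ent.zero (Ls.cons Ent.zero (Ls.cons (Ent.pos F4_20_11_1) (Ls.cons (Ent.pos F4_19_11_1) (Ls.cons (Ent.pos F4_18_11_1) (Ls.cons (Ent.pos F4_17_11_1) (Ls.cons (Ent.pos F4_16_11_1) (Ls.cons (Ent.pos F4_15_11_1) (Ls.cons (Ent.pos F4_14_11_1) (Ls.cons (Ent.neg F4_13_11_1) (Ls.cons (Ent.pos F4_12_11_1) Ls.nil)))))))))))))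
 (Ls.cons (Ls.cons Ent.zero (Ls.cons Ent.zero (Ls.cons Ent.zero (Ls.cons Ent.zero (Ls.cons (Ent.pos F4_20_12_1) (Ls.cons (Ent.pos F4_19_12_1) (Ls.cons (Ent.pos F4_18_12_1) (Ls.cons (Ent.pos F4_17_12_1) (Ls.cons (Ent.pos F4_16_12_1) (Ls.cons (Ent.pos F4_15_12_1) (Ls.cons (Ent.pos F4_14_12_1) (Ls.cons (Ent.pos F4_13_12_1) Ls.nil))))))))))))
 (Ls.cons (Ls.cons Ent.zero (Ls.cons Ent.zero (Ls.cons Ent.zero (Ls.cons Ent.zero (Ls.cons Ent.zero (Ls.cons (Ent.pos F4_19_13_1) (Ls.cons (Ent.pos F4_18_13_1) (Ls.cons (Ent.pos F4_17_13_1) (Ls.cons (Ent.pos F4_16_13_1) (Ls.cons (Ent.pos F4_15_13_1) (Ls.cons (Ent.pos F4_14_13_1) Ls.nil)))))))))))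
 (Ls.cons (Ls.cons Ent.zero (Ls.cons Ent.zero (Ls.cons Ent.zero (Ls.cons Ent.zero (Ls.cons Ent.zero (Ls.cons (Ent.pos F4_19_14_1) (Ls.cons (Ent.pos F4_18_14_1) (Ls.cons (Ent.pos F4_17_14_1) (Ls.cons (Ent.pos F4_16_14_1) (Ls.cons (Ent.pos F4_15_14_1) Ls.nil))))))))))
 (Ls.cons (Ls.cons Ent.zero (Ls.cons Ent.zero (Ls.cons Ent.zero (Ls.cons Ent.zero (Ls.cons Ent.zero (Ls.cons Ent.zero (Ls.cons Ent.zero (Ls.cons Ent.zero (Ls.cons (Ent.pos F4_16_15_1) Ls.nil)))))))))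
 (Ls.cons (Ls.cons Ent.zero (Ls.cons Ent.zero (Ls.cons Ent.zero (Ls.cons Ent.zero (Ls.cons Ent.zero (Ls.cons Ent.zero (Ls.cons Ent.zero (Ls.cons (Ent.pos F4_17_16_1) Ls.nil))))))))
 (Ls.cons (Ls.cons Ent.zero (Ls.cons Ent.zero (Ls.cons Ent.zero (Ls.cons Ent.zero (Ls.cons Ent.zero (Ls.cons Ent.zero (Ls.cons Ent.zero Ls.nil)))))))
 (Ls.cons Ls.nil
 (Ls.cons Ls.nil
 Ls.nil))))))))))))))))))))

noncomputable def cF4_2_0 : L2 :=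
 (Ls.cons Ls.nil
 (Ls.cons Ls.nil
 (Ls.cons Ls.nil
 (Ls.cons (Ls.cons Ent.zero (Ls.cons Ent.zero (Ls.cons (Ent.pos F4_22_3_2) (Ls.cons (Ent.pos F4_21_3_2) (Ls.cons (Ent.pos F4_20_3_2) (Ls.cons (Ent.pos F4_19_3_2) (Ls.cons Ent.zero (Ls.cons (Ent.pos F4_17_3_2) (Ls.cons (Ent.neg F4_16_3_2) (Ls.cons Ent.zero (Ls.cons (Ent.neg F4_14_3_2) (Ls.cons (Ent.neg F4_13_3_2) (Ls.cons (Ent.neg F4_12_3_2) (Ls.cons (Ent.neg F4_11_3_2) (Ls.cons (Ent.neg F4_10_3_2) (Ls.cons (Ent.neg F4_9_3_2) (Ls.cons (Ent.neg F4_8_3_2) (Ls.cons (Ent.neg F4_7_3_2) (Ls.cons (Ent.neg F4_6_3_2) (Ls.cons Ent.zero (Ls.cons (Ent.neg F4_4_3_2) Ls.nil)))))))))))))))))))))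
 (Ls.cons (Ls.cons Ent.zero (Ls.cons Ent.zero (Ls.cons Ent.zero (Ls.cons (Ent.pos F4_21_4_2) (Ls.cons (Ent.pos F4_20_4_2) (Ls.cons (Ent.pos F4_19_4_2) (Ls.cons (Ent.pos F4_18_4_2) (Ls.cons Ent.zero (Ls.cons Ent.zero (Ls.cons Ent.zero (Ls.cons (Ent.neg F4_14_4_2) (Ls.cons (Ent.neg F4_13_4_2) (Ls.cons (Ent.neg F4_12_4_2) (Ls.cons (Ent.neg F4_11_4_2) (Ls.cons (Ent.neg F4_10_4_2) (Ls.cons (Ent.neg F4_9_4_2) (Ls.cons (Ent.neg F4_8_4_2) (Ls.cons Ent.zero (Ls.cons Ent.zero (Ls.cons Ent.zero Ls.nil))))))))))))))))))))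
 (Ls.cons (Ls.cons Ent.zero (Ls.cons Ent.zero (Ls.cons Ent.zero (Ls.cons (Ent.pos F4_21_5_2) (Ls.cons (Ent.pos F4_20_5_2) (Ls.cons (Ent.pos F4_19_5_2) (Ls.cons (Ent.pos F4_18_5_2) (Ls.cons (Ent.pos F4_17_5_2) (Ls.cons Ent.zero (Ls.cons Ent.zero (Ls.cons (Ent.neg F4_14_5_2) (Ls.cons (Ent.neg F4_13_5_2) (Ls.cons (Ent.neg F4_12_5_2) (Ls.cons (Ent.neg F4_11_5_2) (Ls.cons (Ent.neg F4_10_5_2) (Ls.cons (Ent.neg F4_9_5_2) (Ls.cons (Ent.neg F4_8_5_2) (Ls.cons (Ent.neg F4_7_5_2) (Ls.cons (Ent.neg F4_6_5_2) Ls.nil)))))))))))))))))))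
 (Ls.cons (Ls.cons Ent.zero (Ls.cons Ent.zero (Ls.cons Ent.zero (Ls.cons (Ent.pos F4_21_6_2) (Ls.cons (Ent.pos F4_20_6_2) (Ls.cons (Ent.pos F4_19_6_2) (Ls.cons (Ent.pos F4_18_6_2) (Ls.cons (Ent.pos F4_17_6_2) (Ls.cons (Ent.pos F4_16_6_2) (Ls.cons Ent.zero (Ls.cons (Ent.neg F4_14_6_2) (Ls.cons (Ent.neg F4_13_6_2) (Ls.cons (Ent.neg F4_12_6_2) (Ls.cons (Ent.neg F4_11_6_2) (Ls.cons (Ent.neg F4_10_6_2) (Ls.cons (Ent.neg F4_9_6_2) (Ls.cons (Ent.neg F4_8_6_2) (Ls.cons Ent.zero Ls.nil))))))))))))))))))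
 (Ls.cons (Ls.cons Ent.zero (Ls.cons Ent.zero (Ls.cons Ent.zero (Ls.cons (Ent.pos F4_21_7_2) (Ls.cons (Ent.pos F4_20_7_2) (Ls.cons (Ent.pos F4_19_7_2) (Ls.cons (Ent.pos F4_18_7_2) (Ls.cons (Ent.pos F4_17_7_2) (Ls.cons (Ent.pos F4_16_7_2) (Ls.cons (Ent.pos F4_15_7_2) (Ls.cons (Ent.neg F4_14_7_2) (Ls.cons (Ent.neg F4_13_7_2) (Ls.cons (Ent.neg F4_12_7_2) (Ls.cons (Ent.neg F4_11_7_2) (Ls.cons (Ent.neg F4_10_7_2) (Ls.cons (Ent.neg F4_9_7_2) (Ls.cons (Ent.neg F4_8_7_2) Ls.nil)))))))))))))))))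
 (Ls.cons (Ls.cons Ent.zero (Ls.cons Ent.zero (Ls.cons Ent.zero (Ls.cons Ent.zero (Ls.cons Ent.zero (Ls.cons Ent.zero (Ls.cons (Ent.pos F4_18_8_2) (Ls.cons (Ent.pos F4_17_8_2) (Ls.cons (Ent.pos F4_16_8_2) (Ls.cons (Ent.pos F4_15_8_2) (Ls.cons Ent.zero (Ls.cons (Ent.neg F4_13_8_2) (Ls.cons (Ent.neg F4_12_8_2) (Ls.cons (Ent.neg F4_11_8_2) (Ls.cons (Ent.neg F4_10_8_2) (Ls.cons Ent.zero Ls.nil))))))))))))))))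
 (Ls.cons (Ls.cons Ent.zero (Ls.cons Ent.zero (Ls.cons Ent.zero (Ls.cons Ent.zero (Ls.cons (Ent.neg F4_20_9_2) (Ls.cons Ent.zero (Ls.cons Ent.zero (Ls.cons (Ent.pos F4_17_9_2) (Ls.cons (Ent.pos F4_16_9_2) (Ls.cons (Ent.pos F4_15_9_2) (Ls.cons Ent.zero (Ls.cons Ent.zero (Ls.cons (Ent.neg F4_12_9_2) (Ls.cons (Ent.neg F4_11_9_2) (Ls.cons (Ent.neg F4_10_9_2) Ls.nil)))))))))))))))
 (Ls.cons (Ls.cons Ent.zero (Ls.cons Ent.zero (Ls.cons Ent.zero (Ls.cons Ent.zero (Ls.cons (Ent.neg F4_20_10_2) (Ls.cons (Ent.neg F4_19_10_2) (Ls.cons (Ent.neg F4_18_10_2) (Ls.cons (Ent.neg F4_17_10_2) (Ls.cons Ent.zero (Ls.cons Ent.zero (Ls.cons Ent.zero (Ls.cons Ent.zero (Ls.cons Ent.zero (Ls.cons Ent.zero Ls.nil))))))))))))))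
 (Ls.cons (Ls.cons Ent.zero (Ls.cons Ent.zero (Ls.cons Ent.zero (Ls.cons Ent.zero (Ls.cons (Ent.neg F4_20_11_2) (Ls.cons (Ent.neg F4_19_11_2) (Ls.cons (Ent.neg F4_18_11_2) (Ls.cons (Ent.neg F4_17_11_2) (Ls.cons (Ent.neg F4_16_11_2) (Ls.cons Ent.zero (Ls.cons Ent.zero (Ls.cons (Ent.pos F4_13_11_2) (Ls.cons (Ent.neg F4_12_11_2) Ls.nil)))))))))))))
 (Ls.cons (Ls.cons Ent.zero (Ls.cons Ent.zero (Ls.cons Ent.zero (Ls.cons Ent.zero (Ls.cons Ent.zero (Ls.cons (Ent.neg F4_19_12_2) (Ls.cons (Ent.neg F4_18_12_2) (Ls.cons (Ent.neg F4_17_12_2) (Ls.cons (Ent.neg F4_16_12_2) (Ls.cons (Ent.neg F4_15_12_2) (Ls.cons Ent.zero (Ls.cons (Ent.neg F4_13_12_2) Ls.nil))))))))))))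
 (Ls.cons (Ls.cons Ent.zero (Ls.cons Ent.zero (Ls.cons Ent.zero (Ls.cons Ent.zero (Ls.cons Ent.zero (Ls.cons (Ent.neg F4_19_13_2) (Ls.cons (Ent.neg F4_18_13_2) (Ls.cons (Ent.neg F4_17_13_2) (Ls.cons (Ent.neg F4_16_13_2) (Ls.cons (Ent.neg F4_15_13_2) (Ls.cons Ent.zero Ls.nil)))))))))))
 (Ls.cons (Ls.cons Ent.zero (Ls.cons Ent.zero (Ls.cons Ent.zero (Ls.cons Ent.zero (Ls.cons Ent.zero (Ls.cons (Ent.neg F4_19_14_2) (Ls.cons (Ent.neg F4_18_14_2) (Ls.cons (Ent.neg F4_17_14_2) (Ls.cons (Ent.neg F4_16_14_2) (Ls.cons (Ent.neg F4_15_14_2) Ls.nil))))))))))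
 (Ls.cons (Ls.cons Ent.zero (Ls.cons Ent.zero (Ls.cons Ent.zero (Ls.cons Ent.zero (Ls.cons Ent.zero (Ls.cons Ent.zero (Ls.cons Ent.zero (Ls.cons Ent.zero (Ls.cons Ent.zero Ls.nil)))))))))
 (Ls.cons (Ls.cons Ent.zero (Ls.cons Ent.zero (Ls.cons Ent.zero (Ls.cons Ent.zero (Ls.cons Ent.zero (Ls.cons Ent.zero (Ls.cons Ent.zero (Ls.cons (Ent.neg F4_17_16_2) Ls.nil))))))))
 (Ls.cons (Ls.cons Ent.zero (Ls.cons Ent.zero (Ls.cons Ent.zero (Ls.cons Ent.zero (Ls.cons Ent.zero (Ls.cons Ent.zero (Ls.cons Ent.zero Ls.nil)))))))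
 (Ls.cons Ls.nil
 (Ls.cons Ls.nil
 Ls.nil))))))))))))))))))))

noncomputable def cF4_3_0 : L2 :=
 (Ls.cons Ls.nil
 (Ls.cons Ls.nil
 (Ls.cons Ls.nil
 (Ls.cons Ls.nil
 (Ls.cons (Ls.cons Ent.zero (Ls.cons Ent.zero (Ls.cons Ent.zero (Ls.cons Ent.zero (Ls.cons (Ent.pos F4_20_4_3) (Ls.cons Ent.zero (Ls.cons (Ent.pos F4_18_4_3) (Ls.cons Ent.zero (Ls.cons (Ent.pos F4_16_4_3) (Ls.cons (Ent.neg F4_15_4_3) (Ls.cons Ent.zero (Ls.cons (Ent.neg F4_13_4_3) (Ls.cons Ent.zero (Ls.cons (Ent.neg F4_11_4_3) (Ls.cons Ent.zero (Ls.cons Ent.zero (Ls.cons Ent.zero (Ls.cons Ent.zero (Ls.cons Ent.zero (Ls.cons Ent.zero Ls.nil))))))))))))))))))))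
 (Ls.cons (Ls.cons Ent.zero (Ls.cons Ent.zero (Ls.cons Ent.zero (Ls.cons (Ent.pos F4_21_5_3) (Ls.cons (Ent.pos F4_20_5_3) (Ls.cons (Ent.pos F4_19_5_3) (Ls.cons (Ent.pos F4_18_5_3) (Ls.cons (Ent.pos F4_17_5_3) (Ls.cons (Ent.pos F4_16_5_3) (Ls.cons Ent.zero (Ls.cons (Ent.neg F4_14_5_3) (Ls.cons (Ent.neg F4_13_5_3) (Ls.cons (Ent.neg F4_12_5_3) (Ls.cons (Ent.neg F4_11_5_3) (Ls.cons (Ent.neg F4_10_5_3) (Ls.cons (Ent.neg F4_9_5_3) (Ls.cons (Ent.neg F4_8_5_3) (Ls.cons Ent.zero (Ls.cons Ent.zero Ls.nil)))))))))))))))))))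
 (Ls.cons (Ls.cons Ent.zero (Ls.cons Ent.zero (Ls.cons Ent.zero (Ls.cons Ent.zero (Ls.cons (Ent.pos F4_20_6_3) (Ls.cons (Ent.pos F4_19_6_3) (Ls.cons (Ent.pos F4_18_6_3) (Ls.cons (Ent.pos F4_17_6_3) (Ls.cons (Ent.pos F4_16_6_3) (Ls.cons Ent.zero (Ls.cons Ent.zero (Ls.cons (Ent.neg F4_13_6_3) (Ls.cons (Ent.neg F4_12_6_3) (Ls.cons (Ent.neg F4_11_6_3) (Ls.cons (Ent.neg F4_10_6_3) (Ls.cons (Ent.neg F4_9_6_3) (Ls.cons Ent.zero (Ls.cons Ent.zero Ls.nil))))))))))))))))))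
 (Ls.cons (Ls.cons Ent.zero (Ls.cons Ent.zero (Ls.cons Ent.zero (Ls.cons Ent.zero (Ls.cons (Ent.pos F4_20_7_3) (Ls.cons (Ent.pos F4_19_7_3) (Ls.cons (Ent.pos F4_18_7_3) (Ls.cons (Ent.pos F4_17_7_3) (Ls.cons (Ent.pos F4_16_7_3) (Ls.cons (Ent.pos F4_15_7_3) (Ls.cons Ent.zero (Ls.cons (Ent.neg F4_13_7_3) (Ls.cons (Ent.neg F4_12_7_3) (Ls.cons (Ent.neg F4_11_7_3) (Ls.cons (Ent.neg F4_10_7_3) (Ls.cons (Ent.neg F4_9_7_3) (Ls.cons (Ent.neg F4_8_7_3) Ls.nil)))))))))))))))))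
 (Ls.cons (Ls.cons Ent.zero (Ls.cons Ent.zero (Ls.cons Ent.zero (Ls.cons Ent.zero (Ls.cons (Ent.neg F4_20_8_3) (Ls.cons Ent.zero (Ls.cons Ent.zero (Ls.cons (Ent.pos F4_17_8_3) (Ls.cons (Ent.pos F4_16_8_3) (Ls.cons (Ent.pos F4_15_8_3) (Ls.cons Ent.zero (Ls.cons Ent.zero (Ls.cons (Ent.neg F4_12_8_3) (Ls.cons (Ent.neg F4_11_8_3) (Ls.cons (Ent.neg F4_10_8_3) (Ls.cons Ent.zero Ls.nil))))))))))))))))
 (Ls.cons (Ls.cons Ent.zero (Ls.cons Ent.zero (Ls.cons Ent.zero (Ls.cons Ent.zero (Ls.cons (Ent.neg F4_20_9_3) (Ls.cons (Ent.neg F4_19_9_3) (Ls.cons Ent.zero (Ls.cons Ent.zero (Ls.cons (Ent.pos F4_16_9_3) (Ls.cons (Ent.pos F4_15_9_3) (Ls.cons (Ent.pos F4_14_9_3) (Ls.cons Ent.zero (Ls.cons (Ent.neg F4_12_9_3) (Ls.cons (Ent.neg F4_11_9_3) (Ls.cons (Ent.neg F4_10_9_3) Ls.nil)))))))))))))))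
 (Ls.cons (Ls.cons Ent.zero (Ls.cons Ent.zero (Ls.cons Ent.zero (Ls.cons Ent.zero (Ls.cons (Ent.neg F4_20_10_3) (Ls.cons (Ent.neg F4_19_10_3) (Ls.cons (Ent.neg F4_18_10_3) (Ls.cons (Ent.neg F4_17_10_3) (Ls.cons (Ent.neg F4_16_10_3) (Ls.cons Ent.zero (Ls.cons Ent.zero (Ls.cons Ent.zero (Ls.cons Ent.zero (Ls.cons Ent.zero Ls.nil))))))))))))))
 (Ls.cons (Ls.cons Ent.zero (Ls.cons Ent.zero (Ls.cons Ent.zero (Ls.cons Ent.zero (Ls.cons Ent.zero (Ls.cons (Ent.neg F4_19_11_3) (Ls.cons (Ent.neg F4_18_11_3) (Ls.cons (Ent.neg F4_17_11_3) (Ls.cons (Ent.neg F4_16_11_3) (Ls.cons (Ent.neg F4_15_11_3) (Ls.cons Ent.zero (Ls.cons Ent.zero (Ls.cons Ent.zero Ls.nil)))))))))))))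
 (Ls.cons (Ls.cons Ent.zero (Ls.cons Ent.zero (Ls.cons Ent.zero (Ls.cons Ent.zero (Ls.cons Ent.zero (Ls.cons Ent.zero (Ls.cons (Ent.neg F4_18_12_3) (Ls.cons (Ent.neg F4_17_12_3) (Ls.cons (Ent.neg F4_16_12_3) (Ls.cons (Ent.neg F4_15_12_3) (Ls.cons (Ent.neg F4_14_12_3) (Ls.cons Ent.zero Ls.nil))))))))))))
 (Ls.cons (Ls.cons Ent.zero (Ls.cons Ent.zero (Ls.cons Ent.zero (Ls.cons Ent.zero (Ls.cons Ent.zero (Ls.cons Ent.zero (Ls.cons (Ent.neg F4_18_13_3) (Ls.cons (Ent.neg F4_17_13_3) (Ls.cons (Ent.neg F4_16_13_3) (Ls.cons (Ent.neg F4_15_13_3) (Ls.cons Ent.zero Ls.nil)))))))))))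
 (Ls.cons (Ls.cons Ent.zero (Ls.cons Ent.zero (Ls.cons Ent.zero (Ls.cons Ent.zero (Ls.cons Ent.zero (Ls.cons (Ent.pos F4_19_14_3) (Ls.cons Ent.zero (Ls.cons Ent.zero (Ls.cons (Ent.neg F4_16_14_3) (Ls.cons Ent.zero Ls.nil))))))))))
 (Ls.cons (Ls.cons Ent.zero (Ls.cons Ent.zero (Ls.cons Ent.zero (Ls.cons Ent.zero (Ls.cons Ent.zero (Ls.cons Ent.zero (Ls.cons Ent.zero (Ls.cons Ent.zero (Ls.cons (Ent.neg F4_16_15_3) Ls.nil)))))))))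
 (Ls.cons (Ls.cons Ent.zero (Ls.cons Ent.zero (Ls.cons Ent.zero (Ls.cons Ent.zero (Ls.cons Ent.zero (Ls.cons Ent.zero (Ls.cons Ent.zero (Ls.cons (Ent.pos F4_17_16_3) Ls.nil))))))))
 (Ls.cons (Ls.cons Ent.zero (Ls.cons Ent.zero (Ls.cons Ent.zero (Ls.cons Ent.zero (Ls.cons Ent.zero (Ls.cons Ent.zero (Ls.cons Ent.zero Ls.nil)))))))
 (Ls.cons Ls.nil
 (Ls.cons Ls.nil
 Ls.nil))))))))))))))))))))

noncomputable def cF4_4_0 : L2 :=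
 (Ls.cons Ls.nil
 (Ls.cons Ls.nil
 (Ls.cons Ls.nil
 (Ls.cons Ls.nil
 (Ls.cons Ls.nil
 (Ls.cons (Ls.cons Ent.zero (Ls.cons Ent.zero (Ls.cons Ent.zero (Ls.cons (Ent.pos F4_21_5_4) (Ls.cons (Ent.pos F4_20_5_4) (Ls.cons (Ent.pos F4_19_5_4) (Ls.cons Ent.zero (Ls.cons (Ent.pos F4_17_5_4) (Ls.cons Ent.zero (Ls.cons (Ent.pos F4_15_5_4) (Ls.cons (Ent.neg F4_14_5_4) (Ls.cons Ent.zero (Ls.cons (Ent.neg F4_12_5_4) (Ls.cons Ent.zero (Ls.cons (Ent.neg F4_10_5_4) (Ls.cons (Ent.neg F4_9_5_4) (Ls.cons (Ent.neg F4_8_5_4) (Ls.cons Ent.zero (Ls.cons (Ent.neg F4_6_5_4) Ls.nil)))))))))))))))))))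
 (Ls.cons (Ls.cons Ent.zero (Ls.cons Ent.zero (Ls.cons Ent.zero (Ls.cons Ent.zero (Ls.cons Ent.zero (Ls.cons Ent.zero (Ls.cons (Ent.pos F4_18_6_4) (Ls.cons (Ent.pos F4_17_6_4) (Ls.cons (Ent.pos F4_16_6_4) (Ls.cons Ent.zero (Ls.cons Ent.zero (Ls.cons Ent.zero (Ls.cons (Ent.neg F4_12_6_4) (Ls.cons (Ent.neg F4_11_6_4) (Ls.cons (Ent.neg F4_10_6_4) (Ls.cons Ent.zero (Ls.cons Ent.zero (Ls.cons Ent.zero Ls.nil))))))))))))))))))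
 (Ls.cons (Ls.cons Ent.zero (Ls.cons Ent.zero (Ls.cons Ent.zero (Ls.cons Ent.zero (Ls.cons Ent.zero (Ls.cons (Ent.pos F4_19_7_4) (Ls.cons (Ent.pos F4_18_7_4) (Ls.cons (Ent.pos F4_17_7_4) (Ls.cons (Ent.pos F4_16_7_4) (Ls.cons (Ent.pos F4_15_7_4) (Ls.cons Ent.zero (Ls.cons Ent.zero (Ls.cons (Ent.neg F4_12_7_4) (Ls.cons (Ent.neg F4_11_7_4) (Ls.cons (Ent.neg F4_10_7_4) (Ls.cons (Ent.neg F4_9_7_4) (Ls.cons (Ent.neg F4_8_7_4) Ls.nil)))))))))))))))))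
 (Ls.cons (Ls.cons Ent.zero (Ls.cons Ent.zero (Ls.cons Ent.zero (Ls.cons Ent.zero (Ls.cons Ent.zero (Ls.cons (Ent.neg F4_19_8_4) (Ls.cons Ent.zero (Ls.cons Ent.zero (Ls.cons (Ent.pos F4_16_8_4) (Ls.cons Ent.zero (Ls.cons (Ent.pos F4_14_8_4) (Ls.cons Ent.zero (Ls.cons (Ent.neg F4_12_8_4) (Ls.cons Ent.zero (Ls.cons (Ent.neg F4_10_8_4) (Ls.cons Ent.zero Ls.nil))))))))))))))))
 (Ls.cons (Ls.cons Ent.zero (Ls.cons Ent.zero (Ls.cons Ent.zero (Ls.cons Ent.zero (Ls.cons (Ent.neg F4_20_9_4) (Ls.cons Ent.zero (Ls.cons (Ent.neg F4_18_9_4) (Ls.cons Ent.zero (Ls.cons Ent.zero (Ls.cons (Ent.pos F4_15_9_4) (Ls.cons Ent.zero (Ls.cons (Ent.pos F4_13_9_4) (Ls.cons (Ent.neg F4_12_9_4) (Ls.cons Ent.zero (Ls.cons (Ent.neg F4_10_9_4) Ls.nil)))))))))))))))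
 (Ls.cons (Ls.cons Ent.zero (Ls.cons Ent.zero (Ls.cons Ent.zero (Ls.cons Ent.zero (Ls.cons Ent.zero (Ls.cons (Ent.neg F4_19_10_4) (Ls.cons (Ent.neg F4_18_10_4) (Ls.cons (Ent.neg F4_17_10_4) (Ls.cons (Ent.neg F4_16_10_4) (Ls.cons (Ent.neg F4_15_10_4) (Ls.cons Ent.zero (Ls.cons Ent.zero (Ls.cons Ent.zero (Ls.cons Ent.zero Ls.nil))))))))))))))
 (Ls.cons (Ls.cons Ent.zero (Ls.cons Ent.zero (Ls.cons Ent.zero (Ls.cons Ent.zero (Ls.cons Ent.zero (Ls.cons Ent.zero (Ls.cons Ent.zero (Ls.cons (Ent.neg F4_17_11_4) (Ls.cons (Ent.neg F4_16_11_4) (Ls.cons Ent.zero (Ls.cons Ent.zero (Ls.cons Ent.zero (Ls.cons Ent.zero Ls.nil)))))))))))))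
 (Ls.cons (Ls.cons Ent.zero (Ls.cons Ent.zero (Ls.cons Ent.zero (Ls.cons Ent.zero (Ls.cons Ent.zero (Ls.cons Ent.zero (Ls.cons Ent.zero (Ls.cons (Ent.neg F4_17_12_4) (Ls.cons (Ent.neg F4_16_12_4) (Ls.cons (Ent.neg F4_15_12_4) (Ls.cons (Ent.neg F4_14_12_4) (Ls.cons (Ent.neg F4_13_12_4) Ls.nil))))))))))))
 (Ls.cons (Ls.cons Ent.zero (Ls.cons Ent.zero (Ls.cons Ent.zero (Ls.cons Ent.zero (Ls.cons Ent.zero (Ls.cons (Ent.pos F4_19_13_4) (Ls.cons (Ent.pos F4_18_13_4) (Ls.cons Ent.zero (Ls.cons Ent.zero (Ls.cons Ent.zero (Ls.cons Ent.zero Ls.nil)))))))))))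
 (Ls.cons (Ls.cons Ent.zero (Ls.cons Ent.zero (Ls.cons Ent.zero (Ls.cons Ent.zero (Ls.cons Ent.zero (Ls.cons Ent.zero (Ls.cons (Ent.pos F4_18_14_4) (Ls.cons Ent.zero (Ls.cons Ent.zero (Ls.cons (Ent.neg F4_15_14_4) Ls.nil))))))))))
 (Ls.cons (Ls.cons Ent.zero (Ls.cons Ent.zero (Ls.cons Ent.zero (Ls.cons Ent.zero (Ls.cons Ent.zero (Ls.cons Ent.zero (Ls.cons Ent.zero (Ls.cons Ent.zero (Ls.cons (Ent.pos F4_16_15_4) Ls.nil)))))))))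
 (Ls.cons (Ls.cons Ent.zero (Ls.cons Ent.zero (Ls.cons Ent.zero (Ls.cons Ent.zero (Ls.cons Ent.zero (Ls.cons Ent.zero (Ls.cons Ent.zero (Ls.cons Ent.zero Ls.nil))))))))
 (Ls.cons (Ls.cons Ent.zero (Ls.cons Ent.zero (Ls.cons Ent.zero (Ls.cons Ent.zero (Ls.cons Ent.zero (Ls.cons Ent.zero (Ls.cons Ent.zero Ls.nil)))))))
 (Ls.cons Ls.nil
 (Ls.cons Ls.nil
 Ls.nil))))))))))))))))))))

noncomputable def cF4_5_0 : L2 :=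
 (Ls.cons Ls.nil
 (Ls.cons Ls.nil
 (Ls.cons Ls.nil
 (Ls.cons Ls.nil
 (Ls.cons Ls.nil
 (Ls.cons Ls.nil
 (Ls.cons (Ls.cons Ent.zero (Ls.cons Ent.zero (Ls.cons Ent.zero (Ls.cons Ent.zero (Ls.cons Ent.zero (Ls.cons Ent.zero (Ls.cons Ent.zero (Ls.cons Ent.zero (Ls.cons Ent.zero (Ls.cons Ent.zero (Ls.cons (Ent.pos F4_14_6_5) (Ls.cons (Ent.neg F4_13_6_5) (Ls.cons Ent.zero (Ls.cons Ent.zero (Ls.cons Ent.zero (Ls.cons Ent.zero (Ls.cons Ent.zero (Ls.cons Ent.zero Ls.nil))))))))))))))))))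
 (Ls.cons (Ls.cons Ent.zero (Ls.cons Ent.zero (Ls.cons Ent.zero (Ls.cons Ent.zero (Ls.cons Ent.zero (Ls.cons Ent.zero (Ls.cons Ent.zero (Ls.cons Ent.zero (Ls.cons (Ent.pos F4_16_7_5) (Ls.cons (Ent.pos F4_15_7_5) (Ls.cons Ent.zero (Ls.cons Ent.zero (Ls.cons Ent.zero (Ls.cons (Ent.neg F4_11_7_5) (Ls.cons (Ent.neg F4_10_7_5) (Ls.cons Ent.zero (Ls.cons Ent.zero Ls.nil)))))))))))))))))
 (Ls.cons (Ls.cons Ent.zero (Ls.cons Ent.zero (Ls.cons Ent.zero (Ls.cons Ent.zero (Ls.cons Ent.zero (Ls.cons Ent.zero (Ls.cons Ent.zero (Ls.cons Ent.zero (Ls.cons Ent.zero (Ls.cons Ent.zero (Ls.cons (Ent.pos F4_14_8_5) (Ls.cons Ent.zero (Ls.cons Ent.zero (Ls.cons (Ent.neg F4_11_8_5) (Ls.cons Ent.zero (Ls.cons Ent.zero Ls.nil))))))))))))))))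
 (Ls.cons (Ls.cons Ent.zero (Ls.cons Ent.zero (Ls.cons Ent.zero (Ls.cons Ent.zero (Ls.cons Ent.zero (Ls.cons Ent.zero (Ls.cons Ent.zero (Ls.cons Ent.zero (Ls.cons Ent.zero (Ls.cons Ent.zero (Ls.cons (Ent.pos F4_14_9_5) (Ls.cons Ent.zero (Ls.cons Ent.zero (Ls.cons Ent.zero (Ls.cons (Ent.neg F4_10_9_5) Ls.nil)))))))))))))))
 (Ls.cons (Ls.cons Ent.zero (Ls.cons Ent.zero (Ls.cons Ent.zero (Ls.cons Ent.zero (Ls.cons Ent.zero (Ls.cons (Ent.pos F4_19_10_5) (Ls.cons Ent.zero (Ls.cons Ent.zero (Ls.cons (Ent.neg F4_16_10_5) (Ls.cons Ent.zero (Ls.cons (Ent.neg F4_14_10_5) (Ls.cons Ent.zero (Ls.cons Ent.zero (Ls.cons Ent.zero Ls.nil))))))))))))))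
 (Ls.cons (Ls.cons Ent.zero (Ls.cons Ent.zero (Ls.cons Ent.zero (Ls.cons Ent.zero (Ls.cons Ent.zero (Ls.cons (Ent.pos F4_19_11_5) (Ls.cons Ent.zero (Ls.cons Ent.zero (Ls.cons Ent.zero (Ls.cons (Ent.neg F4_15_11_5) (Ls.cons (Ent.neg F4_14_11_5) (Ls.cons Ent.zero (Ls.cons Ent.zero Ls.nil)))))))))))))
 (Ls.cons (Ls.cons Ent.zero (Ls.cons Ent.zero (Ls.cons Ent.zero (Ls.cons Ent.zero (Ls.cons Ent.zero (Ls.cons (Ent.pos F4_19_12_5) (Ls.cons (Ent.pos F4_18_12_5) (Ls.cons (Ent.pos F4_17_12_5) (Ls.cons Ent.zero (Ls.cons Ent.zero (Ls.cons Ent.zero (Ls.cons Ent.zero Ls.nil))))))))))))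
 (Ls.cons (Ls.cons Ent.zero (Ls.cons Ent.zero (Ls.cons Ent.zero (Ls.cons Ent.zero (Ls.cons Ent.zero (Ls.cons Ent.zero (Ls.cons (Ent.pos F4_18_13_5) (Ls.cons (Ent.pos F4_17_13_5) (Ls.cons Ent.zero (Ls.cons Ent.zero (Ls.cons (Ent.neg F4_14_13_5) Ls.nil)))))))))))
 (Ls.cons (Ls.cons Ent.zero (Ls.cons Ent.zero (Ls.cons Ent.zero (Ls.cons Ent.zero (Ls.cons Ent.zero (Ls.cons Ent.zero (Ls.cons Ent.zero (Ls.cons (Ent.pos F4_17_14_5) (Ls.cons (Ent.pos F4_16_14_5) (Ls.cons (Ent.pos F4_15_14_5) Ls.nil))))))))))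
 (Ls.cons (Ls.cons Ent.zero (Ls.cons Ent.zero (Ls.cons Ent.zero (Ls.cons Ent.zero (Ls.cons Ent.zero (Ls.cons Ent.zero (Ls.cons Ent.zero (Ls.cons Ent.zero (Ls.cons Ent.zero Ls.nil)))))))))
 (Ls.cons (Ls.cons Ent.zero (Ls.cons Ent.zero (Ls.cons Ent.zero (Ls.cons Ent.zero (Ls.cons Ent.zero (Ls.cons Ent.zero (Ls.cons Ent.zero (Ls.cons Ent.zero Ls.nil))))))))
 (Ls.cons Ls.nil
 (Ls.cons Ls.nil
 (Ls.cons Ls.nil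
 Ls.nil))))))))))))))))))))

noncomputable def cF4_6_0 : L2 :=
 (Ls.cons Ls.nil
 (Ls.cons Ls.nil
 (Ls.cons Ls.nil
 (Ls.cons Ls.nil
 (Ls.cons Ls.nil
 (Ls.cons Ls.nil
 (Ls.cons Ls.nil
 (Ls.cons (Ls.cons Ent.zero (Ls.cons Ent.zero (Ls.cons Ent.zero (Ls.cons Ent.zero (Ls.cons Ent.zero (Ls.cons Ent.zero (Ls.cons Ent.zero (Ls.cons (Ent.pos F4_17_7_6) (Ls.cons Ent.zero (Ls.cons (Ent.pos F4_15_7_6) (Ls.cons Ent.zero (Ls.cons (Ent.pos F4_13_7_6) (Ls.cons (Ent.neg F4_12_7_6) (Ls.cons Ent.zero (Ls.cons (Ent.neg F4_10_7_6) (Ls.cons Ent.zero (Ls.cons (Ent.neg F4_8_7_6) Ls.nil)))))))))))))))))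
 (Ls.cons (Ls.cons Ent.zero (Ls.cons Ent.zero (Ls.cons Ent.zero (Ls.cons Ent.zero (Ls.cons Ent.zero (Ls.cons Ent.zero (Ls.cons Ent.zero (Ls.cons (Ent.neg F4_17_8_6) (Ls.cons Ent.zero (Ls.cons Ent.zero (Ls.cons Ent.zero (Ls.cons Ent.zero (Ls.cons Ent.zero (Ls.cons Ent.zero (Ls.cons Ent.zero (Ls.cons Ent.zero Ls.nil))))))))))))))))
 (Ls.cons (Ls.cons Ent.zero (Ls.cons Ent.zero (Ls.cons Ent.zero (Ls.cons Ent.zero (Ls.cons Ent.zero (Ls.cons Ent.zero (Ls.cons Ent.zero (Ls.cons Ent.zero (Ls.cons Ent.zero (Ls.cons Ent.zero (Ls.cons Ent.zero (Ls.cons (Ent.pos F4_13_9_6) (Ls.cons Ent.zero (Ls.cons Ent.zero (Ls.cons (Ent.neg F4_10_9_6) Ls.nil)))))))))))))))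
 (Ls.cons (Ls.cons Ent.zero (Ls.cons Ent.zero (Ls.cons Ent.zero (Ls.cons Ent.zero (Ls.cons Ent.zero (Ls.cons (Ent.pos F4_19_10_6) (Ls.cons (Ent.pos F4_18_10_6) (Ls.cons Ent.zero (Ls.cons Ent.zero (Ls.cons (Ent.neg F4_15_10_6) (Ls.cons Ent.zero (Ls.cons (Ent.neg F4_13_10_6) (Ls.cons Ent.zero (Ls.cons Ent.zero Ls.nil))))))))))))))
 (Ls.cons (Ls.cons Ent.zero (Ls.cons Ent.zero (Ls.cons Ent.zero (Ls.cons Ent.zero (Ls.cons Ent.zero (Ls.cons (Ent.pos F4_19_11_6) (Ls.cons (Ent.pos F4_18_11_6) (Ls.cons (Ent.pos F4_17_11_6) (Ls.cons Ent.zero (Ls.cons Ent.zero (Ls.cons Ent.zero (Ls.cons Ent.zero (Ls.cons Ent.zero Ls.nil)))))))))))))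
 (Ls.cons (Ls.cons Ent.zero (Ls.cons Ent.zero (Ls.cons Ent.zero (Ls.cons Ent.zero (Ls.cons Ent.zero (Ls.cons Ent.zero (Ls.cons (Ent.pos F4_18_12_6) (Ls.cons (Ent.pos F4_17_12_6) (Ls.cons (Ent.pos F4_16_12_6) (Ls.cons Ent.zero (Ls.cons Ent.zero (Ls.cons (Ent.neg F4_13_12_6) Ls.nil))))))))))))
 (Ls.cons (Ls.cons Ent.zero (Ls.cons Ent.zero (Ls.cons Ent.zero (Ls.cons Ent.zero (Ls.cons Ent.zero (Ls.cons Ent.zero (Ls.cons Ent.zero (Ls.cons (Ent.pos F4_17_13_6) (Ls.cons (Ent.pos F4_16_13_6) (Ls.cons Ent.zero (Ls.cons (Ent.pos F4_14_13_6) Ls.nil)))))))))))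
 (Ls.cons (Ls.cons Ent.zero (Ls.cons Ent.zero (Ls.cons Ent.zero (Ls.cons Ent.zero (Ls.cons Ent.zero (Ls.cons Ent.zero (Ls.cons Ent.zero (Ls.cons Ent.zero (Ls.cons (Ent.pos F4_16_14_6) (Ls.cons Ent.zero Ls.nil))))))))))
 (Ls.cons (Ls.cons Ent.zero (Ls.cons Ent.zero (Ls.cons Ent.zero (Ls.cons Ent.zero (Ls.cons Ent.zero (Ls.cons Ent.zero (Ls.cons Ent.zero (Ls.cons Ent.zero (Ls.cons Ent.zero Ls.nil)))))))))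
 (Ls.cons (Ls.cons Ent.zero (Ls.cons Ent.zero (Ls.cons Ent.zero (Ls.cons Ent.zero (Ls.cons Ent.zero (Ls.cons Ent.zero (Ls.cons Ent.zero (Ls.cons Ent.zero Ls.nil))))))))
 (Ls.cons Ls.nil
 (Ls.cons Ls.nil
 (Ls.cons Ls.nil
 Ls.nil))))))))))))))))))))

noncomputable def cF4_7_0 : L2 :=
 (Ls.cons Ls.nil
 (Ls.cons Ls.nil
 (Ls.cons Ls.nil
 (Ls.cons Ls.nil
 (Ls.cons Ls.nil
 (Ls.cons Ls.nil
 (Ls.cons Ls.nil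
 (Ls.cons Ls.nil
 (Ls.cons (Ls.cons Ent.zero (Ls.cons Ent.zero (Ls.cons Ent.zero (Ls.cons Ent.zero (Ls.cons Ent.zero (Ls.cons (Ent.pos F4_19_8_7) (Ls.cons Ent.zero (Ls.cons (Ent.pos F4_17_8_7) (Ls.cons Ent.zero (Ls.cons Ent.zero (Ls.cons Ent.zero (Ls.cons Ent.zero (Ls.cons Ent.zero (Ls.cons Ent.zero (Ls.cons Ent.zero (Ls.cons Ent.zero Ls.nil))))))))))))))))
 (Ls.cons (Ls.cons Ent.zero (Ls.cons Ent.zero (Ls.cons Ent.zero (Ls.cons Ent.zero (Ls.cons Ent.zero (Ls.cons (Ent.pos F4_19_9_7) (Ls.cons (Ent.pos F4_18_9_7) (Ls.cons Ent.zero (Ls.cons Ent.zero (Ls.cons Ent.zero (Ls.cons Ent.zero (Ls.cons Ent.zero (Ls.cons Ent.zero (Ls.cons Ent.zero (Ls.cons Ent.zero Ls.nil)))))))))))))))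
 (Ls.cons (Ls.cons Ent.zero (Ls.cons Ent.zero (Ls.cons Ent.zero (Ls.cons Ent.zero (Ls.cons Ent.zero (Ls.cons (Ent.pos F4_19_10_7) (Ls.cons (Ent.pos F4_18_10_7) (Ls.cons (Ent.pos F4_17_10_7) (Ls.cons (Ent.pos F4_16_10_7) (Ls.cons (Ent.pos F4_15_10_7) (Ls.cons Ent.zero (Ls.cons Ent.zero (Ls.cons Ent.zero (Ls.cons Ent.zero Ls.nil))))))))))))))
 (Ls.cons (Ls.cons Ent.zero (Ls.cons Ent.zero (Ls.cons Ent.zero (Ls.cons Ent.zero (Ls.cons Ent.zero (Ls.cons Ent.zero (Ls.cons (Ent.pos F4_18_11_7) (Ls.cons (Ent.pos F4_17_11_7) (Ls.cons (Ent.pos F4_16_11_7) (Ls.cons (Ent.pos F4_15_11_7) (Ls.cons Ent.zero (Ls.cons Ent.zero (Ls.cons Ent.zero Ls.nil)))))))))))))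
 (Ls.cons (Ls.cons Ent.zero (Ls.cons Ent.zero (Ls.cons Ent.zero (Ls.cons Ent.zero (Ls.cons Ent.zero (Ls.cons Ent.zero (Ls.cons Ent.zero (Ls.cons (Ent.pos F4_17_12_7) (Ls.cons (Ent.pos F4_16_12_7) (Ls.cons (Ent.pos F4_15_12_7) (Ls.cons Ent.zero (Ls.cons (Ent.pos F4_13_12_7) Ls.nil))))))))))))
 (Ls.cons (Ls.cons Ent.zero (Ls.cons Ent.zero (Ls.cons Ent.zero (Ls.cons Ent.zero (Ls.cons Ent.zero (Ls.cons Ent.zero (Ls.cons Ent.zero (Ls.cons Ent.zero (Ls.cons (Ent.pos F4_16_13_7) (Ls.cons (Ent.pos F4_15_13_7) (Ls.cons Ent.zero Ls.nil)))))))))))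
 (Ls.cons (Ls.cons Ent.zero (Ls.cons Ent.zero (Ls.cons Ent.zero (Ls.cons Ent.zero (Ls.cons Ent.zero (Ls.cons Ent.zero (Ls.cons Ent.zero (Ls.cons Ent.zero (Ls.cons Ent.zero (Ls.cons (Ent.pos F4_15_14_7) Ls.nil))))))))))
 (Ls.cons (Ls.cons Ent.zero (Ls.cons Ent.zero (Ls.cons Ent.zero (Ls.cons Ent.zero (Ls.cons Ent.zero (Ls.cons Ent.zero (Ls.cons Ent.zero (Ls.cons Ent.zero (Ls.cons Ent.zero Ls.nil)))))))))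
 (Ls.cons (Ls.cons Ent.zero (Ls.cons Ent.zero (Ls.cons Ent.zero (Ls.cons Ent.zero (Ls.cons Ent.zero (Ls.cons Ent.zero (Ls.cons Ent.zero (Ls.cons Ent.zero Ls.nil))))))))
 (Ls.cons Ls.nil
 (Ls.cons Ls.nil
 (Ls.cons Ls.nil
 Ls.nil))))))))))))))))))))

noncomputable def cF4_8_0 : L2 :=
 (Ls.cons Ls.nil
 (Ls.cons Ls.nil
 (Ls.cons Ls.nil
 (Ls.cons Ls.nil
 (Ls.cons Ls.nil
 (Ls.cons Ls.nil
 (Ls.cons Ls.nil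
 (Ls.cons Ls.nil
 (Ls.cons Ls.nil
 (Ls.cons (Ls.cons Ent.zero (Ls.cons Ent.zero (Ls.cons Ent.zero (Ls.cons Ent.zero (Ls.cons Ent.zero (Ls.cons Ent.zero (Ls.cons Ent.zero (Ls.cons Ent.zero (Ls.cons Ent.zero (Ls.cons Ent.zero (Ls.cons Ent.zero (Ls.cons Ent.zero (Ls.cons Ent.zero (Ls.cons (Ent.pos F4_11_9_8) (Ls.cons (Ent.neg F4_10_9_8) Ls.nil)))))))))))))))
 (Ls.cons (Ls.cons Ent.zero (Ls.cons Ent.zero (Ls.cons Ent.zero (Ls.cons Ent.zero (Ls.cons Ent.zero (Ls.cons Ent.zero (Ls.cons (Ent.pos F4_18_10_8) (Ls.cons (Ent.pos F4_17_10_8) (Ls.cons (Ent.pos F4_16_10_8) (Ls.cons Ent.zero (Ls.cons Ent.zero (Ls.cons Ent.zero (Ls.cons Ent.zero (Ls.cons (Ent.neg F4_11_10_8) Ls.nil))))))))))))))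
 (Ls.cons (Ls.cons Ent.zero (Ls.cons Ent.zero (Ls.cons Ent.zero (Ls.cons Ent.zero (Ls.cons Ent.zero (Ls.cons Ent.zero (Ls.cons Ent.zero (Ls.cons (Ent.pos F4_17_11_8) (Ls.cons (Ent.pos F4_16_11_8) (Ls.cons Ent.zero (Ls.cons (Ent.pos F4_14_11_8) (Ls.cons Ent.zero (Ls.cons Ent.zero Ls.nil)))))))))))))
 (Ls.cons (Ls.cons Ent.zero (Ls.cons Ent.zero (Ls.cons Ent.zero (Ls.cons Ent.zero (Ls.cons Ent.zero (Ls.cons Ent.zero (Ls.cons Ent.zero (Ls.cons Ent.zero (Ls.cons (Ent.pos F4_16_12_8) (Ls.cons (Ent.pos F4_15_12_8) (Ls.cons (Ent.pos F4_14_12_8) (Ls.cons Ent.zero Ls.nil))))))))))))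
 (Ls.cons (Ls.cons Ent.zero (Ls.cons Ent.zero (Ls.cons Ent.zero (Ls.cons Ent.zero (Ls.cons Ent.zero (Ls.cons Ent.zero (Ls.cons Ent.zero (Ls.cons Ent.zero (Ls.cons Ent.zero (Ls.cons (Ent.pos F4_15_13_8) (Ls.cons Ent.zero Ls.nil)))))))))))
 (Ls.cons (Ls.cons Ent.zero (Ls.cons Ent.zero (Ls.cons Ent.zero (Ls.cons Ent.zero (Ls.cons Ent.zero (Ls.cons Ent.zero (Ls.cons Ent.zero (Ls.cons Ent.zero (Ls.cons Ent.zero (Ls.cons Ent.zero Ls.nil))))))))))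
 (Ls.cons (Ls.cons Ent.zero (Ls.cons Ent.zero (Ls.cons Ent.zero (Ls.cons Ent.zero (Ls.cons Ent.zero (Ls.cons Ent.zero (Ls.cons Ent.zero (Ls.cons Ent.zero (Ls.cons Ent.zero Ls.nil)))))))))
 (Ls.cons (Ls.cons Ent.zero (Ls.cons Ent.zero (Ls.cons Ent.zero (Ls.cons Ent.zero (Ls.cons Ent.zero (Ls.cons Ent.zero (Ls.cons Ent.zero (Ls.cons Ent.zero Ls.nil))))))))
 (Ls.cons Ls.nil
 (Ls.cons Ls.nil
 (Ls.cons Ls.nil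
 Ls.nil))))))))))))))))))))

noncomputable def cF4_9_0 : L2 :=
 (Ls.cons Ls.nil
 (Ls.cons Ls.nil
 (Ls.cons Ls.nil
 (Ls.cons Ls.nil
 (Ls.cons Ls.nil
 (Ls.cons Ls.nil
 (Ls.cons Ls.nil
 (Ls.cons Ls.nil
 (Ls.cons Ls.nil
 (Ls.cons Ls.nil
 (Ls.cons (Ls.cons Ent.zero (Ls.cons Ent.zero (Ls.cons Ent.zero (Ls.cons Ent.zero (Ls.cons Ent.zero (Ls.cons Ent.zero (Ls.cons Ent.zero (Ls.cons (Ent.pos F4_17_10_9) (Ls.cons (Ent.pos F4_16_10_9) (Ls.cons (Ent.pos F4_15_10_9) (Ls.cons (Ent.pos F4_14_10_9) (Ls.cons (Ent.pos F4_13_10_9) (Ls.cons Ent.zero (Ls.cons (Ent.pos F4_11_10_9) Ls.nil))))))))))))))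
 (Ls.cons (Ls.cons Ent.zero (Ls.cons Ent.zero (Ls.cons Ent.zero (Ls.cons Ent.zero (Ls.cons Ent.zero (Ls.cons Ent.zero (Ls.cons Ent.zero (Ls.cons Ent.zero (Ls.cons (Ent.pos F4_16_11_9) (Ls.cons (Ent.pos F4_15_11_9) (Ls.cons Ent.zero (Ls.cons Ent.zero (Ls.cons Ent.zero Ls.nil)))))))))))))
 (Ls.cons (Ls.cons Ent.zero (Ls.cons Ent.zero (Ls.cons Ent.zero (Ls.cons Ent.zero (Ls.cons Ent.zero (Ls.cons Ent.zero (Ls.cons Ent.zero (Ls.cons Ent.zero (Ls.cons Ent.zero (Ls.cons (Ent.pos F4_15_12_9) (Ls.cons (Ent.pos F4_14_12_9) (Ls.cons (Ent.pos F4_13_12_9) Ls.nil))))))))))))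
 (Ls.cons (Ls.cons Ent.zero (Ls.cons Ent.zero (Ls.cons Ent.zero (Ls.cons Ent.zero (Ls.cons Ent.zero (Ls.cons Ent.zero (Ls.cons Ent.zero (Ls.cons Ent.zero (Ls.cons Ent.zero (Ls.cons Ent.zero (Ls.cons Ent.zero Ls.nil)))))))))))
 (Ls.cons (Ls.cons Ent.zero (Ls.cons Ent.zero (Ls.cons Ent.zero (Ls.cons Ent.zero (Ls.cons Ent.zero (Ls.cons Ent.zero (Ls.cons Ent.zero (Ls.cons Ent.zero (Ls.cons Ent.zero (Ls.cons Ent.zero Ls.nil))))))))))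
 (Ls.cons (Ls.cons Ent.zero (Ls.cons Ent.zero (Ls.cons Ent.zero (Ls.cons Ent.zero (Ls.cons Ent.zero (Ls.cons Ent.zero (Ls.cons Ent.zero (Ls.cons Ent.zero (Ls.cons Ent.zero Ls.nil)))))))))
 (Ls.cons (Ls.cons Ent.zero (Ls.cons Ent.zero (Ls.cons Ent.zero (Ls.cons Ent.zero (Ls.cons Ent.zero (Ls.cons Ent.zero (Ls.cons Ent.zero (Ls.cons Ent.zero Ls.nil))))))))
 (Ls.cons Ls.nil
 (Ls.cons Ls.nil
 (Ls.cons Ls.nil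
 Ls.nil))))))))))))))))))))

noncomputable def cF4_10_0 : L2 :=
 (Ls.cons Ls.nil
 (Ls.cons Ls.nil
 (Ls.cons Ls.nil
 (Ls.cons Ls.nil
 (Ls.cons Ls.nil
 (Ls.cons Ls.nil
 (Ls.cons Ls.nil
 (Ls.cons Ls.nil
 (Ls.cons Ls.nil
 (Ls.cons Ls.nil
 (Ls.cons Ls.nil
 (Ls.cons (Ls.cons Ent.zero (Ls.cons Ent.zero (Ls.cons Ent.zero (Ls.cons Ent.zero (Ls.cons Ent.zero (Ls.cons Ent.zero (Ls.cons Ent.zero (Ls.cons Ent.zero (Ls.cons Ent.zero (Ls.cons Ent.zero (Ls.cons Ent.zero (Ls.cons Ent.zero (Ls.cons Ent.zero Ls.nil)))))))))))))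
 (Ls.cons (Ls.cons Ent.zero (Ls.cons Ent.zero (Ls.cons Ent.zero (Ls.cons Ent.zero (Ls.cons Ent.zero (Ls.cons Ent.zero (Ls.cons Ent.zero (Ls.cons Ent.zero (Ls.cons Ent.zero (Ls.cons Ent.zero (Ls.cons Ent.zero (Ls.cons Ent.zero Ls.nil))))))))))))
 (Ls.cons (Ls.cons Ent.zero (Ls.cons Ent.zero (Ls.cons Ent.zero (Ls.cons Ent.zero (Ls.cons Ent.zero (Ls.cons Ent.zero (Ls.cons Ent.zero (Ls.cons Ent.zero (Ls.cons Ent.zero (Ls.cons Ent.zero (Ls.cons Ent.zero Ls.nil)))))))))))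
 (Ls.cons (Ls.cons Ent.zero (Ls.cons Ent.zero (Ls.cons Ent.zero (Ls.cons Ent.zero (Ls.cons Ent.zero (Ls.cons Ent.zero (Ls.cons Ent.zero (Ls.cons Ent.zero (Ls.cons Ent.zero (Ls.cons Ent.zero Ls.nil))))))))))
 (Ls.cons (Ls.cons Ent.zero (Ls.cons Ent.zero (Ls.cons Ent.zero (Ls.cons Ent.zero (Ls.cons Ent.zero (Ls.cons Ent.zero (Ls.cons Ent.zero (Ls.cons Ent.zero (Ls.cons Ent.zero Ls.nil)))))))))
 (Ls.cons Ls.nil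
 (Ls.cons Ls.nil
 (Ls.cons Ls.nil
 (Ls.cons Ls.nil
 Ls.nil))))))))))))))))))))

noncomputable def cF4_11_0 : L2 :=
 (Ls.cons Ls.nil
 (Ls.cons Ls.nil
 (Ls.cons Ls.nil
 (Ls.cons Ls.nil
 (Ls.cons Ls.nil
 (Ls.cons Ls.nil
 (Ls.cons Ls.nil
 (Ls.cons Ls.nil
 (Ls.cons Ls.nil
 (Ls.cons Ls.nil
 (Ls.cons Ls.nil
 (Ls.cons Ls.nil
 (Ls.cons (Ls.cons Ent.zero (Ls.cons Ent.zero (Ls.cons Ent.zero (Ls.cons Ent.zero (Ls.cons Ent.zero (Ls.cons Ent.zero (Ls.cons Ent.zero (Ls.cons Ent.zero (Ls.cons Ent.zero (Ls.cons Ent.zero (Ls.cons Ent.zero (Ls.cons (Ent.pos F4_13_12_11) Ls.nil))))))))))))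
 (Ls.cons (Ls.cons Ent.zero (Ls.cons Ent.zero (Ls.cons Ent.zero (Ls.cons Ent.zero (Ls.cons Ent.zero (Ls.cons Ent.zero (Ls.cons Ent.zero (Ls.cons Ent.zero (Ls.cons Ent.zero (Ls.cons Ent.zero (Ls.cons Ent.zero Ls.nil)))))))))))
 (Ls.cons (Ls.cons Ent.zero (Ls.cons Ent.zero (Ls.cons Ent.zero (Ls.cons Ent.zero (Ls.cons Ent.zero (Ls.cons Ent.zero (Ls.cons Ent.zero (Ls.cons Ent.zero (Ls.cons Ent.zero (Ls.cons Ent.zero Ls.nil))))))))))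
 (Ls.cons (Ls.cons Ent.zero (Ls.cons Ent.zero (Ls.cons Ent.zero (Ls.cons Ent.zero (Ls.cons Ent.zero (Ls.cons Ent.zero (Ls.cons Ent.zero (Ls.cons Ent.zero (Ls.cons Ent.zero Ls.nil)))))))))
 (Ls.cons Ls.nil
 (Ls.cons Ls.nil
 (Ls.cons Ls.nil
 (Ls.cons Ls.nil
 Ls.nil))))))))))))))))))))

noncomputable def cF4_12_0 : L2 :=
 (Ls.cons Ls.nil
 (Ls.cons Ls.nil
 (Ls.cons Ls.nil
 (Ls.cons Ls.nil
 (Ls.cons Ls.nil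
 (Ls.cons Ls.nil
 (Ls.cons Ls.nil
 (Ls.cons Ls.nil
 (Ls.cons Ls.nil
 (Ls.cons Ls.nil
 (Ls.cons Ls.nil
 (Ls.cons Ls.nil
 (Ls.cons Ls.nil
 (Ls.cons (Ls.cons Ent.zero (Ls.cons Ent.zero (Ls.cons Ent.zero (Ls.cons Ent.zero (Ls.cons Ent.zero (Ls.cons Ent.zero (Ls.cons Ent.zero (Ls.cons Ent.zero (Ls.cons Ent.zero (Ls.cons Ent.zero (Ls.cons Ent.zero Ls.nil)))))))))))
 (Ls.cons (Ls.cons Ent.zero (Ls.cons Ent.zero (Ls.cons Ent.zero (Ls.cons Ent.zero (Ls.cons Ent.zero (Ls.cons Ent.zero (Ls.cons Ent.zero (Ls.cons Ent.zero (Ls.cons Ent.zero (Ls.cons Ent.zero Ls.nil))))))))))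
 (Ls.cons (Ls.cons Ent.zero (Ls.cons Ent.zero (Ls.cons Ent.zero (Ls.cons Ent.zero (Ls.cons Ent.zero (Ls.cons Ent.zero (Ls.cons Ent.zero (Ls.cons Ent.zero (Ls.cons Ent.zero Ls.nil)))))))))
 (Ls.cons Ls.nil
 (Ls.cons Ls.nil
 (Ls.cons Ls.nil
 (Ls.cons Ls.nil
 Ls.nil))))))))))))))))))))

noncomputable def cF4_13_0 : L2 :=
 (Ls.cons Ls.nil
 (Ls.cons Ls.nil
 (Ls.cons Ls.nil
 (Ls.cons Ls.nil
 (Ls.cons Ls.nil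
 (Ls.cons Ls.nil
 (Ls.cons Ls.nil
 (Ls.cons Ls.nil
 (Ls.cons Ls.nil
 (Ls.cons Ls.nil
 (Ls.cons Ls.nil
 (Ls.cons Ls.nil
 (Ls.cons Ls.nil
 (Ls.cons Ls.nil
 (Ls.cons (Ls.cons Ent.zero (Ls.cons Ent.zero (Ls.cons Ent.zero (Ls.cons Ent.zero (Ls.cons Ent.zero (Ls.cons Ent.zero (Ls.cons Ent.zero (Ls.cons Ent.zero (Ls.cons Ent.zero (Ls.cons Ent.zero Ls.nil))))))))))
 (Ls.cons (Ls.cons Ent.zero (Ls.cons Ent.zero (Ls.cons Ent.zero (Ls.cons Ent.zero (Ls.cons Ent.zero (Ls.cons Ent.zero (Ls.cons Ent.zero (Ls.cons Ent.zero (Ls.cons Ent.zero Ls.nil)))))))))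
 (Ls.cons Ls.nil
 (Ls.cons Ls.nil
 (Ls.cons Ls.nil
 (Ls.cons Ls.nil
 Ls.nil))))))))))))))))))))

noncomputable def cF4_14_0 : L2 :=
 (Ls.cons Ls.nil
 (Ls.cons Ls.nil
 (Ls.cons Ls.nil
 (Ls.cons Ls.nil
 (Ls.cons Ls.nil
 (Ls.cons Ls.nil
 (Ls.cons Ls.nil
 (Ls.cons Ls.nil
 (Ls.cons Ls.nil
 (Ls.cons Ls.nil
 (Ls.cons Ls.nil
 (Ls.cons Ls.nil
 (Ls.cons Ls.nil
 (Ls.cons Ls.nil
 (Ls.cons Ls.nil
 (Ls.cons (Ls.cons Ent.zero (Ls.cons Ent.zero (Ls.cons Ent.zero (Ls.cons Ent.zero (Ls.cons Ent.zero (Ls.cons Ent.zero (Ls.cons Ent.zero (Ls.cons Ent.zero (Ls.cons Ent.zero Ls.nil)))))))))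
 (Ls.cons Ls.nil
 (Ls.cons Ls.nil
 (Ls.cons Ls.nil
 (Ls.cons Ls.nil
 Ls.nil))))))))))))))))))))

noncomputable def tbF4 : L3 := (Ls.cons cF4_0_0 (Ls.cons cF4_1_0 (Ls.cons cF4_2_0 (Ls.cons cF4_3_0 (Ls.cons cF4_4_0 (Ls.cons cF4_5_0 (Ls.cons cF4_6_0 (Ls.cons cF4_7_0 (Ls.cons cF4_8_0 (Ls.cons cF4_9_0 (Ls.cons cF4_10_0 (Ls.cons cF4_11_0 (Ls.cons cF4_12_0 (Ls.cons cF4_13_0 (Ls.cons cF4_14_0 Ls.nil)))))))))))))))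

noncomputable def bxF4_0 : L2 :=
 (Ls.cons (Ls.cons Ent.zero (Ls.cons Ent.zero (Ls.cons Ent.zero (Ls.cons Ent.zero (Ls.cons Ent.zero (Ls.cons Ent.zero (Ls.cons Ent.zero (Ls.cons Ent.zero (Ls.cons Ent.zero (Ls.cons Ent.zero (Ls.cons (Ent.pos F4_19_14_0) (Ls.cons (Ent.pos F4_19_13_0) (Ls.cons (Ent.pos F4_19_12_0) (Ls.cons (Ent.pos F4_19_11_0) (Ls.cons (Ent.pos F4_19_10_0) (Ls.cons (Ent.pos F4_19_9_0) (Ls.cons (Ent.pos F4_19_8_0) (Ls.cons (Ent.neg F4_19_7_0) (Ls.cons (Ent.neg F4_19_6_0) (Ls.cons (Ent.neg F4_19_5_0) (Ls.cons (Ent.neg F4_19_4_0) (Ls.cons (Ent.neg F4_19_3_0) (Ls.cons (Ent.pos F4_19_2_0) (Ls.cons (Ent.neg F4_19_1_0) (Ls.cons Ent.zero Ls.nil)))))))))))))))))))))))))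
 (Ls.cons (Ls.cons Ent.zero (Ls.cons Ent.zero (Ls.cons Ent.zero (Ls.cons Ent.zero (Ls.cons Ent.zero (Ls.cons Ent.zero (Ls.cons Ent.zero (Ls.cons Ent.zero (Ls.cons Ent.zero (Ls.cons Ent.zero (Ls.cons (Ent.pos F4_18_14_0) (Ls.cons (Ent.pos F4_18_13_0) (Ls.cons (Ent.pos F4_18_12_0) (Ls.cons (Ent.pos F4_18_11_0) (Ls.cons (Ent.pos F4_18_10_0) (Ls.cons (Ent.pos F4_18_9_0) (Ls.cons (Ent.neg F4_18_8_0) (Ls.cons (Ent.neg F4_18_7_0) (Ls.cons (Ent.neg F4_18_6_0) (Ls.cons (Ent.neg F4_18_5_0) (Ls.cons (Ent.neg F4_18_4_0) (Ls.cons (Ent.pos F4_18_3_0) (Ls.cons (Ent.pos F4_18_2_0) (Ls.cons (Ent.neg F4_18_1_0) (Ls.cons Ent.zero Ls.nil)))))))))))))))))))))))))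
 (Ls.cons (Ls.cons Ent.zero (Ls.cons Ent.zero (Ls.cons Ent.zero (Ls.cons Ent.zero (Ls.cons Ent.zero (Ls.cons Ent.zero (Ls.cons Ent.zero (Ls.cons Ent.zero (Ls.cons (Ent.pos F4_17_16_0) (Ls.cons Ent.zero (Ls.cons (Ent.pos F4_17_14_0) (Ls.cons (Ent.pos F4_17_13_0) (Ls.cons (Ent.pos F4_17_12_0) (Ls.cons (Ent.pos F4_17_11_0) (Ls.cons (Ent.pos F4_17_10_0) (Ls.cons (Ent.neg F4_17_9_0) (Ls.cons (Ent.neg F4_17_8_0) (Ls.cons (Ent.neg F4_17_7_0) (Ls.cons (Ent.neg F4_17_6_0) (Ls.cons (Ent.neg F4_17_5_0) (Ls.cons (Ent.pos F4_17_4_0) (Ls.cons (Ent.neg F4_17_3_0) (Ls.cons (Ent.pos F4_17_2_0) (Ls.cons (Ent.neg F4_17_1_0) (Ls.cons Ent.zero Ls.nil)))))))))))))))))))))))))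
 (Ls.cons (Ls.cons Ent.zero (Ls.cons Ent.zero (Ls.cons Ent.zero (Ls.cons Ent.zero (Ls.cons Ent.zero (Ls.cons Ent.zero (Ls.cons Ent.zero (Ls.cons (Ent.neg F4_17_16_0) (Ls.cons Ent.zero (Ls.cons (Ent.pos F4_16_15_0) (Ls.cons (Ent.pos F4_16_14_0) (Ls.cons (Ent.pos F4_16_13_0) (Ls.cons (Ent.pos F4_16_12_0) (Ls.cons (Ent.pos F4_16_11_0) (Ls.cons (Ent.pos F4_16_10_0) (Ls.cons (Ent.neg F4_16_9_0) (Ls.cons (Ent.neg F4_16_8_0) (Ls.cons (Ent.neg F4_16_7_0) (Ls.cons (Ent.neg F4_16_6_0) (Ls.cons (Ent.neg F4_16_5_0) (Ls.cons (Ent.neg F4_16_4_0) (Ls.cons (Ent.pos F4_16_3_0) (Ls.cons (Ent.neg F4_16_2_0) (Ls.cons (Ent.pos F4_16_1_0) (Ls.cons Ent.zero Ls.nil)))))))))))))))))))))))))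
 (Ls.cons (Ls.cons Ent.zero (Ls.cons Ent.zero (Ls.cons Ent.zero (Ls.cons Ent.zero (Ls.cons Ent.zero (Ls.cons Ent.zero (Ls.cons Ent.zero (Ls.cons Ent.zero (Ls.cons (Ent.neg F4_16_15_0) (Ls.cons Ent.zero (Ls.cons (Ent.pos F4_15_14_0) (Ls.cons (Ent.pos F4_15_13_0) (Ls.cons (Ent.pos F4_15_12_0) (Ls.cons (Ent.pos F4_15_11_0) (Ls.cons (Ent.pos F4_15_10_0) (Ls.cons (Ent.neg F4_15_9_0) (Ls.cons (Ent.neg F4_15_8_0) (Ls.cons (Ent.neg F4_15_7_0) (Ls.cons (Ent.pos F4_15_6_0) (Ls.cons (Ent.neg F4_15_5_0) (Ls.cons (Ent.pos F4_15_4_0) (Ls.cons (Ent.neg F4_15_3_0) (Ls.cons (Ent.pos F4_15_2_0) (Ls.cons (Ent.pos F4_15_1_0) (Ls.cons Ent.zero Ls.nil)))))))))))))))))))))))))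
 (Ls.cons (Ls.cons Ent.zero (Ls.cons Ent.zero (Ls.cons Ent.zero (Ls.cons Ent.zero (Ls.cons Ent.zero (Ls.cons (Ent.neg F4_19_14_0) (Ls.cons (Ent.neg F4_18_14_0) (Ls.cons (Ent.neg F4_17_14_0) (Ls.cons (Ent.neg F4_16_14_0) (Ls.cons (Ent.neg F4_15_14_0) (Ls.cons Ent.zero (Ls.cons (Ent.pos F4_14_13_0) (Ls.cons (Ent.pos F4_14_12_0) (Ls.cons (Ent.pos F4_14_11_0) (Ls.cons (Ent.pos F4_14_10_0) (Ls.cons (Ent.neg F4_14_9_0) (Ls.cons (Ent.neg F4_14_8_0) (Ls.cons (Ent.pos F4_14_7_0) (Ls.cons (Ent.pos F4_14_6_0) (Ls.cons (Ent.pos F4_14_5_0) (Ls.cons (Ent.pos F4_14_4_0) (Ls.cons (Ent.pos F4_14_3_0) (Ls.cons (Ent.neg F4_14_2_0) (Ls.cons (Ent.pos F4_14_1_0) (Ls.cons Ent.zero Ls.nil)))))))))))))))))))))))))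
 (Ls.cons (Ls.cons Ent.zero (Ls.cons Ent.zero (Ls.cons Ent.zero (Ls.cons Ent.zero (Ls.cons (Ent.neg F4_20_13_0) (Ls.cons (Ent.neg F4_19_13_0) (Ls.cons (Ent.neg F4_18_13_0) (Ls.cons (Ent.neg F4_17_13_0) (Ls.cons (Ent.neg F4_16_13_0) (Ls.cons (Ent.neg F4_15_13_0) (Ls.cons (Ent.neg F4_14_13_0) (Ls.cons Ent.zero (Ls.cons (Ent.pos F4_13_12_0) (Ls.cons (Ent.neg F4_13_11_0) (Ls.cons (Ent.pos F4_13_10_0) (Ls.cons (Ent.neg F4_13_9_0) (Ls.cons (Ent.pos F4_13_8_0) (Ls.cons (Ent.pos F4_13_7_0) (Ls.cons (Ent.pos F4_13_6_0) (Ls.cons (Ent.pos F4_13_5_0) (Ls.cons (Ent.pos F4_13_4_0) (Ls.cons (Ent.pos F4_13_3_0) (Ls.cons (Ent.neg F4_13_2_0) (Ls.cons (Ent.pos F4_13_1_0) (Ls.cons Ent.zero Ls.nil)))))))))))))))))))))))))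
 (Ls.cons (Ls.cons Ent.zero (Ls.cons Ent.zero (Ls.cons Ent.zero (Ls.cons (Ent.neg F4_21_12_0) (Ls.cons (Ent.neg F4_20_12_0) (Ls.cons (Ent.neg F4_19_12_0) (Ls.cons (Ent.neg F4_18_12_0) (Ls.cons (Ent.neg F4_17_12_0) (Ls.cons (Ent.neg F4_16_12_0) (Ls.cons (Ent.neg F4_15_12_0) (Ls.cons (Ent.neg F4_14_12_0) (Ls.cons (Ent.neg F4_13_12_0) (Ls.cons Ent.zero (Ls.cons (Ent.pos F4_12_11_0) (Ls.cons Ent.zero (Ls.cons (Ent.pos F4_12_9_0) (Ls.cons (Ent.pos F4_12_8_0) (Ls.cons (Ent.pos F4_12_7_0) (Ls.cons (Ent.pos F4_12_6_0) (Ls.cons (Ent.pos F4_12_5_0) (Ls.cons (Ent.pos F4_12_4_0) (Ls.cons (Ent.pos F4_12_3_0) (Ls.cons (Ent.neg F4_12_2_0) (Ls.cons (Ent.pos F4_12_1_0) (Ls.cons Ent.zero Ls.nil)))))))))))))))))))))))))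
 (Ls.cons (Ls.cons Ent.zero (Ls.cons Ent.zero (Ls.cons (Ent.neg F4_22_11_0) (Ls.cons (Ent.neg F4_21_11_0) (Ls.cons (Ent.neg F4_20_11_0) (Ls.cons (Ent.neg F4_19_11_0) (Ls.cons (Ent.neg F4_18_11_0) (Ls.cons (Ent.neg F4_17_11_0) (Ls.cons (Ent.neg F4_16_11_0) (Ls.cons (Ent.neg F4_15_11_0) (Ls.cons (Ent.neg F4_14_11_0) (Ls.cons (Ent.pos F4_13_11_0) (Ls.cons (Ent.neg F4_12_11_0) (Ls.cons Ent.zero (Ls.cons (Ent.pos F4_11_10_0) (Ls.cons (Ent.pos F4_11_9_0) (Ls.cons (Ent.pos F4_11_8_0) (Ls.cons (Ent.pos F4_11_7_0) (Ls.cons (Ent.pos F4_11_6_0) (Ls.cons (Ent.pos F4_11_5_0) (Ls.cons (Ent.pos F4_11_4_0) (Ls.cons (Ent.pos F4_11_3_0) (Ls.cons (Ent.neg F4_11_2_0) (Ls.cons (Ent.pos F4_11_1_0) (Ls.cons Ent.zero Ls.nil)))))))))))))))))))))))))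
 (Ls.cons (Ls.cons Ent.zero (Ls.cons Ent.zero (Ls.cons (Ent.neg F4_22_10_0) (Ls.cons (Ent.neg F4_21_10_0) (Ls.cons (Ent.neg F4_20_10_0) (Ls.cons (Ent.neg F4_19_10_0) (Ls.cons (Ent.neg F4_18_10_0) (Ls.cons (Ent.neg F4_17_10_0) (Ls.cons (Ent.neg F4_16_10_0) (Ls.cons (Ent.neg F4_15_10_0) (Ls.cons (Ent.neg F4_14_10_0) (Ls.cons (Ent.neg F4_13_10_0) (Ls.cons Ent.zero (Ls.cons (Ent.neg F4_11_10_0) (Ls.cons Ent.zero (Ls.cons (Ent.pos F4_10_9_0) (Ls.cons (Ent.pos F4_10_8_0) (Ls.cons (Ent.pos F4_10_7_0) (Ls.cons (Ent.pos F4_10_6_0) (Ls.cons (Ent.pos F4_10_5_0) (Ls.cons (Ent.pos F4_10_4_0) (Ls.cons (Ent.pos F4_10_3_0) (Ls.cons (Ent.neg F4_10_2_0) (Ls.cons (Ent.pos F4_10_1_0) (Ls.cons Ent.zero Ls.nil)))))))))))))))))))))))))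
 (Ls.cons (Ls.cons Ent.zero (Ls.cons Ent.zero (Ls.cons (Ent.neg F4_22_9_0) (Ls.cons (Ent.neg F4_21_9_0) (Ls.cons (Ent.neg F4_20_9_0) (Ls.cons (Ent.neg F4_19_9_0) (Ls.cons (Ent.neg F4_18_9_0) (Ls.cons (Ent.pos F4_17_9_0) (Ls.cons (Ent.pos F4_16_9_0) (Ls.cons (Ent.pos F4_15_9_0) (Ls.cons (Ent.pos F4_14_9_0) (Ls.cons (Ent.pos F4_13_9_0) (Ls.cons (Ent.neg F4_12_9_0) (Ls.cons (Ent.neg F4_11_9_0) (Ls.cons (Ent.neg F4_10_9_0) (Ls.cons Ent.zero (Ls.cons (Ent.pos F4_9_8_0) (Ls.cons (Ent.pos F4_9_7_0) (Ls.cons (Ent.pos F4_9_6_0) (Ls.cons (Ent.pos F4_9_5_0) (Ls.cons (Ent.pos F4_9_4_0) (Ls.cons (Ent.pos F4_9_3_0) (Ls.cons (Ent.neg F4_9_2_0) (Ls.cons (Ent.pos F4_9_1_0) (Ls.cons Ent.zero Ls.nil)))))))))))))))))))))))))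
 (Ls.cons (Ls.cons Ent.zero (Ls.cons Ent.zero (Ls.cons (Ent.neg F4_22_8_0) (Ls.cons (Ent.neg F4_21_8_0) (Ls.cons (Ent.neg F4_20_8_0) (Ls.cons (Ent.neg F4_19_8_0) (Ls.cons (Ent.pos F4_18_8_0) (Ls.cons (Ent.pos F4_17_8_0) (Ls.cons (Ent.pos F4_16_8_0) (Ls.cons (Ent.pos F4_15_8_0) (Ls.cons (Ent.pos F4_14_8_0) (Ls.cons (Ent.neg F4_13_8_0) (Ls.cons (Ent.neg F4_12_8_0) (Ls.cons (Ent.neg F4_11_8_0) (Ls.cons (Ent.neg F4_10_8_0) (Ls.cons (Ent.neg F4_9_8_0) (Ls.cons Ent.zero (Ls.cons (Ent.pos F4_8_7_0) (Ls.cons (Ent.pos F4_8_6_0) (Ls.cons (Ent.pos F4_8_5_0) (Ls.cons (Ent.pos F4_8_4_0) (Ls.cons (Ent.pos F4_8_3_0) (Ls.cons (Ent.neg F4_8_2_0) (Ls.cons (Ent.pos F4_8_1_0) (Ls.cons Ent.zero Ls.nil)))))))))))))))))))))))))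
 (Ls.cons (Ls.cons Ent.zero (Ls.cons Ent.zero (Ls.cons Ent.zero (Ls.cons (Ent.pos F4_21_7_0) (Ls.cons (Ent.pos F4_20_7_0) (Ls.cons (Ent.pos F4_19_7_0) (Ls.cons (Ent.pos F4_18_7_0) (Ls.cons (Ent.pos F4_17_7_0) (Ls.cons (Ent.pos F4_16_7_0) (Ls.cons (Ent.pos F4_15_7_0) (Ls.cons (Ent.neg F4_14_7_0) (Ls.cons (Ent.neg F4_13_7_0) (Ls.cons (Ent.neg F4_12_7_0) (Ls.cons (Ent.neg F4_11_7_0) (Ls.cons (Ent.neg F4_10_7_0) (Ls.cons (Ent.neg F4_9_7_0) (Ls.cons (Ent.neg F4_8_7_0) (Ls.cons Ent.zero (Ls.cons (Ent.pos F4_7_6_0) (Ls.cons (Ent.pos F4_7_5_0) (Ls.cons (Ent.pos F4_7_4_0) (Ls.cons (Ent.pos F4_7_3_0) (Ls.cons (Ent.neg F4_7_2_0) (Ls.cons (Ent.pos F4_7_1_0) (Ls.cons Ent.zero Ls.nil)))))))))))))))))))))))))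
 (Ls.cons (Ls.cons Ent.zero (Ls.cons Ent.zero (Ls.cons (Ent.pos F4_22_6_0) (Ls.cons (Ent.pos F4_21_6_0) (Ls.cons (Ent.pos F4_20_6_0) (Ls.cons (Ent.pos F4_19_6_0) (Ls.cons (Ent.pos F4_18_6_0) (Ls.cons (Ent.pos F4_17_6_0) (Ls.cons (Ent.pos F4_16_6_0) (Ls.cons (Ent.neg F4_15_6_0) (Ls.cons (Ent.neg F4_14_6_0) (Ls.cons (Ent.neg F4_13_6_0) (Ls.cons (Ent.neg F4_12_6_0) (Ls.cons (Ent.neg F4_11_6_0) (Ls.cons (Ent.neg F4_10_6_0) (Ls.cons (Ent.neg F4_9_6_0) (Ls.cons (Ent.neg F4_8_6_0) (Ls.cons (Ent.neg F4_7_6_0) (Ls.cons Ent.zero (Ls.cons (Ent.pos F4_6_5_0) (Ls.cons (Ent.neg F4_6_4_0) (Ls.cons (Ent.pos F4_6_3_0) (Ls.cons (Ent.neg F4_6_2_0) (Ls.cons (Ent.pos F4_6_1_0) (Ls.cons Ent.zero Ls.nil)))))))))))))))))))))))))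
 (Ls.cons (Ls.cons Ent.zero (Ls.cons (Ent.pos F4_23_5_0) (Ls.cons (Ent.pos F4_22_5_0) (Ls.cons (Ent.pos F4_21_5_0) (Ls.cons (Ent.pos F4_20_5_0) (Ls.cons (Ent.pos F4_19_5_0) (Ls.cons (Ent.pos F4_18_5_0) (Ls.cons (Ent.pos F4_17_5_0) (Ls.cons (Ent.pos F4_16_5_0) (Ls.cons (Ent.pos F4_15_5_0) (Ls.cons (Ent.neg F4_14_5_0) (Ls.cons (Ent.neg F4_13_5_0) (Ls.cons (Ent.neg F4_12_5_0) (Ls.cons (Ent.neg F4_11_5_0) (Ls.cons (Ent.neg F4_10_5_0) (Ls.cons (Ent.neg F4_9_5_0) (Ls.cons (Ent.neg F4_8_5_0) (Ls.cons (Ent.neg F4_7_5_0) (Ls.cons (Ent.neg F4_6_5_0) (Ls.cons Ent.zero (Ls.cons (Ent.pos F4_5_4_0) (Ls.cons (Ent.pos F4_5_3_0) (Ls.cons (Ent.pos F4_5_2_0) (Ls.cons (Ent.neg F4_5_1_0) (Ls.cons Ent.zero Ls.nil)))))))))))))))))))))))))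
 (Ls.cons (Ls.cons Ent.zero (Ls.cons (Ent.pos F4_23_4_0) (Ls.cons (Ent.pos F4_22_4_0) (Ls.cons (Ent.pos F4_21_4_0) (Ls.cons (Ent.pos F4_20_4_0) (Ls.cons (Ent.pos F4_19_4_0) (Ls.cons (Ent.pos F4_18_4_0) (Ls.cons (Ent.neg F4_17_4_0) (Ls.cons (Ent.pos F4_16_4_0) (Ls.cons (Ent.neg F4_15_4_0) (Ls.cons (Ent.neg F4_14_4_0) (Ls.cons (Ent.neg F4_13_4_0) (Ls.cons (Ent.neg F4_12_4_0) (Ls.cons (Ent.neg F4_11_4_0) (Ls.cons (Ent.neg F4_10_4_0) (Ls.cons (Ent.neg F4_9_4_0) (Ls.cons (Ent.neg F4_8_4_0) (Ls.cons (Ent.neg F4_7_4_0) (Ls.cons (Ent.pos F4_6_4_0) (Ls.cons (Ent.neg F4_5_4_0) (Ls.cons Ent.zero (Ls.cons (Ent.pos F4_4_3_0) (Ls.cons (Ent.neg F4_4_2_0) (Ls.cons (Ent.pos F4_4_1_0) (Ls.cons Ent.zero Ls.nil)))))))))))))))))))))))))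
 (Ls.cons (Ls.cons (Ent.pos F4_24_3_0) (Ls.cons (Ent.pos F4_23_3_0) (Ls.cons (Ent.pos F4_22_3_0) (Ls.cons (Ent.pos F4_21_3_0) (Ls.cons (Ent.pos F4_20_3_0) (Ls.cons (Ent.pos F4_19_3_0) (Ls.cons (Ent.neg F4_18_3_0) (Ls.cons (Ent.pos F4_17_3_0) (Ls.cons (Ent.neg F4_16_3_0) (Ls.cons (Ent.pos F4_15_3_0) (Ls.cons (Ent.neg F4_14_3_0) (Ls.cons (Ent.neg F4_13_3_0) (Ls.cons (Ent.neg F4_12_3_0) (Ls.cons (Ent.neg F4_11_3_0) (Ls.cons (Ent.neg F4_10_3_0) (Ls.cons (Ent.neg F4_9_3_0) (Ls.cons (Ent.neg F4_8_3_0) (Ls.cons (Ent.neg F4_7_3_0) (Ls.cons (Ent.neg F4_6_3_0) (Ls.cons (Ent.neg F4_5_3_0) (Ls.cons (Ent.neg F4_4_3_0) (Ls.cons Ent.zero (Ls.cons (Ent.pos F4_3_2_0) (Ls.cons (Ent.neg F4_3_1_0) (Ls.cons Ent.zero Ls.nil)))))))))))))))))))))))))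
 (Ls.cons (Ls.cons (Ent.neg F4_24_2_0) (Ls.cons (Ent.neg F4_23_2_0) (Ls.cons (Ent.neg F4_22_2_0) (Ls.cons (Ent.neg F4_21_2_0) (Ls.cons (Ent.neg F4_20_2_0) (Ls.cons (Ent.neg F4_19_2_0) (Ls.cons (Ent.neg F4_18_2_0) (Ls.cons (Ent.neg F4_17_2_0) (Ls.cons (Ent.pos F4_16_2_0) (Ls.cons (Ent.neg F4_15_2_0) (Ls.cons (Ent.pos F4_14_2_0) (Ls.cons (Ent.pos F4_13_2_0) (Ls.cons (Ent.pos F4_12_2_0) (Ls.cons (Ent.pos F4_11_2_0) (Ls.cons (Ent.pos F4_10_2_0) (Ls.cons (Ent.pos F4_9_2_0) (Ls.cons (Ent.pos F4_8_2_0) (Ls.cons (Ent.pos F4_7_2_0) (Ls.cons (Ent.pos F4_6_2_0) (Ls.cons (Ent.neg F4_5_2_0) (Ls.cons (Ent.pos F4_4_2_0) (Ls.cons (Ent.neg F4_3_2_0) (Ls.cons Ent.zero (Ls.cons (Ent.pos F4_2_1_0) (Ls.cons Ent.zero Ls.nil)))))))))))))))))))))))))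
 (Ls.cons (Ls.cons (Ent.pos F4_24_1_0) (Ls.cons (Ent.pos F4_23_1_0) (Ls.cons (Ent.pos F4_22_1_0) (Ls.cons (Ent.pos F4_21_1_0) (Ls.cons (Ent.pos F4_20_1_0) (Ls.cons (Ent.pos F4_19_1_0) (Ls.cons (Ent.pos F4_18_1_0) (Ls.cons (Ent.pos F4_17_1_0) (Ls.cons (Ent.neg F4_16_1_0) (Ls.cons (Ent.neg F4_15_1_0) (Ls.cons (Ent.neg F4_14_1_0) (Ls.cons (Ent.neg F4_13_1_0) (Ls.cons (Ent.neg F4_12_1_0) (Ls.cons (Ent.neg F4_11_1_0) (Ls.cons (Ent.neg F4_10_1_0) (Ls.cons (Ent.neg F4_9_1_0) (Ls.cons (Ent.neg F4_8_1_0) (Ls.cons (Ent.neg F4_7_1_0) (Ls.cons (Ent.neg F4_6_1_0) (Ls.cons (Ent.pos F4_5_1_0) (Ls.cons (Ent.neg F4_4_1_0) (Ls.cons (Ent.pos F4_3_1_0) (Ls.cons (Ent.neg F4_2_1_0) (Ls.cons Ent.zero (Ls.cons Ent.zero Ls.nil)))))))))))))))))))))))))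
 (Ls.cons (Ls.cons Ent.zero (Ls.cons Ent.zero (Ls.cons Ent.zero (Ls.cons Ent.zero (Ls.cons Ent.zero (Ls.cons Ent.zero (Ls.cons Ent.zero (Ls.cons Ent.zero (Ls.cons Ent.zero (Ls.cons Ent.zero (Ls.cons Ent.zero (Ls.cons Ent.zero (Ls.cons Ent.zero (Ls.cons Ent.zero (Ls.cons Ent.zero (Ls.cons Ent.zero (Ls.cons Ent.zero (Ls.cons Ent.zero (Ls.cons Ent.zero (Ls.cons Ent.zero (Ls.cons Ent.zero (Ls.cons Ent.zero (Ls.cons Ent.zero (Ls.cons Ent.zero (Ls.cons Ent.zero Ls.nil)))))))))))))))))))))))))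
 Ls.nil))))))))))))))))))))

noncomputable def bxF4_1 : L2 :=
 (Ls.cons (Ls.cons Ent.zero (Ls.cons Ent.zero (Ls.cons Ent.zero (Ls.cons Ent.zero (Ls.cons Ent.zero (Ls.cons Ent.zero (Ls.cons Ent.zero (Ls.cons Ent.zero (Ls.cons Ent.zero (Ls.cons Ent.zero (Ls.cons (Ent.neg F4_19_14_1) (Ls.cons (Ent.neg F4_19_13_1) (Ls.cons (Ent.neg F4_19_12_1) (Ls.cons (Ent.neg F4_19_11_1) (Ls.cons (Ent.neg F4_19_10_1) (Ls.cons (Ent.neg F4_19_9_1) (Ls.cons (Ent.neg F4_19_8_1) (Ls.cons (Ent.pos F4_19_7_1) (Ls.cons (Ent.pos F4_19_6_1) (Ls.cons (Ent.pos F4_19_5_1) (Ls.cons (Ent.pos F4_19_4_1) (Ls.cons (Ent.pos F4_19_3_1) (Ls.cons (Ent.neg F4_19_2_1) (Ls.cons Ent.zero (Ls.cons (Ent.pos F4_19_1_0) Ls.nil)))))))))))))))))))))))))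
 (Ls.cons (Ls.cons Ent.zero (Ls.cons Ent.zero (Ls.cons Ent.zero (Ls.cons Ent.zero (Ls.cons Ent.zero (Ls.cons Ent.zero (Ls.cons Ent.zero (Ls.cons Ent.zero (Ls.cons Ent.zero (Ls.cons Ent.zero (Ls.cons (Ent.neg F4_18_14_1) (Ls.cons (Ent.neg F4_18_13_1) (Ls.cons (Ent.neg F4_18_12_1) (Ls.cons (Ent.neg F4_18_11_1) (Ls.cons (Ent.neg F4_18_10_1) (Ls.cons (Ent.neg F4_18_9_1) (Ls.cons (Ent.pos F4_18_8_1) (Ls.cons (Ent.pos F4_18_7_1) (Ls.cons (Ent.pos F4_18_6_1) (Ls.cons (Ent.pos F4_18_5_1) (Ls.cons (Ent.pos F4_18_4_1) (Ls.cons (Ent.neg F4_18_3_1) (Ls.cons (Ent.neg F4_18_2_1) (Ls.cons Ent.zero (Ls.cons (Ent.pos F4_18_1_0) Ls.nil)))))))))))))))))))))))))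
 (Ls.cons (Ls.cons Ent.zero (Ls.cons Ent.zero (Ls.cons Ent.zero (Ls.cons Ent.zero (Ls.cons Ent.zero (Ls.cons Ent.zero (Ls.cons Ent.zero (Ls.cons Ent.zero (Ls.cons (Ent.neg F4_17_16_1) (Ls.cons Ent.zero (Ls.cons (Ent.neg F4_17_14_1) (Ls.cons (Ent.neg F4_17_13_1) (Ls.cons (Ent.neg F4_17_12_1) (Ls.cons (Ent.neg F4_17_11_1) (Ls.cons (Ent.neg F4_17_10_1) (Ls.cons (Ent.pos F4_17_9_1) (Ls.cons (Ent.pos F4_17_8_1) (Ls.cons (Ent.pos F4_17_7_1) (Ls.cons (Ent.pos F4_17_6_1) (Ls.cons (Ent.pos F4_17_5_1) (Ls.cons (Ent.neg F4_17_4_1) (Ls.cons (Ent.pos F4_17_3_1) (Ls.cons (Ent.neg F4_17_2_1) (Ls.cons Ent.zero (Ls.cons (Ent.pos F4_17_1_0) Ls.nil)))))))))))))))))))))))))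
 (Ls.cons (Ls.cons Ent.zero (Ls.cons Ent.zero (Ls.cons Ent.zero (Ls.cons Ent.zero (Ls.cons Ent.zero (Ls.cons Ent.zero (Ls.cons Ent.zero (Ls.cons (Ent.pos F4_17_16_1) (Ls.cons Ent.zero (Ls.cons (Ent.neg F4_16_15_1) (Ls.cons (Ent.neg F4_16_14_1) (Ls.cons (Ent.neg F4_16_13_1) (Ls.cons (Ent.neg F4_16_12_1) (Ls.cons (Ent.neg F4_16_11_1) (Ls.cons (Ent.neg F4_16_10_1) (Ls.cons (Ent.pos F4_16_9_1) (Ls.cons (Ent.pos F4_16_8_1) (Ls.cons (Ent.pos F4_16_7_1) (Ls.cons (Ent.pos F4_16_6_1) (Ls.cons (Ent.pos F4_16_5_1) (Ls.cons (Ent.pos F4_16_4_1) (Ls.cons (Ent.neg F4_16_3_1) (Ls.cons (Ent.pos F4_16_2_1) (Ls.cons Ent.zero (Ls.cons (Ent.neg F4_16_1_0) Ls.nil)))))))))))))))))))))))))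
 (Ls.cons (Ls.cons Ent.zero (Ls.cons Ent.zero (Ls.cons Ent.zero (Ls.cons Ent.zero (Ls.cons Ent.zero (Ls.cons Ent.zero (Ls.cons Ent.zero (Ls.cons Ent.zero (Ls.cons (Ent.pos F4_16_15_1) (Ls.cons Ent.zero (Ls.cons (Ent.neg F4_15_14_1) (Ls.cons (Ent.neg F4_15_13_1) (Ls.cons (Ent.neg F4_15_12_1) (Ls.cons (Ent.neg F4_15_11_1) (Ls.cons (Ent.neg F4_15_10_1) (Ls.cons (Ent.pos F4_15_9_1) (Ls.cons (Ent.pos F4_15_8_1) (Ls.cons (Ent.pos F4_15_7_1) (Ls.cons (Ent.neg F4_15_6_1) (Ls.cons (Ent.pos F4_15_5_1) (Ls.cons (Ent.neg F4_15_4_1) (Ls.cons (Ent.pos F4_15_3_1) (Ls.cons (Ent.neg F4_15_2_1) (Ls.cons Ent.zero (Ls.cons (Ent.neg F4_15_1_0) Ls.nil)))))))))))))))))))))))))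
 (Ls.cons (Ls.cons Ent.zero (Ls.cons Ent.zero (Ls.cons Ent.zero (Ls.cons Ent.zero (Ls.cons Ent.zero (Ls.cons (Ent.pos F4_19_14_1) (Ls.cons (Ent.pos F4_18_14_1) (Ls.cons (Ent.pos F4_17_14_1) (Ls.cons (Ent.pos F4_16_14_1) (Ls.cons (Ent.pos F4_15_14_1) (Ls.cons Ent.zero (Ls.cons (Ent.neg F4_14_13_1) (Ls.cons (Ent.neg F4_14_12_1) (Ls.cons (Ent.neg F4_14_11_1) (Ls.cons (Ent.neg F4_14_10_1) (Ls.cons (Ent.pos F4_14_9_1) (Ls.cons (Ent.pos F4_14_8_1) (Ls.cons (Ent.neg F4_14_7_1) (Ls.cons (Ent.neg F4_14_6_1) (Ls.cons (Ent.neg F4_14_5_1) (Ls.cons (Ent.neg F4_14_4_1) (Ls.cons (Ent.neg F4_14_3_1) (Ls.cons (Ent.pos F4_14_2_1) (Ls.cons Ent.zero (Ls.cons (Ent.neg F4_14_1_0) Ls.nil)))))))))))))))))))))))))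
 (Ls.cons (Ls.cons Ent.zero (Ls.cons Ent.zero (Ls.cons Ent.zero (Ls.cons Ent.zero (Ls.cons Ent.zero (Ls.cons (Ent.pos F4_19_13_1) (Ls.cons (Ent.pos F4_18_13_1) (Ls.cons (Ent.pos F4_17_13_1) (Ls.cons (Ent.pos F4_16_13_1) (Ls.cons (Ent.pos F4_15_13_1) (Ls.cons (Ent.pos F4_14_13_1) (Ls.cons Ent.zero (Ls.cons (Ent.neg F4_13_12_1) (Ls.cons (Ent.pos F4_13_11_1) (Ls.cons (Ent.neg F4_13_10_1) (Ls.cons (Ent.pos F4_13_9_1) (Ls.cons (Ent.neg F4_13_8_1) (Ls.cons (Ent.neg F4_13_7_1) (Ls.cons (Ent.neg F4_13_6_1) (Ls.cons (Ent.neg F4_13_5_1) (Ls.cons (Ent.neg F4_13_4_1) (Ls.cons (Ent.neg F4_13_3_1) (Ls.cons (Ent.pos F4_13_2_1) (Ls.cons Ent.zero (Ls.cons (Ent.neg F4_13_1_0) Ls.nil)))))))))))))))))))))))))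
 (Ls.cons (Ls.cons Ent.zero (Ls.cons Ent.zero (Ls.cons Ent.zero (Ls.cons Ent.zero (Ls.cons (Ent.pos F4_20_12_1) (Ls.cons (Ent.pos F4_19_12_1) (Ls.cons (Ent.pos F4_18_12_1) (Ls.cons (Ent.pos F4_17_12_1) (Ls.cons (Ent.pos F4_16_12_1) (Ls.cons (Ent.pos F4_15_12_1) (Ls.cons (Ent.pos F4_14_12_1) (Ls.cons (Ent.pos F4_13_12_1) (Ls.cons Ent.zero (Ls.cons (Ent.neg F4_12_11_1) (Ls.cons Ent.zero (Ls.cons (Ent.neg F4_12_9_1) (Ls.cons (Ent.neg F4_12_8_1) (Ls.cons (Ent.neg F4_12_7_1) (Ls.cons (Ent.neg F4_12_6_1) (Ls.cons (Ent.neg F4_12_5_1) (Ls.cons (Ent.neg F4_12_4_1) (Ls.cons (Ent.neg F4_12_3_1) (Ls.cons (Ent.pos F4_12_2_1) (Ls.cons Ent.zero (Ls.cons (Ent.neg F4_12_1_0) Ls.nil)))))))))))))))))))))))))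
 (Ls.cons (Ls.cons Ent.zero (Ls.cons Ent.zero (Ls.cons Ent.zero (Ls.cons Ent.zero (Ls.cons (Ent.pos F4_20_11_1) (Ls.cons (Ent.pos F4_19_11_1) (Ls.cons (Ent.pos F4_18_11_1) (Ls.cons (Ent.pos F4_17_11_1) (Ls.cons (Ent.pos F4_16_11_1) (Ls.cons (Ent.pos F4_15_11_1) (Ls.cons (Ent.pos F4_14_11_1) (Ls.cons (Ent.neg F4_13_11_1) (Ls.cons (Ent.pos F4_12_11_1) (Ls.cons Ent.zero (Ls.cons (Ent.neg F4_11_10_1) (Ls.cons (Ent.neg F4_11_9_1) (Ls.cons (Ent.neg F4_11_8_1) (Ls.cons (Ent.neg F4_11_7_1) (Ls.cons (Ent.neg F4_11_6_1) (Ls.cons (Ent.neg F4_11_5_1) (Ls.cons (Ent.neg F4_11_4_1) (Ls.cons (Ent.neg F4_11_3_1) (Ls.cons (Ent.pos F4_11_2_1) (Ls.cons Ent.zero (Ls.cons (Ent.neg F4_11_1_0) Ls.nil)))))))))))))))))))))))))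
 (Ls.cons (Ls.cons Ent.zero (Ls.cons Ent.zero (Ls.cons Ent.zero (Ls.cons Ent.zero (Ls.cons (Ent.pos F4_20_10_1) (Ls.cons (Ent.pos F4_19_10_1) (Ls.cons (Ent.pos F4_18_10_1) (Ls.cons (Ent.pos F4_17_10_1) (Ls.cons (Ent.pos F4_16_10_1) (Ls.cons (Ent.pos F4_15_10_1) (Ls.cons (Ent.pos F4_14_10_1) (Ls.cons (Ent.pos F4_13_10_1) (Ls.cons Ent.zero (Ls.cons (Ent.pos F4_11_10_1) (Ls.cons Ent.zero (Ls.cons (Ent.neg F4_10_9_1) (Ls.cons (Ent.neg F4_10_8_1) (Ls.cons (Ent.neg F4_10_7_1) (Ls.cons (Ent.neg F4_10_6_1) (Ls.cons (Ent.neg F4_10_5_1) (Ls.cons (Ent.neg F4_10_4_1) (Ls.cons (Ent.neg F4_10_3_1) (Ls.cons (Ent.pos F4_10_2_1) (Ls.cons Ent.zero (Ls.cons (Ent.neg F4_10_1_0) Ls.nil)))))))))))))))))))))))))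
 (Ls.cons (Ls.cons Ent.zero (Ls.cons Ent.zero (Ls.cons Ent.zero (Ls.cons Ent.zero (Ls.cons (Ent.pos F4_20_9_1) (Ls.cons (Ent.pos F4_19_9_1) (Ls.cons (Ent.pos F4_18_9_1) (Ls.cons (Ent.neg F4_17_9_1) (Ls.cons (Ent.neg F4_16_9_1) (Ls.cons (Ent.neg F4_15_9_1) (Ls.cons (Ent.neg F4_14_9_1) (Ls.cons (Ent.neg F4_13_9_1) (Ls.cons (Ent.pos F4_12_9_1) (Ls.cons (Ent.pos F4_11_9_1) (Ls.cons (Ent.pos F4_10_9_1) (Ls.cons Ent.zero (Ls.cons (Ent.neg F4_9_8_1) (Ls.cons (Ent.neg F4_9_7_1) (Ls.cons (Ent.neg F4_9_6_1) (Ls.cons (Ent.neg F4_9_5_1) (Ls.cons (Ent.neg F4_9_4_1) (Ls.cons (Ent.neg F4_9_3_1) (Ls.cons (Ent.pos F4_9_2_1) (Ls.cons Ent.zero (Ls.cons (Ent.neg F4_9_1_0) Ls.nil)))))))))))))))))))))))))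
 (Ls.cons (Ls.cons Ent.zero (Ls.cons Ent.zero (Ls.cons Ent.zero (Ls.cons (Ent.pos F4_21_8_1) (Ls.cons (Ent.pos F4_20_8_1) (Ls.cons (Ent.pos F4_19_8_1) (Ls.cons (Ent.neg F4_18_8_1) (Ls.cons (Ent.neg F4_17_8_1) (Ls.cons (Ent.neg F4_16_8_1) (Ls.cons (Ent.neg F4_15_8_1) (Ls.cons (Ent.neg F4_14_8_1) (Ls.cons (Ent.pos F4_13_8_1) (Ls.cons (Ent.pos F4_12_8_1) (Ls.cons (Ent.pos F4_11_8_1) (Ls.cons (Ent.pos F4_10_8_1) (Ls.cons (Ent.pos F4_9_8_1) (Ls.cons Ent.zero (Ls.cons (Ent.neg F4_8_7_1) (Ls.cons (Ent.neg F4_8_6_1) (Ls.cons (Ent.neg F4_8_5_1) (Ls.cons (Ent.neg F4_8_4_1) (Ls.cons (Ent.neg F4_8_3_1) (Ls.cons (Ent.pos F4_8_2_1) (Ls.cons Ent.zero (Ls.cons (Ent.neg F4_8_1_0) Ls.nil)))))))))))))))))))))))))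
 (Ls.cons (Ls.cons Ent.zero (Ls.cons Ent.zero (Ls.cons Ent.zero (Ls.cons (Ent.neg F4_21_7_1) (Ls.cons (Ent.neg F4_20_7_1) (Ls.cons (Ent.neg F4_19_7_1) (Ls.cons (Ent.neg F4_18_7_1) (Ls.cons (Ent.neg F4_17_7_1) (Ls.cons (Ent.neg F4_16_7_1) (Ls.cons (Ent.neg F4_15_7_1) (Ls.cons (Ent.pos F4_14_7_1) (Ls.cons (Ent.pos F4_13_7_1) (Ls.cons (Ent.pos F4_12_7_1) (Ls.cons (Ent.pos F4_11_7_1) (Ls.cons (Ent.pos F4_10_7_1) (Ls.cons (Ent.pos F4_9_7_1) (Ls.cons (Ent.pos F4_8_7_1) (Ls.cons Ent.zero (Ls.cons (Ent.neg F4_7_6_1) (Ls.cons (Ent.neg F4_7_5_1) (Ls.cons (Ent.neg F4_7_4_1) (Ls.cons (Ent.neg F4_7_3_1) (Ls.cons (Ent.pos F4_7_2_1) (Ls.cons Ent.zero (Ls.cons (Ent.neg F4_7_1_0) Ls.nil)))))))))))))))))))))))))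
 (Ls.cons (Ls.cons Ent.zero (Ls.cons Ent.zero (Ls.cons Ent.zero (Ls.cons (Ent.neg F4_21_6_1) (Ls.cons (Ent.neg F4_20_6_1) (Ls.cons (Ent.neg F4_19_6_1) (Ls.cons (Ent.neg F4_18_6_1) (Ls.cons (Ent.neg F4_17_6_1) (Ls.cons (Ent.neg F4_16_6_1) (Ls.cons (Ent.pos F4_15_6_1) (Ls.cons (Ent.pos F4_14_6_1) (Ls.cons (Ent.pos F4_13_6_1) (Ls.cons (Ent.pos F4_12_6_1) (Ls.cons (Ent.pos F4_11_6_1) (Ls.cons (Ent.pos F4_10_6_1) (Ls.cons (Ent.pos F4_9_6_1) (Ls.cons (Ent.pos F4_8_6_1) (Ls.cons (Ent.pos F4_7_6_1) (Ls.cons Ent.zero (Ls.cons (Ent.neg F4_6_5_1) (Ls.cons (Ent.pos F4_6_4_1) (Ls.cons (Ent.neg F4_6_3_1) (Ls.cons (Ent.pos F4_6_2_1) (Ls.cons Ent.zero (Ls.cons (Ent.neg F4_6_1_0) Ls.nil)))))))))))))))))))))))))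
 (Ls.cons (Ls.cons Ent.zero (Ls.cons Ent.zero (Ls.cons Ent.zero (Ls.cons (Ent.neg F4_21_5_1) (Ls.cons (Ent.neg F4_20_5_1) (Ls.cons (Ent.neg F4_19_5_1) (Ls.cons (Ent.neg F4_18_5_1) (Ls.cons (Ent.neg F4_17_5_1) (Ls.cons (Ent.neg F4_16_5_1) (Ls.cons (Ent.neg F4_15_5_1) (Ls.cons (Ent.pos F4_14_5_1) (Ls.cons (Ent.pos F4_13_5_1) (Ls.cons (Ent.pos F4_12_5_1) (Ls.cons (Ent.pos F4_11_5_1) (Ls.cons (Ent.pos F4_10_5_1) (Ls.cons (Ent.pos F4_9_5_1) (Ls.cons (Ent.pos F4_8_5_1) (Ls.cons (Ent.pos F4_7_5_1) (Ls.cons (Ent.pos F4_6_5_1) (Ls.cons Ent.zero (Ls.cons (Ent.neg F4_5_4_1) (Ls.cons (Ent.neg F4_5_3_1) (Ls.cons (Ent.neg F4_5_2_1) (Ls.cons Ent.zero (Ls.cons (Ent.pos F4_5_1_0) Ls.nil)))))))))))))))))))))))))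
 (Ls.cons (Ls.cons Ent.zero (Ls.cons (Ent.neg F4_23_4_1) (Ls.cons (Ent.neg F4_22_4_1) (Ls.cons (Ent.neg F4_21_4_1) (Ls.cons (Ent.neg F4_20_4_1) (Ls.cons (Ent.neg F4_19_4_1) (Ls.cons (Ent.neg F4_18_4_1) (Ls.cons (Ent.pos F4_17_4_1) (Ls.cons (Ent.neg F4_16_4_1) (Ls.cons (Ent.pos F4_15_4_1) (Ls.cons (Ent.pos F4_14_4_1) (Ls.cons (Ent.pos F4_13_4_1) (Ls.cons (Ent.pos F4_12_4_1) (Ls.cons (Ent.pos F4_11_4_1) (Ls.cons (Ent.pos F4_10_4_1) (Ls.cons (Ent.pos F4_9_4_1) (Ls.cons (Ent.pos F4_8_4_1) (Ls.cons (Ent.pos F4_7_4_1) (Ls.cons (Ent.neg F4_6_4_1) (Ls.cons (Ent.pos F4_5_4_1) (Ls.cons Ent.zero (Ls.cons (Ent.neg F4_4_3_1) (Ls.cons (Ent.pos F4_4_2_1) (Ls.cons Ent.zero (Ls.cons (Ent.neg F4_4_1_0) Ls.nil)))))))))))))))))))))))))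
 (Ls.cons (Ls.cons Ent.zero (Ls.cons (Ent.neg F4_23_3_1) (Ls.cons (Ent.neg F4_22_3_1) (Ls.cons (Ent.neg F4_21_3_1) (Ls.cons (Ent.neg F4_20_3_1) (Ls.cons (Ent.neg F4_19_3_1) (Ls.cons (Ent.pos F4_18_3_1) (Ls.cons (Ent.neg F4_17_3_1) (Ls.cons (Ent.pos F4_16_3_1) (Ls.cons (Ent.neg F4_15_3_1) (Ls.cons (Ent.pos F4_14_3_1) (Ls.cons (Ent.pos F4_13_3_1) (Ls.cons (Ent.pos F4_12_3_1) (Ls.cons (Ent.pos F4_11_3_1) (Ls.cons (Ent.pos F4_10_3_1) (Ls.cons (Ent.pos F4_9_3_1) (Ls.cons (Ent.pos F4_8_3_1) (Ls.cons (Ent.pos F4_7_3_1) (Ls.cons (Ent.pos F4_6_3_1) (Ls.cons (Ent.pos F4_5_3_1) (Ls.cons (Ent.pos F4_4_3_1) (Ls.cons Ent.zero (Ls.cons (Ent.neg F4_3_2_1) (Ls.cons Ent.zero (Ls.cons (Ent.pos F4_3_1_0) Ls.nil)))))))))))))))))))))))))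
 (Ls.cons (Ls.cons (Ent.pos F4_24_2_1) (Ls.cons (Ent.pos F4_23_2_1) (Ls.cons (Ent.pos F4_22_2_1) (Ls.cons (Ent.pos F4_21_2_1) (Ls.cons (Ent.pos F4_20_2_1) (Ls.cons (Ent.pos F4_19_2_1) (Ls.cons (Ent.pos F4_18_2_1) (Ls.cons (Ent.pos F4_17_2_1) (Ls.cons (Ent.neg F4_16_2_1) (Ls.cons (Ent.pos F4_15_2_1) (Ls.cons (Ent.neg F4_14_2_1) (Ls.cons (Ent.neg F4_13_2_1) (Ls.cons (Ent.neg F4_12_2_1) (Ls.cons (Ent.neg F4_11_2_1) (Ls.cons (Ent.neg F4_10_2_1) (Ls.cons (Ent.neg F4_9_2_1) (Ls.cons (Ent.neg F4_8_2_1) (Ls.cons (Ent.neg F4_7_2_1) (Ls.cons (Ent.neg F4_6_2_1) (Ls.cons (Ent.pos F4_5_2_1) (Ls.cons (Ent.neg F4_4_2_1) (Ls.cons (Ent.pos F4_3_2_1) (Ls.cons Ent.zero (Ls.cons Ent.zero (Ls.cons (Ent.neg F4_2_1_0) Ls.nil)))))))))))))))))))))))))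
 (Ls.cons (Ls.cons Ent.zero (Ls.cons Ent.zero (Ls.cons Ent.zero (Ls.cons Ent.zero (Ls.cons Ent.zero (Ls.cons Ent.zero (Ls.cons Ent.zero (Ls.cons Ent.zero (Ls.cons Ent.zero (Ls.cons Ent.zero (Ls.cons Ent.zero (Ls.cons Ent.zero (Ls.cons Ent.zero (Ls.cons Ent.zero (Ls.cons Ent.zero (Ls.cons Ent.zero (Ls.cons Ent.zero (Ls.cons Ent.zero (Ls.cons Ent.zero (Ls.cons Ent.zero (Ls.cons Ent.zero (Ls.cons Ent.zero (Ls.cons Ent.zero (Ls.cons Ent.zero (Ls.cons Ent.zero Ls.nil)))))))))))))))))))))))))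
 (Ls.cons (Ls.cons (Ent.neg F4_24_1_0) (Ls.cons (Ent.neg F4_23_1_0) (Ls.cons (Ent.neg F4_22_1_0) (Ls.cons (Ent.neg F4_21_1_0) (Ls.cons (Ent.neg F4_20_1_0) (Ls.cons (Ent.neg F4_19_1_0) (Ls.cons (Ent.neg F4_18_1_0) (Ls.cons (Ent.neg F4_17_1_0) (Ls.cons (Ent.pos F4_16_1_0) (Ls.cons (Ent.pos F4_15_1_0) (Ls.cons (Ent.pos F4_14_1_0) (Ls.cons (Ent.pos F4_13_1_0) (Ls.cons (Ent.pos F4_12_1_0) (Ls.cons (Ent.pos F4_11_1_0) (Ls.cons (Ent.pos F4_10_1_0) (Ls.cons (Ent.pos F4_9_1_0) (Ls.cons (Ent.pos F4_8_1_0) (Ls.cons (Ent.pos F4_7_1_0) (Ls.cons (Ent.pos F4_6_1_0) (Ls.cons (Ent.neg F4_5_1_0) (Ls.cons (Ent.pos F4_4_1_0) (Ls.cons (Ent.neg F4_3_1_0) (Ls.cons (Ent.pos F4_2_1_0) (Ls.cons Ent.zero (Ls.cons Ent.zero Ls.nil)))))))))))))))))))))))))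
 Ls.nil))))))))))))))))))))

noncomputable def bxF4_2 : L2 :=
 (Ls.cons (Ls.cons Ent.zero (Ls.cons Ent.zero (Ls.cons Ent.zero (Ls.cons Ent.zero (Ls.cons Ent.zero (Ls.cons Ent.zero (Ls.cons Ent.zero (Ls.cons Ent.zero (Ls.cons Ent.zero (Ls.cons Ent.zero (Ls.cons (Ent.pos F4_19_14_2) (Ls.cons (Ent.pos F4_19_13_2) (Ls.cons (Ent.pos F4_19_12_2) (Ls.cons (Ent.pos F4_19_11_2) (Ls.cons (Ent.pos F4_19_10_2) (Ls.cons Ent.zero (Ls.cons Ent.zero (Ls.cons (Ent.neg F4_19_7_2) (Ls.cons (Ent.neg F4_19_6_2) (Ls.cons (Ent.neg F4_19_5_2) (Ls.cons (Ent.neg F4_19_4_2) (Ls.cons (Ent.neg F4_19_3_2) (Ls.cons Ent.zero (Ls.cons (Ent.pos F4_19_2_1) (Ls.cons (Ent.neg F4_19_2_0) Ls.nil)))))))))))))))))))))))))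
 (Ls.cons (Ls.cons Ent.zero (Ls.cons Ent.zero (Ls.cons Ent.zero (Ls.cons Ent.zero (Ls.cons Ent.zero (Ls.cons Ent.zero (Ls.cons Ent.zero (Ls.cons Ent.zero (Ls.cons Ent.zero (Ls.cons Ent.zero (Ls.cons (Ent.pos F4_18_14_2) (Ls.cons (Ent.pos F4_18_13_2) (Ls.cons (Ent.pos F4_18_12_2) (Ls.cons (Ent.pos F4_18_11_2) (Ls.cons (Ent.pos F4_18_10_2) (Ls.cons Ent.zero (Ls.cons (Ent.neg F4_18_8_2) (Ls.cons (Ent.neg F4_18_7_2) (Ls.cons (Ent.neg F4_18_6_2) (Ls.cons (Ent.neg F4_18_5_2) (Ls.cons (Ent.neg F4_18_4_2) (Ls.cons Ent.zero (Ls.cons Ent.zero (Ls.cons (Ent.pos F4_18_2_1) (Ls.cons (Ent.neg F4_18_2_0) Ls.nil)))))))))))))))))))))))))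
 (Ls.cons (Ls.cons Ent.zero (Ls.cons Ent.zero (Ls.cons Ent.zero (Ls.cons Ent.zero (Ls.cons Ent.zero (Ls.cons Ent.zero (Ls.cons Ent.zero (Ls.cons Ent.zero (Ls.cons (Ent.pos F4_17_16_2) (Ls.cons Ent.zero (Ls.cons (Ent.pos F4_17_14_2) (Ls.cons (Ent.pos F4_17_13_2) (Ls.cons (Ent.pos F4_17_12_2) (Ls.cons (Ent.pos F4_17_11_2) (Ls.cons (Ent.pos F4_17_10_2) (Ls.cons (Ent.neg F4_17_9_2) (Ls.cons (Ent.neg F4_17_8_2) (Ls.cons (Ent.neg F4_17_7_2) (Ls.cons (Ent.neg F4_17_6_2) (Ls.cons (Ent.neg F4_17_5_2) (Ls.cons Ent.zero (Ls.cons (Ent.neg F4_17_3_2) (Ls.cons Ent.zero (Ls.cons (Ent.pos F4_17_2_1) (Ls.cons (Ent.neg F4_17_2_0) Ls.nil)))))))))))))))))))))))))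
 (Ls.cons (Ls.cons Ent.zero (Ls.cons Ent.zero (Ls.cons Ent.zero (Ls.cons Ent.zero (Ls.cons Ent.zero (Ls.cons Ent.zero (Ls.cons Ent.zero (Ls.cons (Ent.neg F4_17_16_2) (Ls.cons Ent.zero (Ls.cons Ent.zero (Ls.cons (Ent.pos F4_16_14_2) (Ls.cons (Ent.pos F4_16_13_2) (Ls.cons (Ent.pos F4_16_12_2) (Ls.cons (Ent.pos F4_16_11_2) (Ls.cons Ent.zero (Ls.cons (Ent.neg F4_16_9_2) (Ls.cons (Ent.neg F4_16_8_2) (Ls.cons (Ent.neg F4_16_7_2) (Ls.cons (Ent.neg F4_16_6_2) (Ls.cons Ent.zero (Ls.cons Ent.zero (Ls.cons (Ent.pos F4_16_3_2) (Ls.cons Ent.zero (Ls.cons (Ent.neg F4_16_2_1) (Ls.cons (Ent.pos F4_16_2_0) Ls.nil)))))))))))))))))))))))))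
 (Ls.cons (Ls.cons Ent.zero (Ls.cons Ent.zero (Ls.cons Ent.zero (Ls.cons Ent.zero (Ls.cons Ent.zero (Ls.cons Ent.zero (Ls.cons Ent.zero (Ls.cons Ent.zero (Ls.cons Ent.zero (Ls.cons Ent.zero (Ls.cons (Ent.pos F4_15_14_2) (Ls.cons (Ent.pos F4_15_13_2) (Ls.cons (Ent.pos F4_15_12_2) (Ls.cons Ent.zero (Ls.cons Ent.zero (Ls.cons (Ent.neg F4_15_9_2) (Ls.cons (Ent.neg F4_15_8_2) (Ls.cons (Ent.neg F4_15_7_2) (Ls.cons Ent.zero (Ls.cons Ent.zero (Ls.cons Ent.zero (Ls.cons Ent.zero (Ls.cons Ent.zero (Ls.cons (Ent.pos F4_15_2_1) (Ls.cons (Ent.neg F4_15_2_0) Ls.nil)))))))))))))))))))))))))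
 (Ls.cons (Ls.cons Ent.zero (Ls.cons Ent.zero (Ls.cons Ent.zero (Ls.cons Ent.zero (Ls.cons Ent.zero (Ls.cons (Ent.neg F4_19_14_2) (Ls.cons (Ent.neg F4_18_14_2) (Ls.cons (Ent.neg F4_17_14_2) (Ls.cons (Ent.neg F4_16_14_2) (Ls.cons (Ent.neg F4_15_14_2) (Ls.cons Ent.zero (Ls.cons Ent.zero (Ls.cons Ent.zero (Ls.cons Ent.zero (Ls.cons Ent.zero (Ls.cons Ent.zero (Ls.cons Ent.zero (Ls.cons (Ent.pos F4_14_7_2) (Ls.cons (Ent.pos F4_14_6_2) (Ls.cons (Ent.pos F4_14_5_2) (Ls.cons (Ent.pos F4_14_4_2) (Ls.cons (Ent.pos F4_14_3_2) (Ls.cons Ent.zero (Ls.cons (Ent.neg F4_14_2_1) (Ls.cons (Ent.pos F4_14_2_0) Ls.nil)))))))))))))))))))))))))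
 (Ls.cons (Ls.cons Ent.zero (Ls.cons Ent.zero (Ls.cons Ent.zero (Ls.cons Ent.zero (Ls.cons Ent.zero (Ls.cons (Ent.neg F4_19_13_2) (Ls.cons (Ent.neg F4_18_13_2) (Ls.cons (Ent.neg F4_17_13_2) (Ls.cons (Ent.neg F4_16_13_2) (Ls.cons (Ent.neg F4_15_13_2) (Ls.cons Ent.zero (Ls.cons Ent.zero (Ls.cons (Ent.pos F4_13_12_2) (Ls.cons (Ent.neg F4_13_11_2) (Ls.cons Ent.zero (Ls.cons Ent.zero (Ls.cons (Ent.pos F4_13_8_2) (Ls.cons (Ent.pos F4_13_7_2) (Ls.cons (Ent.pos F4_13_6_2) (Ls.cons (Ent.pos F4_13_5_2) (Ls.cons (Ent.pos F4_13_4_2) (Ls.cons (Ent.pos F4_13_3_2) (Ls.cons Ent.zero (Ls.cons (Ent.neg F4_13_2_1) (Ls.cons (Ent.pos F4_13_2_0) Ls.nil)))))))))))))))))))))))))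
 (Ls.cons (Ls.cons Ent.zero (Ls.cons Ent.zero (Ls.cons Ent.zero (Ls.cons Ent.zero (Ls.cons Ent.zero (Ls.cons (Ent.neg F4_19_12_2) (Ls.cons (Ent.neg F4_18_12_2) (Ls.cons (Ent.neg F4_17_12_2) (Ls.cons (Ent.neg F4_16_12_2) (Ls.cons (Ent.neg F4_15_12_2) (Ls.cons Ent.zero (Ls.cons (Ent.neg F4_13_12_2) (Ls.cons Ent.zero (Ls.cons (Ent.pos F4_12_11_2) (Ls.cons Ent.zero (Ls.cons (Ent.pos F4_12_9_2) (Ls.cons (Ent.pos F4_12_8_2) (Ls.cons (Ent.pos F4_12_7_2) (Ls.cons (Ent.pos F4_12_6_2) (Ls.cons (Ent.pos F4_12_5_2) (Ls.cons (Ent.pos F4_12_4_2) (Ls.cons (Ent.pos F4_12_3_2) (Ls.cons Ent.zero (Ls.cons (Ent.neg F4_12_2_1) (Ls.cons (Ent.pos F4_12_2_0) Ls.nil)))))))))))))))))))))))))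
 (Ls.cons (Ls.cons Ent.zero (Ls.cons Ent.zero (Ls.cons Ent.zero (Ls.cons Ent.zero (Ls.cons (Ent.neg F4_20_11_2) (Ls.cons (Ent.neg F4_19_11_2) (Ls.cons (Ent.neg F4_18_11_2) (Ls.cons (Ent.neg F4_17_11_2) (Ls.cons (Ent.neg F4_16_11_2) (Ls.cons Ent.zero (Ls.cons Ent.zero (Ls.cons (Ent.pos F4_13_11_2) (Ls.cons (Ent.neg F4_12_11_2) (Ls.cons Ent.zero (Ls.cons Ent.zero (Ls.cons (Ent.pos F4_11_9_2) (Ls.cons (Ent.pos F4_11_8_2) (Ls.cons (Ent.pos F4_11_7_2) (Ls.cons (Ent.pos F4_11_6_2) (Ls.cons (Ent.pos F4_11_5_2) (Ls.cons (Ent.pos F4_11_4_2) (Ls.cons (Ent.pos F4_11_3_2) (Ls.cons Ent.zero (Ls.cons (Ent.neg F4_11_2_1) (Ls.cons (Ent.pos F4_11_2_0) Ls.nil)))))))))))))))))))))))))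
 (Ls.cons (Ls.cons Ent.zero (Ls.cons Ent.zero (Ls.cons Ent.zero (Ls.cons Ent.zero (Ls.cons (Ent.neg F4_20_10_2) (Ls.cons (Ent.neg F4_19_10_2) (Ls.cons (Ent.neg F4_18_10_2) (Ls.cons (Ent.neg F4_17_10_2) (Ls.cons Ent.zero (Ls.cons Ent.zero (Ls.cons Ent.zero (Ls.cons Ent.zero (Ls.cons Ent.zero (Ls.cons Ent.zero (Ls.cons Ent.zero (Ls.cons (Ent.pos F4_10_9_2) (Ls.cons (Ent.pos F4_10_8_2) (Ls.cons (Ent.pos F4_10_7_2) (Ls.cons (Ent.pos F4_10_6_2) (Ls.cons (Ent.pos F4_10_5_2) (Ls.cons (Ent.pos F4_10_4_2) (Ls.cons (Ent.pos F4_10_3_2) (Ls.cons Ent.zero (Ls.cons (Ent.neg F4_10_2_1) (Ls.cons (Ent.pos F4_10_2_0) Ls.nil)))))))))))))))))))))))))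
 (Ls.cons (Ls.cons Ent.zero (Ls.cons Ent.zero (Ls.cons Ent.zero (Ls.cons Ent.zero (Ls.cons (Ent.neg F4_20_9_2) (Ls.cons Ent.zero (Ls.cons Ent.zero (Ls.cons (Ent.pos F4_17_9_2) (Ls.cons (Ent.pos F4_16_9_2) (Ls.cons (Ent.pos F4_15_9_2) (Ls.cons Ent.zero (Ls.cons Ent.zero (Ls.cons (Ent.neg F4_12_9_2) (Ls.cons (Ent.neg F4_11_9_2) (Ls.cons (Ent.neg F4_10_9_2) (Ls.cons Ent.zero (Ls.cons Ent.zero (Ls.cons (Ent.pos F4_9_7_2) (Ls.cons (Ent.pos F4_9_6_2) (Ls.cons (Ent.pos F4_9_5_2) (Ls.cons (Ent.pos F4_9_4_2) (Ls.cons (Ent.pos F4_9_3_2) (Ls.cons Ent.zero (Ls.cons (Ent.neg F4_9_2_1) (Ls.cons (Ent.pos F4_9_2_0) Ls.nil)))))))))))))))))))))))))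
 (Ls.cons (Ls.cons Ent.zero (Ls.cons Ent.zero (Ls.cons Ent.zero (Ls.cons Ent.zero (Ls.cons Ent.zero (Ls.cons Ent.zero (Ls.cons (Ent.pos F4_18_8_2) (Ls.cons (Ent.pos F4_17_8_2) (Ls.cons (Ent.pos F4_16_8_2) (Ls.cons (Ent.pos F4_15_8_2) (Ls.cons Ent.zero (Ls.cons (Ent.neg F4_13_8_2) (Ls.cons (Ent.neg F4_12_8_2) (Ls.cons (Ent.neg F4_11_8_2) (Ls.cons (Ent.neg F4_10_8_2) (Ls.cons Ent.zero (Ls.cons Ent.zero (Ls.cons (Ent.pos F4_8_7_2) (Ls.cons (Ent.pos F4_8_6_2) (Ls.cons (Ent.pos F4_8_5_2) (Ls.cons (Ent.pos F4_8_4_2) (Ls.cons (Ent.pos F4_8_3_2) (Ls.cons Ent.zero (Ls.cons (Ent.neg F4_8_2_1) (Ls.cons (Ent.pos F4_8_2_0) Ls.nil)))))))))))))))))))))))))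
 (Ls.cons (Ls.cons Ent.zero (Ls.cons Ent.zero (Ls.cons Ent.zero (Ls.cons (Ent.pos F4_21_7_2) (Ls.cons (Ent.pos F4_20_7_2) (Ls.cons (Ent.pos F4_19_7_2) (Ls.cons (Ent.pos F4_18_7_2) (Ls.cons (Ent.pos F4_17_7_2) (Ls.cons (Ent.pos F4_16_7_2) (Ls.cons (Ent.pos F4_15_7_2) (Ls.cons (Ent.neg F4_14_7_2) (Ls.cons (Ent.neg F4_13_7_2) (Ls.cons (Ent.neg F4_12_7_2) (Ls.cons (Ent.neg F4_11_7_2) (Ls.cons (Ent.neg F4_10_7_2) (Ls.cons (Ent.neg F4_9_7_2) (Ls.cons (Ent.neg F4_8_7_2) (Ls.cons Ent.zero (Ls.cons Ent.zero (Ls.cons (Ent.pos F4_7_5_2) (Ls.cons Ent.zero (Ls.cons (Ent.pos F4_7_3_2) (Ls.cons Ent.zero (Ls.cons (Ent.neg F4_7_2_1) (Ls.cons (Ent.pos F4_7_2_0) Ls.nil)))))))))))))))))))))))))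
 (Ls.cons (Ls.cons Ent.zero (Ls.cons Ent.zero (Ls.cons Ent.zero (Ls.cons (Ent.pos F4_21_6_2) (Ls.cons (Ent.pos F4_20_6_2) (Ls.cons (Ent.pos F4_19_6_2) (Ls.cons (Ent.pos F4_18_6_2) (Ls.cons (Ent.pos F4_17_6_2) (Ls.cons (Ent.pos F4_16_6_2) (Ls.cons Ent.zero (Ls.cons (Ent.neg F4_14_6_2) (Ls.cons (Ent.neg F4_13_6_2) (Ls.cons (Ent.neg F4_12_6_2) (Ls.cons (Ent.neg F4_11_6_2) (Ls.cons (Ent.neg F4_10_6_2) (Ls.cons (Ent.neg F4_9_6_2) (Ls.cons (Ent.neg F4_8_6_2) (Ls.cons Ent.zero (Ls.cons Ent.zero (Ls.cons (Ent.pos F4_6_5_2) (Ls.cons Ent.zero (Ls.cons (Ent.pos F4_6_3_2) (Ls.cons Ent.zero (Ls.cons (Ent.neg F4_6_2_1) (Ls.cons (Ent.pos F4_6_2_0) Ls.nil)))))))))))))))))))))))))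
 (Ls.cons (Ls.cons Ent.zero (Ls.cons Ent.zero (Ls.cons Ent.zero (Ls.cons (Ent.pos F4_21_5_2) (Ls.cons (Ent.pos F4_20_5_2) (Ls.cons (Ent.pos F4_19_5_2) (Ls.cons (Ent.pos F4_18_5_2) (Ls.cons (Ent.pos F4_17_5_2) (Ls.cons Ent.zero (Ls.cons Ent.zero (Ls.cons (Ent.neg F4_14_5_2) (Ls.cons (Ent.neg F4_13_5_2) (Ls.cons (Ent.neg F4_12_5_2) (Ls.cons (Ent.neg F4_11_5_2) (Ls.cons (Ent.neg F4_10_5_2) (Ls.cons (Ent.neg F4_9_5_2) (Ls.cons (Ent.neg F4_8_5_2) (Ls.cons (Ent.neg F4_7_5_2) (Ls.cons (Ent.neg F4_6_5_2) (Ls.cons Ent.zero (Ls.cons Ent.zero (Ls.cons Ent.zero (Ls.cons Ent.zero (Ls.cons (Ent.pos F4_5_2_1) (Ls.cons (Ent.neg F4_5_2_0) Ls.nil)))))))))))))))))))))))))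
 (Ls.cons (Ls.cons Ent.zero (Ls.cons Ent.zero (Ls.cons Ent.zero (Ls.cons (Ent.pos F4_21_4_2) (Ls.cons (Ent.pos F4_20_4_2) (Ls.cons (Ent.pos F4_19_4_2) (Ls.cons (Ent.pos F4_18_4_2) (Ls.cons Ent.zero (Ls.cons Ent.zero (Ls.cons Ent.zero (Ls.cons (Ent.neg F4_14_4_2) (Ls.cons (Ent.neg F4_13_4_2) (Ls.cons (Ent.neg F4_12_4_2) (Ls.cons (Ent.neg F4_11_4_2) (Ls.cons (Ent.neg F4_10_4_2) (Ls.cons (Ent.neg F4_9_4_2) (Ls.cons (Ent.neg F4_8_4_2) (Ls.cons Ent.zero (Ls.cons Ent.zero (Ls.cons Ent.zero (Ls.cons Ent.zero (Ls.cons (Ent.pos F4_4_3_2) (Ls.cons Ent.zero (Ls.cons (Ent.neg F4_4_2_1) (Ls.cons (Ent.pos F4_4_2_0) Ls.nil)))))))))))))))))))))))))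
 (Ls.cons (Ls.cons Ent.zero (Ls.cons Ent.zero (Ls.cons (Ent.pos F4_22_3_2) (Ls.cons (Ent.pos F4_21_3_2) (Ls.cons (Ent.pos F4_20_3_2) (Ls.cons (Ent.pos F4_19_3_2) (Ls.cons Ent.zero (Ls.cons (Ent.pos F4_17_3_2) (Ls.cons (Ent.neg F4_16_3_2) (Ls.cons Ent.zero (Ls.cons (Ent.neg F4_14_3_2) (Ls.cons (Ent.neg F4_13_3_2) (Ls.cons (Ent.neg F4_12_3_2) (Ls.cons (Ent.neg F4_11_3_2) (Ls.cons (Ent.neg F4_10_3_2) (Ls.cons (Ent.neg F4_9_3_2) (Ls.cons (Ent.neg F4_8_3_2) (Ls.cons (Ent.neg F4_7_3_2) (Ls.cons (Ent.neg F4_6_3_2) (Ls.cons Ent.zero (Ls.cons (Ent.neg F4_4_3_2) (Ls.cons Ent.zero (Ls.cons Ent.zero (Ls.cons (Ent.pos F4_3_2_1) (Ls.cons (Ent.neg F4_3_2_0) Ls.nil)))))))))))))))))))))))))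
 (Ls.cons (Ls.cons Ent.zero (Ls.cons Ent.zero (Ls.cons Ent.zero (Ls.cons Ent.zero (Ls.cons Ent.zero (Ls.cons Ent.zero (Ls.cons Ent.zero (Ls.cons Ent.zero (Ls.cons Ent.zero (Ls.cons Ent.zero (Ls.cons Ent.zero (Ls.cons Ent.zero (Ls.cons Ent.zero (Ls.cons Ent.zero (Ls.cons Ent.zero (Ls.cons Ent.zero (Ls.cons Ent.zero (Ls.cons Ent.zero (Ls.cons Ent.zero (Ls.cons Ent.zero (Ls.cons Ent.zero (Ls.cons Ent.zero (Ls.cons Ent.zero (Ls.cons Ent.zero (Ls.cons Ent.zero Ls.nil)))))))))))))))))))))))))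
 (Ls.cons (Ls.cons (Ent.neg F4_24_2_1) (Ls.cons (Ent.neg F4_23_2_1) (Ls.cons (Ent.neg F4_22_2_1) (Ls.cons (Ent.neg F4_21_2_1) (Ls.cons (Ent.neg F4_20_2_1) (Ls.cons (Ent.neg F4_19_2_1) (Ls.cons (Ent.neg F4_18_2_1) (Ls.cons (Ent.neg F4_17_2_1) (Ls.cons (Ent.pos F4_16_2_1) (Ls.cons (Ent.neg F4_15_2_1) (Ls.cons (Ent.pos F4_14_2_1) (Ls.cons (Ent.pos F4_13_2_1) (Ls.cons (Ent.pos F4_12_2_1) (Ls.cons (Ent.pos F4_11_2_1) (Ls.cons (Ent.pos F4_10_2_1) (Ls.cons (Ent.pos F4_9_2_1) (Ls.cons (Ent.pos F4_8_2_1) (Ls.cons (Ent.pos F4_7_2_1) (Ls.cons (Ent.pos F4_6_2_1) (Ls.cons (Ent.neg F4_5_2_1) (Ls.cons (Ent.pos F4_4_2_1) (Ls.cons (Ent.neg F4_3_2_1) (Ls.cons Ent.zero (Ls.cons Ent.zero (Ls.cons (Ent.pos F4_2_1_0) Ls.nil)))))))))))))))))))))))))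
 (Ls.cons (Ls.cons (Ent.pos F4_24_2_0) (Ls.cons (Ent.pos F4_23_2_0) (Ls.cons (Ent.pos F4_22_2_0) (Ls.cons (Ent.pos F4_21_2_0) (Ls.cons (Ent.pos F4_20_2_0) (Ls.cons (Ent.pos F4_19_2_0) (Ls.cons (Ent.pos F4_18_2_0) (Ls.cons (Ent.pos F4_17_2_0) (Ls.cons (Ent.neg F4_16_2_0) (Ls.cons (Ent.pos F4_15_2_0) (Ls.cons (Ent.neg F4_14_2_0) (Ls.cons (Ent.neg F4_13_2_0) (Ls.cons (Ent.neg F4_12_2_0) (Ls.cons (Ent.neg F4_11_2_0) (Ls.cons (Ent.neg F4_10_2_0) (Ls.cons (Ent.neg F4_9_2_0) (Ls.cons (Ent.neg F4_8_2_0) (Ls.cons (Ent.neg F4_7_2_0) (Ls.cons (Ent.neg F4_6_2_0) (Ls.cons (Ent.pos F4_5_2_0) (Ls.cons (Ent.neg F4_4_2_0) (Ls.cons (Ent.pos F4_3_2_0) (Ls.cons Ent.zero (Ls.cons (Ent.neg F4_2_1_0) (Ls.cons Ent.zero Ls.nil)))))))))))))))))))))))))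
 Ls.nil))))))))))))))))))))

noncomputable def bxF4_3 : L2 :=
 (Ls.cons (Ls.cons Ent.zero (Ls.cons Ent.zero (Ls.cons Ent.zero (Ls.cons Ent.zero (Ls.cons Ent.zero (Ls.cons Ent.zero (Ls.cons Ent.zero (Ls.cons Ent.zero (Ls.cons Ent.zero (Ls.cons Ent.zero (Ls.cons (Ent.neg F4_19_14_3) (Ls.cons Ent.zero (Ls.cons Ent.zero (Ls.cons (Ent.pos F4_19_11_3) (Ls.cons (Ent.pos F4_19_10_3) (Ls.cons (Ent.pos F4_19_9_3) (Ls.cons Ent.zero (Ls.cons (Ent.neg F4_19_7_3) (Ls.cons (Ent.neg F4_19_6_3) (Ls.cons (Ent.neg F4_19_5_3) (Ls.cons Ent.zero (Ls.cons Ent.zero (Ls.cons (Ent.pos F4_19_3_2) (Ls.cons (Ent.neg F4_19_3_1) (Ls.cons (Ent.pos F4_19_3_0) Ls.nil)))))))))))))))))))))))))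
 (Ls.cons (Ls.cons Ent.zero (Ls.cons Ent.zero (Ls.cons Ent.zero (Ls.cons Ent.zero (Ls.cons Ent.zero (Ls.cons Ent.zero (Ls.cons Ent.zero (Ls.cons Ent.zero (Ls.cons Ent.zero (Ls.cons Ent.zero (Ls.cons Ent.zero (Ls.cons (Ent.pos F4_18_13_3) (Ls.cons (Ent.pos F4_18_12_3) (Ls.cons (Ent.pos F4_18_11_3) (Ls.cons (Ent.pos F4_18_10_3) (Ls.cons Ent.zero (Ls.cons Ent.zero (Ls.cons (Ent.neg F4_18_7_3) (Ls.cons (Ent.neg F4_18_6_3) (Ls.cons (Ent.neg F4_18_5_3) (Ls.cons (Ent.neg F4_18_4_3) (Ls.cons Ent.zero (Ls.cons Ent.zero (Ls.cons (Ent.pos F4_18_3_1) (Ls.cons (Ent.neg F4_18_3_0) Ls.nil)))))))))))))))))))))))))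
 (Ls.cons (Ls.cons Ent.zero (Ls.cons Ent.zero (Ls.cons Ent.zero (Ls.cons Ent.zero (Ls.cons Ent.zero (Ls.cons Ent.zero (Ls.cons Ent.zero (Ls.cons Ent.zero (Ls.cons (Ent.neg F4_17_16_3) (Ls.cons Ent.zero (Ls.cons Ent.zero (Ls.cons (Ent.pos F4_17_13_3) (Ls.cons (Ent.pos F4_17_12_3) (Ls.cons (Ent.pos F4_17_11_3) (Ls.cons (Ent.pos F4_17_10_3) (Ls.cons Ent.zero (Ls.cons (Ent.neg F4_17_8_3) (Ls.cons (Ent.neg F4_17_7_3) (Ls.cons (Ent.neg F4_17_6_3) (Ls.cons (Ent.neg F4_17_5_3) (Ls.cons Ent.zero (Ls.cons Ent.zero (Ls.cons (Ent.pos F4_17_3_2) (Ls.cons (Ent.neg F4_17_3_1) (Ls.cons (Ent.pos F4_17_3_0) Ls.nil)))))))))))))))))))))))))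
 (Ls.cons (Ls.cons Ent.zero (Ls.cons Ent.zero (Ls.cons Ent.zero (Ls.cons Ent.zero (Ls.cons Ent.zero (Ls.cons Ent.zero (Ls.cons Ent.zero (Ls.cons (Ent.pos F4_17_16_3) (Ls.cons Ent.zero (Ls.cons (Ent.pos F4_16_15_3) (Ls.cons (Ent.pos F4_16_14_3) (Ls.cons (Ent.pos F4_16_13_3) (Ls.cons (Ent.pos F4_16_12_3) (Ls.cons (Ent.pos F4_16_11_3) (Ls.cons (Ent.pos F4_16_10_3) (Ls.cons (Ent.neg F4_16_9_3) (Ls.cons (Ent.neg F4_16_8_3) (Ls.cons (Ent.neg F4_16_7_3) (Ls.cons (Ent.neg F4_16_6_3) (Ls.cons (Ent.neg F4_16_5_3) (Ls.cons (Ent.neg F4_16_4_3) (Ls.cons Ent.zero (Ls.cons (Ent.neg F4_16_3_2) (Ls.cons (Ent.pos F4_16_3_1) (Ls.cons (Ent.neg F4_16_3_0) Ls.nil)))))))))))))))))))))))))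
 (Ls.cons (Ls.cons Ent.zero (Ls.cons Ent.zero (Ls.cons Ent.zero (Ls.cons Ent.zero (Ls.cons Ent.zero (Ls.cons Ent.zero (Ls.cons Ent.zero (Ls.cons Ent.zero (Ls.cons (Ent.neg F4_16_15_3) (Ls.cons Ent.zero (Ls.cons Ent.zero (Ls.cons (Ent.pos F4_15_13_3) (Ls.cons (Ent.pos F4_15_12_3) (Ls.cons (Ent.pos F4_15_11_3) (Ls.cons Ent.zero (Ls.cons (Ent.neg F4_15_9_3) (Ls.cons (Ent.neg F4_15_8_3) (Ls.cons (Ent.neg F4_15_7_3) (Ls.cons Ent.zero (Ls.cons Ent.zero (Ls.cons (Ent.pos F4_15_4_3) (Ls.cons Ent.zero (Ls.cons Ent.zero (Ls.cons (Ent.neg F4_15_3_1) (Ls.cons (Ent.pos F4_15_3_0) Ls.nil)))))))))))))))))))))))))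
 (Ls.cons (Ls.cons Ent.zero (Ls.cons Ent.zero (Ls.cons Ent.zero (Ls.cons Ent.zero (Ls.cons Ent.zero (Ls.cons (Ent.pos F4_19_14_3) (Ls.cons Ent.zero (Ls.cons Ent.zero (Ls.cons (Ent.neg F4_16_14_3) (Ls.cons Ent.zero (Ls.cons Ent.zero (Ls.cons Ent.zero (Ls.cons (Ent.pos F4_14_12_3) (Ls.cons Ent.zero (Ls.cons Ent.zero (Ls.cons (Ent.neg F4_14_9_3) (Ls.cons Ent.zero (Ls.cons Ent.zero (Ls.cons Ent.zero (Ls.cons (Ent.pos F4_14_5_3) (Ls.cons Ent.zero (Ls.cons Ent.zero (Ls.cons (Ent.neg F4_14_3_2) (Ls.cons (Ent.pos F4_14_3_1) (Ls.cons (Ent.neg F4_14_3_0) Ls.nil)))))))))))))))))))))))))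
 (Ls.cons (Ls.cons Ent.zero (Ls.cons Ent.zero (Ls.cons Ent.zero (Ls.cons Ent.zero (Ls.cons Ent.zero (Ls.cons Ent.zero (Ls.cons (Ent.neg F4_18_13_3) (Ls.cons (Ent.neg F4_17_13_3) (Ls.cons (Ent.neg F4_16_13_3) (Ls.cons (Ent.neg F4_15_13_3) (Ls.cons Ent.zero (Ls.cons Ent.zero (Ls.cons Ent.zero (Ls.cons Ent.zero (Ls.cons Ent.zero (Ls.cons Ent.zero (Ls.cons Ent.zero (Ls.cons (Ent.pos F4_13_7_3) (Ls.cons (Ent.pos F4_13_6_3) (Ls.cons (Ent.pos F4_13_5_3) (Ls.cons (Ent.pos F4_13_4_3) (Ls.cons Ent.zero (Ls.cons (Ent.neg F4_13_3_2) (Ls.cons (Ent.pos F4_13_3_1) (Ls.cons (Ent.neg F4_13_3_0) Ls.nil)))))))))))))))))))))))))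
 (Ls.cons (Ls.cons Ent.zero (Ls.cons Ent.zero (Ls.cons Ent.zero (Ls.cons Ent.zero (Ls.cons Ent.zero (Ls.cons Ent.zero (Ls.cons (Ent.neg F4_18_12_3) (Ls.cons (Ent.neg F4_17_12_3) (Ls.cons (Ent.neg F4_16_12_3) (Ls.cons (Ent.neg F4_15_12_3) (Ls.cons (Ent.neg F4_14_12_3) (Ls.cons Ent.zero (Ls.cons Ent.zero (Ls.cons Ent.zero (Ls.cons Ent.zero (Ls.cons (Ent.pos F4_12_9_3) (Ls.cons (Ent.pos F4_12_8_3) (Ls.cons (Ent.pos F4_12_7_3) (Ls.cons (Ent.pos F4_12_6_3) (Ls.cons (Ent.pos F4_12_5_3) (Ls.cons Ent.zero (Ls.cons Ent.zero (Ls.cons (Ent.neg F4_12_3_2) (Ls.cons (Ent.pos F4_12_3_1) (Ls.cons (Ent.neg F4_12_3_0) Ls.nil)))))))))))))))))))))))))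
 (Ls.cons (Ls.cons Ent.zero (Ls.cons Ent.zero (Ls.cons Ent.zero (Ls.cons Ent.zero (Ls.cons Ent.zero (Ls.cons (Ent.neg F4_19_11_3) (Ls.cons (Ent.neg F4_18_11_3) (Ls.cons (Ent.neg F4_17_11_3) (Ls.cons (Ent.neg F4_16_11_3) (Ls.cons (Ent.neg F4_15_11_3) (Ls.cons Ent.zero (Ls.cons Ent.zero (Ls.cons Ent.zero (Ls.cons Ent.zero (Ls.cons Ent.zero (Ls.cons (Ent.pos F4_11_9_3) (Ls.cons (Ent.pos F4_11_8_3) (Ls.cons (Ent.pos F4_11_7_3) (Ls.cons (Ent.pos F4_11_6_3) (Ls.cons (Ent.pos F4_11_5_3) (Ls.cons (Ent.pos F4_11_4_3) (Ls.cons Ent.zero (Ls.cons (Ent.neg F4_11_3_2) (Ls.cons (Ent.pos F4_11_3_1) (Ls.cons (Ent.neg F4_11_3_0) Ls.nil)))))))))))))))))))))))))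
 (Ls.cons (Ls.cons Ent.zero (Ls.cons Ent.zero (Ls.cons Ent.zero (Ls.cons Ent.zero (Ls.cons (Ent.neg F4_20_10_3) (Ls.cons (Ent.neg F4_19_10_3) (Ls.cons (Ent.neg F4_18_10_3) (Ls.cons (Ent.neg F4_17_10_3) (Ls.cons (Ent.neg F4_16_10_3) (Ls.cons Ent.zero (Ls.cons Ent.zero (Ls.cons Ent.zero (Ls.cons Ent.zero (Ls.cons Ent.zero (Ls.cons Ent.zero (Ls.cons (Ent.pos F4_10_9_3) (Ls.cons (Ent.pos F4_10_8_3) (Ls.cons (Ent.pos F4_10_7_3) (Ls.cons (Ent.pos F4_10_6_3) (Ls.cons (Ent.pos F4_10_5_3) (Ls.cons Ent.zero (Ls.cons Ent.zero (Ls.cons (Ent.neg F4_10_3_2) (Ls.cons (Ent.pos F4_10_3_1) (Ls.cons (Ent.neg F4_10_3_0) Ls.nil)))))))))))))))))))))))))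
 (Ls.cons (Ls.cons Ent.zero (Ls.cons Ent.zero (Ls.cons Ent.zero (Ls.cons Ent.zero (Ls.cons (Ent.neg F4_20_9_3) (Ls.cons (Ent.neg F4_19_9_3) (Ls.cons Ent.zero (Ls.cons Ent.zero (Ls.cons (Ent.pos F4_16_9_3) (Ls.cons (Ent.pos F4_15_9_3) (Ls.cons (Ent.pos F4_14_9_3) (Ls.cons Ent.zero (Ls.cons (Ent.neg F4_12_9_3) (Ls.cons (Ent.neg F4_11_9_3) (Ls.cons (Ent.neg F4_10_9_3) (Ls.cons Ent.zero (Ls.cons Ent.zero (Ls.cons (Ent.pos F4_9_7_3) (Ls.cons (Ent.pos F4_9_6_3) (Ls.cons (Ent.pos F4_9_5_3) (Ls.cons Ent.zero (Ls.cons Ent.zero (Ls.cons (Ent.neg F4_9_3_2) (Ls.cons (Ent.pos F4_9_3_1) (Ls.cons (Ent.neg F4_9_3_0) Ls.nil)))))))))))))))))))))))))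
 (Ls.cons (Ls.cons Ent.zero (Ls.cons Ent.zero (Ls.cons Ent.zero (Ls.cons Ent.zero (Ls.cons (Ent.neg F4_20_8_3) (Ls.cons Ent.zero (Ls.cons Ent.zero (Ls.cons (Ent.pos F4_17_8_3) (Ls.cons (Ent.pos F4_16_8_3) (Ls.cons (Ent.pos F4_15_8_3) (Ls.cons Ent.zero (Ls.cons Ent.zero (Ls.cons (Ent.neg F4_12_8_3) (Ls.cons (Ent.neg F4_11_8_3) (Ls.cons (Ent.neg F4_10_8_3) (Ls.cons Ent.zero (Ls.cons Ent.zero (Ls.cons (Ent.pos F4_8_7_3) (Ls.cons Ent.zero (Ls.cons (Ent.pos F4_8_5_3) (Ls.cons Ent.zero (Ls.cons Ent.zero (Ls.cons (Ent.neg F4_8_3_2) (Ls.cons (Ent.pos F4_8_3_1) (Ls.cons (Ent.neg F4_8_3_0) Ls.nil)))))))))))))))))))))))))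
 (Ls.cons (Ls.cons Ent.zero (Ls.cons Ent.zero (Ls.cons Ent.zero (Ls.cons Ent.zero (Ls.cons (Ent.pos F4_20_7_3) (Ls.cons (Ent.pos F4_19_7_3) (Ls.cons (Ent.pos F4_18_7_3) (Ls.cons (Ent.pos F4_17_7_3) (Ls.cons (Ent.pos F4_16_7_3) (Ls.cons (Ent.pos F4_15_7_3) (Ls.cons Ent.zero (Ls.cons (Ent.neg F4_13_7_3) (Ls.cons (Ent.neg F4_12_7_3) (Ls.cons (Ent.neg F4_11_7_3) (Ls.cons (Ent.neg F4_10_7_3) (Ls.cons (Ent.neg F4_9_7_3) (Ls.cons (Ent.neg F4_8_7_3) (Ls.cons Ent.zero (Ls.cons Ent.zero (Ls.cons Ent.zero (Ls.cons Ent.zero (Ls.cons Ent.zero (Ls.cons (Ent.neg F4_7_3_2) (Ls.cons (Ent.pos F4_7_3_1) (Ls.cons (Ent.neg F4_7_3_0) Ls.nil)))))))))))))))))))))))))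
 (Ls.cons (Ls.cons Ent.zero (Ls.cons Ent.zero (Ls.cons Ent.zero (Ls.cons Ent.zero (Ls.cons (Ent.pos F4_20_6_3) (Ls.cons (Ent.pos F4_19_6_3) (Ls.cons (Ent.pos F4_18_6_3) (Ls.cons (Ent.pos F4_17_6_3) (Ls.cons (Ent.pos F4_16_6_3) (Ls.cons Ent.zero (Ls.cons Ent.zero (Ls.cons (Ent.neg F4_13_6_3) (Ls.cons (Ent.neg F4_12_6_3) (Ls.cons (Ent.neg F4_11_6_3) (Ls.cons (Ent.neg F4_10_6_3) (Ls.cons (Ent.neg F4_9_6_3) (Ls.cons Ent.zero (Ls.cons Ent.zero (Ls.cons Ent.zero (Ls.cons Ent.zero (Ls.cons Ent.zero (Ls.cons Ent.zero (Ls.cons (Ent.neg F4_6_3_2) (Ls.cons (Ent.pos F4_6_3_1) (Ls.cons (Ent.neg F4_6_3_0) Ls.nil)))))))))))))))))))))))))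
 (Ls.cons (Ls.cons Ent.zero (Ls.cons Ent.zero (Ls.cons Ent.zero (Ls.cons (Ent.pos F4_21_5_3) (Ls.cons (Ent.pos F4_20_5_3) (Ls.cons (Ent.pos F4_19_5_3) (Ls.cons (Ent.pos F4_18_5_3) (Ls.cons (Ent.pos F4_17_5_3) (Ls.cons (Ent.pos F4_16_5_3) (Ls.cons Ent.zero (Ls.cons (Ent.neg F4_14_5_3) (Ls.cons (Ent.neg F4_13_5_3) (Ls.cons (Ent.neg F4_12_5_3) (Ls.cons (Ent.neg F4_11_5_3) (Ls.cons (Ent.neg F4_10_5_3) (Ls.cons (Ent.neg F4_9_5_3) (Ls.cons (Ent.neg F4_8_5_3) (Ls.cons Ent.zero (Ls.cons Ent.zero (Ls.cons Ent.zero (Ls.cons Ent.zero (Ls.cons Ent.zero (Ls.cons Ent.zero (Ls.cons (Ent.pos F4_5_3_1) (Ls.cons (Ent.neg F4_5_3_0) Ls.nil)))))))))))))))))))))))))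
 (Ls.cons (Ls.cons Ent.zero (Ls.cons Ent.zero (Ls.cons Ent.zero (Ls.cons Ent.zero (Ls.cons (Ent.pos F4_20_4_3) (Ls.cons Ent.zero (Ls.cons (Ent.pos F4_18_4_3) (Ls.cons Ent.zero (Ls.cons (Ent.pos F4_16_4_3) (Ls.cons (Ent.neg F4_15_4_3) (Ls.cons Ent.zero (Ls.cons (Ent.neg F4_13_4_3) (Ls.cons Ent.zero (Ls.cons (Ent.neg F4_11_4_3) (Ls.cons Ent.zero (Ls.cons Ent.zero (Ls.cons Ent.zero (Ls.cons Ent.zero (Ls.cons Ent.zero (Ls.cons Ent.zero (Ls.cons Ent.zero (Ls.cons Ent.zero (Ls.cons (Ent.neg F4_4_3_2) (Ls.cons (Ent.pos F4_4_3_1) (Ls.cons (Ent.neg F4_4_3_0) Ls.nil)))))))))))))))))))))))))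
 (Ls.cons (Ls.cons Ent.zero (Ls.cons Ent.zero (Ls.cons Ent.zero (Ls.cons Ent.zero (Ls.cons Ent.zero (Ls.cons Ent.zero (Ls.cons Ent.zero (Ls.cons Ent.zero (Ls.cons Ent.zero (Ls.cons Ent.zero (Ls.cons Ent.zero (Ls.cons Ent.zero (Ls.cons Ent.zero (Ls.cons Ent.zero (Ls.cons Ent.zero (Ls.cons Ent.zero (Ls.cons Ent.zero (Ls.cons Ent.zero (Ls.cons Ent.zero (Ls.cons Ent.zero (Ls.cons Ent.zero (Ls.cons Ent.zero (Ls.cons Ent.zero (Ls.cons Ent.zero (Ls.cons Ent.zero Ls.nil)))))))))))))))))))))))))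
 (Ls.cons (Ls.cons Ent.zero (Ls.cons Ent.zero (Ls.cons (Ent.neg F4_22_3_2) (Ls.cons (Ent.neg F4_21_3_2) (Ls.cons (Ent.neg F4_20_3_2) (Ls.cons (Ent.neg F4_19_3_2) (Ls.cons Ent.zero (Ls.cons (Ent.neg F4_17_3_2) (Ls.cons (Ent.pos F4_16_3_2) (Ls.cons Ent.zero (Ls.cons (Ent.pos F4_14_3_2) (Ls.cons (Ent.pos F4_13_3_2) (Ls.cons (Ent.pos F4_12_3_2) (Ls.cons (Ent.pos F4_11_3_2) (Ls.cons (Ent.pos F4_10_3_2) (Ls.cons (Ent.pos F4_9_3_2) (Ls.cons (Ent.pos F4_8_3_2) (Ls.cons (Ent.pos F4_7_3_2) (Ls.cons (Ent.pos F4_6_3_2) (Ls.cons Ent.zero (Ls.cons (Ent.pos F4_4_3_2) (Ls.cons Ent.zero (Ls.cons Ent.zero (Ls.cons (Ent.neg F4_3_2_1) (Ls.cons (Ent.pos F4_3_2_0) Ls.nil)))))))))))))))))))))))))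
 (Ls.cons (Ls.cons Ent.zero (Ls.cons (Ent.pos F4_23_3_1) (Ls.cons (Ent.pos F4_22_3_1) (Ls.cons (Ent.pos F4_21_3_1) (Ls.cons (Ent.pos F4_20_3_1) (Ls.cons (Ent.pos F4_19_3_1) (Ls.cons (Ent.neg F4_18_3_1) (Ls.cons (Ent.pos F4_17_3_1) (Ls.cons (Ent.neg F4_16_3_1) (Ls.cons (Ent.pos F4_15_3_1) (Ls.cons (Ent.neg F4_14_3_1) (Ls.cons (Ent.neg F4_13_3_1) (Ls.cons (Ent.neg F4_12_3_1) (Ls.cons (Ent.neg F4_11_3_1) (Ls.cons (Ent.neg F4_10_3_1) (Ls.cons (Ent.neg F4_9_3_1) (Ls.cons (Ent.neg F4_8_3_1) (Ls.cons (Ent.neg F4_7_3_1) (Ls.cons (Ent.neg F4_6_3_1) (Ls.cons (Ent.neg F4_5_3_1) (Ls.cons (Ent.neg F4_4_3_1) (Ls.cons Ent.zero (Ls.cons (Ent.pos F4_3_2_1) (Ls.cons Ent.zero (Ls.cons (Ent.neg F4_3_1_0) Ls.nil)))))))))))))))))))))))))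
 (Ls.cons (Ls.cons (Ent.neg F4_24_3_0) (Ls.cons (Ent.neg F4_23_3_0) (Ls.cons (Ent.neg F4_22_3_0) (Ls.cons (Ent.neg F4_21_3_0) (Ls.cons (Ent.neg F4_20_3_0) (Ls.cons (Ent.neg F4_19_3_0) (Ls.cons (Ent.pos F4_18_3_0) (Ls.cons (Ent.neg F4_17_3_0) (Ls.cons (Ent.pos F4_16_3_0) (Ls.cons (Ent.neg F4_15_3_0) (Ls.cons (Ent.pos F4_14_3_0) (Ls.cons (Ent.pos F4_13_3_0) (Ls.cons (Ent.pos F4_12_3_0) (Ls.cons (Ent.pos F4_11_3_0) (Ls.cons (Ent.pos F4_10_3_0) (Ls.cons (Ent.pos F4_9_3_0) (Ls.cons (Ent.pos F4_8_3_0) (Ls.cons (Ent.pos F4_7_3_0) (Ls.cons (Ent.pos F4_6_3_0) (Ls.cons (Ent.pos F4_5_3_0) (Ls.cons (Ent.pos F4_4_3_0) (Ls.cons Ent.zero (Ls.cons (Ent.neg F4_3_2_0) (Ls.cons (Ent.pos F4_3_1_0) (Ls.cons Ent.zero Ls.nil)))))))))))))))))))))))))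
 Ls.nil))))))))))))))))))))

noncomputable def bxF4_4 : L2 :=
 (Ls.cons (Ls.cons Ent.zero (Ls.cons Ent.zero (Ls.cons Ent.zero (Ls.cons Ent.zero (Ls.cons Ent.zero (Ls.cons Ent.zero (Ls.cons Ent.zero (Ls.cons Ent.zero (Ls.cons Ent.zero (Ls.cons Ent.zero (Ls.cons Ent.zero (Ls.cons (Ent.neg F4_19_13_4) (Ls.cons Ent.zero (Ls.cons Ent.zero (Ls.cons (Ent.pos F4_19_10_4) (Ls.cons Ent.zero (Ls.cons (Ent.pos F4_19_8_4) (Ls.cons (Ent.neg F4_19_7_4) (Ls.cons Ent.zero (Ls.cons (Ent.neg F4_19_5_4) (Ls.cons Ent.zero (Ls.cons Ent.zero (Ls.cons (Ent.pos F4_19_4_2) (Ls.cons (Ent.neg F4_19_4_1) (Ls.cons (Ent.pos F4_19_4_0) Ls.nil)))))))))))))))))))))))))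
 (Ls.cons (Ls.cons Ent.zero (Ls.cons Ent.zero (Ls.cons Ent.zero (Ls.cons Ent.zero (Ls.cons Ent.zero (Ls.cons Ent.zero (Ls.cons Ent.zero (Ls.cons Ent.zero (Ls.cons Ent.zero (Ls.cons Ent.zero (Ls.cons (Ent.neg F4_18_14_4) (Ls.cons (Ent.neg F4_18_13_4) (Ls.cons Ent.zero (Ls.cons Ent.zero (Ls.cons (Ent.pos F4_18_10_4) (Ls.cons (Ent.pos F4_18_9_4) (Ls.cons Ent.zero (Ls.cons (Ent.neg F4_18_7_4) (Ls.cons (Ent.neg F4_18_6_4) (Ls.cons Ent.zero (Ls.cons Ent.zero (Ls.cons (Ent.pos F4_18_4_3) (Ls.cons (Ent.pos F4_18_4_2) (Ls.cons (Ent.neg F4_18_4_1) (Ls.cons (Ent.pos F4_18_4_0) Ls.nil)))))))))))))))))))))))))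
 (Ls.cons (Ls.cons Ent.zero (Ls.cons Ent.zero (Ls.cons Ent.zero (Ls.cons Ent.zero (Ls.cons Ent.zero (Ls.cons Ent.zero (Ls.cons Ent.zero (Ls.cons Ent.zero (Ls.cons Ent.zero (Ls.cons Ent.zero (Ls.cons Ent.zero (Ls.cons Ent.zero (Ls.cons (Ent.pos F4_17_12_4) (Ls.cons (Ent.pos F4_17_11_4) (Ls.cons (Ent.pos F4_17_10_4) (Ls.cons Ent.zero (Ls.cons Ent.zero (Ls.cons (Ent.neg F4_17_7_4) (Ls.cons (Ent.neg F4_17_6_4) (Ls.cons (Ent.neg F4_17_5_4) (Ls.cons Ent.zero (Ls.cons Ent.zero (Ls.cons Ent.zero (Ls.cons (Ent.pos F4_17_4_1) (Ls.cons (Ent.neg F4_17_4_0) Ls.nil)))))))))))))))))))))))))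
 (Ls.cons (Ls.cons Ent.zero (Ls.cons Ent.zero (Ls.cons Ent.zero (Ls.cons Ent.zero (Ls.cons Ent.zero (Ls.cons Ent.zero (Ls.cons Ent.zero (Ls.cons Ent.zero (Ls.cons Ent.zero (Ls.cons (Ent.neg F4_16_15_4) (Ls.cons Ent.zero (Ls.cons Ent.zero (Ls.cons (Ent.pos F4_16_12_4) (Ls.cons (Ent.pos F4_16_11_4) (Ls.cons (Ent.pos F4_16_10_4) (Ls.cons Ent.zero (Ls.cons (Ent.neg F4_16_8_4) (Ls.cons (Ent.neg F4_16_7_4) (Ls.cons (Ent.neg F4_16_6_4) (Ls.cons Ent.zero (Ls.cons Ent.zero (Ls.cons (Ent.pos F4_16_4_3) (Ls.cons Ent.zero (Ls.cons (Ent.neg F4_16_4_1) (Ls.cons (Ent.pos F4_16_4_0) Ls.nil)))))))))))))))))))))))))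
 (Ls.cons (Ls.cons Ent.zero (Ls.cons Ent.zero (Ls.cons Ent.zero (Ls.cons Ent.zero (Ls.cons Ent.zero (Ls.cons Ent.zero (Ls.cons Ent.zero (Ls.cons Ent.zero (Ls.cons (Ent.pos F4_16_15_4) (Ls.cons Ent.zero (Ls.cons (Ent.pos F4_15_14_4) (Ls.cons Ent.zero (Ls.cons (Ent.pos F4_15_12_4) (Ls.cons Ent.zero (Ls.cons (Ent.pos F4_15_10_4) (Ls.cons (Ent.neg F4_15_9_4) (Ls.cons Ent.zero (Ls.cons (Ent.neg F4_15_7_4) (Ls.cons Ent.zero (Ls.cons (Ent.neg F4_15_5_4) (Ls.cons Ent.zero (Ls.cons (Ent.neg F4_15_4_3) (Ls.cons Ent.zero (Ls.cons (Ent.pos F4_15_4_1) (Ls.cons (Ent.neg F4_15_4_0) Ls.nil)))))))))))))))))))))))))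
 (Ls.cons (Ls.cons Ent.zero (Ls.cons Ent.zero (Ls.cons Ent.zero (Ls.cons Ent.zero (Ls.cons Ent.zero (Ls.cons Ent.zero (Ls.cons (Ent.pos F4_18_14_4) (Ls.cons Ent.zero (Ls.cons Ent.zero (Ls.cons (Ent.neg F4_15_14_4) (Ls.cons Ent.zero (Ls.cons Ent.zero (Ls.cons (Ent.pos F4_14_12_4) (Ls.cons Ent.zero (Ls.cons Ent.zero (Ls.cons Ent.zero (Ls.cons (Ent.neg F4_14_8_4) (Ls.cons Ent.zero (Ls.cons Ent.zero (Ls.cons (Ent.pos F4_14_5_4) (Ls.cons Ent.zero (Ls.cons Ent.zero (Ls.cons (Ent.neg F4_14_4_2) (Ls.cons (Ent.pos F4_14_4_1) (Ls.cons (Ent.neg F4_14_4_0) Ls.nil)))))))))))))))))))))))))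
 (Ls.cons (Ls.cons Ent.zero (Ls.cons Ent.zero (Ls.cons Ent.zero (Ls.cons Ent.zero (Ls.cons Ent.zero (Ls.cons (Ent.pos F4_19_13_4) (Ls.cons (Ent.pos F4_18_13_4) (Ls.cons Ent.zero (Ls.cons Ent.zero (Ls.cons Ent.zero (Ls.cons Ent.zero (Ls.cons Ent.zero (Ls.cons (Ent.pos F4_13_12_4) (Ls.cons Ent.zero (Ls.cons Ent.zero (Ls.cons (Ent.neg F4_13_9_4) (Ls.cons Ent.zero (Ls.cons Ent.zero (Ls.cons Ent.zero (Ls.cons Ent.zero (Ls.cons Ent.zero (Ls.cons (Ent.neg F4_13_4_3) (Ls.cons (Ent.neg F4_13_4_2) (Ls.cons (Ent.pos F4_13_4_1) (Ls.cons (Ent.neg F4_13_4_0) Ls.nil)))))))))))))))))))))))))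
 (Ls.cons (Ls.cons Ent.zero (Ls.cons Ent.zero (Ls.cons Ent.zero (Ls.cons Ent.zero (Ls.cons Ent.zero (Ls.cons Ent.zero (Ls.cons Ent.zero (Ls.cons (Ent.neg F4_17_12_4) (Ls.cons (Ent.neg F4_16_12_4) (Ls.cons (Ent.neg F4_15_12_4) (Ls.cons (Ent.neg F4_14_12_4) (Ls.cons (Ent.neg F4_13_12_4) (Ls.cons Ent.zero (Ls.cons Ent.zero (Ls.cons Ent.zero (Ls.cons (Ent.pos F4_12_9_4) (Ls.cons (Ent.pos F4_12_8_4) (Ls.cons (Ent.pos F4_12_7_4) (Ls.cons (Ent.pos F4_12_6_4) (Ls.cons (Ent.pos F4_12_5_4) (Ls.cons Ent.zero (Ls.cons Ent.zero (Ls.cons (Ent.neg F4_12_4_2) (Ls.cons (Ent.pos F4_12_4_1) (Ls.cons (Ent.neg F4_12_4_0) Ls.nil)))))))))))))))))))))))))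
 (Ls.cons (Ls.cons Ent.zero (Ls.cons Ent.zero (Ls.cons Ent.zero (Ls.cons Ent.zero (Ls.cons Ent.zero (Ls.cons Ent.zero (Ls.cons Ent.zero (Ls.cons (Ent.neg F4_17_11_4) (Ls.cons (Ent.neg F4_16_11_4) (Ls.cons Ent.zero (Ls.cons Ent.zero (Ls.cons Ent.zero (Ls.cons Ent.zero (Ls.cons Ent.zero (Ls.cons Ent.zero (Ls.cons Ent.zero (Ls.cons Ent.zero (Ls.cons (Ent.pos F4_11_7_4) (Ls.cons (Ent.pos F4_11_6_4) (Ls.cons Ent.zero (Ls.cons Ent.zero (Ls.cons (Ent.neg F4_11_4_3) (Ls.cons (Ent.neg F4_11_4_2) (Ls.cons (Ent.pos F4_11_4_1) (Ls.cons (Ent.neg F4_11_4_0) Ls.nil)))))))))))))))))))))))))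
 (Ls.cons (Ls.cons Ent.zero (Ls.cons Ent.zero (Ls.cons Ent.zero (Ls.cons Ent.zero (Ls.cons Ent.zero (Ls.cons (Ent.neg F4_19_10_4) (Ls.cons (Ent.neg F4_18_10_4) (Ls.cons (Ent.neg F4_17_10_4) (Ls.cons (Ent.neg F4_16_10_4) (Ls.cons (Ent.neg F4_15_10_4) (Ls.cons Ent.zero (Ls.cons Ent.zero (Ls.cons Ent.zero (Ls.cons Ent.zero (Ls.cons Ent.zero (Ls.cons (Ent.pos F4_10_9_4) (Ls.cons (Ent.pos F4_10_8_4) (Ls.cons (Ent.pos F4_10_7_4) (Ls.cons (Ent.pos F4_10_6_4) (Ls.cons (Ent.pos F4_10_5_4) (Ls.cons Ent.zero (Ls.cons Ent.zero (Ls.cons (Ent.neg F4_10_4_2) (Ls.cons (Ent.pos F4_10_4_1) (Ls.cons (Ent.neg F4_10_4_0) Ls.nil)))))))))))))))))))))))))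
 (Ls.cons (Ls.cons Ent.zero (Ls.cons Ent.zero (Ls.cons Ent.zero (Ls.cons Ent.zero (Ls.cons (Ent.neg F4_20_9_4) (Ls.cons Ent.zero (Ls.cons (Ent.neg F4_18_9_4) (Ls.cons Ent.zero (Ls.cons Ent.zero (Ls.cons (Ent.pos F4_15_9_4) (Ls.cons Ent.zero (Ls.cons (Ent.pos F4_13_9_4) (Ls.cons (Ent.neg F4_12_9_4) (Ls.cons Ent.zero (Ls.cons (Ent.neg F4_10_9_4) (Ls.cons Ent.zero (Ls.cons Ent.zero (Ls.cons (Ent.pos F4_9_7_4) (Ls.cons Ent.zero (Ls.cons (Ent.pos F4_9_5_4) (Ls.cons Ent.zero (Ls.cons Ent.zero (Ls.cons (Ent.neg F4_9_4_2) (Ls.cons (Ent.pos F4_9_4_1) (Ls.cons (Ent.neg F4_9_4_0) Ls.nil)))))))))))))))))))))))))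
 (Ls.cons (Ls.cons Ent.zero (Ls.cons Ent.zero (Ls.cons Ent.zero (Ls.cons Ent.zero (Ls.cons Ent.zero (Ls.cons (Ent.neg F4_19_8_4) (Ls.cons Ent.zero (Ls.cons Ent.zero (Ls.cons (Ent.pos F4_16_8_4) (Ls.cons Ent.zero (Ls.cons (Ent.pos F4_14_8_4) (Ls.cons Ent.zero (Ls.cons (Ent.neg F4_12_8_4) (Ls.cons Ent.zero (Ls.cons (Ent.neg F4_10_8_4) (Ls.cons Ent.zero (Ls.cons Ent.zero (Ls.cons (Ent.pos F4_8_7_4) (Ls.cons Ent.zero (Ls.cons (Ent.pos F4_8_5_4) (Ls.cons Ent.zero (Ls.cons Ent.zero (Ls.cons (Ent.neg F4_8_4_2) (Ls.cons (Ent.pos F4_8_4_1) (Ls.cons (Ent.neg F4_8_4_0) Ls.nil)))))))))))))))))))))))))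
 (Ls.cons (Ls.cons Ent.zero (Ls.cons Ent.zero (Ls.cons Ent.zero (Ls.cons Ent.zero (Ls.cons Ent.zero (Ls.cons (Ent.pos F4_19_7_4) (Ls.cons (Ent.pos F4_18_7_4) (Ls.cons (Ent.pos F4_17_7_4) (Ls.cons (Ent.pos F4_16_7_4) (Ls.cons (Ent.pos F4_15_7_4) (Ls.cons Ent.zero (Ls.cons Ent.zero (Ls.cons (Ent.neg F4_12_7_4) (Ls.cons (Ent.neg F4_11_7_4) (Ls.cons (Ent.neg F4_10_7_4) (Ls.cons (Ent.neg F4_9_7_4) (Ls.cons (Ent.neg F4_8_7_4) (Ls.cons Ent.zero (Ls.cons Ent.zero (Ls.cons Ent.zero (Ls.cons Ent.zero (Ls.cons Ent.zero (Ls.cons Ent.zero (Ls.cons (Ent.pos F4_7_4_1) (Ls.cons (Ent.neg F4_7_4_0) Ls.nil)))))))))))))))))))))))))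
 (Ls.cons (Ls.cons Ent.zero (Ls.cons Ent.zero (Ls.cons Ent.zero (Ls.cons Ent.zero (Ls.cons Ent.zero (Ls.cons Ent.zero (Ls.cons (Ent.pos F4_18_6_4) (Ls.cons (Ent.pos F4_17_6_4) (Ls.cons (Ent.pos F4_16_6_4) (Ls.cons Ent.zero (Ls.cons Ent.zero (Ls.cons Ent.zero (Ls.cons (Ent.neg F4_12_6_4) (Ls.cons (Ent.neg F4_11_6_4) (Ls.cons (Ent.neg F4_10_6_4) (Ls.cons Ent.zero (Ls.cons Ent.zero (Ls.cons Ent.zero (Ls.cons Ent.zero (Ls.cons (Ent.pos F4_6_5_4) (Ls.cons Ent.zero (Ls.cons Ent.zero (Ls.cons Ent.zero (Ls.cons (Ent.neg F4_6_4_1) (Ls.cons (Ent.pos F4_6_4_0) Ls.nil)))))))))))))))))))))))))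
 (Ls.cons (Ls.cons Ent.zero (Ls.cons Ent.zero (Ls.cons Ent.zero (Ls.cons (Ent.pos F4_21_5_4) (Ls.cons (Ent.pos F4_20_5_4) (Ls.cons (Ent.pos F4_19_5_4) (Ls.cons Ent.zero (Ls.cons (Ent.pos F4_17_5_4) (Ls.cons Ent.zero (Ls.cons (Ent.pos F4_15_5_4) (Ls.cons (Ent.neg F4_14_5_4) (Ls.cons Ent.zero (Ls.cons (Ent.neg F4_12_5_4) (Ls.cons Ent.zero (Ls.cons (Ent.neg F4_10_5_4) (Ls.cons (Ent.neg F4_9_5_4) (Ls.cons (Ent.neg F4_8_5_4) (Ls.cons Ent.zero (Ls.cons (Ent.neg F4_6_5_4) (Ls.cons Ent.zero (Ls.cons Ent.zero (Ls.cons Ent.zero (Ls.cons Ent.zero (Ls.cons (Ent.pos F4_5_4_1) (Ls.cons (Ent.neg F4_5_4_0) Ls.nil)))))))))))))))))))))))))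
 (Ls.cons (Ls.cons Ent.zero (Ls.cons Ent.zero (Ls.cons Ent.zero (Ls.cons Ent.zero (Ls.cons Ent.zero (Ls.cons Ent.zero (Ls.cons Ent.zero (Ls.cons Ent.zero (Ls.cons Ent.zero (Ls.cons Ent.zero (Ls.cons Ent.zero (Ls.cons Ent.zero (Ls.cons Ent.zero (Ls.cons Ent.zero (Ls.cons Ent.zero (Ls.cons Ent.zero (Ls.cons Ent.zero (Ls.cons Ent.zero (Ls.cons Ent.zero (Ls.cons Ent.zero (Ls.cons Ent.zero (Ls.cons Ent.zero (Ls.cons Ent.zero (Ls.cons Ent.zero (Ls.cons Ent.zero Ls.nil)))))))))))))))))))))))))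
 (Ls.cons (Ls.cons Ent.zero (Ls.cons Ent.zero (Ls.cons Ent.zero (Ls.cons Ent.zero (Ls.cons (Ent.neg F4_20_4_3) (Ls.cons Ent.zero (Ls.cons (Ent.neg F4_18_4_3) (Ls.cons Ent.zero (Ls.cons (Ent.neg F4_16_4_3) (Ls.cons (Ent.pos F4_15_4_3) (Ls.cons Ent.zero (Ls.cons (Ent.pos F4_13_4_3) (Ls.cons Ent.zero (Ls.cons (Ent.pos F4_11_4_3) (Ls.cons Ent.zero (Ls.cons Ent.zero (Ls.cons Ent.zero (Ls.cons Ent.zero (Ls.cons Ent.zero (Ls.cons Ent.zero (Ls.cons Ent.zero (Ls.cons Ent.zero (Ls.cons (Ent.pos F4_4_3_2) (Ls.cons (Ent.neg F4_4_3_1) (Ls.cons (Ent.pos F4_4_3_0) Ls.nil)))))))))))))))))))))))))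
 (Ls.cons (Ls.cons Ent.zero (Ls.cons Ent.zero (Ls.cons Ent.zero (Ls.cons (Ent.neg F4_21_4_2) (Ls.cons (Ent.neg F4_20_4_2) (Ls.cons (Ent.neg F4_19_4_2) (Ls.cons (Ent.neg F4_18_4_2) (Ls.cons Ent.zero (Ls.cons Ent.zero (Ls.cons Ent.zero (Ls.cons (Ent.pos F4_14_4_2) (Ls.cons (Ent.pos F4_13_4_2) (Ls.cons (Ent.pos F4_12_4_2) (Ls.cons (Ent.pos F4_11_4_2) (Ls.cons (Ent.pos F4_10_4_2) (Ls.cons (Ent.pos F4_9_4_2) (Ls.cons (Ent.pos F4_8_4_2) (Ls.cons Ent.zero (Ls.cons Ent.zero (Ls.cons Ent.zero (Ls.cons Ent.zero (Ls.cons (Ent.neg F4_4_3_2) (Ls.cons Ent.zero (Ls.cons (Ent.pos F4_4_2_1) (Ls.cons (Ent.neg F4_4_2_0) Ls.nil)))))))))))))))))))))))))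
 (Ls.cons (Ls.cons Ent.zero (Ls.cons (Ent.pos F4_23_4_1) (Ls.cons (Ent.pos F4_22_4_1) (Ls.cons (Ent.pos F4_21_4_1) (Ls.cons (Ent.pos F4_20_4_1) (Ls.cons (Ent.pos F4_19_4_1) (Ls.cons (Ent.pos F4_18_4_1) (Ls.cons (Ent.neg F4_17_4_1) (Ls.cons (Ent.pos F4_16_4_1) (Ls.cons (Ent.neg F4_15_4_1) (Ls.cons (Ent.neg F4_14_4_1) (Ls.cons (Ent.neg F4_13_4_1) (Ls.cons (Ent.neg F4_12_4_1) (Ls.cons (Ent.neg F4_11_4_1) (Ls.cons (Ent.neg F4_10_4_1) (Ls.cons (Ent.neg F4_9_4_1) (Ls.cons (Ent.neg F4_8_4_1) (Ls.cons (Ent.neg F4_7_4_1) (Ls.cons (Ent.pos F4_6_4_1) (Ls.cons (Ent.neg F4_5_4_1) (Ls.cons Ent.zero (Ls.cons (Ent.pos F4_4_3_1) (Ls.cons (Ent.neg F4_4_2_1) (Ls.cons Ent.zero (Ls.cons (Ent.pos F4_4_1_0) Ls.nil)))))))))))))))))))))))))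
 (Ls.cons (Ls.cons Ent.zero (Ls.cons (Ent.neg F4_23_4_0) (Ls.cons (Ent.neg F4_22_4_0) (Ls.cons (Ent.neg F4_21_4_0) (Ls.cons (Ent.neg F4_20_4_0) (Ls.cons (Ent.neg F4_19_4_0) (Ls.cons (Ent.neg F4_18_4_0) (Ls.cons (Ent.pos F4_17_4_0) (Ls.cons (Ent.neg F4_16_4_0) (Ls.cons (Ent.pos F4_15_4_0) (Ls.cons (Ent.pos F4_14_4_0) (Ls.cons (Ent.pos F4_13_4_0) (Ls.cons (Ent.pos F4_12_4_0) (Ls.cons (Ent.pos F4_11_4_0) (Ls.cons (Ent.pos F4_10_4_0) (Ls.cons (Ent.pos F4_9_4_0) (Ls.cons (Ent.pos F4_8_4_0) (Ls.cons (Ent.pos F4_7_4_0) (Ls.cons (Ent.neg F4_6_4_0) (Ls.cons (Ent.pos F4_5_4_0) (Ls.cons Ent.zero (Ls.cons (Ent.neg F4_4_3_0) (Ls.cons (Ent.pos F4_4_2_0) (Ls.cons (Ent.neg F4_4_1_0) (Ls.cons Ent.zero Ls.nil)))))))))))))))))))))))))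
 Ls.nil))))))))))))))))))))

noncomputable def bxF4_5 : L2 :=
 (Ls.cons (Ls.cons Ent.zero (Ls.cons Ent.zero (Ls.cons Ent.zero (Ls.cons Ent.zero (Ls.cons Ent.zero (Ls.cons Ent.zero (Ls.cons Ent.zero (Ls.cons Ent.zero (Ls.cons Ent.zero (Ls.cons Ent.zero (Ls.cons Ent.zero (Ls.cons Ent.zero (Ls.cons (Ent.neg F4_19_12_5) (Ls.cons (Ent.neg F4_19_11_5) (Ls.cons (Ent.neg F4_19_10_5) (Ls.cons Ent.zero (Ls.cons Ent.zero (Ls.cons Ent.zero (Ls.cons Ent.zero (Ls.cons Ent.zero (Ls.cons (Ent.pos F4_19_5_4) (Ls.cons (Ent.pos F4_19_5_3) (Ls.cons (Ent.pos F4_19_5_2) (Ls.cons (Ent.neg F4_19_5_1) (Ls.cons (Ent.pos F4_19_5_0) Ls.nil)))))))))))))))))))))))))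
 (Ls.cons (Ls.cons Ent.zero (Ls.cons Ent.zero (Ls.cons Ent.zero (Ls.cons Ent.zero (Ls.cons Ent.zero (Ls.cons Ent.zero (Ls.cons Ent.zero (Ls.cons Ent.zero (Ls.cons Ent.zero (Ls.cons Ent.zero (Ls.cons Ent.zero (Ls.cons (Ent.neg F4_18_13_5) (Ls.cons (Ent.neg F4_18_12_5) (Ls.cons Ent.zero (Ls.cons Ent.zero (Ls.cons Ent.zero (Ls.cons Ent.zero (Ls.cons Ent.zero (Ls.cons Ent.zero (Ls.cons Ent.zero (Ls.cons Ent.zero (Ls.cons (Ent.pos F4_18_5_3) (Ls.cons (Ent.pos F4_18_5_2) (Ls.cons (Ent.neg F4_18_5_1) (Ls.cons (Ent.pos F4_18_5_0) Ls.nil)))))))))))))))))))))))))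
 (Ls.cons (Ls.cons Ent.zero (Ls.cons Ent.zero (Ls.cons Ent.zero (Ls.cons Ent.zero (Ls.cons Ent.zero (Ls.cons Ent.zero (Ls.cons Ent.zero (Ls.cons Ent.zero (Ls.cons Ent.zero (Ls.cons Ent.zero (Ls.cons (Ent.neg F4_17_14_5) (Ls.cons (Ent.neg F4_17_13_5) (Ls.cons (Ent.neg F4_17_12_5) (Ls.cons Ent.zero (Ls.cons Ent.zero (Ls.cons Ent.zero (Ls.cons Ent.zero (Ls.cons Ent.zero (Ls.cons Ent.zero (Ls.cons Ent.zero (Ls.cons (Ent.pos F4_17_5_4) (Ls.cons (Ent.pos F4_17_5_3) (Ls.cons (Ent.pos F4_17_5_2) (Ls.cons (Ent.neg F4_17_5_1) (Ls.cons (Ent.pos F4_17_5_0) Ls.nil)))))))))))))))))))))))))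
 (Ls.cons (Ls.cons Ent.zero (Ls.cons Ent.zero (Ls.cons Ent.zero (Ls.cons Ent.zero (Ls.cons Ent.zero (Ls.cons Ent.zero (Ls.cons Ent.zero (Ls.cons Ent.zero (Ls.cons Ent.zero (Ls.cons Ent.zero (Ls.cons (Ent.neg F4_16_14_5) (Ls.cons Ent.zero (Ls.cons Ent.zero (Ls.cons Ent.zero (Ls.cons (Ent.pos F4_16_10_5) (Ls.cons Ent.zero (Ls.cons Ent.zero (Ls.cons (Ent.neg F4_16_7_5) (Ls.cons Ent.zero (Ls.cons Ent.zero (Ls.cons Ent.zero (Ls.cons (Ent.pos F4_16_5_3) (Ls.cons Ent.zero (Ls.cons (Ent.neg F4_16_5_1) (Ls.cons (Ent.pos F4_16_5_0) Ls.nil)))))))))))))))))))))))))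
 (Ls.cons (Ls.cons Ent.zero (Ls.cons Ent.zero (Ls.cons Ent.zero (Ls.cons Ent.zero (Ls.cons Ent.zero (Ls.cons Ent.zero (Ls.cons Ent.zero (Ls.cons Ent.zero (Ls.cons Ent.zero (Ls.cons Ent.zero (Ls.cons (Ent.neg F4_15_14_5) (Ls.cons Ent.zero (Ls.cons Ent.zero (Ls.cons (Ent.pos F4_15_11_5) (Ls.cons Ent.zero (Ls.cons Ent.zero (Ls.cons Ent.zero (Ls.cons (Ent.neg F4_15_7_5) (Ls.cons Ent.zero (Ls.cons Ent.zero (Ls.cons (Ent.pos F4_15_5_4) (Ls.cons Ent.zero (Ls.cons Ent.zero (Ls.cons (Ent.neg F4_15_5_1) (Ls.cons (Ent.pos F4_15_5_0) Ls.nil)))))))))))))))))))))))))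
 (Ls.cons (Ls.cons Ent.zero (Ls.cons Ent.zero (Ls.cons Ent.zero (Ls.cons Ent.zero (Ls.cons Ent.zero (Ls.cons Ent.zero (Ls.cons Ent.zero (Ls.cons (Ent.pos F4_17_14_5) (Ls.cons (Ent.pos F4_16_14_5) (Ls.cons (Ent.pos F4_15_14_5) (Ls.cons Ent.zero (Ls.cons (Ent.pos F4_14_13_5) (Ls.cons Ent.zero (Ls.cons (Ent.pos F4_14_11_5) (Ls.cons (Ent.pos F4_14_10_5) (Ls.cons (Ent.neg F4_14_9_5) (Ls.cons (Ent.neg F4_14_8_5) (Ls.cons Ent.zero (Ls.cons (Ent.neg F4_14_6_5) (Ls.cons Ent.zero (Ls.cons (Ent.neg F4_14_5_4) (Ls.cons (Ent.neg F4_14_5_3) (Ls.cons (Ent.neg F4_14_5_2) (Ls.cons (Ent.pos F4_14_5_1) (Ls.cons (Ent.neg F4_14_5_0) Ls.nil)))))))))))))))))))))))))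
 (Ls.cons (Ls.cons Ent.zero (Ls.cons Ent.zero (Ls.cons Ent.zero (Ls.cons Ent.zero (Ls.cons Ent.zero (Ls.cons Ent.zero (Ls.cons (Ent.pos F4_18_13_5) (Ls.cons (Ent.pos F4_17_13_5) (Ls.cons Ent.zero (Ls.cons Ent.zero (Ls.cons (Ent.neg F4_14_13_5) (Ls.cons Ent.zero (Ls.cons Ent.zero (Ls.cons Ent.zero (Ls.cons Ent.zero (Ls.cons Ent.zero (Ls.cons Ent.zero (Ls.cons Ent.zero (Ls.cons (Ent.pos F4_13_6_5) (Ls.cons Ent.zero (Ls.cons Ent.zero (Ls.cons (Ent.neg F4_13_5_3) (Ls.cons (Ent.neg F4_13_5_2) (Ls.cons (Ent.pos F4_13_5_1) (Ls.cons (Ent.neg F4_13_5_0) Ls.nil)))))))))))))))))))))))))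
 (Ls.cons (Ls.cons Ent.zero (Ls.cons Ent.zero (Ls.cons Ent.zero (Ls.cons Ent.zero (Ls.cons Ent.zero (Ls.cons (Ent.pos F4_19_12_5) (Ls.cons (Ent.pos F4_18_12_5) (Ls.cons (Ent.pos F4_17_12_5) (Ls.cons Ent.zero (Ls.cons Ent.zero (Ls.cons Ent.zero (Ls.cons Ent.zero (Ls.cons Ent.zero (Ls.cons Ent.zero (Ls.cons Ent.zero (Ls.cons Ent.zero (Ls.cons Ent.zero (Ls.cons Ent.zero (Ls.cons Ent.zero (Ls.cons Ent.zero (Ls.cons (Ent.neg F4_12_5_4) (Ls.cons (Ent.neg F4_12_5_3) (Ls.cons (Ent.neg F4_12_5_2) (Ls.cons (Ent.pos F4_12_5_1) (Ls.cons (Ent.neg F4_12_5_0) Ls.nil)))))))))))))))))))))))))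
 (Ls.cons (Ls.cons Ent.zero (Ls.cons Ent.zero (Ls.cons Ent.zero (Ls.cons Ent.zero (Ls.cons Ent.zero (Ls.cons (Ent.pos F4_19_11_5) (Ls.cons Ent.zero (Ls.cons Ent.zero (Ls.cons Ent.zero (Ls.cons (Ent.neg F4_15_11_5) (Ls.cons (Ent.neg F4_14_11_5) (Ls.cons Ent.zero (Ls.cons Ent.zero (Ls.cons Ent.zero (Ls.cons Ent.zero (Ls.cons Ent.zero (Ls.cons (Ent.pos F4_11_8_5) (Ls.cons (Ent.pos F4_11_7_5) (Ls.cons Ent.zero (Ls.cons Ent.zero (Ls.cons Ent.zero (Ls.cons (Ent.neg F4_11_5_3) (Ls.cons (Ent.neg F4_11_5_2) (Ls.cons (Ent.pos F4_11_5_1) (Ls.cons (Ent.neg F4_11_5_0) Ls.nil)))))))))))))))))))))))))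
 (Ls.cons (Ls.cons Ent.zero (Ls.cons Ent.zero (Ls.cons Ent.zero (Ls.cons Ent.zero (Ls.cons Ent.zero (Ls.cons (Ent.pos F4_19_10_5) (Ls.cons Ent.zero (Ls.cons Ent.zero (Ls.cons (Ent.neg F4_16_10_5) (Ls.cons Ent.zero (Ls.cons (Ent.neg F4_14_10_5) (Ls.cons Ent.zero (Ls.cons Ent.zero (Ls.cons Ent.zero (Ls.cons Ent.zero (Ls.cons (Ent.pos F4_10_9_5) (Ls.cons Ent.zero (Ls.cons (Ent.pos F4_10_7_5) (Ls.cons Ent.zero (Ls.cons Ent.zero (Ls.cons (Ent.neg F4_10_5_4) (Ls.cons (Ent.neg F4_10_5_3) (Ls.cons (Ent.neg F4_10_5_2) (Ls.cons (Ent.pos F4_10_5_1) (Ls.cons (Ent.neg F4_10_5_0) Ls.nil)))))))))))))))))))))))))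
 (Ls.cons (Ls.cons Ent.zero (Ls.cons Ent.zero (Ls.cons Ent.zero (Ls.cons Ent.zero (Ls.cons Ent.zero (Ls.cons Ent.zero (Ls.cons Ent.zero (Ls.cons Ent.zero (Ls.cons Ent.zero (Ls.cons Ent.zero (Ls.cons (Ent.pos F4_14_9_5) (Ls.cons Ent.zero (Ls.cons Ent.zero (Ls.cons Ent.zero (Ls.cons (Ent.neg F4_10_9_5) (Ls.cons Ent.zero (Ls.cons Ent.zero (Ls.cons Ent.zero (Ls.cons Ent.zero (Ls.cons Ent.zero (Ls.cons (Ent.neg F4_9_5_4) (Ls.cons (Ent.neg F4_9_5_3) (Ls.cons (Ent.neg F4_9_5_2) (Ls.cons (Ent.pos F4_9_5_1) (Ls.cons (Ent.neg F4_9_5_0) Ls.nil)))))))))))))))))))))))))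
 (Ls.cons (Ls.cons Ent.zero (Ls.cons Ent.zero (Ls.cons Ent.zero (Ls.cons Ent.zero (Ls.cons Ent.zero (Ls.cons Ent.zero (Ls.cons Ent.zero (Ls.cons Ent.zero (Ls.cons Ent.zero (Ls.cons Ent.zero (Ls.cons (Ent.pos F4_14_8_5) (Ls.cons Ent.zero (Ls.cons Ent.zero (Ls.cons (Ent.neg F4_11_8_5) (Ls.cons Ent.zero (Ls.cons Ent.zero (Ls.cons Ent.zero (Ls.cons Ent.zero (Ls.cons Ent.zero (Ls.cons Ent.zero (Ls.cons (Ent.neg F4_8_5_4) (Ls.cons (Ent.neg F4_8_5_3) (Ls.cons (Ent.neg F4_8_5_2) (Ls.cons (Ent.pos F4_8_5_1) (Ls.cons (Ent.neg F4_8_5_0) Ls.nil)))))))))))))))))))))))))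
 (Ls.cons (Ls.cons Ent.zero (Ls.cons Ent.zero (Ls.cons Ent.zero (Ls.cons Ent.zero (Ls.cons Ent.zero (Ls.cons Ent.zero (Ls.cons Ent.zero (Ls.cons Ent.zero (Ls.cons (Ent.pos F4_16_7_5) (Ls.cons (Ent.pos F4_15_7_5) (Ls.cons Ent.zero (Ls.cons Ent.zero (Ls.cons Ent.zero (Ls.cons (Ent.neg F4_11_7_5) (Ls.cons (Ent.neg F4_10_7_5) (Ls.cons Ent.zero (Ls.cons Ent.zero (Ls.cons Ent.zero (Ls.cons Ent.zero (Ls.cons Ent.zero (Ls.cons Ent.zero (Ls.cons Ent.zero (Ls.cons (Ent.neg F4_7_5_2) (Ls.cons (Ent.pos F4_7_5_1) (Ls.cons (Ent.neg F4_7_5_0) Ls.nil)))))))))))))))))))))))))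
 (Ls.cons (Ls.cons Ent.zero (Ls.cons Ent.zero (Ls.cons Ent.zero (Ls.cons Ent.zero (Ls.cons Ent.zero (Ls.cons Ent.zero (Ls.cons Ent.zero (Ls.cons Ent.zero (Ls.cons Ent.zero (Ls.cons Ent.zero (Ls.cons (Ent.pos F4_14_6_5) (Ls.cons (Ent.neg F4_13_6_5) (Ls.cons Ent.zero (Ls.cons Ent.zero (Ls.cons Ent.zero (Ls.cons Ent.zero (Ls.cons Ent.zero (Ls.cons Ent.zero (Ls.cons Ent.zero (Ls.cons Ent.zero (Ls.cons (Ent.neg F4_6_5_4) (Ls.cons Ent.zero (Ls.cons (Ent.neg F4_6_5_2) (Ls.cons (Ent.pos F4_6_5_1) (Ls.cons (Ent.neg F4_6_5_0) Ls.nil)))))))))))))))))))))))))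
 (Ls.cons (Ls.cons Ent.zero (Ls.cons Ent.zero (Ls.cons Ent.zero (Ls.cons Ent.zero (Ls.cons Ent.zero (Ls.cons Ent.zero (Ls.cons Ent.zero (Ls.cons Ent.zero (Ls.cons Ent.zero (Ls.cons Ent.zero (Ls.cons Ent.zero (Ls.cons Ent.zero (Ls.cons Ent.zero (Ls.cons Ent.zero (Ls.cons Ent.zero (Ls.cons Ent.zero (Ls.cons Ent.zero (Ls.cons Ent.zero (Ls.cons Ent.zero (Ls.cons Ent.zero (Ls.cons Ent.zero (Ls.cons Ent.zero (Ls.cons Ent.zero (Ls.cons Ent.zero (Ls.cons Ent.zero Ls.nil)))))))))))))))))))))))))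
 (Ls.cons (Ls.cons Ent.zero (Ls.cons Ent.zero (Ls.cons Ent.zero (Ls.cons (Ent.neg F4_21_5_4) (Ls.cons (Ent.neg F4_20_5_4) (Ls.cons (Ent.neg F4_19_5_4) (Ls.cons Ent.zero (Ls.cons (Ent.neg F4_17_5_4) (Ls.cons Ent.zero (Ls.cons (Ent.neg F4_15_5_4) (Ls.cons (Ent.pos F4_14_5_4) (Ls.cons Ent.zero (Ls.cons (Ent.pos F4_12_5_4) (Ls.cons Ent.zero (Ls.cons (Ent.pos F4_10_5_4) (Ls.cons (Ent.pos F4_9_5_4) (Ls.cons (Ent.pos F4_8_5_4) (Ls.cons Ent.zero (Ls.cons (Ent.pos F4_6_5_4) (Ls.cons Ent.zero (Ls.cons Ent.zero (Ls.cons Ent.zero (Ls.cons Ent.zero (Ls.cons (Ent.neg F4_5_4_1) (Ls.cons (Ent.pos F4_5_4_0) Ls.nil)))))))))))))))))))))))))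
 (Ls.cons (Ls.cons Ent.zero (Ls.cons Ent.zero (Ls.cons Ent.zero (Ls.cons (Ent.neg F4_21_5_3) (Ls.cons (Ent.neg F4_20_5_3) (Ls.cons (Ent.neg F4_19_5_3) (Ls.cons (Ent.neg F4_18_5_3) (Ls.cons (Ent.neg F4_17_5_3) (Ls.cons (Ent.neg F4_16_5_3) (Ls.cons Ent.zero (Ls.cons (Ent.pos F4_14_5_3) (Ls.cons (Ent.pos F4_13_5_3) (Ls.cons (Ent.pos F4_12_5_3) (Ls.cons (Ent.pos F4_11_5_3) (Ls.cons (Ent.pos F4_10_5_3) (Ls.cons (Ent.pos F4_9_5_3) (Ls.cons (Ent.pos F4_8_5_3) (Ls.cons Ent.zero (Ls.cons Ent.zero (Ls.cons Ent.zero (Ls.cons Ent.zero (Ls.cons Ent.zero (Ls.cons Ent.zero (Ls.cons (Ent.neg F4_5_3_1) (Ls.cons (Ent.pos F4_5_3_0) Ls.nil)))))))))))))))))))))))))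
 (Ls.cons (Ls.cons Ent.zero (Ls.cons Ent.zero (Ls.cons Ent.zero (Ls.cons (Ent.neg F4_21_5_2) (Ls.cons (Ent.neg F4_20_5_2) (Ls.cons (Ent.neg F4_19_5_2) (Ls.cons (Ent.neg F4_18_5_2) (Ls.cons (Ent.neg F4_17_5_2) (Ls.cons Ent.zero (Ls.cons Ent.zero (Ls.cons (Ent.pos F4_14_5_2) (Ls.cons (Ent.pos F4_13_5_2) (Ls.cons (Ent.pos F4_12_5_2) (Ls.cons (Ent.pos F4_11_5_2) (Ls.cons (Ent.pos F4_10_5_2) (Ls.cons (Ent.pos F4_9_5_2) (Ls.cons (Ent.pos F4_8_5_2) (Ls.cons (Ent.pos F4_7_5_2) (Ls.cons (Ent.pos F4_6_5_2) (Ls.cons Ent.zero (Ls.cons Ent.zero (Ls.cons Ent.zero (Ls.cons Ent.zero (Ls.cons (Ent.neg F4_5_2_1) (Ls.cons (Ent.pos F4_5_2_0) Ls.nil)))))))))))))))))))))))))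
 (Ls.cons (Ls.cons Ent.zero (Ls.cons Ent.zero (Ls.cons Ent.zero (Ls.cons (Ent.pos F4_21_5_1) (Ls.cons (Ent.pos F4_20_5_1) (Ls.cons (Ent.pos F4_19_5_1) (Ls.cons (Ent.pos F4_18_5_1) (Ls.cons (Ent.pos F4_17_5_1) (Ls.cons (Ent.pos F4_16_5_1) (Ls.cons (Ent.pos F4_15_5_1) (Ls.cons (Ent.neg F4_14_5_1) (Ls.cons (Ent.neg F4_13_5_1) (Ls.cons (Ent.neg F4_12_5_1) (Ls.cons (Ent.neg F4_11_5_1) (Ls.cons (Ent.neg F4_10_5_1) (Ls.cons (Ent.neg F4_9_5_1) (Ls.cons (Ent.neg F4_8_5_1) (Ls.cons (Ent.neg F4_7_5_1) (Ls.cons (Ent.neg F4_6_5_1) (Ls.cons Ent.zero (Ls.cons (Ent.pos F4_5_4_1) (Ls.cons (Ent.pos F4_5_3_1) (Ls.cons (Ent.pos F4_5_2_1) (Ls.cons Ent.zero (Ls.cons (Ent.neg F4_5_1_0) Ls.nil)))))))))))))))))))))))))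
 (Ls.cons (Ls.cons Ent.zero (Ls.cons (Ent.neg F4_23_5_0) (Ls.cons (Ent.neg F4_22_5_0) (Ls.cons (Ent.neg F4_21_5_0) (Ls.cons (Ent.neg F4_20_5_0) (Ls.cons (Ent.neg F4_19_5_0) (Ls.cons (Ent.neg F4_18_5_0) (Ls.cons (Ent.neg F4_17_5_0) (Ls.cons (Ent.neg F4_16_5_0) (Ls.cons (Ent.neg F4_15_5_0) (Ls.cons (Ent.pos F4_14_5_0) (Ls.cons (Ent.pos F4_13_5_0) (Ls.cons (Ent.pos F4_12_5_0) (Ls.cons (Ent.pos F4_11_5_0) (Ls.cons (Ent.pos F4_10_5_0) (Ls.cons (Ent.pos F4_9_5_0) (Ls.cons (Ent.pos F4_8_5_0) (Ls.cons (Ent.pos F4_7_5_0) (Ls.cons (Ent.pos F4_6_5_0) (Ls.cons Ent.zero (Ls.cons (Ent.neg F4_5_4_0) (Ls.cons (Ent.neg F4_5_3_0) (Ls.cons (Ent.neg F4_5_2_0) (Ls.cons (Ent.pos F4_5_1_0) (Ls.cons Ent.zero Ls.nil)))))))))))))))))))))))))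
 Ls.nil))))))))))))))))))))

noncomputable def bxF4_6 : L2 :=
 (Ls.cons (Ls.cons Ent.zero (Ls.cons Ent.zero (Ls.cons Ent.zero (Ls.cons Ent.zero (Ls.cons Ent.zero (Ls.cons Ent.zero (Ls.cons Ent.zero (Ls.cons Ent.zero (Ls.cons Ent.zero (Ls.cons Ent.zero (Ls.cons Ent.zero (Ls.cons Ent.zero (Ls.cons Ent.zero (Ls.cons (Ent.neg F4_19_11_6) (Ls.cons (Ent.neg F4_19_10_6) (Ls.cons Ent.zero (Ls.cons Ent.zero (Ls.cons Ent.zero (Ls.cons Ent.zero (Ls.cons Ent.zero (Ls.cons Ent.zero (Ls.cons (Ent.pos F4_19_6_3) (Ls.cons (Ent.pos F4_19_6_2) (Ls.cons (Ent.neg F4_19_6_1) (Ls.cons (Ent.pos F4_19_6_0) Ls.nil)))))))))))))))))))))))))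
 (Ls.cons (Ls.cons Ent.zero (Ls.cons Ent.zero (Ls.cons Ent.zero (Ls.cons Ent.zero (Ls.cons Ent.zero (Ls.cons Ent.zero (Ls.cons Ent.zero (Ls.cons Ent.zero (Ls.cons Ent.zero (Ls.cons Ent.zero (Ls.cons Ent.zero (Ls.cons Ent.zero (Ls.cons (Ent.neg F4_18_12_6) (Ls.cons (Ent.neg F4_18_11_6) (Ls.cons (Ent.neg F4_18_10_6) (Ls.cons Ent.zero (Ls.cons Ent.zero (Ls.cons Ent.zero (Ls.cons Ent.zero (Ls.cons Ent.zero (Ls.cons (Ent.pos F4_18_6_4) (Ls.cons (Ent.pos F4_18_6_3) (Ls.cons (Ent.pos F4_18_6_2) (Ls.cons (Ent.neg F4_18_6_1) (Ls.cons (Ent.pos F4_18_6_0) Ls.nil)))))))))))))))))))))))))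
 (Ls.cons (Ls.cons Ent.zero (Ls.cons Ent.zero (Ls.cons Ent.zero (Ls.cons Ent.zero (Ls.cons Ent.zero (Ls.cons Ent.zero (Ls.cons Ent.zero (Ls.cons Ent.zero (Ls.cons Ent.zero (Ls.cons Ent.zero (Ls.cons Ent.zero (Ls.cons (Ent.neg F4_17_13_6) (Ls.cons (Ent.neg F4_17_12_6) (Ls.cons (Ent.neg F4_17_11_6) (Ls.cons Ent.zero (Ls.cons Ent.zero (Ls.cons (Ent.pos F4_17_8_6) (Ls.cons (Ent.neg F4_17_7_6) (Ls.cons Ent.zero (Ls.cons Ent.zero (Ls.cons (Ent.pos F4_17_6_4) (Ls.cons (Ent.pos F4_17_6_3) (Ls.cons (Ent.pos F4_17_6_2) (Ls.cons (Ent.neg F4_17_6_1) (Ls.cons (Ent.pos F4_17_6_0) Ls.nil)))))))))))))))))))))))))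
 (Ls.cons (Ls.cons Ent.zero (Ls.cons Ent.zero (Ls.cons Ent.zero (Ls.cons Ent.zero (Ls.cons Ent.zero (Ls.cons Ent.zero (Ls.cons Ent.zero (Ls.cons Ent.zero (Ls.cons Ent.zero (Ls.cons Ent.zero (Ls.cons (Ent.neg F4_16_14_6) (Ls.cons (Ent.neg F4_16_13_6) (Ls.cons (Ent.neg F4_16_12_6) (Ls.cons Ent.zero (Ls.cons Ent.zero (Ls.cons Ent.zero (Ls.cons Ent.zero (Ls.cons Ent.zero (Ls.cons Ent.zero (Ls.cons Ent.zero (Ls.cons (Ent.pos F4_16_6_4) (Ls.cons (Ent.pos F4_16_6_3) (Ls.cons (Ent.pos F4_16_6_2) (Ls.cons (Ent.neg F4_16_6_1) (Ls.cons (Ent.pos F4_16_6_0) Ls.nil)))))))))))))))))))))))))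
 (Ls.cons (Ls.cons Ent.zero (Ls.cons Ent.zero (Ls.cons Ent.zero (Ls.cons Ent.zero (Ls.cons Ent.zero (Ls.cons Ent.zero (Ls.cons Ent.zero (Ls.cons Ent.zero (Ls.cons Ent.zero (Ls.cons Ent.zero (Ls.cons Ent.zero (Ls.cons Ent.zero (Ls.cons Ent.zero (Ls.cons Ent.zero (Ls.cons (Ent.pos F4_15_10_6) (Ls.cons Ent.zero (Ls.cons Ent.zero (Ls.cons (Ent.neg F4_15_7_6) (Ls.cons Ent.zero (Ls.cons Ent.zero (Ls.cons Ent.zero (Ls.cons Ent.zero (Ls.cons Ent.zero (Ls.cons (Ent.pos F4_15_6_1) (Ls.cons (Ent.neg F4_15_6_0) Ls.nil)))))))))))))))))))))))))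
 (Ls.cons (Ls.cons Ent.zero (Ls.cons Ent.zero (Ls.cons Ent.zero (Ls.cons Ent.zero (Ls.cons Ent.zero (Ls.cons Ent.zero (Ls.cons Ent.zero (Ls.cons Ent.zero (Ls.cons (Ent.pos F4_16_14_6) (Ls.cons Ent.zero (Ls.cons Ent.zero (Ls.cons (Ent.neg F4_14_13_6) (Ls.cons Ent.zero (Ls.cons Ent.zero (Ls.cons Ent.zero (Ls.cons Ent.zero (Ls.cons Ent.zero (Ls.cons Ent.zero (Ls.cons Ent.zero (Ls.cons (Ent.pos F4_14_6_5) (Ls.cons Ent.zero (Ls.cons Ent.zero (Ls.cons (Ent.neg F4_14_6_2) (Ls.cons (Ent.pos F4_14_6_1) (Ls.cons (Ent.neg F4_14_6_0) Ls.nil)))))))))))))))))))))))))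
 (Ls.cons (Ls.cons Ent.zero (Ls.cons Ent.zero (Ls.cons Ent.zero (Ls.cons Ent.zero (Ls.cons Ent.zero (Ls.cons Ent.zero (Ls.cons Ent.zero (Ls.cons (Ent.pos F4_17_13_6) (Ls.cons (Ent.pos F4_16_13_6) (Ls.cons Ent.zero (Ls.cons (Ent.pos F4_14_13_6) (Ls.cons Ent.zero (Ls.cons (Ent.pos F4_13_12_6) (Ls.cons Ent.zero (Ls.cons (Ent.pos F4_13_10_6) (Ls.cons (Ent.neg F4_13_9_6) (Ls.cons Ent.zero (Ls.cons (Ent.neg F4_13_7_6) (Ls.cons Ent.zero (Ls.cons (Ent.neg F4_13_6_5) (Ls.cons Ent.zero (Ls.cons (Ent.neg F4_13_6_3) (Ls.cons (Ent.neg F4_13_6_2) (Ls.cons (Ent.pos F4_13_6_1) (Ls.cons (Ent.neg F4_13_6_0) Ls.nil)))))))))))))))))))))))))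
 (Ls.cons (Ls.cons Ent.zero (Ls.cons Ent.zero (Ls.cons Ent.zero (Ls.cons Ent.zero (Ls.cons Ent.zero (Ls.cons Ent.zero (Ls.cons (Ent.pos F4_18_12_6) (Ls.cons (Ent.pos F4_17_12_6) (Ls.cons (Ent.pos F4_16_12_6) (Ls.cons Ent.zero (Ls.cons Ent.zero (Ls.cons (Ent.neg F4_13_12_6) (Ls.cons Ent.zero (Ls.cons Ent.zero (Ls.cons Ent.zero (Ls.cons Ent.zero (Ls.cons Ent.zero (Ls.cons (Ent.pos F4_12_7_6) (Ls.cons Ent.zero (Ls.cons Ent.zero (Ls.cons (Ent.neg F4_12_6_4) (Ls.cons (Ent.neg F4_12_6_3) (Ls.cons (Ent.neg F4_12_6_2) (Ls.cons (Ent.pos F4_12_6_1) (Ls.cons (Ent.neg F4_12_6_0) Ls.nil)))))))))))))))))))))))))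
 (Ls.cons (Ls.cons Ent.zero (Ls.cons Ent.zero (Ls.cons Ent.zero (Ls.cons Ent.zero (Ls.cons Ent.zero (Ls.cons (Ent.pos F4_19_11_6) (Ls.cons (Ent.pos F4_18_11_6) (Ls.cons (Ent.pos F4_17_11_6) (Ls.cons Ent.zero (Ls.cons Ent.zero (Ls.cons Ent.zero (Ls.cons Ent.zero (Ls.cons Ent.zero (Ls.cons Ent.zero (Ls.cons Ent.zero (Ls.cons Ent.zero (Ls.cons Ent.zero (Ls.cons Ent.zero (Ls.cons Ent.zero (Ls.cons Ent.zero (Ls.cons (Ent.neg F4_11_6_4) (Ls.cons (Ent.neg F4_11_6_3) (Ls.cons (Ent.neg F4_11_6_2) (Ls.cons (Ent.pos F4_11_6_1) (Ls.cons (Ent.neg F4_11_6_0) Ls.nil)))))))))))))))))))))))))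
 (Ls.cons (Ls.cons Ent.zero (Ls.cons Ent.zero (Ls.cons Ent.zero (Ls.cons Ent.zero (Ls.cons Ent.zero (Ls.cons (Ent.pos F4_19_10_6) (Ls.cons (Ent.pos F4_18_10_6) (Ls.cons Ent.zero (Ls.cons Ent.zero (Ls.cons (Ent.neg F4_15_10_6) (Ls.cons Ent.zero (Ls.cons (Ent.neg F4_13_10_6) (Ls.cons Ent.zero (Ls.cons Ent.zero (Ls.cons Ent.zero (Ls.cons (Ent.pos F4_10_9_6) (Ls.cons Ent.zero (Ls.cons (Ent.pos F4_10_7_6) (Ls.cons Ent.zero (Ls.cons Ent.zero (Ls.cons (Ent.neg F4_10_6_4) (Ls.cons (Ent.neg F4_10_6_3) (Ls.cons (Ent.neg F4_10_6_2) (Ls.cons (Ent.pos F4_10_6_1) (Ls.cons (Ent.neg F4_10_6_0) Ls.nil)))))))))))))))))))))))))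
 (Ls.cons (Ls.cons Ent.zero (Ls.cons Ent.zero (Ls.cons Ent.zero (Ls.cons Ent.zero (Ls.cons Ent.zero (Ls.cons Ent.zero (Ls.cons Ent.zero (Ls.cons Ent.zero (Ls.cons Ent.zero (Ls.cons Ent.zero (Ls.cons Ent.zero (Ls.cons (Ent.pos F4_13_9_6) (Ls.cons Ent.zero (Ls.cons Ent.zero (Ls.cons (Ent.neg F4_10_9_6) (Ls.cons Ent.zero (Ls.cons Ent.zero (Ls.cons Ent.zero (Ls.cons Ent.zero (Ls.cons Ent.zero (Ls.cons Ent.zero (Ls.cons (Ent.neg F4_9_6_3) (Ls.cons (Ent.neg F4_9_6_2) (Ls.cons (Ent.pos F4_9_6_1) (Ls.cons (Ent.neg F4_9_6_0) Ls.nil)))))))))))))))))))))))))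
 (Ls.cons (Ls.cons Ent.zero (Ls.cons Ent.zero (Ls.cons Ent.zero (Ls.cons Ent.zero (Ls.cons Ent.zero (Ls.cons Ent.zero (Ls.cons Ent.zero (Ls.cons (Ent.neg F4_17_8_6) (Ls.cons Ent.zero (Ls.cons Ent.zero (Ls.cons Ent.zero (Ls.cons Ent.zero (Ls.cons Ent.zero (Ls.cons Ent.zero (Ls.cons Ent.zero (Ls.cons Ent.zero (Ls.cons Ent.zero (Ls.cons (Ent.pos F4_8_7_6) (Ls.cons Ent.zero (Ls.cons Ent.zero (Ls.cons Ent.zero (Ls.cons Ent.zero (Ls.cons (Ent.neg F4_8_6_2) (Ls.cons (Ent.pos F4_8_6_1) (Ls.cons (Ent.neg F4_8_6_0) Ls.nil)))))))))))))))))))))))))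
 (Ls.cons (Ls.cons Ent.zero (Ls.cons Ent.zero (Ls.cons Ent.zero (Ls.cons Ent.zero (Ls.cons Ent.zero (Ls.cons Ent.zero (Ls.cons Ent.zero (Ls.cons (Ent.pos F4_17_7_6) (Ls.cons Ent.zero (Ls.cons (Ent.pos F4_15_7_6) (Ls.cons Ent.zero (Ls.cons (Ent.pos F4_13_7_6) (Ls.cons (Ent.neg F4_12_7_6) (Ls.cons Ent.zero (Ls.cons (Ent.neg F4_10_7_6) (Ls.cons Ent.zero (Ls.cons (Ent.neg F4_8_7_6) (Ls.cons Ent.zero (Ls.cons Ent.zero (Ls.cons Ent.zero (Ls.cons Ent.zero (Ls.cons Ent.zero (Ls.cons Ent.zero (Ls.cons (Ent.pos F4_7_6_1) (Ls.cons (Ent.neg F4_7_6_0) Ls.nil)))))))))))))))))))))))))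
 (Ls.cons (Ls.cons Ent.zero (Ls.cons Ent.zero (Ls.cons Ent.zero (Ls.cons Ent.zero (Ls.cons Ent.zero (Ls.cons Ent.zero (Ls.cons Ent.zero (Ls.cons Ent.zero (Ls.cons Ent.zero (Ls.cons Ent.zero (Ls.cons Ent.zero (Ls.cons Ent.zero (Ls.cons Ent.zero (Ls.cons Ent.zero (Ls.cons Ent.zero (Ls.cons Ent.zero (Ls.cons Ent.zero (Ls.cons Ent.zero (Ls.cons Ent.zero (Ls.cons Ent.zero (Ls.cons Ent.zero (Ls.cons Ent.zero (Ls.cons Ent.zero (Ls.cons Ent.zero (Ls.cons Ent.zero Ls.nil)))))))))))))))))))))))))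
 (Ls.cons (Ls.cons Ent.zero (Ls.cons Ent.zero (Ls.cons Ent.zero (Ls.cons Ent.zero (Ls.cons Ent.zero (Ls.cons Ent.zero (Ls.cons Ent.zero (Ls.cons Ent.zero (Ls.cons Ent.zero (Ls.cons Ent.zero (Ls.cons (Ent.neg F4_14_6_5) (Ls.cons (Ent.pos F4_13_6_5) (Ls.cons Ent.zero (Ls.cons Ent.zero (Ls.cons Ent.zero (Ls.cons Ent.zero (Ls.cons Ent.zero (Ls.cons Ent.zero (Ls.cons Ent.zero (Ls.cons Ent.zero (Ls.cons (Ent.pos F4_6_5_4) (Ls.cons Ent.zero (Ls.cons (Ent.pos F4_6_5_2) (Ls.cons (Ent.neg F4_6_5_1) (Ls.cons (Ent.pos F4_6_5_0) Ls.nil)))))))))))))))))))))))))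
 (Ls.cons (Ls.cons Ent.zero (Ls.cons Ent.zero (Ls.cons Ent.zero (Ls.cons Ent.zero (Ls.cons Ent.zero (Ls.cons Ent.zero (Ls.cons (Ent.neg F4_18_6_4) (Ls.cons (Ent.neg F4_17_6_4) (Ls.cons (Ent.neg F4_16_6_4) (Ls.cons Ent.zero (Ls.cons Ent.zero (Ls.cons Ent.zero (Ls.cons (Ent.pos F4_12_6_4) (Ls.cons (Ent.pos F4_11_6_4) (Ls.cons (Ent.pos F4_10_6_4) (Ls.cons Ent.zero (Ls.cons Ent.zero (Ls.cons Ent.zero (Ls.cons Ent.zero (Ls.cons (Ent.neg F4_6_5_4) (Ls.cons Ent.zero (Ls.cons Ent.zero (Ls.cons Ent.zero (Ls.cons (Ent.pos F4_6_4_1) (Ls.cons (Ent.neg F4_6_4_0) Ls.nil)))))))))))))))))))))))))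
 (Ls.cons (Ls.cons Ent.zero (Ls.cons Ent.zero (Ls.cons Ent.zero (Ls.cons Ent.zero (Ls.cons (Ent.neg F4_20_6_3) (Ls.cons (Ent.neg F4_19_6_3) (Ls.cons (Ent.neg F4_18_6_3) (Ls.cons (Ent.neg F4_17_6_3) (Ls.cons (Ent.neg F4_16_6_3) (Ls.cons Ent.zero (Ls.cons Ent.zero (Ls.cons (Ent.pos F4_13_6_3) (Ls.cons (Ent.pos F4_12_6_3) (Ls.cons (Ent.pos F4_11_6_3) (Ls.cons (Ent.pos F4_10_6_3) (Ls.cons (Ent.pos F4_9_6_3) (Ls.cons Ent.zero (Ls.cons Ent.zero (Ls.cons Ent.zero (Ls.cons Ent.zero (Ls.cons Ent.zero (Ls.cons Ent.zero (Ls.cons (Ent.pos F4_6_3_2) (Ls.cons (Ent.neg F4_6_3_1) (Ls.cons (Ent.pos F4_6_3_0) Ls.nil)))))))))))))))))))))))))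
 (Ls.cons (Ls.cons Ent.zero (Ls.cons Ent.zero (Ls.cons Ent.zero (Ls.cons (Ent.neg F4_21_6_2) (Ls.cons (Ent.neg F4_20_6_2) (Ls.cons (Ent.neg F4_19_6_2) (Ls.cons (Ent.neg F4_18_6_2) (Ls.cons (Ent.neg F4_17_6_2) (Ls.cons (Ent.neg F4_16_6_2) (Ls.cons Ent.zero (Ls.cons (Ent.pos F4_14_6_2) (Ls.cons (Ent.pos F4_13_6_2) (Ls.cons (Ent.pos F4_12_6_2) (Ls.cons (Ent.pos F4_11_6_2) (Ls.cons (Ent.pos F4_10_6_2) (Ls.cons (Ent.pos F4_9_6_2) (Ls.cons (Ent.pos F4_8_6_2) (Ls.cons Ent.zero (Ls.cons Ent.zero (Ls.cons (Ent.neg F4_6_5_2) (Ls.cons Ent.zero (Ls.cons (Ent.neg F4_6_3_2) (Ls.cons Ent.zero (Ls.cons (Ent.pos F4_6_2_1) (Ls.cons (Ent.neg F4_6_2_0) Ls.nil)))))))))))))))))))))))))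
 (Ls.cons (Ls.cons Ent.zero (Ls.cons Ent.zero (Ls.cons Ent.zero (Ls.cons (Ent.pos F4_21_6_1) (Ls.cons (Ent.pos F4_20_6_1) (Ls.cons (Ent.pos F4_19_6_1) (Ls.cons (Ent.pos F4_18_6_1) (Ls.cons (Ent.pos F4_17_6_1) (Ls.cons (Ent.pos F4_16_6_1) (Ls.cons (Ent.neg F4_15_6_1) (Ls.cons (Ent.neg F4_14_6_1) (Ls.cons (Ent.neg F4_13_6_1) (Ls.cons (Ent.neg F4_12_6_1) (Ls.cons (Ent.neg F4_11_6_1) (Ls.cons (Ent.neg F4_10_6_1) (Ls.cons (Ent.neg F4_9_6_1) (Ls.cons (Ent.neg F4_8_6_1) (Ls.cons (Ent.neg F4_7_6_1) (Ls.cons Ent.zero (Ls.cons (Ent.pos F4_6_5_1) (Ls.cons (Ent.neg F4_6_4_1) (Ls.cons (Ent.pos F4_6_3_1) (Ls.cons (Ent.neg F4_6_2_1) (Ls.cons Ent.zero (Ls.cons (Ent.pos F4_6_1_0) Ls.nil)))))))))))))))))))))))))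
 (Ls.cons (Ls.cons Ent.zero (Ls.cons Ent.zero (Ls.cons (Ent.neg F4_22_6_0) (Ls.cons (Ent.neg F4_21_6_0) (Ls.cons (Ent.neg F4_20_6_0) (Ls.cons (Ent.neg F4_19_6_0) (Ls.cons (Ent.neg F4_18_6_0) (Ls.cons (Ent.neg F4_17_6_0) (Ls.cons (Ent.neg F4_16_6_0) (Ls.cons (Ent.pos F4_15_6_0) (Ls.cons (Ent.pos F4_14_6_0) (Ls.cons (Ent.pos F4_13_6_0) (Ls.cons (Ent.pos F4_12_6_0) (Ls.cons (Ent.pos F4_11_6_0) (Ls.cons (Ent.pos F4_10_6_0) (Ls.cons (Ent.pos F4_9_6_0) (Ls.cons (Ent.pos F4_8_6_0) (Ls.cons (Ent.pos F4_7_6_0) (Ls.cons Ent.zero (Ls.cons (Ent.neg F4_6_5_0) (Ls.cons (Ent.pos F4_6_4_0) (Ls.cons (Ent.neg F4_6_3_0) (Ls.cons (Ent.pos F4_6_2_0) (Ls.cons (Ent.neg F4_6_1_0) (Ls.cons Ent.zero Ls.nil)))))))))))))))))))))))))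
 Ls.nil))))))))))))))))))))

noncomputable def bxF4_7 : L2 :=
 (Ls.cons (Ls.cons Ent.zero (Ls.cons Ent.zero (Ls.cons Ent.zero (Ls.cons Ent.zero (Ls.cons Ent.zero (Ls.cons Ent.zero (Ls.cons Ent.zero (Ls.cons Ent.zero (Ls.cons Ent.zero (Ls.cons Ent.zero (Ls.cons Ent.zero (Ls.cons Ent.zero (Ls.cons Ent.zero (Ls.cons Ent.zero (Ls.cons (Ent.neg F4_19_10_7) (Ls.cons (Ent.neg F4_19_9_7) (Ls.cons (Ent.neg F4_19_8_7) (Ls.cons Ent.zero (Ls.cons Ent.zero (Ls.cons Ent.zero (Ls.cons (Ent.pos F4_19_7_4) (Ls.cons (Ent.pos F4_19_7_3) (Ls.cons (Ent.pos F4_19_7_2) (Ls.cons (Ent.neg F4_19_7_1) (Ls.cons (Ent.pos F4_19_7_0) Ls.nil)))))))))))))))))))))))))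
 (Ls.cons (Ls.cons Ent.zero (Ls.cons Ent.zero (Ls.cons Ent.zero (Ls.cons Ent.zero (Ls.cons Ent.zero (Ls.cons Ent.zero (Ls.cons Ent.zero (Ls.cons Ent.zero (Ls.cons Ent.zero (Ls.cons Ent.zero (Ls.cons Ent.zero (Ls.cons Ent.zero (Ls.cons Ent.zero (Ls.cons (Ent.neg F4_18_11_7) (Ls.cons (Ent.neg F4_18_10_7) (Ls.cons (Ent.neg F4_18_9_7) (Ls.cons Ent.zero (Ls.cons Ent.zero (Ls.cons Ent.zero (Ls.cons Ent.zero (Ls.cons (Ent.pos F4_18_7_4) (Ls.cons (Ent.pos F4_18_7_3) (Ls.cons (Ent.pos F4_18_7_2) (Ls.cons (Ent.neg F4_18_7_1) (Ls.cons (Ent.pos F4_18_7_0) Ls.nil)))))))))))))))))))))))))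
 (Ls.cons (Ls.cons Ent.zero (Ls.cons Ent.zero (Ls.cons Ent.zero (Ls.cons Ent.zero (Ls.cons Ent.zero (Ls.cons Ent.zero (Ls.cons Ent.zero (Ls.cons Ent.zero (Ls.cons Ent.zero (Ls.cons Ent.zero (Ls.cons Ent.zero (Ls.cons Ent.zero (Ls.cons (Ent.neg F4_17_12_7) (Ls.cons (Ent.neg F4_17_11_7) (Ls.cons (Ent.neg F4_17_10_7) (Ls.cons Ent.zero (Ls.cons (Ent.neg F4_17_8_7) (Ls.cons Ent.zero (Ls.cons (Ent.pos F4_17_7_6) (Ls.cons Ent.zero (Ls.cons (Ent.pos F4_17_7_4) (Ls.cons (Ent.pos F4_17_7_3) (Ls.cons (Ent.pos F4_17_7_2) (Ls.cons (Ent.neg F4_17_7_1) (Ls.cons (Ent.pos F4_17_7_0) Ls.nil)))))))))))))))))))))))))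
 (Ls.cons (Ls.cons Ent.zero (Ls.cons Ent.zero (Ls.cons Ent.zero (Ls.cons Ent.zero (Ls.cons Ent.zero (Ls.cons Ent.zero (Ls.cons Ent.zero (Ls.cons Ent.zero (Ls.cons Ent.zero (Ls.cons Ent.zero (Ls.cons Ent.zero (Ls.cons (Ent.neg F4_16_13_7) (Ls.cons (Ent.neg F4_16_12_7) (Ls.cons (Ent.neg F4_16_11_7) (Ls.cons (Ent.neg F4_16_10_7) (Ls.cons Ent.zero (Ls.cons Ent.zero (Ls.cons Ent.zero (Ls.cons Ent.zero (Ls.cons (Ent.pos F4_16_7_5) (Ls.cons (Ent.pos F4_16_7_4) (Ls.cons (Ent.pos F4_16_7_3) (Ls.cons (Ent.pos F4_16_7_2) (Ls.cons (Ent.neg F4_16_7_1) (Ls.cons (Ent.pos F4_16_7_0) Ls.nil)))))))))))))))))))))))))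
 (Ls.cons (Ls.cons Ent.zero (Ls.cons Ent.zero (Ls.cons Ent.zero (Ls.cons Ent.zero (Ls.cons Ent.zero (Ls.cons Ent.zero (Ls.cons Ent.zero (Ls.cons Ent.zero (Ls.cons Ent.zero (Ls.cons Ent.zero (Ls.cons (Ent.neg F4_15_14_7) (Ls.cons (Ent.neg F4_15_13_7) (Ls.cons (Ent.neg F4_15_12_7) (Ls.cons (Ent.neg F4_15_11_7) (Ls.cons (Ent.neg F4_15_10_7) (Ls.cons Ent.zero (Ls.cons Ent.zero (Ls.cons Ent.zero (Ls.cons (Ent.pos F4_15_7_6) (Ls.cons (Ent.pos F4_15_7_5) (Ls.cons (Ent.pos F4_15_7_4) (Ls.cons (Ent.pos F4_15_7_3) (Ls.cons (Ent.pos F4_15_7_2) (Ls.cons (Ent.neg F4_15_7_1) (Ls.cons (Ent.pos F4_15_7_0) Ls.nil)))))))))))))))))))))))))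
 (Ls.cons (Ls.cons Ent.zero (Ls.cons Ent.zero (Ls.cons Ent.zero (Ls.cons Ent.zero (Ls.cons Ent.zero (Ls.cons Ent.zero (Ls.cons Ent.zero (Ls.cons Ent.zero (Ls.cons Ent.zero (Ls.cons (Ent.pos F4_15_14_7) (Ls.cons Ent.zero (Ls.cons Ent.zero (Ls.cons Ent.zero (Ls.cons Ent.zero (Ls.cons Ent.zero (Ls.cons Ent.zero (Ls.cons Ent.zero (Ls.cons Ent.zero (Ls.cons Ent.zero (Ls.cons Ent.zero (Ls.cons Ent.zero (Ls.cons Ent.zero (Ls.cons (Ent.neg F4_14_7_2) (Ls.cons (Ent.pos F4_14_7_1) (Ls.cons (Ent.neg F4_14_7_0) Ls.nil)))))))))))))))))))))))))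
 (Ls.cons (Ls.cons Ent.zero (Ls.cons Ent.zero (Ls.cons Ent.zero (Ls.cons Ent.zero (Ls.cons Ent.zero (Ls.cons Ent.zero (Ls.cons Ent.zero (Ls.cons Ent.zero (Ls.cons (Ent.pos F4_16_13_7) (Ls.cons (Ent.pos F4_15_13_7) (Ls.cons Ent.zero (Ls.cons Ent.zero (Ls.cons (Ent.neg F4_13_12_7) (Ls.cons Ent.zero (Ls.cons Ent.zero (Ls.cons Ent.zero (Ls.cons Ent.zero (Ls.cons Ent.zero (Ls.cons (Ent.pos F4_13_7_6) (Ls.cons Ent.zero (Ls.cons Ent.zero (Ls.cons (Ent.neg F4_13_7_3) (Ls.cons (Ent.neg F4_13_7_2) (Ls.cons (Ent.pos F4_13_7_1) (Ls.cons (Ent.neg F4_13_7_0) Ls.nil)))))))))))))))))))))))))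
 (Ls.cons (Ls.cons Ent.zero (Ls.cons Ent.zero (Ls.cons Ent.zero (Ls.cons Ent.zero (Ls.cons Ent.zero (Ls.cons Ent.zero (Ls.cons Ent.zero (Ls.cons (Ent.pos F4_17_12_7) (Ls.cons (Ent.pos F4_16_12_7) (Ls.cons (Ent.pos F4_15_12_7) (Ls.cons Ent.zero (Ls.cons (Ent.pos F4_13_12_7) (Ls.cons Ent.zero (Ls.cons Ent.zero (Ls.cons Ent.zero (Ls.cons Ent.zero (Ls.cons Ent.zero (Ls.cons Ent.zero (Ls.cons (Ent.neg F4_12_7_6) (Ls.cons Ent.zero (Ls.cons (Ent.neg F4_12_7_4) (Ls.cons (Ent.neg F4_12_7_3) (Ls.cons (Ent.neg F4_12_7_2) (Ls.cons (Ent.pos F4_12_7_1) (Ls.cons (Ent.neg F4_12_7_0) Ls.nil)))))))))))))))))))))))))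
 (Ls.cons (Ls.cons Ent.zero (Ls.cons Ent.zero (Ls.cons Ent.zero (Ls.cons Ent.zero (Ls.cons Ent.zero (Ls.cons Ent.zero (Ls.cons (Ent.pos F4_18_11_7) (Ls.cons (Ent.pos F4_17_11_7) (Ls.cons (Ent.pos F4_16_11_7) (Ls.cons (Ent.pos F4_15_11_7) (Ls.cons Ent.zero (Ls.cons Ent.zero (Ls.cons Ent.zero (Ls.cons Ent.zero (Ls.cons Ent.zero (Ls.cons Ent.zero (Ls.cons Ent.zero (Ls.cons Ent.zero (Ls.cons Ent.zero (Ls.cons (Ent.neg F4_11_7_5) (Ls.cons (Ent.neg F4_11_7_4) (Ls.cons (Ent.neg F4_11_7_3) (Ls.cons (Ent.neg F4_11_7_2) (Ls.cons (Ent.pos F4_11_7_1) (Ls.cons (Ent.neg F4_11_7_0) Ls.nil)))))))))))))))))))))))))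
 (Ls.cons (Ls.cons Ent.zero (Ls.cons Ent.zero (Ls.cons Ent.zero (Ls.cons Ent.zero (Ls.cons Ent.zero (Ls.cons (Ent.pos F4_19_10_7) (Ls.cons (Ent.pos F4_18_10_7) (Ls.cons (Ent.pos F4_17_10_7) (Ls.cons (Ent.pos F4_16_10_7) (Ls.cons (Ent.pos F4_15_10_7) (Ls.cons Ent.zero (Ls.cons Ent.zero (Ls.cons Ent.zero (Ls.cons Ent.zero (Ls.cons Ent.zero (Ls.cons Ent.zero (Ls.cons Ent.zero (Ls.cons Ent.zero (Ls.cons (Ent.neg F4_10_7_6) (Ls.cons (Ent.neg F4_10_7_5) (Ls.cons (Ent.neg F4_10_7_4) (Ls.cons (Ent.neg F4_10_7_3) (Ls.cons (Ent.neg F4_10_7_2) (Ls.cons (Ent.pos F4_10_7_1) (Ls.cons (Ent.neg F4_10_7_0) Ls.nil)))))))))))))))))))))))))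
 (Ls.cons (Ls.cons Ent.zero (Ls.cons Ent.zero (Ls.cons Ent.zero (Ls.cons Ent.zero (Ls.cons Ent.zero (Ls.cons (Ent.pos F4_19_9_7) (Ls.cons (Ent.pos F4_18_9_7) (Ls.cons Ent.zero (Ls.cons Ent.zero (Ls.cons Ent.zero (Ls.cons Ent.zero (Ls.cons Ent.zero (Ls.cons Ent.zero (Ls.cons Ent.zero (Ls.cons Ent.zero (Ls.cons Ent.zero (Ls.cons Ent.zero (Ls.cons Ent.zero (Ls.cons Ent.zero (Ls.cons Ent.zero (Ls.cons (Ent.neg F4_9_7_4) (Ls.cons (Ent.neg F4_9_7_3) (Ls.cons (Ent.neg F4_9_7_2) (Ls.cons (Ent.pos F4_9_7_1) (Ls.cons (Ent.neg F4_9_7_0) Ls.nil)))))))))))))))))))))))))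
 (Ls.cons (Ls.cons Ent.zero (Ls.cons Ent.zero (Ls.cons Ent.zero (Ls.cons Ent.zero (Ls.cons Ent.zero (Ls.cons (Ent.pos F4_19_8_7) (Ls.cons Ent.zero (Ls.cons (Ent.pos F4_17_8_7) (Ls.cons Ent.zero (Ls.cons Ent.zero (Ls.cons Ent.zero (Ls.cons Ent.zero (Ls.cons Ent.zero (Ls.cons Ent.zero (Ls.cons Ent.zero (Ls.cons Ent.zero (Ls.cons Ent.zero (Ls.cons Ent.zero (Ls.cons (Ent.neg F4_8_7_6) (Ls.cons Ent.zero (Ls.cons (Ent.neg F4_8_7_4) (Ls.cons (Ent.neg F4_8_7_3) (Ls.cons (Ent.neg F4_8_7_2) (Ls.cons (Ent.pos F4_8_7_1) (Ls.cons (Ent.neg F4_8_7_0) Ls.nil)))))))))))))))))))))))))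
 (Ls.cons (Ls.cons Ent.zero (Ls.cons Ent.zero (Ls.cons Ent.zero (Ls.cons Ent.zero (Ls.cons Ent.zero (Ls.cons Ent.zero (Ls.cons Ent.zero (Ls.cons Ent.zero (Ls.cons Ent.zero (Ls.cons Ent.zero (Ls.cons Ent.zero (Ls.cons Ent.zero (Ls.cons Ent.zero (Ls.cons Ent.zero (Ls.cons Ent.zero (Ls.cons Ent.zero (Ls.cons Ent.zero (Ls.cons Ent.zero (Ls.cons Ent.zero (Ls.cons Ent.zero (Ls.cons Ent.zero (Ls.cons Ent.zero (Ls.cons Ent.zero (Ls.cons Ent.zero (Ls.cons Ent.zero Ls.nil)))))))))))))))))))))))))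
 (Ls.cons (Ls.cons Ent.zero (Ls.cons Ent.zero (Ls.cons Ent.zero (Ls.cons Ent.zero (Ls.cons Ent.zero (Ls.cons Ent.zero (Ls.cons Ent.zero (Ls.cons (Ent.neg F4_17_7_6) (Ls.cons Ent.zero (Ls.cons (Ent.neg F4_15_7_6) (Ls.cons Ent.zero (Ls.cons (Ent.neg F4_13_7_6) (Ls.cons (Ent.pos F4_12_7_6) (Ls.cons Ent.zero (Ls.cons (Ent.pos F4_10_7_6) (Ls.cons Ent.zero (Ls.cons (Ent.pos F4_8_7_6) (Ls.cons Ent.zero (Ls.cons Ent.zero (Ls.cons Ent.zero (Ls.cons Ent.zero (Ls.cons Ent.zero (Ls.cons Ent.zero (Ls.cons (Ent.neg F4_7_6_1) (Ls.cons (Ent.pos F4_7_6_0) Ls.nil)))))))))))))))))))))))))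
 (Ls.cons (Ls.cons Ent.zero (Ls.cons Ent.zero (Ls.cons Ent.zero (Ls.cons Ent.zero (Ls.cons Ent.zero (Ls.cons Ent.zero (Ls.cons Ent.zero (Ls.cons Ent.zero (Ls.cons (Ent.neg F4_16_7_5) (Ls.cons (Ent.neg F4_15_7_5) (Ls.cons Ent.zero (Ls.cons Ent.zero (Ls.cons Ent.zero (Ls.cons (Ent.pos F4_11_7_5) (Ls.cons (Ent.pos F4_10_7_5) (Ls.cons Ent.zero (Ls.cons Ent.zero (Ls.cons Ent.zero (Ls.cons Ent.zero (Ls.cons Ent.zero (Ls.cons Ent.zero (Ls.cons Ent.zero (Ls.cons (Ent.pos F4_7_5_2) (Ls.cons (Ent.neg F4_7_5_1) (Ls.cons (Ent.pos F4_7_5_0) Ls.nil)))))))))))))))))))))))))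
 (Ls.cons (Ls.cons Ent.zero (Ls.cons Ent.zero (Ls.cons Ent.zero (Ls.cons Ent.zero (Ls.cons Ent.zero (Ls.cons (Ent.neg F4_19_7_4) (Ls.cons (Ent.neg F4_18_7_4) (Ls.cons (Ent.neg F4_17_7_4) (Ls.cons (Ent.neg F4_16_7_4) (Ls.cons (Ent.neg F4_15_7_4) (Ls.cons Ent.zero (Ls.cons Ent.zero (Ls.cons (Ent.pos F4_12_7_4) (Ls.cons (Ent.pos F4_11_7_4) (Ls.cons (Ent.pos F4_10_7_4) (Ls.cons (Ent.pos F4_9_7_4) (Ls.cons (Ent.pos F4_8_7_4) (Ls.cons Ent.zero (Ls.cons Ent.zero (Ls.cons Ent.zero (Ls.cons Ent.zero (Ls.cons Ent.zero (Ls.cons Ent.zero (Ls.cons (Ent.neg F4_7_4_1) (Ls.cons (Ent.pos F4_7_4_0) Ls.nil)))))))))))))))))))))))))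
 (Ls.cons (Ls.cons Ent.zero (Ls.cons Ent.zero (Ls.cons Ent.zero (Ls.cons Ent.zero (Ls.cons (Ent.neg F4_20_7_3) (Ls.cons (Ent.neg F4_19_7_3) (Ls.cons (Ent.neg F4_18_7_3) (Ls.cons (Ent.neg F4_17_7_3) (Ls.cons (Ent.neg F4_16_7_3) (Ls.cons (Ent.neg F4_15_7_3) (Ls.cons Ent.zero (Ls.cons (Ent.pos F4_13_7_3) (Ls.cons (Ent.pos F4_12_7_3) (Ls.cons (Ent.pos F4_11_7_3) (Ls.cons (Ent.pos F4_10_7_3) (Ls.cons (Ent.pos F4_9_7_3) (Ls.cons (Ent.pos F4_8_7_3) (Ls.cons Ent.zero (Ls.cons Ent.zero (Ls.cons Ent.zero (Ls.cons Ent.zero (Ls.cons Ent.zero (Ls.cons (Ent.pos F4_7_3_2) (Ls.cons (Ent.neg F4_7_3_1) (Ls.cons (Ent.pos F4_7_3_0) Ls.nil)))))))))))))))))))))))))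
 (Ls.cons (Ls.cons Ent.zero (Ls.cons Ent.zero (Ls.cons Ent.zero (Ls.cons (Ent.neg F4_21_7_2) (Ls.cons (Ent.neg F4_20_7_2) (Ls.cons (Ent.neg F4_19_7_2) (Ls.cons (Ent.neg F4_18_7_2) (Ls.cons (Ent.neg F4_17_7_2) (Ls.cons (Ent.neg F4_16_7_2) (Ls.cons (Ent.neg F4_15_7_2) (Ls.cons (Ent.pos F4_14_7_2) (Ls.cons (Ent.pos F4_13_7_2) (Ls.cons (Ent.pos F4_12_7_2) (Ls.cons (Ent.pos F4_11_7_2) (Ls.cons (Ent.pos F4_10_7_2) (Ls.cons (Ent.pos F4_9_7_2) (Ls.cons (Ent.pos F4_8_7_2) (Ls.cons Ent.zero (Ls.cons Ent.zero (Ls.cons (Ent.neg F4_7_5_2) (Ls.cons Ent.zero (Ls.cons (Ent.neg F4_7_3_2) (Ls.cons Ent.zero (Ls.cons (Ent.pos F4_7_2_1) (Ls.cons (Ent.neg F4_7_2_0) Ls.nil)))))))))))))))))))))))))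
 (Ls.cons (Ls.cons Ent.zero (Ls.cons Ent.zero (Ls.cons Ent.zero (Ls.cons (Ent.pos F4_21_7_1) (Ls.cons (Ent.pos F4_20_7_1) (Ls.cons (Ent.pos F4_19_7_1) (Ls.cons (Ent.pos F4_18_7_1) (Ls.cons (Ent.pos F4_17_7_1) (Ls.cons (Ent.pos F4_16_7_1) (Ls.cons (Ent.pos F4_15_7_1) (Ls.cons (Ent.neg F4_14_7_1) (Ls.cons (Ent.neg F4_13_7_1) (Ls.cons (Ent.neg F4_12_7_1) (Ls.cons (Ent.neg F4_11_7_1) (Ls.cons (Ent.neg F4_10_7_1) (Ls.cons (Ent.neg F4_9_7_1) (Ls.cons (Ent.neg F4_8_7_1) (Ls.cons Ent.zero (Ls.cons (Ent.pos F4_7_6_1) (Ls.cons (Ent.pos F4_7_5_1) (Ls.cons (Ent.pos F4_7_4_1) (Ls.cons (Ent.pos F4_7_3_1) (Ls.cons (Ent.neg F4_7_2_1) (Ls.cons Ent.zero (Ls.cons (Ent.pos F4_7_1_0) Ls.nil)))))))))))))))))))))))))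
 (Ls.cons (Ls.cons Ent.zero (Ls.cons Ent.zero (Ls.cons Ent.zero (Ls.cons (Ent.neg F4_21_7_0) (Ls.cons (Ent.neg F4_20_7_0) (Ls.cons (Ent.neg F4_19_7_0) (Ls.cons (Ent.neg F4_18_7_0) (Ls.cons (Ent.neg F4_17_7_0) (Ls.cons (Ent.neg F4_16_7_0) (Ls.cons (Ent.neg F4_15_7_0) (Ls.cons (Ent.pos F4_14_7_0) (Ls.cons (Ent.pos F4_13_7_0) (Ls.cons (Ent.pos F4_12_7_0) (Ls.cons (Ent.pos F4_11_7_0) (Ls.cons (Ent.pos F4_10_7_0) (Ls.cons (Ent.pos F4_9_7_0) (Ls.cons (Ent.pos F4_8_7_0) (Ls.cons Ent.zero (Ls.cons (Ent.neg F4_7_6_0) (Ls.cons (Ent.neg F4_7_5_0) (Ls.cons (Ent.neg F4_7_4_0) (Ls.cons (Ent.neg F4_7_3_0) (Ls.cons (Ent.pos F4_7_2_0) (Ls.cons (Ent.neg F4_7_1_0) (Ls.cons Ent.zero Ls.nil)))))))))))))))))))))))))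
 Ls.nil))))))))))))))))))))

noncomputable def bxF4_8 : L2 :=
 (Ls.cons (Ls.cons Ent.zero (Ls.cons Ent.zero (Ls.cons Ent.zero (Ls.cons Ent.zero (Ls.cons Ent.zero (Ls.cons Ent.zero (Ls.cons Ent.zero (Ls.cons Ent.zero (Ls.cons Ent.zero (Ls.cons Ent.zero (Ls.cons Ent.zero (Ls.cons Ent.zero (Ls.cons Ent.zero (Ls.cons Ent.zero (Ls.cons Ent.zero (Ls.cons Ent.zero (Ls.cons Ent.zero (Ls.cons (Ent.pos F4_19_8_7) (Ls.cons Ent.zero (Ls.cons Ent.zero (Ls.cons (Ent.neg F4_19_8_4) (Ls.cons Ent.zero (Ls.cons Ent.zero (Ls.cons (Ent.pos F4_19_8_1) (Ls.cons (Ent.neg F4_19_8_0) Ls.nil)))))))))))))))))))))))))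
 (Ls.cons (Ls.cons Ent.zero (Ls.cons Ent.zero (Ls.cons Ent.zero (Ls.cons Ent.zero (Ls.cons Ent.zero (Ls.cons Ent.zero (Ls.cons Ent.zero (Ls.cons Ent.zero (Ls.cons Ent.zero (Ls.cons Ent.zero (Ls.cons Ent.zero (Ls.cons Ent.zero (Ls.cons Ent.zero (Ls.cons Ent.zero (Ls.cons (Ent.neg F4_18_10_8) (Ls.cons Ent.zero (Ls.cons Ent.zero (Ls.cons Ent.zero (Ls.cons Ent.zero (Ls.cons Ent.zero (Ls.cons Ent.zero (Ls.cons Ent.zero (Ls.cons (Ent.pos F4_18_8_2) (Ls.cons (Ent.neg F4_18_8_1) (Ls.cons (Ent.pos F4_18_8_0) Ls.nil)))))))))))))))))))))))))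
 (Ls.cons (Ls.cons Ent.zero (Ls.cons Ent.zero (Ls.cons Ent.zero (Ls.cons Ent.zero (Ls.cons Ent.zero (Ls.cons Ent.zero (Ls.cons Ent.zero (Ls.cons Ent.zero (Ls.cons Ent.zero (Ls.cons Ent.zero (Ls.cons Ent.zero (Ls.cons Ent.zero (Ls.cons Ent.zero (Ls.cons (Ent.neg F4_17_11_8) (Ls.cons (Ent.neg F4_17_10_8) (Ls.cons Ent.zero (Ls.cons Ent.zero (Ls.cons (Ent.pos F4_17_8_7) (Ls.cons (Ent.neg F4_17_8_6) (Ls.cons Ent.zero (Ls.cons Ent.zero (Ls.cons (Ent.pos F4_17_8_3) (Ls.cons (Ent.pos F4_17_8_2) (Ls.cons (Ent.neg F4_17_8_1) (Ls.cons (Ent.pos F4_17_8_0) Ls.nil)))))))))))))))))))))))))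
 (Ls.cons (Ls.cons Ent.zero (Ls.cons Ent.zero (Ls.cons Ent.zero (Ls.cons Ent.zero (Ls.cons Ent.zero (Ls.cons Ent.zero (Ls.cons Ent.zero (Ls.cons Ent.zero (Ls.cons Ent.zero (Ls.cons Ent.zero (Ls.cons Ent.zero (Ls.cons Ent.zero (Ls.cons (Ent.neg F4_16_12_8) (Ls.cons (Ent.neg F4_16_11_8) (Ls.cons (Ent.neg F4_16_10_8) (Ls.cons Ent.zero (Ls.cons Ent.zero (Ls.cons Ent.zero (Ls.cons Ent.zero (Ls.cons Ent.zero (Ls.cons (Ent.pos F4_16_8_4) (Ls.cons (Ent.pos F4_16_8_3) (Ls.cons (Ent.pos F4_16_8_2) (Ls.cons (Ent.neg F4_16_8_1) (Ls.cons (Ent.pos F4_16_8_0) Ls.nil)))))))))))))))))))))))))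
 (Ls.cons (Ls.cons Ent.zero (Ls.cons Ent.zero (Ls.cons Ent.zero (Ls.cons Ent.zero (Ls.cons Ent.zero (Ls.cons Ent.zero (Ls.cons Ent.zero (Ls.cons Ent.zero (Ls.cons Ent.zero (Ls.cons Ent.zero (Ls.cons Ent.zero (Ls.cons (Ent.neg F4_15_13_8) (Ls.cons (Ent.neg F4_15_12_8) (Ls.cons Ent.zero (Ls.cons Ent.zero (Ls.cons Ent.zero (Ls.cons Ent.zero (Ls.cons Ent.zero (Ls.cons Ent.zero (Ls.cons Ent.zero (Ls.cons Ent.zero (Ls.cons (Ent.pos F4_15_8_3) (Ls.cons (Ent.pos F4_15_8_2) (Ls.cons (Ent.neg F4_15_8_1) (Ls.cons (Ent.pos F4_15_8_0) Ls.nil)))))))))))))))))))))))))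
 (Ls.cons (Ls.cons Ent.zero (Ls.cons Ent.zero (Ls.cons Ent.zero (Ls.cons Ent.zero (Ls.cons Ent.zero (Ls.cons Ent.zero (Ls.cons Ent.zero (Ls.cons Ent.zero (Ls.cons Ent.zero (Ls.cons Ent.zero (Ls.cons Ent.zero (Ls.cons Ent.zero (Ls.cons (Ent.neg F4_14_12_8) (Ls.cons (Ent.neg F4_14_11_8) (Ls.cons Ent.zero (Ls.cons Ent.zero (Ls.cons Ent.zero (Ls.cons Ent.zero (Ls.cons Ent.zero (Ls.cons (Ent.pos F4_14_8_5) (Ls.cons (Ent.pos F4_14_8_4) (Ls.cons Ent.zero (Ls.cons Ent.zero (Ls.cons (Ent.neg F4_14_8_1) (Ls.cons (Ent.pos F4_14_8_0) Ls.nil)))))))))))))))))))))))))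
 (Ls.cons (Ls.cons Ent.zero (Ls.cons Ent.zero (Ls.cons Ent.zero (Ls.cons Ent.zero (Ls.cons Ent.zero (Ls.cons Ent.zero (Ls.cons Ent.zero (Ls.cons Ent.zero (Ls.cons Ent.zero (Ls.cons (Ent.pos F4_15_13_8) (Ls.cons Ent.zero (Ls.cons Ent.zero (Ls.cons Ent.zero (Ls.cons Ent.zero (Ls.cons Ent.zero (Ls.cons Ent.zero (Ls.cons Ent.zero (Ls.cons Ent.zero (Ls.cons Ent.zero (Ls.cons Ent.zero (Ls.cons Ent.zero (Ls.cons Ent.zero (Ls.cons (Ent.neg F4_13_8_2) (Ls.cons (Ent.pos F4_13_8_1) (Ls.cons (Ent.neg F4_13_8_0) Ls.nil)))))))))))))))))))))))))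
 (Ls.cons (Ls.cons Ent.zero (Ls.cons Ent.zero (Ls.cons Ent.zero (Ls.cons Ent.zero (Ls.cons Ent.zero (Ls.cons Ent.zero (Ls.cons Ent.zero (Ls.cons Ent.zero (Ls.cons (Ent.pos F4_16_12_8) (Ls.cons (Ent.pos F4_15_12_8) (Ls.cons (Ent.pos F4_14_12_8) (Ls.cons Ent.zero (Ls.cons Ent.zero (Ls.cons Ent.zero (Ls.cons Ent.zero (Ls.cons Ent.zero (Ls.cons Ent.zero (Ls.cons Ent.zero (Ls.cons Ent.zero (Ls.cons Ent.zero (Ls.cons (Ent.neg F4_12_8_4) (Ls.cons (Ent.neg F4_12_8_3) (Ls.cons (Ent.neg F4_12_8_2) (Ls.cons (Ent.pos F4_12_8_1) (Ls.cons (Ent.neg F4_12_8_0) Ls.nil)))))))))))))))))))))))))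
 (Ls.cons (Ls.cons Ent.zero (Ls.cons Ent.zero (Ls.cons Ent.zero (Ls.cons Ent.zero (Ls.cons Ent.zero (Ls.cons Ent.zero (Ls.cons Ent.zero (Ls.cons (Ent.pos F4_17_11_8) (Ls.cons (Ent.pos F4_16_11_8) (Ls.cons Ent.zero (Ls.cons (Ent.pos F4_14_11_8) (Ls.cons Ent.zero (Ls.cons Ent.zero (Ls.cons Ent.zero (Ls.cons (Ent.pos F4_11_10_8) (Ls.cons (Ent.neg F4_11_9_8) (Ls.cons Ent.zero (Ls.cons Ent.zero (Ls.cons Ent.zero (Ls.cons (Ent.neg F4_11_8_5) (Ls.cons Ent.zero (Ls.cons (Ent.neg F4_11_8_3) (Ls.cons (Ent.neg F4_11_8_2) (Ls.cons (Ent.pos F4_11_8_1) (Ls.cons (Ent.neg F4_11_8_0) Ls.nil)))))))))))))))))))))))))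
 (Ls.cons (Ls.cons Ent.zero (Ls.cons Ent.zero (Ls.cons Ent.zero (Ls.cons Ent.zero (Ls.cons Ent.zero (Ls.cons Ent.zero (Ls.cons (Ent.pos F4_18_10_8) (Ls.cons (Ent.pos F4_17_10_8) (Ls.cons (Ent.pos F4_16_10_8) (Ls.cons Ent.zero (Ls.cons Ent.zero (Ls.cons Ent.zero (Ls.cons Ent.zero (Ls.cons (Ent.neg F4_11_10_8) (Ls.cons Ent.zero (Ls.cons (Ent.pos F4_10_9_8) (Ls.cons Ent.zero (Ls.cons Ent.zero (Ls.cons Ent.zero (Ls.cons Ent.zero (Ls.cons (Ent.neg F4_10_8_4) (Ls.cons (Ent.neg F4_10_8_3) (Ls.cons (Ent.neg F4_10_8_2) (Ls.cons (Ent.pos F4_10_8_1) (Ls.cons (Ent.neg F4_10_8_0) Ls.nil)))))))))))))))))))))))))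
 (Ls.cons (Ls.cons Ent.zero (Ls.cons Ent.zero (Ls.cons Ent.zero (Ls.cons Ent.zero (Ls.cons Ent.zero (Ls.cons Ent.zero (Ls.cons Ent.zero (Ls.cons Ent.zero (Ls.cons Ent.zero (Ls.cons Ent.zero (Ls.cons Ent.zero (Ls.cons Ent.zero (Ls.cons Ent.zero (Ls.cons (Ent.pos F4_11_9_8) (Ls.cons (Ent.neg F4_10_9_8) (Ls.cons Ent.zero (Ls.cons Ent.zero (Ls.cons Ent.zero (Ls.cons Ent.zero (Ls.cons Ent.zero (Ls.cons Ent.zero (Ls.cons Ent.zero (Ls.cons Ent.zero (Ls.cons (Ent.pos F4_9_8_1) (Ls.cons (Ent.neg F4_9_8_0) Ls.nil)))))))))))))))))))))))))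
 (Ls.cons (Ls.cons Ent.zero (Ls.cons Ent.zero (Ls.cons Ent.zero (Ls.cons Ent.zero (Ls.cons Ent.zero (Ls.cons Ent.zero (Ls.cons Ent.zero (Ls.cons Ent.zero (Ls.cons Ent.zero (Ls.cons Ent.zero (Ls.cons Ent.zero (Ls.cons Ent.zero (Ls.cons Ent.zero (Ls.cons Ent.zero (Ls.cons Ent.zero (Ls.cons Ent.zero (Ls.cons Ent.zero (Ls.cons Ent.zero (Ls.cons Ent.zero (Ls.cons Ent.zero (Ls.cons Ent.zero (Ls.cons Ent.zero (Ls.cons Ent.zero (Ls.cons Ent.zero (Ls.cons Ent.zero Ls.nil)))))))))))))))))))))))))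
 (Ls.cons (Ls.cons Ent.zero (Ls.cons Ent.zero (Ls.cons Ent.zero (Ls.cons Ent.zero (Ls.cons Ent.zero (Ls.cons (Ent.neg F4_19_8_7) (Ls.cons Ent.zero (Ls.cons (Ent.neg F4_17_8_7) (Ls.cons Ent.zero (Ls.cons Ent.zero (Ls.cons Ent.zero (Ls.cons Ent.zero (Ls.cons Ent.zero (Ls.cons Ent.zero (Ls.cons Ent.zero (Ls.cons Ent.zero (Ls.cons Ent.zero (Ls.cons Ent.zero (Ls.cons (Ent.pos F4_8_7_6) (Ls.cons Ent.zero (Ls.cons (Ent.pos F4_8_7_4) (Ls.cons (Ent.pos F4_8_7_3) (Ls.cons (Ent.pos F4_8_7_2) (Ls.cons (Ent.neg F4_8_7_1) (Ls.cons (Ent.pos F4_8_7_0) Ls.nil)))))))))))))))))))))))))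
 (Ls.cons (Ls.cons Ent.zero (Ls.cons Ent.zero (Ls.cons Ent.zero (Ls.cons Ent.zero (Ls.cons Ent.zero (Ls.cons Ent.zero (Ls.cons Ent.zero (Ls.cons (Ent.pos F4_17_8_6) (Ls.cons Ent.zero (Ls.cons Ent.zero (Ls.cons Ent.zero (Ls.cons Ent.zero (Ls.cons Ent.zero (Ls.cons Ent.zero (Ls.cons Ent.zero (Ls.cons Ent.zero (Ls.cons Ent.zero (Ls.cons (Ent.neg F4_8_7_6) (Ls.cons Ent.zero (Ls.cons Ent.zero (Ls.cons Ent.zero (Ls.cons Ent.zero (Ls.cons (Ent.pos F4_8_6_2) (Ls.cons (Ent.neg F4_8_6_1) (Ls.cons (Ent.pos F4_8_6_0) Ls.nil)))))))))))))))))))))))))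
 (Ls.cons (Ls.cons Ent.zero (Ls.cons Ent.zero (Ls.cons Ent.zero (Ls.cons Ent.zero (Ls.cons Ent.zero (Ls.cons Ent.zero (Ls.cons Ent.zero (Ls.cons Ent.zero (Ls.cons Ent.zero (Ls.cons Ent.zero (Ls.cons (Ent.neg F4_14_8_5) (Ls.cons Ent.zero (Ls.cons Ent.zero (Ls.cons (Ent.pos F4_11_8_5) (Ls.cons Ent.zero (Ls.cons Ent.zero (Ls.cons Ent.zero (Ls.cons Ent.zero (Ls.cons Ent.zero (Ls.cons Ent.zero (Ls.cons (Ent.pos F4_8_5_4) (Ls.cons (Ent.pos F4_8_5_3) (Ls.cons (Ent.pos F4_8_5_2) (Ls.cons (Ent.neg F4_8_5_1) (Ls.cons (Ent.pos F4_8_5_0) Ls.nil)))))))))))))))))))))))))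
 (Ls.cons (Ls.cons Ent.zero (Ls.cons Ent.zero (Ls.cons Ent.zero (Ls.cons Ent.zero (Ls.cons Ent.zero (Ls.cons (Ent.pos F4_19_8_4) (Ls.cons Ent.zero (Ls.cons Ent.zero (Ls.cons (Ent.neg F4_16_8_4) (Ls.cons Ent.zero (Ls.cons (Ent.neg F4_14_8_4) (Ls.cons Ent.zero (Ls.cons (Ent.pos F4_12_8_4) (Ls.cons Ent.zero (Ls.cons (Ent.pos F4_10_8_4) (Ls.cons Ent.zero (Ls.cons Ent.zero (Ls.cons (Ent.neg F4_8_7_4) (Ls.cons Ent.zero (Ls.cons (Ent.neg F4_8_5_4) (Ls.cons Ent.zero (Ls.cons Ent.zero (Ls.cons (Ent.pos F4_8_4_2) (Ls.cons (Ent.neg F4_8_4_1) (Ls.cons (Ent.pos F4_8_4_0) Ls.nil)))))))))))))))))))))))))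
 (Ls.cons (Ls.cons Ent.zero (Ls.cons Ent.zero (Ls.cons Ent.zero (Ls.cons Ent.zero (Ls.cons (Ent.pos F4_20_8_3) (Ls.cons Ent.zero (Ls.cons Ent.zero (Ls.cons (Ent.neg F4_17_8_3) (Ls.cons (Ent.neg F4_16_8_3) (Ls.cons (Ent.neg F4_15_8_3) (Ls.cons Ent.zero (Ls.cons Ent.zero (Ls.cons (Ent.pos F4_12_8_3) (Ls.cons (Ent.pos F4_11_8_3) (Ls.cons (Ent.pos F4_10_8_3) (Ls.cons Ent.zero (Ls.cons Ent.zero (Ls.cons (Ent.neg F4_8_7_3) (Ls.cons Ent.zero (Ls.cons (Ent.neg F4_8_5_3) (Ls.cons Ent.zero (Ls.cons Ent.zero (Ls.cons (Ent.pos F4_8_3_2) (Ls.cons (Ent.neg F4_8_3_1) (Ls.cons (Ent.pos F4_8_3_0) Ls.nil)))))))))))))))))))))))))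
 (Ls.cons (Ls.cons Ent.zero (Ls.cons Ent.zero (Ls.cons Ent.zero (Ls.cons Ent.zero (Ls.cons Ent.zero (Ls.cons Ent.zero (Ls.cons (Ent.neg F4_18_8_2) (Ls.cons (Ent.neg F4_17_8_2) (Ls.cons (Ent.neg F4_16_8_2) (Ls.cons (Ent.neg F4_15_8_2) (Ls.cons Ent.zero (Ls.cons (Ent.pos F4_13_8_2) (Ls.cons (Ent.pos F4_12_8_2) (Ls.cons (Ent.pos F4_11_8_2) (Ls.cons (Ent.pos F4_10_8_2) (Ls.cons Ent.zero (Ls.cons Ent.zero (Ls.cons (Ent.neg F4_8_7_2) (Ls.cons (Ent.neg F4_8_6_2) (Ls.cons (Ent.neg F4_8_5_2) (Ls.cons (Ent.neg F4_8_4_2) (Ls.cons (Ent.neg F4_8_3_2) (Ls.cons Ent.zero (Ls.cons (Ent.pos F4_8_2_1) (Ls.cons (Ent.neg F4_8_2_0) Ls.nil)))))))))))))))))))))))))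
 (Ls.cons (Ls.cons Ent.zero (Ls.cons Ent.zero (Ls.cons Ent.zero (Ls.cons (Ent.neg F4_21_8_1) (Ls.cons (Ent.neg F4_20_8_1) (Ls.cons (Ent.neg F4_19_8_1) (Ls.cons (Ent.pos F4_18_8_1) (Ls.cons (Ent.pos F4_17_8_1) (Ls.cons (Ent.pos F4_16_8_1) (Ls.cons (Ent.pos F4_15_8_1) (Ls.cons (Ent.pos F4_14_8_1) (Ls.cons (Ent.neg F4_13_8_1) (Ls.cons (Ent.neg F4_12_8_1) (Ls.cons (Ent.neg F4_11_8_1) (Ls.cons (Ent.neg F4_10_8_1) (Ls.cons (Ent.neg F4_9_8_1) (Ls.cons Ent.zero (Ls.cons (Ent.pos F4_8_7_1) (Ls.cons (Ent.pos F4_8_6_1) (Ls.cons (Ent.pos F4_8_5_1) (Ls.cons (Ent.pos F4_8_4_1) (Ls.cons (Ent.pos F4_8_3_1) (Ls.cons (Ent.neg F4_8_2_1) (Ls.cons Ent.zero (Ls.cons (Ent.pos F4_8_1_0) Ls.nil)))))))))))))))))))))))))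
 (Ls.cons (Ls.cons Ent.zero (Ls.cons Ent.zero (Ls.cons (Ent.pos F4_22_8_0) (Ls.cons (Ent.pos F4_21_8_0) (Ls.cons (Ent.pos F4_20_8_0) (Ls.cons (Ent.pos F4_19_8_0) (Ls.cons (Ent.neg F4_18_8_0) (Ls.cons (Ent.neg F4_17_8_0) (Ls.cons (Ent.neg F4_16_8_0) (Ls.cons (Ent.neg F4_15_8_0) (Ls.cons (Ent.neg F4_14_8_0) (Ls.cons (Ent.pos F4_13_8_0) (Ls.cons (Ent.pos F4_12_8_0) (Ls.cons (Ent.pos F4_11_8_0) (Ls.cons (Ent.pos F4_10_8_0) (Ls.cons (Ent.pos F4_9_8_0) (Ls.cons Ent.zero (Ls.cons (Ent.neg F4_8_7_0) (Ls.cons (Ent.neg F4_8_6_0) (Ls.cons (Ent.neg F4_8_5_0) (Ls.cons (Ent.neg F4_8_4_0) (Ls.cons (Ent.neg F4_8_3_0) (Ls.cons (Ent.pos F4_8_2_0) (Ls.cons (Ent.neg F4_8_1_0) (Ls.cons Ent.zero Ls.nil)))))))))))))))))))))))))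
 Ls.nil))))))))))))))))))))

noncomputable def bxF4_9 : L2 :=
 (Ls.cons (Ls.cons Ent.zero (Ls.cons Ent.zero (Ls.cons Ent.zero (Ls.cons Ent.zero (Ls.cons Ent.zero (Ls.cons Ent.zero (Ls.cons Ent.zero (Ls.cons Ent.zero (Ls.cons Ent.zero (Ls.cons Ent.zero (Ls.cons Ent.zero (Ls.cons Ent.zero (Ls.cons Ent.zero (Ls.cons Ent.zero (Ls.cons Ent.zero (Ls.cons Ent.zero (Ls.cons Ent.zero (Ls.cons (Ent.pos F4_19_9_7) (Ls.cons Ent.zero (Ls.cons Ent.zero (Ls.cons Ent.zero (Ls.cons (Ent.neg F4_19_9_3) (Ls.cons Ent.zero (Ls.cons (Ent.pos F4_19_9_1) (Ls.cons (Ent.neg F4_19_9_0) Ls.nil)))))))))))))))))))))))))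
 (Ls.cons (Ls.cons Ent.zero (Ls.cons Ent.zero (Ls.cons Ent.zero (Ls.cons Ent.zero (Ls.cons Ent.zero (Ls.cons Ent.zero (Ls.cons Ent.zero (Ls.cons Ent.zero (Ls.cons Ent.zero (Ls.cons Ent.zero (Ls.cons Ent.zero (Ls.cons Ent.zero (Ls.cons Ent.zero (Ls.cons Ent.zero (Ls.cons Ent.zero (Ls.cons Ent.zero (Ls.cons Ent.zero (Ls.cons (Ent.pos F4_18_9_7) (Ls.cons Ent.zero (Ls.cons Ent.zero (Ls.cons (Ent.neg F4_18_9_4) (Ls.cons Ent.zero (Ls.cons Ent.zero (Ls.cons (Ent.pos F4_18_9_1) (Ls.cons (Ent.neg F4_18_9_0) Ls.nil)))))))))))))))))))))))))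
 (Ls.cons (Ls.cons Ent.zero (Ls.cons Ent.zero (Ls.cons Ent.zero (Ls.cons Ent.zero (Ls.cons Ent.zero (Ls.cons Ent.zero (Ls.cons Ent.zero (Ls.cons Ent.zero (Ls.cons Ent.zero (Ls.cons Ent.zero (Ls.cons Ent.zero (Ls.cons Ent.zero (Ls.cons Ent.zero (Ls.cons Ent.zero (Ls.cons (Ent.neg F4_17_10_9) (Ls.cons Ent.zero (Ls.cons Ent.zero (Ls.cons Ent.zero (Ls.cons Ent.zero (Ls.cons Ent.zero (Ls.cons Ent.zero (Ls.cons Ent.zero (Ls.cons (Ent.pos F4_17_9_2) (Ls.cons (Ent.neg F4_17_9_1) (Ls.cons (Ent.pos F4_17_9_0) Ls.nil)))))))))))))))))))))))))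
 (Ls.cons (Ls.cons Ent.zero (Ls.cons Ent.zero (Ls.cons Ent.zero (Ls.cons Ent.zero (Ls.cons Ent.zero (Ls.cons Ent.zero (Ls.cons Ent.zero (Ls.cons Ent.zero (Ls.cons Ent.zero (Ls.cons Ent.zero (Ls.cons Ent.zero (Ls.cons Ent.zero (Ls.cons Ent.zero (Ls.cons (Ent.neg F4_16_11_9) (Ls.cons (Ent.neg F4_16_10_9) (Ls.cons Ent.zero (Ls.cons Ent.zero (Ls.cons Ent.zero (Ls.cons Ent.zero (Ls.cons Ent.zero (Ls.cons Ent.zero (Ls.cons (Ent.pos F4_16_9_3) (Ls.cons (Ent.pos F4_16_9_2) (Ls.cons (Ent.neg F4_16_9_1) (Ls.cons (Ent.pos F4_16_9_0) Ls.nil)))))))))))))))))))))))))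
 (Ls.cons (Ls.cons Ent.zero (Ls.cons Ent.zero (Ls.cons Ent.zero (Ls.cons Ent.zero (Ls.cons Ent.zero (Ls.cons Ent.zero (Ls.cons Ent.zero (Ls.cons Ent.zero (Ls.cons Ent.zero (Ls.cons Ent.zero (Ls.cons Ent.zero (Ls.cons Ent.zero (Ls.cons (Ent.neg F4_15_12_9) (Ls.cons (Ent.neg F4_15_11_9) (Ls.cons (Ent.neg F4_15_10_9) (Ls.cons Ent.zero (Ls.cons Ent.zero (Ls.cons Ent.zero (Ls.cons Ent.zero (Ls.cons Ent.zero (Ls.cons (Ent.pos F4_15_9_4) (Ls.cons (Ent.pos F4_15_9_3) (Ls.cons (Ent.pos F4_15_9_2) (Ls.cons (Ent.neg F4_15_9_1) (Ls.cons (Ent.pos F4_15_9_0) Ls.nil)))))))))))))))))))))))))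
 (Ls.cons (Ls.cons Ent.zero (Ls.cons Ent.zero (Ls.cons Ent.zero (Ls.cons Ent.zero (Ls.cons Ent.zero (Ls.cons Ent.zero (Ls.cons Ent.zero (Ls.cons Ent.zero (Ls.cons Ent.zero (Ls.cons Ent.zero (Ls.cons Ent.zero (Ls.cons Ent.zero (Ls.cons (Ent.neg F4_14_12_9) (Ls.cons Ent.zero (Ls.cons (Ent.neg F4_14_10_9) (Ls.cons Ent.zero (Ls.cons Ent.zero (Ls.cons Ent.zero (Ls.cons Ent.zero (Ls.cons (Ent.pos F4_14_9_5) (Ls.cons Ent.zero (Ls.cons (Ent.pos F4_14_9_3) (Ls.cons Ent.zero (Ls.cons (Ent.neg F4_14_9_1) (Ls.cons (Ent.pos F4_14_9_0) Ls.nil)))))))))))))))))))))))))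
 (Ls.cons (Ls.cons Ent.zero (Ls.cons Ent.zero (Ls.cons Ent.zero (Ls.cons Ent.zero (Ls.cons Ent.zero (Ls.cons Ent.zero (Ls.cons Ent.zero (Ls.cons Ent.zero (Ls.cons Ent.zero (Ls.cons Ent.zero (Ls.cons Ent.zero (Ls.cons Ent.zero (Ls.cons (Ent.neg F4_13_12_9) (Ls.cons Ent.zero (Ls.cons (Ent.neg F4_13_10_9) (Ls.cons Ent.zero (Ls.cons Ent.zero (Ls.cons Ent.zero (Ls.cons (Ent.pos F4_13_9_6) (Ls.cons Ent.zero (Ls.cons (Ent.pos F4_13_9_4) (Ls.cons Ent.zero (Ls.cons Ent.zero (Ls.cons (Ent.neg F4_13_9_1) (Ls.cons (Ent.pos F4_13_9_0) Ls.nil)))))))))))))))))))))))))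
 (Ls.cons (Ls.cons Ent.zero (Ls.cons Ent.zero (Ls.cons Ent.zero (Ls.cons Ent.zero (Ls.cons Ent.zero (Ls.cons Ent.zero (Ls.cons Ent.zero (Ls.cons Ent.zero (Ls.cons Ent.zero (Ls.cons (Ent.pos F4_15_12_9) (Ls.cons (Ent.pos F4_14_12_9) (Ls.cons (Ent.pos F4_13_12_9) (Ls.cons Ent.zero (Ls.cons Ent.zero (Ls.cons Ent.zero (Ls.cons Ent.zero (Ls.cons Ent.zero (Ls.cons Ent.zero (Ls.cons Ent.zero (Ls.cons Ent.zero (Ls.cons (Ent.neg F4_12_9_4) (Ls.cons (Ent.neg F4_12_9_3) (Ls.cons (Ent.neg F4_12_9_2) (Ls.cons (Ent.pos F4_12_9_1) (Ls.cons (Ent.neg F4_12_9_0) Ls.nil)))))))))))))))))))))))))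
 (Ls.cons (Ls.cons Ent.zero (Ls.cons Ent.zero (Ls.cons Ent.zero (Ls.cons Ent.zero (Ls.cons Ent.zero (Ls.cons Ent.zero (Ls.cons Ent.zero (Ls.cons Ent.zero (Ls.cons (Ent.pos F4_16_11_9) (Ls.cons (Ent.pos F4_15_11_9) (Ls.cons Ent.zero (Ls.cons Ent.zero (Ls.cons Ent.zero (Ls.cons Ent.zero (Ls.cons (Ent.neg F4_11_10_9) (Ls.cons Ent.zero (Ls.cons (Ent.pos F4_11_9_8) (Ls.cons Ent.zero (Ls.cons Ent.zero (Ls.cons Ent.zero (Ls.cons Ent.zero (Ls.cons (Ent.neg F4_11_9_3) (Ls.cons (Ent.neg F4_11_9_2) (Ls.cons (Ent.pos F4_11_9_1) (Ls.cons (Ent.neg F4_11_9_0) Ls.nil)))))))))))))))))))))))))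
 (Ls.cons (Ls.cons Ent.zero (Ls.cons Ent.zero (Ls.cons Ent.zero (Ls.cons Ent.zero (Ls.cons Ent.zero (Ls.cons Ent.zero (Ls.cons Ent.zero (Ls.cons (Ent.pos F4_17_10_9) (Ls.cons (Ent.pos F4_16_10_9) (Ls.cons (Ent.pos F4_15_10_9) (Ls.cons (Ent.pos F4_14_10_9) (Ls.cons (Ent.pos F4_13_10_9) (Ls.cons Ent.zero (Ls.cons (Ent.pos F4_11_10_9) (Ls.cons Ent.zero (Ls.cons Ent.zero (Ls.cons (Ent.neg F4_10_9_8) (Ls.cons Ent.zero (Ls.cons (Ent.neg F4_10_9_6) (Ls.cons (Ent.neg F4_10_9_5) (Ls.cons (Ent.neg F4_10_9_4) (Ls.cons (Ent.neg F4_10_9_3) (Ls.cons (Ent.neg F4_10_9_2) (Ls.cons (Ent.pos F4_10_9_1) (Ls.cons (Ent.neg F4_10_9_0) Ls.nil)))))))))))))))))))))))))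
 (Ls.cons (Ls.cons Ent.zero (Ls.cons Ent.zero (Ls.cons Ent.zero (Ls.cons Ent.zero (Ls.cons Ent.zero (Ls.cons Ent.zero (Ls.cons Ent.zero (Ls.cons Ent.zero (Ls.cons Ent.zero (Ls.cons Ent.zero (Ls.cons Ent.zero (Ls.cons Ent.zero (Ls.cons Ent.zero (Ls.cons Ent.zero (Ls.cons Ent.zero (Ls.cons Ent.zero (Ls.cons Ent.zero (Ls.cons Ent.zero (Ls.cons Ent.zero (Ls.cons Ent.zero (Ls.cons Ent.zero (Ls.cons Ent.zero (Ls.cons Ent.zero (Ls.cons Ent.zero (Ls.cons Ent.zero Ls.nil)))))))))))))))))))))))))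
 (Ls.cons (Ls.cons Ent.zero (Ls.cons Ent.zero (Ls.cons Ent.zero (Ls.cons Ent.zero (Ls.cons Ent.zero (Ls.cons Ent.zero (Ls.cons Ent.zero (Ls.cons Ent.zero (Ls.cons Ent.zero (Ls.cons Ent.zero (Ls.cons Ent.zero (Ls.cons Ent.zero (Ls.cons Ent.zero (Ls.cons (Ent.neg F4_11_9_8) (Ls.cons (Ent.pos F4_10_9_8) (Ls.cons Ent.zero (Ls.cons Ent.zero (Ls.cons Ent.zero (Ls.cons Ent.zero (Ls.cons Ent.zero (Ls.cons Ent.zero (Ls.cons Ent.zero (Ls.cons Ent.zero (Ls.cons (Ent.neg F4_9_8_1) (Ls.cons (Ent.pos F4_9_8_0) Ls.nil)))))))))))))))))))))))))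
 (Ls.cons (Ls.cons Ent.zero (Ls.cons Ent.zero (Ls.cons Ent.zero (Ls.cons Ent.zero (Ls.cons Ent.zero (Ls.cons (Ent.neg F4_19_9_7) (Ls.cons (Ent.neg F4_18_9_7) (Ls.cons Ent.zero (Ls.cons Ent.zero (Ls.cons Ent.zero (Ls.cons Ent.zero (Ls.cons Ent.zero (Ls.cons Ent.zero (Ls.cons Ent.zero (Ls.cons Ent.zero (Ls.cons Ent.zero (Ls.cons Ent.zero (Ls.cons Ent.zero (Ls.cons Ent.zero (Ls.cons Ent.zero (Ls.cons (Ent.pos F4_9_7_4) (Ls.cons (Ent.pos F4_9_7_3) (Ls.cons (Ent.pos F4_9_7_2) (Ls.cons (Ent.neg F4_9_7_1) (Ls.cons (Ent.pos F4_9_7_0) Ls.nil)))))))))))))))))))))))))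
 (Ls.cons (Ls.cons Ent.zero (Ls.cons Ent.zero (Ls.cons Ent.zero (Ls.cons Ent.zero (Ls.cons Ent.zero (Ls.cons Ent.zero (Ls.cons Ent.zero (Ls.cons Ent.zero (Ls.cons Ent.zero (Ls.cons Ent.zero (Ls.cons Ent.zero (Ls.cons (Ent.neg F4_13_9_6) (Ls.cons Ent.zero (Ls.cons Ent.zero (Ls.cons (Ent.pos F4_10_9_6) (Ls.cons Ent.zero (Ls.cons Ent.zero (Ls.cons Ent.zero (Ls.cons Ent.zero (Ls.cons Ent.zero (Ls.cons Ent.zero (Ls.cons (Ent.pos F4_9_6_3) (Ls.cons (Ent.pos F4_9_6_2) (Ls.cons (Ent.neg F4_9_6_1) (Ls.cons (Ent.pos F4_9_6_0) Ls.nil)))))))))))))))))))))))))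
 (Ls.cons (Ls.cons Ent.zero (Ls.cons Ent.zero (Ls.cons Ent.zero (Ls.cons Ent.zero (Ls.cons Ent.zero (Ls.cons Ent.zero (Ls.cons Ent.zero (Ls.cons Ent.zero (Ls.cons Ent.zero (Ls.cons Ent.zero (Ls.cons (Ent.neg F4_14_9_5) (Ls.cons Ent.zero (Ls.cons Ent.zero (Ls.cons Ent.zero (Ls.cons (Ent.pos F4_10_9_5) (Ls.cons Ent.zero (Ls.cons Ent.zero (Ls.cons Ent.zero (Ls.cons Ent.zero (Ls.cons Ent.zero (Ls.cons (Ent.pos F4_9_5_4) (Ls.cons (Ent.pos F4_9_5_3) (Ls.cons (Ent.pos F4_9_5_2) (Ls.cons (Ent.neg F4_9_5_1) (Ls.cons (Ent.pos F4_9_5_0) Ls.nil)))))))))))))))))))))))))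
 (Ls.cons (Ls.cons Ent.zero (Ls.cons Ent.zero (Ls.cons Ent.zero (Ls.cons Ent.zero (Ls.cons (Ent.pos F4_20_9_4) (Ls.cons Ent.zero (Ls.cons (Ent.pos F4_18_9_4) (Ls.cons Ent.zero (Ls.cons Ent.zero (Ls.cons (Ent.neg F4_15_9_4) (Ls.cons Ent.zero (Ls.cons (Ent.neg F4_13_9_4) (Ls.cons (Ent.pos F4_12_9_4) (Ls.cons Ent.zero (Ls.cons (Ent.pos F4_10_9_4) (Ls.cons Ent.zero (Ls.cons Ent.zero (Ls.cons (Ent.neg F4_9_7_4) (Ls.cons Ent.zero (Ls.cons (Ent.neg F4_9_5_4) (Ls.cons Ent.zero (Ls.cons Ent.zero (Ls.cons (Ent.pos F4_9_4_2) (Ls.cons (Ent.neg F4_9_4_1) (Ls.cons (Ent.pos F4_9_4_0) Ls.nil)))))))))))))))))))))))))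
 (Ls.cons (Ls.cons Ent.zero (Ls.cons Ent.zero (Ls.cons Ent.zero (Ls.cons Ent.zero (Ls.cons (Ent.pos F4_20_9_3) (Ls.cons (Ent.pos F4_19_9_3) (Ls.cons Ent.zero (Ls.cons Ent.zero (Ls.cons (Ent.neg F4_16_9_3) (Ls.cons (Ent.neg F4_15_9_3) (Ls.cons (Ent.neg F4_14_9_3) (Ls.cons Ent.zero (Ls.cons (Ent.pos F4_12_9_3) (Ls.cons (Ent.pos F4_11_9_3) (Ls.cons (Ent.pos F4_10_9_3) (Ls.cons Ent.zero (Ls.cons Ent.zero (Ls.cons (Ent.neg F4_9_7_3) (Ls.cons (Ent.neg F4_9_6_3) (Ls.cons (Ent.neg F4_9_5_3) (Ls.cons Ent.zero (Ls.cons Ent.zero (Ls.cons (Ent.pos F4_9_3_2) (Ls.cons (Ent.neg F4_9_3_1) (Ls.cons (Ent.pos F4_9_3_0) Ls.nil)))))))))))))))))))))))))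
 (Ls.cons (Ls.cons Ent.zero (Ls.cons Ent.zero (Ls.cons Ent.zero (Ls.cons Ent.zero (Ls.cons (Ent.pos F4_20_9_2) (Ls.cons Ent.zero (Ls.cons Ent.zero (Ls.cons (Ent.neg F4_17_9_2) (Ls.cons (Ent.neg F4_16_9_2) (Ls.cons (Ent.neg F4_15_9_2) (Ls.cons Ent.zero (Ls.cons Ent.zero (Ls.cons (Ent.pos F4_12_9_2) (Ls.cons (Ent.pos F4_11_9_2) (Ls.cons (Ent.pos F4_10_9_2) (Ls.cons Ent.zero (Ls.cons Ent.zero (Ls.cons (Ent.neg F4_9_7_2) (Ls.cons (Ent.neg F4_9_6_2) (Ls.cons (Ent.neg F4_9_5_2) (Ls.cons (Ent.neg F4_9_4_2) (Ls.cons (Ent.neg F4_9_3_2) (Ls.cons Ent.zero (Ls.cons (Ent.pos F4_9_2_1) (Ls.cons (Ent.neg F4_9_2_0) Ls.nil)))))))))))))))))))))))))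
 (Ls.cons (Ls.cons Ent.zero (Ls.cons Ent.zero (Ls.cons Ent.zero (Ls.cons Ent.zero (Ls.cons (Ent.neg F4_20_9_1) (Ls.cons (Ent.neg F4_19_9_1) (Ls.cons (Ent.neg F4_18_9_1) (Ls.cons (Ent.pos F4_17_9_1) (Ls.cons (Ent.pos F4_16_9_1) (Ls.cons (Ent.pos F4_15_9_1) (Ls.cons (Ent.pos F4_14_9_1) (Ls.cons (Ent.pos F4_13_9_1) (Ls.cons (Ent.neg F4_12_9_1) (Ls.cons (Ent.neg F4_11_9_1) (Ls.cons (Ent.neg F4_10_9_1) (Ls.cons Ent.zero (Ls.cons (Ent.pos F4_9_8_1) (Ls.cons (Ent.pos F4_9_7_1) (Ls.cons (Ent.pos F4_9_6_1) (Ls.cons (Ent.pos F4_9_5_1) (Ls.cons (Ent.pos F4_9_4_1) (Ls.cons (Ent.pos F4_9_3_1) (Ls.cons (Ent.neg F4_9_2_1) (Ls.cons Ent.zero (Ls.cons (Ent.pos F4_9_1_0) Ls.nil)))))))))))))))))))))))))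
 (Ls.cons (Ls.cons Ent.zero (Ls.cons Ent.zero (Ls.cons (Ent.pos F4_22_9_0) (Ls.cons (Ent.pos F4_21_9_0) (Ls.cons (Ent.pos F4_20_9_0) (Ls.cons (Ent.pos F4_19_9_0) (Ls.cons (Ent.pos F4_18_9_0) (Ls.cons (Ent.neg F4_17_9_0) (Ls.cons (Ent.neg F4_16_9_0) (Ls.cons (Ent.neg F4_15_9_0) (Ls.cons (Ent.neg F4_14_9_0) (Ls.cons (Ent.neg F4_13_9_0) (Ls.cons (Ent.pos F4_12_9_0) (Ls.cons (Ent.pos F4_11_9_0) (Ls.cons (Ent.pos F4_10_9_0) (Ls.cons Ent.zero (Ls.cons (Ent.neg F4_9_8_0) (Ls.cons (Ent.neg F4_9_7_0) (Ls.cons (Ent.neg F4_9_6_0) (Ls.cons (Ent.neg F4_9_5_0) (Ls.cons (Ent.neg F4_9_4_0) (Ls.cons (Ent.neg F4_9_3_0) (Ls.cons (Ent.pos F4_9_2_0) (Ls.cons (Ent.neg F4_9_1_0) (Ls.cons Ent.zero Ls.nil)))))))))))))))))))))))))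
 Ls.nil))))))))))))))))))))

noncomputable def bxF4_10 : L2 :=
 (Ls.cons (Ls.cons Ent.zero (Ls.cons Ent.zero (Ls.cons Ent.zero (Ls.cons Ent.zero (Ls.cons Ent.zero (Ls.cons Ent.zero (Ls.cons Ent.zero (Ls.cons Ent.zero (Ls.cons Ent.zero (Ls.cons Ent.zero (Ls.cons Ent.zero (Ls.cons Ent.zero (Ls.cons Ent.zero (Ls.cons Ent.zero (Ls.cons Ent.zero (Ls.cons Ent.zero (Ls.cons Ent.zero (Ls.cons (Ent.pos F4_19_10_7) (Ls.cons (Ent.pos F4_19_10_6) (Ls.cons (Ent.pos F4_19_10_5) (Ls.cons (Ent.neg F4_19_10_4) (Ls.cons (Ent.neg F4_19_10_3) (Ls.cons (Ent.neg F4_19_10_2) (Ls.cons (Ent.pos F4_19_10_1) (Ls.cons (Ent.neg F4_19_10_0) Ls.nil)))))))))))))))))))))))))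
 (Ls.cons (Ls.cons Ent.zero (Ls.cons Ent.zero (Ls.cons Ent.zero (Ls.cons Ent.zero (Ls.cons Ent.zero (Ls.cons Ent.zero (Ls.cons Ent.zero (Ls.cons Ent.zero (Ls.cons Ent.zero (Ls.cons Ent.zero (Ls.cons Ent.zero (Ls.cons Ent.zero (Ls.cons Ent.zero (Ls.cons Ent.zero (Ls.cons Ent.zero (Ls.cons Ent.zero (Ls.cons (Ent.pos F4_18_10_8) (Ls.cons (Ent.pos F4_18_10_7) (Ls.cons (Ent.pos F4_18_10_6) (Ls.cons Ent.zero (Ls.cons (Ent.neg F4_18_10_4) (Ls.cons (Ent.neg F4_18_10_3) (Ls.cons (Ent.neg F4_18_10_2) (Ls.cons (Ent.pos F4_18_10_1) (Ls.cons (Ent.neg F4_18_10_0) Ls.nil)))))))))))))))))))))))))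
 (Ls.cons (Ls.cons Ent.zero (Ls.cons Ent.zero (Ls.cons Ent.zero (Ls.cons Ent.zero (Ls.cons Ent.zero (Ls.cons Ent.zero (Ls.cons Ent.zero (Ls.cons Ent.zero (Ls.cons Ent.zero (Ls.cons Ent.zero (Ls.cons Ent.zero (Ls.cons Ent.zero (Ls.cons Ent.zero (Ls.cons Ent.zero (Ls.cons Ent.zero (Ls.cons (Ent.pos F4_17_10_9) (Ls.cons (Ent.pos F4_17_10_8) (Ls.cons (Ent.pos F4_17_10_7) (Ls.cons Ent.zero (Ls.cons Ent.zero (Ls.cons (Ent.neg F4_17_10_4) (Ls.cons (Ent.neg F4_17_10_3) (Ls.cons (Ent.neg F4_17_10_2) (Ls.cons (Ent.pos F4_17_10_1) (Ls.cons (Ent.neg F4_17_10_0) Ls.nil)))))))))))))))))))))))))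
 (Ls.cons (Ls.cons Ent.zero (Ls.cons Ent.zero (Ls.cons Ent.zero (Ls.cons Ent.zero (Ls.cons Ent.zero (Ls.cons Ent.zero (Ls.cons Ent.zero (Ls.cons Ent.zero (Ls.cons Ent.zero (Ls.cons Ent.zero (Ls.cons Ent.zero (Ls.cons Ent.zero (Ls.cons Ent.zero (Ls.cons Ent.zero (Ls.cons Ent.zero (Ls.cons (Ent.pos F4_16_10_9) (Ls.cons (Ent.pos F4_16_10_8) (Ls.cons (Ent.pos F4_16_10_7) (Ls.cons Ent.zero (Ls.cons (Ent.neg F4_16_10_5) (Ls.cons (Ent.neg F4_16_10_4) (Ls.cons (Ent.neg F4_16_10_3) (Ls.cons Ent.zero (Ls.cons (Ent.pos F4_16_10_1) (Ls.cons (Ent.neg F4_16_10_0) Ls.nil)))))))))))))))))))))))))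
 (Ls.cons (Ls.cons Ent.zero (Ls.cons Ent.zero (Ls.cons Ent.zero (Ls.cons Ent.zero (Ls.cons Ent.zero (Ls.cons Ent.zero (Ls.cons Ent.zero (Ls.cons Ent.zero (Ls.cons Ent.zero (Ls.cons Ent.zero (Ls.cons Ent.zero (Ls.cons Ent.zero (Ls.cons Ent.zero (Ls.cons Ent.zero (Ls.cons Ent.zero (Ls.cons (Ent.pos F4_15_10_9) (Ls.cons Ent.zero (Ls.cons (Ent.pos F4_15_10_7) (Ls.cons (Ent.neg F4_15_10_6) (Ls.cons Ent.zero (Ls.cons (Ent.neg F4_15_10_4) (Ls.cons Ent.zero (Ls.cons Ent.zero (Ls.cons (Ent.pos F4_15_10_1) (Ls.cons (Ent.neg F4_15_10_0) Ls.nil)))))))))))))))))))))))))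
 (Ls.cons (Ls.cons Ent.zero (Ls.cons Ent.zero (Ls.cons Ent.zero (Ls.cons Ent.zero (Ls.cons Ent.zero (Ls.cons Ent.zero (Ls.cons Ent.zero (Ls.cons Ent.zero (Ls.cons Ent.zero (Ls.cons Ent.zero (Ls.cons Ent.zero (Ls.cons Ent.zero (Ls.cons Ent.zero (Ls.cons Ent.zero (Ls.cons Ent.zero (Ls.cons (Ent.pos F4_14_10_9) (Ls.cons Ent.zero (Ls.cons Ent.zero (Ls.cons Ent.zero (Ls.cons (Ent.neg F4_14_10_5) (Ls.cons Ent.zero (Ls.cons Ent.zero (Ls.cons Ent.zero (Ls.cons (Ent.pos F4_14_10_1) (Ls.cons (Ent.neg F4_14_10_0) Ls.nil)))))))))))))))))))))))))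
 (Ls.cons (Ls.cons Ent.zero (Ls.cons Ent.zero (Ls.cons Ent.zero (Ls.cons Ent.zero (Ls.cons Ent.zero (Ls.cons Ent.zero (Ls.cons Ent.zero (Ls.cons Ent.zero (Ls.cons Ent.zero (Ls.cons Ent.zero (Ls.cons Ent.zero (Ls.cons Ent.zero (Ls.cons Ent.zero (Ls.cons Ent.zero (Ls.cons Ent.zero (Ls.cons (Ent.pos F4_13_10_9) (Ls.cons Ent.zero (Ls.cons Ent.zero (Ls.cons (Ent.neg F4_13_10_6) (Ls.cons Ent.zero (Ls.cons Ent.zero (Ls.cons Ent.zero (Ls.cons Ent.zero (Ls.cons (Ent.pos F4_13_10_1) (Ls.cons (Ent.neg F4_13_10_0) Ls.nil)))))))))))))))))))))))))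
 (Ls.cons (Ls.cons Ent.zero (Ls.cons Ent.zero (Ls.cons Ent.zero (Ls.cons Ent.zero (Ls.cons Ent.zero (Ls.cons Ent.zero (Ls.cons Ent.zero (Ls.cons Ent.zero (Ls.cons Ent.zero (Ls.cons Ent.zero (Ls.cons Ent.zero (Ls.cons Ent.zero (Ls.cons Ent.zero (Ls.cons Ent.zero (Ls.cons Ent.zero (Ls.cons Ent.zero (Ls.cons Ent.zero (Ls.cons Ent.zero (Ls.cons Ent.zero (Ls.cons Ent.zero (Ls.cons Ent.zero (Ls.cons Ent.zero (Ls.cons Ent.zero (Ls.cons Ent.zero (Ls.cons Ent.zero Ls.nil)))))))))))))))))))))))))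
 (Ls.cons (Ls.cons Ent.zero (Ls.cons Ent.zero (Ls.cons Ent.zero (Ls.cons Ent.zero (Ls.cons Ent.zero (Ls.cons Ent.zero (Ls.cons Ent.zero (Ls.cons Ent.zero (Ls.cons Ent.zero (Ls.cons Ent.zero (Ls.cons Ent.zero (Ls.cons Ent.zero (Ls.cons Ent.zero (Ls.cons Ent.zero (Ls.cons Ent.zero (Ls.cons (Ent.pos F4_11_10_9) (Ls.cons (Ent.neg F4_11_10_8) (Ls.cons Ent.zero (Ls.cons Ent.zero (Ls.cons Ent.zero (Ls.cons Ent.zero (Ls.cons Ent.zero (Ls.cons Ent.zero (Ls.cons (Ent.pos F4_11_10_1) (Ls.cons (Ent.neg F4_11_10_0) Ls.nil)))))))))))))))))))))))))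
 (Ls.cons (Ls.cons Ent.zero (Ls.cons Ent.zero (Ls.cons Ent.zero (Ls.cons Ent.zero (Ls.cons Ent.zero (Ls.cons Ent.zero (Ls.cons Ent.zero (Ls.cons Ent.zero (Ls.cons Ent.zero (Ls.cons Ent.zero (Ls.cons Ent.zero (Ls.cons Ent.zero (Ls.cons Ent.zero (Ls.cons Ent.zero (Ls.cons Ent.zero (Ls.cons Ent.zero (Ls.cons Ent.zero (Ls.cons Ent.zero (Ls.cons Ent.zero (Ls.cons Ent.zero (Ls.cons Ent.zero (Ls.cons Ent.zero (Ls.cons Ent.zero (Ls.cons Ent.zero (Ls.cons Ent.zero Ls.nil)))))))))))))))))))))))))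
 (Ls.cons (Ls.cons Ent.zero (Ls.cons Ent.zero (Ls.cons Ent.zero (Ls.cons Ent.zero (Ls.cons Ent.zero (Ls.cons Ent.zero (Ls.cons Ent.zero (Ls.cons (Ent.neg F4_17_10_9) (Ls.cons (Ent.neg F4_16_10_9) (Ls.cons (Ent.neg F4_15_10_9) (Ls.cons (Ent.neg F4_14_10_9) (Ls.cons (Ent.neg F4_13_10_9) (Ls.cons Ent.zero (Ls.cons (Ent.neg F4_11_10_9) (Ls.cons Ent.zero (Ls.cons Ent.zero (Ls.cons (Ent.pos F4_10_9_8) (Ls.cons Ent.zero (Ls.cons (Ent.pos F4_10_9_6) (Ls.cons (Ent.pos F4_10_9_5) (Ls.cons (Ent.pos F4_10_9_4) (Ls.cons (Ent.pos F4_10_9_3) (Ls.cons (Ent.pos F4_10_9_2) (Ls.cons (Ent.neg F4_10_9_1) (Ls.cons (Ent.pos F4_10_9_0) Ls.nil)))))))))))))))))))))))))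
 (Ls.cons (Ls.cons Ent.zero (Ls.cons Ent.zero (Ls.cons Ent.zero (Ls.cons Ent.zero (Ls.cons Ent.zero (Ls.cons Ent.zero (Ls.cons (Ent.neg F4_18_10_8) (Ls.cons (Ent.neg F4_17_10_8) (Ls.cons (Ent.neg F4_16_10_8) (Ls.cons Ent.zero (Ls.cons Ent.zero (Ls.cons Ent.zero (Ls.cons Ent.zero (Ls.cons (Ent.pos F4_11_10_8) (Ls.cons Ent.zero (Ls.cons (Ent.neg F4_10_9_8) (Ls.cons Ent.zero (Ls.cons Ent.zero (Ls.cons Ent.zero (Ls.cons Ent.zero (Ls.cons (Ent.pos F4_10_8_4) (Ls.cons (Ent.pos F4_10_8_3) (Ls.cons (Ent.pos F4_10_8_2) (Ls.cons (Ent.neg F4_10_8_1) (Ls.cons (Ent.pos F4_10_8_0) Ls.nil)))))))))))))))))))))))))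
 (Ls.cons (Ls.cons Ent.zero (Ls.cons Ent.zero (Ls.cons Ent.zero (Ls.cons Ent.zero (Ls.cons Ent.zero (Ls.cons (Ent.neg F4_19_10_7) (Ls.cons (Ent.neg F4_18_10_7) (Ls.cons (Ent.neg F4_17_10_7) (Ls.cons (Ent.neg F4_16_10_7) (Ls.cons (Ent.neg F4_15_10_7) (Ls.cons Ent.zero (Ls.cons Ent.zero (Ls.cons Ent.zero (Ls.cons Ent.zero (Ls.cons Ent.zero (Ls.cons Ent.zero (Ls.cons Ent.zero (Ls.cons Ent.zero (Ls.cons (Ent.pos F4_10_7_6) (Ls.cons (Ent.pos F4_10_7_5) (Ls.cons (Ent.pos F4_10_7_4) (Ls.cons (Ent.pos F4_10_7_3) (Ls.cons (Ent.pos F4_10_7_2) (Ls.cons (Ent.neg F4_10_7_1) (Ls.cons (Ent.pos F4_10_7_0) Ls.nil)))))))))))))))))))))))))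
 (Ls.cons (Ls.cons Ent.zero (Ls.cons Ent.zero (Ls.cons Ent.zero (Ls.cons Ent.zero (Ls.cons Ent.zero (Ls.cons (Ent.neg F4_19_10_6) (Ls.cons (Ent.neg F4_18_10_6) (Ls.cons Ent.zero (Ls.cons Ent.zero (Ls.cons (Ent.pos F4_15_10_6) (Ls.cons Ent.zero (Ls.cons (Ent.pos F4_13_10_6) (Ls.cons Ent.zero (Ls.cons Ent.zero (Ls.cons Ent.zero (Ls.cons (Ent.neg F4_10_9_6) (Ls.cons Ent.zero (Ls.cons (Ent.neg F4_10_7_6) (Ls.cons Ent.zero (Ls.cons Ent.zero (Ls.cons (Ent.pos F4_10_6_4) (Ls.cons (Ent.pos F4_10_6_3) (Ls.cons (Ent.pos F4_10_6_2) (Ls.cons (Ent.neg F4_10_6_1) (Ls.cons (Ent.pos F4_10_6_0) Ls.nil)))))))))))))))))))))))))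
 (Ls.cons (Ls.cons Ent.zero (Ls.cons Ent.zero (Ls.cons Ent.zero (Ls.cons Ent.zero (Ls.cons Ent.zero (Ls.cons (Ent.neg F4_19_10_5) (Ls.cons Ent.zero (Ls.cons Ent.zero (Ls.cons (Ent.pos F4_16_10_5) (Ls.cons Ent.zero (Ls.cons (Ent.pos F4_14_10_5) (Ls.cons Ent.zero (Ls.cons Ent.zero (Ls.cons Ent.zero (Ls.cons Ent.zero (Ls.cons (Ent.neg F4_10_9_5) (Ls.cons Ent.zero (Ls.cons (Ent.neg F4_10_7_5) (Ls.cons Ent.zero (Ls.cons Ent.zero (Ls.cons (Ent.pos F4_10_5_4) (Ls.cons (Ent.pos F4_10_5_3) (Ls.cons (Ent.pos F4_10_5_2) (Ls.cons (Ent.neg F4_10_5_1) (Ls.cons (Ent.pos F4_10_5_0) Ls.nil)))))))))))))))))))))))))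
 (Ls.cons (Ls.cons Ent.zero (Ls.cons Ent.zero (Ls.cons Ent.zero (Ls.cons Ent.zero (Ls.cons Ent.zero (Ls.cons (Ent.pos F4_19_10_4) (Ls.cons (Ent.pos F4_18_10_4) (Ls.cons (Ent.pos F4_17_10_4) (Ls.cons (Ent.pos F4_16_10_4) (Ls.cons (Ent.pos F4_15_10_4) (Ls.cons Ent.zero (Ls.cons Ent.zero (Ls.cons Ent.zero (Ls.cons Ent.zero (Ls.cons Ent.zero (Ls.cons (Ent.neg F4_10_9_4) (Ls.cons (Ent.neg F4_10_8_4) (Ls.cons (Ent.neg F4_10_7_4) (Ls.cons (Ent.neg F4_10_6_4) (Ls.cons (Ent.neg F4_10_5_4) (Ls.cons Ent.zero (Ls.cons Ent.zero (Ls.cons (Ent.pos F4_10_4_2) (Ls.cons (Ent.neg F4_10_4_1) (Ls.cons (Ent.pos F4_10_4_0) Ls.nil)))))))))))))))))))))))))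
 (Ls.cons (Ls.cons Ent.zero (Ls.cons Ent.zero (Ls.cons Ent.zero (Ls.cons Ent.zero (Ls.cons (Ent.pos F4_20_10_3) (Ls.cons (Ent.pos F4_19_10_3) (Ls.cons (Ent.pos F4_18_10_3) (Ls.cons (Ent.pos F4_17_10_3) (Ls.cons (Ent.pos F4_16_10_3) (Ls.cons Ent.zero (Ls.cons Ent.zero (Ls.cons Ent.zero (Ls.cons Ent.zero (Ls.cons Ent.zero (Ls.cons Ent.zero (Ls.cons (Ent.neg F4_10_9_3) (Ls.cons (Ent.neg F4_10_8_3) (Ls.cons (Ent.neg F4_10_7_3) (Ls.cons (Ent.neg F4_10_6_3) (Ls.cons (Ent.neg F4_10_5_3) (Ls.cons Ent.zero (Ls.cons Ent.zero (Ls.cons (Ent.pos F4_10_3_2) (Ls.cons (Ent.neg F4_10_3_1) (Ls.cons (Ent.pos F4_10_3_0) Ls.nil)))))))))))))))))))))))))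
 (Ls.cons (Ls.cons Ent.zero (Ls.cons Ent.zero (Ls.cons Ent.zero (Ls.cons Ent.zero (Ls.cons (Ent.pos F4_20_10_2) (Ls.cons (Ent.pos F4_19_10_2) (Ls.cons (Ent.pos F4_18_10_2) (Ls.cons (Ent.pos F4_17_10_2) (Ls.cons Ent.zero (Ls.cons Ent.zero (Ls.cons Ent.zero (Ls.cons Ent.zero (Ls.cons Ent.zero (Ls.cons Ent.zero (Ls.cons Ent.zero (Ls.cons (Ent.neg F4_10_9_2) (Ls.cons (Ent.neg F4_10_8_2) (Ls.cons (Ent.neg F4_10_7_2) (Ls.cons (Ent.neg F4_10_6_2) (Ls.cons (Ent.neg F4_10_5_2) (Ls.cons (Ent.neg F4_10_4_2) (Ls.cons (Ent.neg F4_10_3_2) (Ls.cons Ent.zero (Ls.cons (Ent.pos F4_10_2_1) (Ls.cons (Ent.neg F4_10_2_0) Ls.nil)))))))))))))))))))))))))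
 (Ls.cons (Ls.cons Ent.zero (Ls.cons Ent.zero (Ls.cons Ent.zero (Ls.cons Ent.zero (Ls.cons (Ent.neg F4_20_10_1) (Ls.cons (Ent.neg F4_19_10_1) (Ls.cons (Ent.neg F4_18_10_1) (Ls.cons (Ent.neg F4_17_10_1) (Ls.cons (Ent.neg F4_16_10_1) (Ls.cons (Ent.neg F4_15_10_1) (Ls.cons (Ent.neg F4_14_10_1) (Ls.cons (Ent.neg F4_13_10_1) (Ls.cons Ent.zero (Ls.cons (Ent.neg F4_11_10_1) (Ls.cons Ent.zero (Ls.cons (Ent.pos F4_10_9_1) (Ls.cons (Ent.pos F4_10_8_1) (Ls.cons (Ent.pos F4_10_7_1) (Ls.cons (Ent.pos F4_10_6_1) (Ls.cons (Ent.pos F4_10_5_1) (Ls.cons (Ent.pos F4_10_4_1) (Ls.cons (Ent.pos F4_10_3_1) (Ls.cons (Ent.neg F4_10_2_1) (Ls.cons Ent.zero (Ls.cons (Ent.pos F4_10_1_0) Ls.nil)))))))))))))))))))))))))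
 (Ls.cons (Ls.cons Ent.zero (Ls.cons Ent.zero (Ls.cons (Ent.pos F4_22_10_0) (Ls.cons (Ent.pos F4_21_10_0) (Ls.cons (Ent.pos F4_20_10_0) (Ls.cons (Ent.pos F4_19_10_0) (Ls.cons (Ent.pos F4_18_10_0) (Ls.cons (Ent.pos F4_17_10_0) (Ls.cons (Ent.pos F4_16_10_0) (Ls.cons (Ent.pos F4_15_10_0) (Ls.cons (Ent.pos F4_14_10_0) (Ls.cons (Ent.pos F4_13_10_0) (Ls.cons Ent.zero (Ls.cons (Ent.pos F4_11_10_0) (Ls.cons Ent.zero (Ls.cons (Ent.neg F4_10_9_0) (Ls.cons (Ent.neg F4_10_8_0) (Ls.cons (Ent.neg F4_10_7_0) (Ls.cons (Ent.neg F4_10_6_0) (Ls.cons (Ent.neg F4_10_5_0) (Ls.cons (Ent.neg F4_10_4_0) (Ls.cons (Ent.neg F4_10_3_0) (Ls.cons (Ent.pos F4_10_2_0) (Ls.cons (Ent.neg F4_10_1_0) (Ls.cons Ent.zero Ls.nil)))))))))))))))))))))))))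
 Ls.nil))))))))))))))))))))

noncomputable def bxF4_11 : L2 :=
 (Ls.cons (Ls.cons Ent.zero (Ls.cons Ent.zero (Ls.cons Ent.zero (Ls.cons Ent.zero (Ls.cons Ent.zero (Ls.cons Ent.zero (Ls.cons Ent.zero (Ls.cons Ent.zero (Ls.cons Ent.zero (Ls.cons Ent.zero (Ls.cons Ent.zero (Ls.cons Ent.zero (Ls.cons Ent.zero (Ls.cons Ent.zero (Ls.cons Ent.zero (Ls.cons Ent.zero (Ls.cons Ent.zero (Ls.cons Ent.zero (Ls.cons (Ent.pos F4_19_11_6) (Ls.cons (Ent.pos F4_19_11_5) (Ls.cons Ent.zero (Ls.cons (Ent.neg F4_19_11_3) (Ls.cons (Ent.neg F4_19_11_2) (Ls.cons (Ent.pos F4_19_11_1) (Ls.cons (Ent.neg F4_19_11_0) Ls.nil)))))))))))))))))))))))))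
 (Ls.cons (Ls.cons Ent.zero (Ls.cons Ent.zero (Ls.cons Ent.zero (Ls.cons Ent.zero (Ls.cons Ent.zero (Ls.cons Ent.zero (Ls.cons Ent.zero (Ls.cons Ent.zero (Ls.cons Ent.zero (Ls.cons Ent.zero (Ls.cons Ent.zero (Ls.cons Ent.zero (Ls.cons Ent.zero (Ls.cons Ent.zero (Ls.cons Ent.zero (Ls.cons Ent.zero (Ls.cons Ent.zero (Ls.cons (Ent.pos F4_18_11_7) (Ls.cons (Ent.pos F4_18_11_6) (Ls.cons Ent.zero (Ls.cons Ent.zero (Ls.cons (Ent.neg F4_18_11_3) (Ls.cons (Ent.neg F4_18_11_2) (Ls.cons (Ent.pos F4_18_11_1) (Ls.cons (Ent.neg F4_18_11_0) Ls.nil)))))))))))))))))))))))))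
 (Ls.cons (Ls.cons Ent.zero (Ls.cons Ent.zero (Ls.cons Ent.zero (Ls.cons Ent.zero (Ls.cons Ent.zero (Ls.cons Ent.zero (Ls.cons Ent.zero (Ls.cons Ent.zero (Ls.cons Ent.zero (Ls.cons Ent.zero (Ls.cons Ent.zero (Ls.cons Ent.zero (Ls.cons Ent.zero (Ls.cons Ent.zero (Ls.cons Ent.zero (Ls.cons Ent.zero (Ls.cons (Ent.pos F4_17_11_8) (Ls.cons (Ent.pos F4_17_11_7) (Ls.cons (Ent.pos F4_17_11_6) (Ls.cons Ent.zero (Ls.cons (Ent.neg F4_17_11_4) (Ls.cons (Ent.neg F4_17_11_3) (Ls.cons (Ent.neg F4_17_11_2) (Ls.cons (Ent.pos F4_17_11_1) (Ls.cons (Ent.neg F4_17_11_0) Ls.nil)))))))))))))))))))))))))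
 (Ls.cons (Ls.cons Ent.zero (Ls.cons Ent.zero (Ls.cons Ent.zero (Ls.cons Ent.zero (Ls.cons Ent.zero (Ls.cons Ent.zero (Ls.cons Ent.zero (Ls.cons Ent.zero (Ls.cons Ent.zero (Ls.cons Ent.zero (Ls.cons Ent.zero (Ls.cons Ent.zero (Ls.cons Ent.zero (Ls.cons Ent.zero (Ls.cons Ent.zero (Ls.cons (Ent.pos F4_16_11_9) (Ls.cons (Ent.pos F4_16_11_8) (Ls.cons (Ent.pos F4_16_11_7) (Ls.cons Ent.zero (Ls.cons Ent.zero (Ls.cons (Ent.neg F4_16_11_4) (Ls.cons (Ent.neg F4_16_11_3) (Ls.cons (Ent.neg F4_16_11_2) (Ls.cons (Ent.pos F4_16_11_1) (Ls.cons (Ent.neg F4_16_11_0) Ls.nil)))))))))))))))))))))))))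
 (Ls.cons (Ls.cons Ent.zero (Ls.cons Ent.zero (Ls.cons Ent.zero (Ls.cons Ent.zero (Ls.cons Ent.zero (Ls.cons Ent.zero (Ls.cons Ent.zero (Ls.cons Ent.zero (Ls.cons Ent.zero (Ls.cons Ent.zero (Ls.cons Ent.zero (Ls.cons Ent.zero (Ls.cons Ent.zero (Ls.cons Ent.zero (Ls.cons Ent.zero (Ls.cons (Ent.pos F4_15_11_9) (Ls.cons Ent.zero (Ls.cons (Ent.pos F4_15_11_7) (Ls.cons Ent.zero (Ls.cons (Ent.neg F4_15_11_5) (Ls.cons Ent.zero (Ls.cons (Ent.neg F4_15_11_3) (Ls.cons Ent.zero (Ls.cons (Ent.pos F4_15_11_1) (Ls.cons (Ent.neg F4_15_11_0) Ls.nil)))))))))))))))))))))))))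
 (Ls.cons (Ls.cons Ent.zero (Ls.cons Ent.zero (Ls.cons Ent.zero (Ls.cons Ent.zero (Ls.cons Ent.zero (Ls.cons Ent.zero (Ls.cons Ent.zero (Ls.cons Ent.zero (Ls.cons Ent.zero (Ls.cons Ent.zero (Ls.cons Ent.zero (Ls.cons Ent.zero (Ls.cons Ent.zero (Ls.cons Ent.zero (Ls.cons Ent.zero (Ls.cons Ent.zero (Ls.cons (Ent.pos F4_14_11_8) (Ls.cons Ent.zero (Ls.cons Ent.zero (Ls.cons (Ent.neg F4_14_11_5) (Ls.cons Ent.zero (Ls.cons Ent.zero (Ls.cons Ent.zero (Ls.cons (Ent.pos F4_14_11_1) (Ls.cons (Ent.neg F4_14_11_0) Ls.nil)))))))))))))))))))))))))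
 (Ls.cons (Ls.cons Ent.zero (Ls.cons Ent.zero (Ls.cons Ent.zero (Ls.cons Ent.zero (Ls.cons Ent.zero (Ls.cons Ent.zero (Ls.cons Ent.zero (Ls.cons Ent.zero (Ls.cons Ent.zero (Ls.cons Ent.zero (Ls.cons Ent.zero (Ls.cons Ent.zero (Ls.cons (Ent.neg F4_13_12_11) (Ls.cons Ent.zero (Ls.cons Ent.zero (Ls.cons Ent.zero (Ls.cons Ent.zero (Ls.cons Ent.zero (Ls.cons Ent.zero (Ls.cons Ent.zero (Ls.cons Ent.zero (Ls.cons Ent.zero (Ls.cons (Ent.pos F4_13_11_2) (Ls.cons (Ent.neg F4_13_11_1) (Ls.cons (Ent.pos F4_13_11_0) Ls.nil)))))))))))))))))))))))))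
 (Ls.cons (Ls.cons Ent.zero (Ls.cons Ent.zero (Ls.cons Ent.zero (Ls.cons Ent.zero (Ls.cons Ent.zero (Ls.cons Ent.zero (Ls.cons Ent.zero (Ls.cons Ent.zero (Ls.cons Ent.zero (Ls.cons Ent.zero (Ls.cons Ent.zero (Ls.cons (Ent.pos F4_13_12_11) (Ls.cons Ent.zero (Ls.cons Ent.zero (Ls.cons Ent.zero (Ls.cons Ent.zero (Ls.cons Ent.zero (Ls.cons Ent.zero (Ls.cons Ent.zero (Ls.cons Ent.zero (Ls.cons Ent.zero (Ls.cons Ent.zero (Ls.cons (Ent.neg F4_12_11_2) (Ls.cons (Ent.pos F4_12_11_1) (Ls.cons (Ent.neg F4_12_11_0) Ls.nil)))))))))))))))))))))))))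
 (Ls.cons (Ls.cons Ent.zero (Ls.cons Ent.zero (Ls.cons Ent.zero (Ls.cons Ent.zero (Ls.cons Ent.zero (Ls.cons Ent.zero (Ls.cons Ent.zero (Ls.cons Ent.zero (Ls.cons Ent.zero (Ls.cons Ent.zero (Ls.cons Ent.zero (Ls.cons Ent.zero (Ls.cons Ent.zero (Ls.cons Ent.zero (Ls.cons Ent.zero (Ls.cons Ent.zero (Ls.cons Ent.zero (Ls.cons Ent.zero (Ls.cons Ent.zero (Ls.cons Ent.zero (Ls.cons Ent.zero (Ls.cons Ent.zero (Ls.cons Ent.zero (Ls.cons Ent.zero (Ls.cons Ent.zero Ls.nil)))))))))))))))))))))))))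
 (Ls.cons (Ls.cons Ent.zero (Ls.cons Ent.zero (Ls.cons Ent.zero (Ls.cons Ent.zero (Ls.cons Ent.zero (Ls.cons Ent.zero (Ls.cons Ent.zero (Ls.cons Ent.zero (Ls.cons Ent.zero (Ls.cons Ent.zero (Ls.cons Ent.zero (Ls.cons Ent.zero (Ls.cons Ent.zero (Ls.cons Ent.zero (Ls.cons Ent.zero (Ls.cons (Ent.neg F4_11_10_9) (Ls.cons (Ent.pos F4_11_10_8) (Ls.cons Ent.zero (Ls.cons Ent.zero (Ls.cons Ent.zero (Ls.cons Ent.zero (Ls.cons Ent.zero (Ls.cons Ent.zero (Ls.cons (Ent.neg F4_11_10_1) (Ls.cons (Ent.pos F4_11_10_0) Ls.nil)))))))))))))))))))))))))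
 (Ls.cons (Ls.cons Ent.zero (Ls.cons Ent.zero (Ls.cons Ent.zero (Ls.cons Ent.zero (Ls.cons Ent.zero (Ls.cons Ent.zero (Ls.cons Ent.zero (Ls.cons Ent.zero (Ls.cons (Ent.neg F4_16_11_9) (Ls.cons (Ent.neg F4_15_11_9) (Ls.cons Ent.zero (Ls.cons Ent.zero (Ls.cons Ent.zero (Ls.cons Ent.zero (Ls.cons (Ent.pos F4_11_10_9) (Ls.cons Ent.zero (Ls.cons (Ent.neg F4_11_9_8) (Ls.cons Ent.zero (Ls.cons Ent.zero (Ls.cons Ent.zero (Ls.cons Ent.zero (Ls.cons (Ent.pos F4_11_9_3) (Ls.cons (Ent.pos F4_11_9_2) (Ls.cons (Ent.neg F4_11_9_1) (Ls.cons (Ent.pos F4_11_9_0) Ls.nil)))))))))))))))))))))))))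
 (Ls.cons (Ls.cons Ent.zero (Ls.cons Ent.zero (Ls.cons Ent.zero (Ls.cons Ent.zero (Ls.cons Ent.zero (Ls.cons Ent.zero (Ls.cons Ent.zero (Ls.cons (Ent.neg F4_17_11_8) (Ls.cons (Ent.neg F4_16_11_8) (Ls.cons Ent.zero (Ls.cons (Ent.neg F4_14_11_8) (Ls.cons Ent.zero (Ls.cons Ent.zero (Ls.cons Ent.zero (Ls.cons (Ent.neg F4_11_10_8) (Ls.cons (Ent.pos F4_11_9_8) (Ls.cons Ent.zero (Ls.cons Ent.zero (Ls.cons Ent.zero (Ls.cons (Ent.pos F4_11_8_5) (Ls.cons Ent.zero (Ls.cons (Ent.pos F4_11_8_3) (Ls.cons (Ent.pos F4_11_8_2) (Ls.cons (Ent.neg F4_11_8_1) (Ls.cons (Ent.pos F4_11_8_0) Ls.nil)))))))))))))))))))))))))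
 (Ls.cons (Ls.cons Ent.zero (Ls.cons Ent.zero (Ls.cons Ent.zero (Ls.cons Ent.zero (Ls.cons Ent.zero (Ls.cons Ent.zero (Ls.cons (Ent.neg F4_18_11_7) (Ls.cons (Ent.neg F4_17_11_7) (Ls.cons (Ent.neg F4_16_11_7) (Ls.cons (Ent.neg F4_15_11_7) (Ls.cons Ent.zero (Ls.cons Ent.zero (Ls.cons Ent.zero (Ls.cons Ent.zero (Ls.cons Ent.zero (Ls.cons Ent.zero (Ls.cons Ent.zero (Ls.cons Ent.zero (Ls.cons Ent.zero (Ls.cons (Ent.pos F4_11_7_5) (Ls.cons (Ent.pos F4_11_7_4) (Ls.cons (Ent.pos F4_11_7_3) (Ls.cons (Ent.pos F4_11_7_2) (Ls.cons (Ent.neg F4_11_7_1) (Ls.cons (Ent.pos F4_11_7_0) Ls.nil)))))))))))))))))))))))))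
 (Ls.cons (Ls.cons Ent.zero (Ls.cons Ent.zero (Ls.cons Ent.zero (Ls.cons Ent.zero (Ls.cons Ent.zero (Ls.cons (Ent.neg F4_19_11_6) (Ls.cons (Ent.neg F4_18_11_6) (Ls.cons (Ent.neg F4_17_11_6) (Ls.cons Ent.zero (Ls.cons Ent.zero (Ls.cons Ent.zero (Ls.cons Ent.zero (Ls.cons Ent.zero (Ls.cons Ent.zero (Ls.cons Ent.zero (Ls.cons Ent.zero (Ls.cons Ent.zero (Ls.cons Ent.zero (Ls.cons Ent.zero (Ls.cons Ent.zero (Ls.cons (Ent.pos F4_11_6_4) (Ls.cons (Ent.pos F4_11_6_3) (Ls.cons (Ent.pos F4_11_6_2) (Ls.cons (Ent.neg F4_11_6_1) (Ls.cons (Ent.pos F4_11_6_0) Ls.nil)))))))))))))))))))))))))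
 (Ls.cons (Ls.cons Ent.zero (Ls.cons Ent.zero (Ls.cons Ent.zero (Ls.cons Ent.zero (Ls.cons Ent.zero (Ls.cons (Ent.neg F4_19_11_5) (Ls.cons Ent.zero (Ls.cons Ent.zero (Ls.cons Ent.zero (Ls.cons (Ent.pos F4_15_11_5) (Ls.cons (Ent.pos F4_14_11_5) (Ls.cons Ent.zero (Ls.cons Ent.zero (Ls.cons Ent.zero (Ls.cons Ent.zero (Ls.cons Ent.zero (Ls.cons (Ent.neg F4_11_8_5) (Ls.cons (Ent.neg F4_11_7_5) (Ls.cons Ent.zero (Ls.cons Ent.zero (Ls.cons Ent.zero (Ls.cons (Ent.pos F4_11_5_3) (Ls.cons (Ent.pos F4_11_5_2) (Ls.cons (Ent.neg F4_11_5_1) (Ls.cons (Ent.pos F4_11_5_0) Ls.nil)))))))))))))))))))))))))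
 (Ls.cons (Ls.cons Ent.zero (Ls.cons Ent.zero (Ls.cons Ent.zero (Ls.cons Ent.zero (Ls.cons Ent.zero (Ls.cons Ent.zero (Ls.cons Ent.zero (Ls.cons (Ent.pos F4_17_11_4) (Ls.cons (Ent.pos F4_16_11_4) (Ls.cons Ent.zero (Ls.cons Ent.zero (Ls.cons Ent.zero (Ls.cons Ent.zero (Ls.cons Ent.zero (Ls.cons Ent.zero (Ls.cons Ent.zero (Ls.cons Ent.zero (Ls.cons (Ent.neg F4_11_7_4) (Ls.cons (Ent.neg F4_11_6_4) (Ls.cons Ent.zero (Ls.cons Ent.zero (Ls.cons (Ent.pos F4_11_4_3) (Ls.cons (Ent.pos F4_11_4_2) (Ls.cons (Ent.neg F4_11_4_1) (Ls.cons (Ent.pos F4_11_4_0) Ls.nil)))))))))))))))))))))))))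
 (Ls.cons (Ls.cons Ent.zero (Ls.cons Ent.zero (Ls.cons Ent.zero (Ls.cons Ent.zero (Ls.cons Ent.zero (Ls.cons (Ent.pos F4_19_11_3) (Ls.cons (Ent.pos F4_18_11_3) (Ls.cons (Ent.pos F4_17_11_3) (Ls.cons (Ent.pos F4_16_11_3) (Ls.cons (Ent.pos F4_15_11_3) (Ls.cons Ent.zero (Ls.cons Ent.zero (Ls.cons Ent.zero (Ls.cons Ent.zero (Ls.cons Ent.zero (Ls.cons (Ent.neg F4_11_9_3) (Ls.cons (Ent.neg F4_11_8_3) (Ls.cons (Ent.neg F4_11_7_3) (Ls.cons (Ent.neg F4_11_6_3) (Ls.cons (Ent.neg F4_11_5_3) (Ls.cons (Ent.neg F4_11_4_3) (Ls.cons Ent.zero (Ls.cons (Ent.pos F4_11_3_2) (Ls.cons (Ent.neg F4_11_3_1) (Ls.cons (Ent.pos F4_11_3_0) Ls.nil)))))))))))))))))))))))))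
 (Ls.cons (Ls.cons Ent.zero (Ls.cons Ent.zero (Ls.cons Ent.zero (Ls.cons Ent.zero (Ls.cons (Ent.pos F4_20_11_2) (Ls.cons (Ent.pos F4_19_11_2) (Ls.cons (Ent.pos F4_18_11_2) (Ls.cons (Ent.pos F4_17_11_2) (Ls.cons (Ent.pos F4_16_11_2) (Ls.cons Ent.zero (Ls.cons Ent.zero (Ls.cons (Ent.neg F4_13_11_2) (Ls.cons (Ent.pos F4_12_11_2) (Ls.cons Ent.zero (Ls.cons Ent.zero (Ls.cons (Ent.neg F4_11_9_2) (Ls.cons (Ent.neg F4_11_8_2) (Ls.cons (Ent.neg F4_11_7_2) (Ls.cons (Ent.neg F4_11_6_2) (Ls.cons (Ent.neg F4_11_5_2) (Ls.cons (Ent.neg F4_11_4_2) (Ls.cons (Ent.neg F4_11_3_2) (Ls.cons Ent.zero (Ls.cons (Ent.pos F4_11_2_1) (Ls.cons (Ent.neg F4_11_2_0) Ls.nil)))))))))))))))))))))))))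
 (Ls.cons (Ls.cons Ent.zero (Ls.cons Ent.zero (Ls.cons Ent.zero (Ls.cons Ent.zero (Ls.cons (Ent.neg F4_20_11_1) (Ls.cons (Ent.neg F4_19_11_1) (Ls.cons (Ent.neg F4_18_11_1) (Ls.cons (Ent.neg F4_17_11_1) (Ls.cons (Ent.neg F4_16_11_1) (Ls.cons (Ent.neg F4_15_11_1) (Ls.cons (Ent.neg F4_14_11_1) (Ls.cons (Ent.pos F4_13_11_1) (Ls.cons (Ent.neg F4_12_11_1) (Ls.cons Ent.zero (Ls.cons (Ent.pos F4_11_10_1) (Ls.cons (Ent.pos F4_11_9_1) (Ls.cons (Ent.pos F4_11_8_1) (Ls.cons (Ent.pos F4_11_7_1) (Ls.cons (Ent.pos F4_11_6_1) (Ls.cons (Ent.pos F4_11_5_1) (Ls.cons (Ent.pos F4_11_4_1) (Ls.cons (Ent.pos F4_11_3_1) (Ls.cons (Ent.neg F4_11_2_1) (Ls.cons Ent.zero (Ls.cons (Ent.pos F4_11_1_0) Ls.nil)))))))))))))))))))))))))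
 (Ls.cons (Ls.cons Ent.zero (Ls.cons Ent.zero (Ls.cons (Ent.pos F4_22_11_0) (Ls.cons (Ent.pos F4_21_11_0) (Ls.cons (Ent.pos F4_20_11_0) (Ls.cons (Ent.pos F4_19_11_0) (Ls.cons (Ent.pos F4_18_11_0) (Ls.cons (Ent.pos F4_17_11_0) (Ls.cons (Ent.pos F4_16_11_0) (Ls.cons (Ent.pos F4_15_11_0) (Ls.cons (Ent.pos F4_14_11_0) (Ls.cons (Ent.neg F4_13_11_0) (Ls.cons (Ent.pos F4_12_11_0) (Ls.cons Ent.zero (Ls.cons (Ent.neg F4_11_10_0) (Ls.cons (Ent.neg F4_11_9_0) (Ls.cons (Ent.neg F4_11_8_0) (Ls.cons (Ent.neg F4_11_7_0) (Ls.cons (Ent.neg F4_11_6_0) (Ls.cons (Ent.neg F4_11_5_0) (Ls.cons (Ent.neg F4_11_4_0) (Ls.cons (Ent.neg F4_11_3_0) (Ls.cons (Ent.pos F4_11_2_0) (Ls.cons (Ent.neg F4_11_1_0) (Ls.cons Ent.zero Ls.nil)))))))))))))))))))))))))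
 Ls.nil))))))))))))))))))))

noncomputable def bxF4_12 : L2 :=
 (Ls.cons (Ls.cons Ent.zero (Ls.cons Ent.zero (Ls.cons Ent.zero (Ls.cons Ent.zero (Ls.cons Ent.zero (Ls.cons Ent.zero (Ls.cons Ent.zero (Ls.cons Ent.zero (Ls.cons Ent.zero (Ls.cons Ent.zero (Ls.cons Ent.zero (Ls.cons Ent.zero (Ls.cons Ent.zero (Ls.cons Ent.zero (Ls.cons Ent.zero (Ls.cons Ent.zero (Ls.cons Ent.zero (Ls.cons Ent.zero (Ls.cons Ent.zero (Ls.cons (Ent.pos F4_19_12_5) (Ls.cons Ent.zero (Ls.cons Ent.zero (Ls.cons (Ent.neg F4_19_12_2) (Ls.cons (Ent.pos F4_19_12_1) (Ls.cons (Ent.neg F4_19_12_0) Ls.nil)))))))))))))))))))))))))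
 (Ls.cons (Ls.cons Ent.zero (Ls.cons Ent.zero (Ls.cons Ent.zero (Ls.cons Ent.zero (Ls.cons Ent.zero (Ls.cons Ent.zero (Ls.cons Ent.zero (Ls.cons Ent.zero (Ls.cons Ent.zero (Ls.cons Ent.zero (Ls.cons Ent.zero (Ls.cons Ent.zero (Ls.cons Ent.zero (Ls.cons Ent.zero (Ls.cons Ent.zero (Ls.cons Ent.zero (Ls.cons Ent.zero (Ls.cons Ent.zero (Ls.cons (Ent.pos F4_18_12_6) (Ls.cons (Ent.pos F4_18_12_5) (Ls.cons Ent.zero (Ls.cons (Ent.neg F4_18_12_3) (Ls.cons (Ent.neg F4_18_12_2) (Ls.cons (Ent.pos F4_18_12_1) (Ls.cons (Ent.neg F4_18_12_0) Ls.nil)))))))))))))))))))))))))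
 (Ls.cons (Ls.cons Ent.zero (Ls.cons Ent.zero (Ls.cons Ent.zero (Ls.cons Ent.zero (Ls.cons Ent.zero (Ls.cons Ent.zero (Ls.cons Ent.zero (Ls.cons Ent.zero (Ls.cons Ent.zero (Ls.cons Ent.zero (Ls.cons Ent.zero (Ls.cons Ent.zero (Ls.cons Ent.zero (Ls.cons Ent.zero (Ls.cons Ent.zero (Ls.cons Ent.zero (Ls.cons Ent.zero (Ls.cons (Ent.pos F4_17_12_7) (Ls.cons (Ent.pos F4_17_12_6) (Ls.cons (Ent.pos F4_17_12_5) (Ls.cons (Ent.neg F4_17_12_4) (Ls.cons (Ent.neg F4_17_12_3) (Ls.cons (Ent.neg F4_17_12_2) (Ls.cons (Ent.pos F4_17_12_1) (Ls.cons (Ent.neg F4_17_12_0) Ls.nil)))))))))))))))))))))))))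
 (Ls.cons (Ls.cons Ent.zero (Ls.cons Ent.zero (Ls.cons Ent.zero (Ls.cons Ent.zero (Ls.cons Ent.zero (Ls.cons Ent.zero (Ls.cons Ent.zero (Ls.cons Ent.zero (Ls.cons Ent.zero (Ls.cons Ent.zero (Ls.cons Ent.zero (Ls.cons Ent.zero (Ls.cons Ent.zero (Ls.cons Ent.zero (Ls.cons Ent.zero (Ls.cons Ent.zero (Ls.cons (Ent.pos F4_16_12_8) (Ls.cons (Ent.pos F4_16_12_7) (Ls.cons (Ent.pos F4_16_12_6) (Ls.cons Ent.zero (Ls.cons (Ent.neg F4_16_12_4) (Ls.cons (Ent.neg F4_16_12_3) (Ls.cons (Ent.neg F4_16_12_2) (Ls.cons (Ent.pos F4_16_12_1) (Ls.cons (Ent.neg F4_16_12_0) Ls.nil)))))))))))))))))))))))))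
 (Ls.cons (Ls.cons Ent.zero (Ls.cons Ent.zero (Ls.cons Ent.zero (Ls.cons Ent.zero (Ls.cons Ent.zero (Ls.cons Ent.zero (Ls.cons Ent.zero (Ls.cons Ent.zero (Ls.cons Ent.zero (Ls.cons Ent.zero (Ls.cons Ent.zero (Ls.cons Ent.zero (Ls.cons Ent.zero (Ls.cons Ent.zero (Ls.cons Ent.zero (Ls.cons (Ent.pos F4_15_12_9) (Ls.cons (Ent.pos F4_15_12_8) (Ls.cons (Ent.pos F4_15_12_7) (Ls.cons Ent.zero (Ls.cons Ent.zero (Ls.cons (Ent.neg F4_15_12_4) (Ls.cons (Ent.neg F4_15_12_3) (Ls.cons (Ent.neg F4_15_12_2) (Ls.cons (Ent.pos F4_15_12_1) (Ls.cons (Ent.neg F4_15_12_0) Ls.nil)))))))))))))))))))))))))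
 (Ls.cons (Ls.cons Ent.zero (Ls.cons Ent.zero (Ls.cons Ent.zero (Ls.cons Ent.zero (Ls.cons Ent.zero (Ls.cons Ent.zero (Ls.cons Ent.zero (Ls.cons Ent.zero (Ls.cons Ent.zero (Ls.cons Ent.zero (Ls.cons Ent.zero (Ls.cons Ent.zero (Ls.cons Ent.zero (Ls.cons Ent.zero (Ls.cons Ent.zero (Ls.cons (Ent.pos F4_14_12_9) (Ls.cons (Ent.pos F4_14_12_8) (Ls.cons Ent.zero (Ls.cons Ent.zero (Ls.cons Ent.zero (Ls.cons (Ent.neg F4_14_12_4) (Ls.cons (Ent.neg F4_14_12_3) (Ls.cons Ent.zero (Ls.cons (Ent.pos F4_14_12_1) (Ls.cons (Ent.neg F4_14_12_0) Ls.nil)))))))))))))))))))))))))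
 (Ls.cons (Ls.cons Ent.zero (Ls.cons Ent.zero (Ls.cons Ent.zero (Ls.cons Ent.zero (Ls.cons Ent.zero (Ls.cons Ent.zero (Ls.cons Ent.zero (Ls.cons Ent.zero (Ls.cons Ent.zero (Ls.cons Ent.zero (Ls.cons Ent.zero (Ls.cons Ent.zero (Ls.cons Ent.zero (Ls.cons (Ent.pos F4_13_12_11) (Ls.cons Ent.zero (Ls.cons (Ent.pos F4_13_12_9) (Ls.cons Ent.zero (Ls.cons (Ent.pos F4_13_12_7) (Ls.cons (Ent.neg F4_13_12_6) (Ls.cons Ent.zero (Ls.cons (Ent.neg F4_13_12_4) (Ls.cons Ent.zero (Ls.cons (Ent.neg F4_13_12_2) (Ls.cons (Ent.pos F4_13_12_1) (Ls.cons (Ent.neg F4_13_12_0) Ls.nil)))))))))))))))))))))))))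
 (Ls.cons (Ls.cons Ent.zero (Ls.cons Ent.zero (Ls.cons Ent.zero (Ls.cons Ent.zero (Ls.cons Ent.zero (Ls.cons Ent.zero (Ls.cons Ent.zero (Ls.cons Ent.zero (Ls.cons Ent.zero (Ls.cons Ent.zero (Ls.cons Ent.zero (Ls.cons Ent.zero (Ls.cons Ent.zero (Ls.cons Ent.zero (Ls.cons Ent.zero (Ls.cons Ent.zero (Ls.cons Ent.zero (Ls.cons Ent.zero (Ls.cons Ent.zero (Ls.cons Ent.zero (Ls.cons Ent.zero (Ls.cons Ent.zero (Ls.cons Ent.zero (Ls.cons Ent.zero (Ls.cons Ent.zero Ls.nil)))))))))))))))))))))))))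
 (Ls.cons (Ls.cons Ent.zero (Ls.cons Ent.zero (Ls.cons Ent.zero (Ls.cons Ent.zero (Ls.cons Ent.zero (Ls.cons Ent.zero (Ls.cons Ent.zero (Ls.cons Ent.zero (Ls.cons Ent.zero (Ls.cons Ent.zero (Ls.cons Ent.zero (Ls.cons (Ent.neg F4_13_12_11) (Ls.cons Ent.zero (Ls.cons Ent.zero (Ls.cons Ent.zero (Ls.cons Ent.zero (Ls.cons Ent.zero (Ls.cons Ent.zero (Ls.cons Ent.zero (Ls.cons Ent.zero (Ls.cons Ent.zero (Ls.cons Ent.zero (Ls.cons (Ent.pos F4_12_11_2) (Ls.cons (Ent.neg F4_12_11_1) (Ls.cons (Ent.pos F4_12_11_0) Ls.nil)))))))))))))))))))))))))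
 (Ls.cons (Ls.cons Ent.zero (Ls.cons Ent.zero (Ls.cons Ent.zero (Ls.cons Ent.zero (Ls.cons Ent.zero (Ls.cons Ent.zero (Ls.cons Ent.zero (Ls.cons Ent.zero (Ls.cons Ent.zero (Ls.cons Ent.zero (Ls.cons Ent.zero (Ls.cons Ent.zero (Ls.cons Ent.zero (Ls.cons Ent.zero (Ls.cons Ent.zero (Ls.cons Ent.zero (Ls.cons Ent.zero (Ls.cons Ent.zero (Ls.cons Ent.zero (Ls.cons Ent.zero (Ls.cons Ent.zero (Ls.cons Ent.zero (Ls.cons Ent.zero (Ls.cons Ent.zero (Ls.cons Ent.zero Ls.nil)))))))))))))))))))))))))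
 (Ls.cons (Ls.cons Ent.zero (Ls.cons Ent.zero (Ls.cons Ent.zero (Ls.cons Ent.zero (Ls.cons Ent.zero (Ls.cons Ent.zero (Ls.cons Ent.zero (Ls.cons Ent.zero (Ls.cons Ent.zero (Ls.cons (Ent.neg F4_15_12_9) (Ls.cons (Ent.neg F4_14_12_9) (Ls.cons (Ent.neg F4_13_12_9) (Ls.cons Ent.zero (Ls.cons Ent.zero (Ls.cons Ent.zero (Ls.cons Ent.zero (Ls.cons Ent.zero (Ls.cons Ent.zero (Ls.cons Ent.zero (Ls.cons Ent.zero (Ls.cons (Ent.pos F4_12_9_4) (Ls.cons (Ent.pos F4_12_9_3) (Ls.cons (Ent.pos F4_12_9_2) (Ls.cons (Ent.neg F4_12_9_1) (Ls.cons (Ent.pos F4_12_9_0) Ls.nil)))))))))))))))))))))))))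
 (Ls.cons (Ls.cons Ent.zero (Ls.cons Ent.zero (Ls.cons Ent.zero (Ls.cons Ent.zero (Ls.cons Ent.zero (Ls.cons Ent.zero (Ls.cons Ent.zero (Ls.cons Ent.zero (Ls.cons (Ent.neg F4_16_12_8) (Ls.cons (Ent.neg F4_15_12_8) (Ls.cons (Ent.neg F4_14_12_8) (Ls.cons Ent.zero (Ls.cons Ent.zero (Ls.cons Ent.zero (Ls.cons Ent.zero (Ls.cons Ent.zero (Ls.cons Ent.zero (Ls.cons Ent.zero (Ls.cons Ent.zero (Ls.cons Ent.zero (Ls.cons (Ent.pos F4_12_8_4) (Ls.cons (Ent.pos F4_12_8_3) (Ls.cons (Ent.pos F4_12_8_2) (Ls.cons (Ent.neg F4_12_8_1) (Ls.cons (Ent.pos F4_12_8_0) Ls.nil)))))))))))))))))))))))))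
 (Ls.cons (Ls.cons Ent.zero (Ls.cons Ent.zero (Ls.cons Ent.zero (Ls.cons Ent.zero (Ls.cons Ent.zero (Ls.cons Ent.zero (Ls.cons Ent.zero (Ls.cons (Ent.neg F4_17_12_7) (Ls.cons (Ent.neg F4_16_12_7) (Ls.cons (Ent.neg F4_15_12_7) (Ls.cons Ent.zero (Ls.cons (Ent.neg F4_13_12_7) (Ls.cons Ent.zero (Ls.cons Ent.zero (Ls.cons Ent.zero (Ls.cons Ent.zero (Ls.cons Ent.zero (Ls.cons Ent.zero (Ls.cons (Ent.pos F4_12_7_6) (Ls.cons Ent.zero (Ls.cons (Ent.pos F4_12_7_4) (Ls.cons (Ent.pos F4_12_7_3) (Ls.cons (Ent.pos F4_12_7_2) (Ls.cons (Ent.neg F4_12_7_1) (Ls.cons (Ent.pos F4_12_7_0) Ls.nil)))))))))))))))))))))))))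
 (Ls.cons (Ls.cons Ent.zero (Ls.cons Ent.zero (Ls.cons Ent.zero (Ls.cons Ent.zero (Ls.cons Ent.zero (Ls.cons Ent.zero (Ls.cons (Ent.neg F4_18_12_6) (Ls.cons (Ent.neg F4_17_12_6) (Ls.cons (Ent.neg F4_16_12_6) (Ls.cons Ent.zero (Ls.cons Ent.zero (Ls.cons (Ent.pos F4_13_12_6) (Ls.cons Ent.zero (Ls.cons Ent.zero (Ls.cons Ent.zero (Ls.cons Ent.zero (Ls.cons Ent.zero (Ls.cons (Ent.neg F4_12_7_6) (Ls.cons Ent.zero (Ls.cons Ent.zero (Ls.cons (Ent.pos F4_12_6_4) (Ls.cons (Ent.pos F4_12_6_3) (Ls.cons (Ent.pos F4_12_6_2) (Ls.cons (Ent.neg F4_12_6_1) (Ls.cons (Ent.pos F4_12_6_0) Ls.nil)))))))))))))))))))))))))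
 (Ls.cons (Ls.cons Ent.zero (Ls.cons Ent.zero (Ls.cons Ent.zero (Ls.cons Ent.zero (Ls.cons Ent.zero (Ls.cons (Ent.neg F4_19_12_5) (Ls.cons (Ent.neg F4_18_12_5) (Ls.cons (Ent.neg F4_17_12_5) (Ls.cons Ent.zero (Ls.cons Ent.zero (Ls.cons Ent.zero (Ls.cons Ent.zero (Ls.cons Ent.zero (Ls.cons Ent.zero (Ls.cons Ent.zero (Ls.cons Ent.zero (Ls.cons Ent.zero (Ls.cons Ent.zero (Ls.cons Ent.zero (Ls.cons Ent.zero (Ls.cons (Ent.pos F4_12_5_4) (Ls.cons (Ent.pos F4_12_5_3) (Ls.cons (Ent.pos F4_12_5_2) (Ls.cons (Ent.neg F4_12_5_1) (Ls.cons (Ent.pos F4_12_5_0) Ls.nil)))))))))))))))))))))))))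
 (Ls.cons (Ls.cons Ent.zero (Ls.cons Ent.zero (Ls.cons Ent.zero (Ls.cons Ent.zero (Ls.cons Ent.zero (Ls.cons Ent.zero (Ls.cons Ent.zero (Ls.cons (Ent.pos F4_17_12_4) (Ls.cons (Ent.pos F4_16_12_4) (Ls.cons (Ent.pos F4_15_12_4) (Ls.cons (Ent.pos F4_14_12_4) (Ls.cons (Ent.pos F4_13_12_4) (Ls.cons Ent.zero (Ls.cons Ent.zero (Ls.cons Ent.zero (Ls.cons (Ent.neg F4_12_9_4) (Ls.cons (Ent.neg F4_12_8_4) (Ls.cons (Ent.neg F4_12_7_4) (Ls.cons (Ent.neg F4_12_6_4) (Ls.cons (Ent.neg F4_12_5_4) (Ls.cons Ent.zero (Ls.cons Ent.zero (Ls.cons (Ent.pos F4_12_4_2) (Ls.cons (Ent.neg F4_12_4_1) (Ls.cons (Ent.pos F4_12_4_0) Ls.nil)))))))))))))))))))))))))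
 (Ls.cons (Ls.cons Ent.zero (Ls.cons Ent.zero (Ls.cons Ent.zero (Ls.cons Ent.zero (Ls.cons Ent.zero (Ls.cons Ent.zero (Ls.cons (Ent.pos F4_18_12_3) (Ls.cons (Ent.pos F4_17_12_3) (Ls.cons (Ent.pos F4_16_12_3) (Ls.cons (Ent.pos F4_15_12_3) (Ls.cons (Ent.pos F4_14_12_3) (Ls.cons Ent.zero (Ls.cons Ent.zero (Ls.cons Ent.zero (Ls.cons Ent.zero (Ls.cons (Ent.neg F4_12_9_3) (Ls.cons (Ent.neg F4_12_8_3) (Ls.cons (Ent.neg F4_12_7_3) (Ls.cons (Ent.neg F4_12_6_3) (Ls.cons (Ent.neg F4_12_5_3) (Ls.cons Ent.zero (Ls.cons Ent.zero (Ls.cons (Ent.pos F4_12_3_2) (Ls.cons (Ent.neg F4_12_3_1) (Ls.cons (Ent.pos F4_12_3_0) Ls.nil)))))))))))))))))))))))))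
 (Ls.cons (Ls.cons Ent.zero (Ls.cons Ent.zero (Ls.cons Ent.zero (Ls.cons Ent.zero (Ls.cons Ent.zero (Ls.cons (Ent.pos F4_19_12_2) (Ls.cons (Ent.pos F4_18_12_2) (Ls.cons (Ent.pos F4_17_12_2) (Ls.cons (Ent.pos F4_16_12_2) (Ls.cons (Ent.pos F4_15_12_2) (Ls.cons Ent.zero (Ls.cons (Ent.pos F4_13_12_2) (Ls.cons Ent.zero (Ls.cons (Ent.neg F4_12_11_2) (Ls.cons Ent.zero (Ls.cons (Ent.neg F4_12_9_2) (Ls.cons (Ent.neg F4_12_8_2) (Ls.cons (Ent.neg F4_12_7_2) (Ls.cons (Ent.neg F4_12_6_2) (Ls.cons (Ent.neg F4_12_5_2) (Ls.cons (Ent.neg F4_12_4_2) (Ls.cons (Ent.neg F4_12_3_2) (Ls.cons Ent.zero (Ls.cons (Ent.pos F4_12_2_1) (Ls.cons (Ent.neg F4_12_2_0) Ls.nil)))))))))))))))))))))))))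
 (Ls.cons (Ls.cons Ent.zero (Ls.cons Ent.zero (Ls.cons Ent.zero (Ls.cons Ent.zero (Ls.cons (Ent.neg F4_20_12_1) (Ls.cons (Ent.neg F4_19_12_1) (Ls.cons (Ent.neg F4_18_12_1) (Ls.cons (Ent.neg F4_17_12_1) (Ls.cons (Ent.neg F4_16_12_1) (Ls.cons (Ent.neg F4_15_12_1) (Ls.cons (Ent.neg F4_14_12_1) (Ls.cons (Ent.neg F4_13_12_1) (Ls.cons Ent.zero (Ls.cons (Ent.pos F4_12_11_1) (Ls.cons Ent.zero (Ls.cons (Ent.pos F4_12_9_1) (Ls.cons (Ent.pos F4_12_8_1) (Ls.cons (Ent.pos F4_12_7_1) (Ls.cons (Ent.pos F4_12_6_1) (Ls.cons (Ent.pos F4_12_5_1) (Ls.cons (Ent.pos F4_12_4_1) (Ls.cons (Ent.pos F4_12_3_1) (Ls.cons (Ent.neg F4_12_2_1) (Ls.cons Ent.zero (Ls.cons (Ent.pos F4_12_1_0) Ls.nil)))))))))))))))))))))))))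
 (Ls.cons (Ls.cons Ent.zero (Ls.cons Ent.zero (Ls.cons Ent.zero (Ls.cons (Ent.pos F4_21_12_0) (Ls.cons (Ent.pos F4_20_12_0) (Ls.cons (Ent.pos F4_19_12_0) (Ls.cons (Ent.pos F4_18_12_0) (Ls.cons (Ent.pos F4_17_12_0) (Ls.cons (Ent.pos F4_16_12_0) (Ls.cons (Ent.pos F4_15_12_0) (Ls.cons (Ent.pos F4_14_12_0) (Ls.cons (Ent.pos F4_13_12_0) (Ls.cons Ent.zero (Ls.cons (Ent.neg F4_12_11_0) (Ls.cons Ent.zero (Ls.cons (Ent.neg F4_12_9_0) (Ls.cons (Ent.neg F4_12_8_0) (Ls.cons (Ent.neg F4_12_7_0) (Ls.cons (Ent.neg F4_12_6_0) (Ls.cons (Ent.neg F4_12_5_0) (Ls.cons (Ent.neg F4_12_4_0) (Ls.cons (Ent.neg F4_12_3_0) (Ls.cons (Ent.pos F4_12_2_0) (Ls.cons (Ent.neg F4_12_1_0) (Ls.cons Ent.zero Ls.nil)))))))))))))))))))))))))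
 Ls.nil))))))))))))))))))))

noncomputable def bxF4_13 : L2 :=
 (Ls.cons (Ls.cons Ent.zero (Ls.cons Ent.zero (Ls.cons Ent.zero (Ls.cons Ent.zero (Ls.cons Ent.zero (Ls.cons Ent.zero (Ls.cons Ent.zero (Ls.cons Ent.zero (Ls.cons Ent.zero (Ls.cons Ent.zero (Ls.cons Ent.zero (Ls.cons Ent.zero (Ls.cons Ent.zero (Ls.cons Ent.zero (Ls.cons Ent.zero (Ls.cons Ent.zero (Ls.cons Ent.zero (Ls.cons Ent.zero (Ls.cons Ent.zero (Ls.cons Ent.zero (Ls.cons (Ent.pos F4_19_13_4) (Ls.cons Ent.zero (Ls.cons (Ent.neg F4_19_13_2) (Ls.cons (Ent.pos F4_19_13_1) (Ls.cons (Ent.neg F4_19_13_0) Ls.nil)))))))))))))))))))))))))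
 (Ls.cons (Ls.cons Ent.zero (Ls.cons Ent.zero (Ls.cons Ent.zero (Ls.cons Ent.zero (Ls.cons Ent.zero (Ls.cons Ent.zero (Ls.cons Ent.zero (Ls.cons Ent.zero (Ls.cons Ent.zero (Ls.cons Ent.zero (Ls.cons Ent.zero (Ls.cons Ent.zero (Ls.cons Ent.zero (Ls.cons Ent.zero (Ls.cons Ent.zero (Ls.cons Ent.zero (Ls.cons Ent.zero (Ls.cons Ent.zero (Ls.cons Ent.zero (Ls.cons (Ent.pos F4_18_13_5) (Ls.cons (Ent.pos F4_18_13_4) (Ls.cons (Ent.neg F4_18_13_3) (Ls.cons (Ent.neg F4_18_13_2) (Ls.cons (Ent.pos F4_18_13_1) (Ls.cons (Ent.neg F4_18_13_0) Ls.nil)))))))))))))))))))))))))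
 (Ls.cons (Ls.cons Ent.zero (Ls.cons Ent.zero (Ls.cons Ent.zero (Ls.cons Ent.zero (Ls.cons Ent.zero (Ls.cons Ent.zero (Ls.cons Ent.zero (Ls.cons Ent.zero (Ls.cons Ent.zero (Ls.cons Ent.zero (Ls.cons Ent.zero (Ls.cons Ent.zero (Ls.cons Ent.zero (Ls.cons Ent.zero (Ls.cons Ent.zero (Ls.cons Ent.zero (Ls.cons Ent.zero (Ls.cons Ent.zero (Ls.cons (Ent.pos F4_17_13_6) (Ls.cons (Ent.pos F4_17_13_5) (Ls.cons Ent.zero (Ls.cons (Ent.neg F4_17_13_3) (Ls.cons (Ent.neg F4_17_13_2) (Ls.cons (Ent.pos F4_17_13_1) (Ls.cons (Ent.neg F4_17_13_0) Ls.nil)))))))))))))))))))))))))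
 (Ls.cons (Ls.cons Ent.zero (Ls.cons Ent.zero (Ls.cons Ent.zero (Ls.cons Ent.zero (Ls.cons Ent.zero (Ls.cons Ent.zero (Ls.cons Ent.zero (Ls.cons Ent.zero (Ls.cons Ent.zero (Ls.cons Ent.zero (Ls.cons Ent.zero (Ls.cons Ent.zero (Ls.cons Ent.zero (Ls.cons Ent.zero (Ls.cons Ent.zero (Ls.cons Ent.zero (Ls.cons Ent.zero (Ls.cons (Ent.pos F4_16_13_7) (Ls.cons (Ent.pos F4_16_13_6) (Ls.cons Ent.zero (Ls.cons Ent.zero (Ls.cons (Ent.neg F4_16_13_3) (Ls.cons (Ent.neg F4_16_13_2) (Ls.cons (Ent.pos F4_16_13_1) (Ls.cons (Ent.neg F4_16_13_0) Ls.nil)))))))))))))))))))))))))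
 (Ls.cons (Ls.cons Ent.zero (Ls.cons Ent.zero (Ls.cons Ent.zero (Ls.cons Ent.zero (Ls.cons Ent.zero (Ls.cons Ent.zero (Ls.cons Ent.zero (Ls.cons Ent.zero (Ls.cons Ent.zero (Ls.cons Ent.zero (Ls.cons Ent.zero (Ls.cons Ent.zero (Ls.cons Ent.zero (Ls.cons Ent.zero (Ls.cons Ent.zero (Ls.cons Ent.zero (Ls.cons (Ent.pos F4_15_13_8) (Ls.cons (Ent.pos F4_15_13_7) (Ls.cons Ent.zero (Ls.cons Ent.zero (Ls.cons Ent.zero (Ls.cons (Ent.neg F4_15_13_3) (Ls.cons (Ent.neg F4_15_13_2) (Ls.cons (Ent.pos F4_15_13_1) (Ls.cons (Ent.neg F4_15_13_0) Ls.nil)))))))))))))))))))))))))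
 (Ls.cons (Ls.cons Ent.zero (Ls.cons Ent.zero (Ls.cons Ent.zero (Ls.cons Ent.zero (Ls.cons Ent.zero (Ls.cons Ent.zero (Ls.cons Ent.zero (Ls.cons Ent.zero (Ls.cons Ent.zero (Ls.cons Ent.zero (Ls.cons Ent.zero (Ls.cons Ent.zero (Ls.cons Ent.zero (Ls.cons Ent.zero (Ls.cons Ent.zero (Ls.cons Ent.zero (Ls.cons Ent.zero (Ls.cons Ent.zero (Ls.cons (Ent.pos F4_14_13_6) (Ls.cons (Ent.neg F4_14_13_5) (Ls.cons Ent.zero (Ls.cons Ent.zero (Ls.cons Ent.zero (Ls.cons (Ent.pos F4_14_13_1) (Ls.cons (Ent.neg F4_14_13_0) Ls.nil)))))))))))))))))))))))))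
 (Ls.cons (Ls.cons Ent.zero (Ls.cons Ent.zero (Ls.cons Ent.zero (Ls.cons Ent.zero (Ls.cons Ent.zero (Ls.cons Ent.zero (Ls.cons Ent.zero (Ls.cons Ent.zero (Ls.cons Ent.zero (Ls.cons Ent.zero (Ls.cons Ent.zero (Ls.cons Ent.zero (Ls.cons Ent.zero (Ls.cons Ent.zero (Ls.cons Ent.zero (Ls.cons Ent.zero (Ls.cons Ent.zero (Ls.cons Ent.zero (Ls.cons Ent.zero (Ls.cons Ent.zero (Ls.cons Ent.zero (Ls.cons Ent.zero (Ls.cons Ent.zero (Ls.cons Ent.zero (Ls.cons Ent.zero Ls.nil)))))))))))))))))))))))))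
 (Ls.cons (Ls.cons Ent.zero (Ls.cons Ent.zero (Ls.cons Ent.zero (Ls.cons Ent.zero (Ls.cons Ent.zero (Ls.cons Ent.zero (Ls.cons Ent.zero (Ls.cons Ent.zero (Ls.cons Ent.zero (Ls.cons Ent.zero (Ls.cons Ent.zero (Ls.cons Ent.zero (Ls.cons Ent.zero (Ls.cons (Ent.neg F4_13_12_11) (Ls.cons Ent.zero (Ls.cons (Ent.neg F4_13_12_9) (Ls.cons Ent.zero (Ls.cons (Ent.neg F4_13_12_7) (Ls.cons (Ent.pos F4_13_12_6) (Ls.cons Ent.zero (Ls.cons (Ent.pos F4_13_12_4) (Ls.cons Ent.zero (Ls.cons (Ent.pos F4_13_12_2) (Ls.cons (Ent.neg F4_13_12_1) (Ls.cons (Ent.pos F4_13_12_0) Ls.nil)))))))))))))))))))))))))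
 (Ls.cons (Ls.cons Ent.zero (Ls.cons Ent.zero (Ls.cons Ent.zero (Ls.cons Ent.zero (Ls.cons Ent.zero (Ls.cons Ent.zero (Ls.cons Ent.zero (Ls.cons Ent.zero (Ls.cons Ent.zero (Ls.cons Ent.zero (Ls.cons Ent.zero (Ls.cons Ent.zero (Ls.cons (Ent.pos F4_13_12_11) (Ls.cons Ent.zero (Ls.cons Ent.zero (Ls.cons Ent.zero (Ls.cons Ent.zero (Ls.cons Ent.zero (Ls.cons Ent.zero (Ls.cons Ent.zero (Ls.cons Ent.zero (Ls.cons Ent.zero (Ls.cons (Ent.neg F4_13_11_2) (Ls.cons (Ent.pos F4_13_11_1) (Ls.cons (Ent.neg F4_13_11_0) Ls.nil)))))))))))))))))))))))))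
 (Ls.cons (Ls.cons Ent.zero (Ls.cons Ent.zero (Ls.cons Ent.zero (Ls.cons Ent.zero (Ls.cons Ent.zero (Ls.cons Ent.zero (Ls.cons Ent.zero (Ls.cons Ent.zero (Ls.cons Ent.zero (Ls.cons Ent.zero (Ls.cons Ent.zero (Ls.cons Ent.zero (Ls.cons Ent.zero (Ls.cons Ent.zero (Ls.cons Ent.zero (Ls.cons (Ent.neg F4_13_10_9) (Ls.cons Ent.zero (Ls.cons Ent.zero (Ls.cons (Ent.pos F4_13_10_6) (Ls.cons Ent.zero (Ls.cons Ent.zero (Ls.cons Ent.zero (Ls.cons Ent.zero (Ls.cons (Ent.neg F4_13_10_1) (Ls.cons (Ent.pos F4_13_10_0) Ls.nil)))))))))))))))))))))))))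
 (Ls.cons (Ls.cons Ent.zero (Ls.cons Ent.zero (Ls.cons Ent.zero (Ls.cons Ent.zero (Ls.cons Ent.zero (Ls.cons Ent.zero (Ls.cons Ent.zero (Ls.cons Ent.zero (Ls.cons Ent.zero (Ls.cons Ent.zero (Ls.cons Ent.zero (Ls.cons Ent.zero (Ls.cons (Ent.pos F4_13_12_9) (Ls.cons Ent.zero (Ls.cons (Ent.pos F4_13_10_9) (Ls.cons Ent.zero (Ls.cons Ent.zero (Ls.cons Ent.zero (Ls.cons (Ent.neg F4_13_9_6) (Ls.cons Ent.zero (Ls.cons (Ent.neg F4_13_9_4) (Ls.cons Ent.zero (Ls.cons Ent.zero (Ls.cons (Ent.pos F4_13_9_1) (Ls.cons (Ent.neg F4_13_9_0) Ls.nil)))))))))))))))))))))))))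
 (Ls.cons (Ls.cons Ent.zero (Ls.cons Ent.zero (Ls.cons Ent.zero (Ls.cons Ent.zero (Ls.cons Ent.zero (Ls.cons Ent.zero (Ls.cons Ent.zero (Ls.cons Ent.zero (Ls.cons Ent.zero (Ls.cons (Ent.neg F4_15_13_8) (Ls.cons Ent.zero (Ls.cons Ent.zero (Ls.cons Ent.zero (Ls.cons Ent.zero (Ls.cons Ent.zero (Ls.cons Ent.zero (Ls.cons Ent.zero (Ls.cons Ent.zero (Ls.cons Ent.zero (Ls.cons Ent.zero (Ls.cons Ent.zero (Ls.cons Ent.zero (Ls.cons (Ent.pos F4_13_8_2) (Ls.cons (Ent.neg F4_13_8_1) (Ls.cons (Ent.pos F4_13_8_0) Ls.nil)))))))))))))))))))))))))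
 (Ls.cons (Ls.cons Ent.zero (Ls.cons Ent.zero (Ls.cons Ent.zero (Ls.cons Ent.zero (Ls.cons Ent.zero (Ls.cons Ent.zero (Ls.cons Ent.zero (Ls.cons Ent.zero (Ls.cons (Ent.neg F4_16_13_7) (Ls.cons (Ent.neg F4_15_13_7) (Ls.cons Ent.zero (Ls.cons Ent.zero (Ls.cons (Ent.pos F4_13_12_7) (Ls.cons Ent.zero (Ls.cons Ent.zero (Ls.cons Ent.zero (Ls.cons Ent.zero (Ls.cons Ent.zero (Ls.cons (Ent.neg F4_13_7_6) (Ls.cons Ent.zero (Ls.cons Ent.zero (Ls.cons (Ent.pos F4_13_7_3) (Ls.cons (Ent.pos F4_13_7_2) (Ls.cons (Ent.neg F4_13_7_1) (Ls.cons (Ent.pos F4_13_7_0) Ls.nil)))))))))))))))))))))))))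
 (Ls.cons (Ls.cons Ent.zero (Ls.cons Ent.zero (Ls.cons Ent.zero (Ls.cons Ent.zero (Ls.cons Ent.zero (Ls.cons Ent.zero (Ls.cons Ent.zero (Ls.cons (Ent.neg F4_17_13_6) (Ls.cons (Ent.neg F4_16_13_6) (Ls.cons Ent.zero (Ls.cons (Ent.neg F4_14_13_6) (Ls.cons Ent.zero (Ls.cons (Ent.neg F4_13_12_6) (Ls.cons Ent.zero (Ls.cons (Ent.neg F4_13_10_6) (Ls.cons (Ent.pos F4_13_9_6) (Ls.cons Ent.zero (Ls.cons (Ent.pos F4_13_7_6) (Ls.cons Ent.zero (Ls.cons (Ent.pos F4_13_6_5) (Ls.cons Ent.zero (Ls.cons (Ent.pos F4_13_6_3) (Ls.cons (Ent.pos F4_13_6_2) (Ls.cons (Ent.neg F4_13_6_1) (Ls.cons (Ent.pos F4_13_6_0) Ls.nil)))))))))))))))))))))))))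
 (Ls.cons (Ls.cons Ent.zero (Ls.cons Ent.zero (Ls.cons Ent.zero (Ls.cons Ent.zero (Ls.cons Ent.zero (Ls.cons Ent.zero (Ls.cons (Ent.neg F4_18_13_5) (Ls.cons (Ent.neg F4_17_13_5) (Ls.cons Ent.zero (Ls.cons Ent.zero (Ls.cons (Ent.pos F4_14_13_5) (Ls.cons Ent.zero (Ls.cons Ent.zero (Ls.cons Ent.zero (Ls.cons Ent.zero (Ls.cons Ent.zero (Ls.cons Ent.zero (Ls.cons Ent.zero (Ls.cons (Ent.neg F4_13_6_5) (Ls.cons Ent.zero (Ls.cons Ent.zero (Ls.cons (Ent.pos F4_13_5_3) (Ls.cons (Ent.pos F4_13_5_2) (Ls.cons (Ent.neg F4_13_5_1) (Ls.cons (Ent.pos F4_13_5_0) Ls.nil)))))))))))))))))))))))))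
 (Ls.cons (Ls.cons Ent.zero (Ls.cons Ent.zero (Ls.cons Ent.zero (Ls.cons Ent.zero (Ls.cons Ent.zero (Ls.cons (Ent.neg F4_19_13_4) (Ls.cons (Ent.neg F4_18_13_4) (Ls.cons Ent.zero (Ls.cons Ent.zero (Ls.cons Ent.zero (Ls.cons Ent.zero (Ls.cons Ent.zero (Ls.cons (Ent.neg F4_13_12_4) (Ls.cons Ent.zero (Ls.cons Ent.zero (Ls.cons (Ent.pos F4_13_9_4) (Ls.cons Ent.zero (Ls.cons Ent.zero (Ls.cons Ent.zero (Ls.cons Ent.zero (Ls.cons Ent.zero (Ls.cons (Ent.pos F4_13_4_3) (Ls.cons (Ent.pos F4_13_4_2) (Ls.cons (Ent.neg F4_13_4_1) (Ls.cons (Ent.pos F4_13_4_0) Ls.nil)))))))))))))))))))))))))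
 (Ls.cons (Ls.cons Ent.zero (Ls.cons Ent.zero (Ls.cons Ent.zero (Ls.cons Ent.zero (Ls.cons Ent.zero (Ls.cons Ent.zero (Ls.cons (Ent.pos F4_18_13_3) (Ls.cons (Ent.pos F4_17_13_3) (Ls.cons (Ent.pos F4_16_13_3) (Ls.cons (Ent.pos F4_15_13_3) (Ls.cons Ent.zero (Ls.cons Ent.zero (Ls.cons Ent.zero (Ls.cons Ent.zero (Ls.cons Ent.zero (Ls.cons Ent.zero (Ls.cons Ent.zero (Ls.cons (Ent.neg F4_13_7_3) (Ls.cons (Ent.neg F4_13_6_3) (Ls.cons (Ent.neg F4_13_5_3) (Ls.cons (Ent.neg F4_13_4_3) (Ls.cons Ent.zero (Ls.cons (Ent.pos F4_13_3_2) (Ls.cons (Ent.neg F4_13_3_1) (Ls.cons (Ent.pos F4_13_3_0) Ls.nil)))))))))))))))))))))))))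
 (Ls.cons (Ls.cons Ent.zero (Ls.cons Ent.zero (Ls.cons Ent.zero (Ls.cons Ent.zero (Ls.cons Ent.zero (Ls.cons (Ent.pos F4_19_13_2) (Ls.cons (Ent.pos F4_18_13_2) (Ls.cons (Ent.pos F4_17_13_2) (Ls.cons (Ent.pos F4_16_13_2) (Ls.cons (Ent.pos F4_15_13_2) (Ls.cons Ent.zero (Ls.cons Ent.zero (Ls.cons (Ent.neg F4_13_12_2) (Ls.cons (Ent.pos F4_13_11_2) (Ls.cons Ent.zero (Ls.cons Ent.zero (Ls.cons (Ent.neg F4_13_8_2) (Ls.cons (Ent.neg F4_13_7_2) (Ls.cons (Ent.neg F4_13_6_2) (Ls.cons (Ent.neg F4_13_5_2) (Ls.cons (Ent.neg F4_13_4_2) (Ls.cons (Ent.neg F4_13_3_2) (Ls.cons Ent.zero (Ls.cons (Ent.pos F4_13_2_1) (Ls.cons (Ent.neg F4_13_2_0) Ls.nil)))))))))))))))))))))))))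
 (Ls.cons (Ls.cons Ent.zero (Ls.cons Ent.zero (Ls.cons Ent.zero (Ls.cons Ent.zero (Ls.cons Ent.zero (Ls.cons (Ent.neg F4_19_13_1) (Ls.cons (Ent.neg F4_18_13_1) (Ls.cons (Ent.neg F4_17_13_1) (Ls.cons (Ent.neg F4_16_13_1) (Ls.cons (Ent.neg F4_15_13_1) (Ls.cons (Ent.neg F4_14_13_1) (Ls.cons Ent.zero (Ls.cons (Ent.pos F4_13_12_1) (Ls.cons (Ent.neg F4_13_11_1) (Ls.cons (Ent.pos F4_13_10_1) (Ls.cons (Ent.neg F4_13_9_1) (Ls.cons (Ent.pos F4_13_8_1) (Ls.cons (Ent.pos F4_13_7_1) (Ls.cons (Ent.pos F4_13_6_1) (Ls.cons (Ent.pos F4_13_5_1) (Ls.cons (Ent.pos F4_13_4_1) (Ls.cons (Ent.pos F4_13_3_1) (Ls.cons (Ent.neg F4_13_2_1) (Ls.cons Ent.zero (Ls.cons (Ent.pos F4_13_1_0) Ls.nil)))))))))))))))))))))))))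
 (Ls.cons (Ls.cons Ent.zero (Ls.cons Ent.zero (Ls.cons Ent.zero (Ls.cons Ent.zero (Ls.cons (Ent.pos F4_20_13_0) (Ls.cons (Ent.pos F4_19_13_0) (Ls.cons (Ent.pos F4_18_13_0) (Ls.cons (Ent.pos F4_17_13_0) (Ls.cons (Ent.pos F4_16_13_0) (Ls.cons (Ent.pos F4_15_13_0) (Ls.cons (Ent.pos F4_14_13_0) (Ls.cons Ent.zero (Ls.cons (Ent.neg F4_13_12_0) (Ls.cons (Ent.pos F4_13_11_0) (Ls.cons (Ent.neg F4_13_10_0) (Ls.cons (Ent.pos F4_13_9_0) (Ls.cons (Ent.neg F4_13_8_0) (Ls.cons (Ent.neg F4_13_7_0) (Ls.cons (Ent.neg F4_13_6_0) (Ls.cons (Ent.neg F4_13_5_0) (Ls.cons (Ent.neg F4_13_4_0) (Ls.cons (Ent.neg F4_13_3_0) (Ls.cons (Ent.pos F4_13_2_0) (Ls.cons (Ent.neg F4_13_1_0) (Ls.cons Ent.zero Ls.nil)))))))))))))))))))))))))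
 Ls.nil))))))))))))))))))))

noncomputable def bxF4_14 : L2 :=
 (Ls.cons (Ls.cons Ent.zero (Ls.cons Ent.zero (Ls.cons Ent.zero (Ls.cons Ent.zero (Ls.cons Ent.zero (Ls.cons Ent.zero (Ls.cons Ent.zero (Ls.cons Ent.zero (Ls.cons Ent.zero (Ls.cons Ent.zero (Ls.cons Ent.zero (Ls.cons Ent.zero (Ls.cons Ent.zero (Ls.cons Ent.zero (Ls.cons Ent.zero (Ls.cons Ent.zero (Ls.cons Ent.zero (Ls.cons Ent.zero (Ls.cons Ent.zero (Ls.cons Ent.zero (Ls.cons Ent.zero (Ls.cons (Ent.pos F4_19_14_3) (Ls.cons (Ent.neg F4_19_14_2) (Ls.cons (Ent.pos F4_19_14_1) (Ls.cons (Ent.neg F4_19_14_0) Ls.nil)))))))))))))))))))))))))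
 (Ls.cons (Ls.cons Ent.zero (Ls.cons Ent.zero (Ls.cons Ent.zero (Ls.cons Ent.zero (Ls.cons Ent.zero (Ls.cons Ent.zero (Ls.cons Ent.zero (Ls.cons Ent.zero (Ls.cons Ent.zero (Ls.cons Ent.zero (Ls.cons Ent.zero (Ls.cons Ent.zero (Ls.cons Ent.zero (Ls.cons Ent.zero (Ls.cons Ent.zero (Ls.cons Ent.zero (Ls.cons Ent.zero (Ls.cons Ent.zero (Ls.cons Ent.zero (Ls.cons Ent.zero (Ls.cons (Ent.pos F4_18_14_4) (Ls.cons Ent.zero (Ls.cons (Ent.neg F4_18_14_2) (Ls.cons (Ent.pos F4_18_14_1) (Ls.cons (Ent.neg F4_18_14_0) Ls.nil)))))))))))))))))))))))))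
 (Ls.cons (Ls.cons Ent.zero (Ls.cons Ent.zero (Ls.cons Ent.zero (Ls.cons Ent.zero (Ls.cons Ent.zero (Ls.cons Ent.zero (Ls.cons Ent.zero (Ls.cons Ent.zero (Ls.cons Ent.zero (Ls.cons Ent.zero (Ls.cons Ent.zero (Ls.cons Ent.zero (Ls.cons Ent.zero (Ls.cons Ent.zero (Ls.cons Ent.zero (Ls.cons Ent.zero (Ls.cons Ent.zero (Ls.cons Ent.zero (Ls.cons Ent.zero (Ls.cons (Ent.pos F4_17_14_5) (Ls.cons Ent.zero (Ls.cons Ent.zero (Ls.cons (Ent.neg F4_17_14_2) (Ls.cons (Ent.pos F4_17_14_1) (Ls.cons (Ent.neg F4_17_14_0) Ls.nil)))))))))))))))))))))))))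
 (Ls.cons (Ls.cons Ent.zero (Ls.cons Ent.zero (Ls.cons Ent.zero (Ls.cons Ent.zero (Ls.cons Ent.zero (Ls.cons Ent.zero (Ls.cons Ent.zero (Ls.cons Ent.zero (Ls.cons Ent.zero (Ls.cons Ent.zero (Ls.cons Ent.zero (Ls.cons Ent.zero (Ls.cons Ent.zero (Ls.cons Ent.zero (Ls.cons Ent.zero (Ls.cons Ent.zero (Ls.cons Ent.zero (Ls.cons Ent.zero (Ls.cons (Ent.pos F4_16_14_6) (Ls.cons (Ent.pos F4_16_14_5) (Ls.cons Ent.zero (Ls.cons (Ent.neg F4_16_14_3) (Ls.cons (Ent.neg F4_16_14_2) (Ls.cons (Ent.pos F4_16_14_1) (Ls.cons (Ent.neg F4_16_14_0) Ls.nil)))))))))))))))))))))))))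
 (Ls.cons (Ls.cons Ent.zero (Ls.cons Ent.zero (Ls.cons Ent.zero (Ls.cons Ent.zero (Ls.cons Ent.zero (Ls.cons Ent.zero (Ls.cons Ent.zero (Ls.cons Ent.zero (Ls.cons Ent.zero (Ls.cons Ent.zero (Ls.cons Ent.zero (Ls.cons Ent.zero (Ls.cons Ent.zero (Ls.cons Ent.zero (Ls.cons Ent.zero (Ls.cons Ent.zero (Ls.cons Ent.zero (Ls.cons (Ent.pos F4_15_14_7) (Ls.cons Ent.zero (Ls.cons (Ent.pos F4_15_14_5) (Ls.cons (Ent.neg F4_15_14_4) (Ls.cons Ent.zero (Ls.cons (Ent.neg F4_15_14_2) (Ls.cons (Ent.pos F4_15_14_1) (Ls.cons (Ent.neg F4_15_14_0) Ls.nil)))))))))))))))))))))))))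
 (Ls.cons (Ls.cons Ent.zero (Ls.cons Ent.zero (Ls.cons Ent.zero (Ls.cons Ent.zero (Ls.cons Ent.zero (Ls.cons Ent.zero (Ls.cons Ent.zero (Ls.cons Ent.zero (Ls.cons Ent.zero (Ls.cons Ent.zero (Ls.cons Ent.zero (Ls.cons Ent.zero (Ls.cons Ent.zero (Ls.cons Ent.zero (Ls.cons Ent.zero (Ls.cons Ent.zero (Ls.cons Ent.zero (Ls.cons Ent.zero (Ls.cons Ent.zero (Ls.cons Ent.zero (Ls.cons Ent.zero (Ls.cons Ent.zero (Ls.cons Ent.zero (Ls.cons Ent.zero (Ls.cons Ent.zero Ls.nil)))))))))))))))))))))))))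
 (Ls.cons (Ls.cons Ent.zero (Ls.cons Ent.zero (Ls.cons Ent.zero (Ls.cons Ent.zero (Ls.cons Ent.zero (Ls.cons Ent.zero (Ls.cons Ent.zero (Ls.cons Ent.zero (Ls.cons Ent.zero (Ls.cons Ent.zero (Ls.cons Ent.zero (Ls.cons Ent.zero (Ls.cons Ent.zero (Ls.cons Ent.zero (Ls.cons Ent.zero (Ls.cons Ent.zero (Ls.cons Ent.zero (Ls.cons Ent.zero (Ls.cons (Ent.neg F4_14_13_6) (Ls.cons (Ent.pos F4_14_13_5) (Ls.cons Ent.zero (Ls.cons Ent.zero (Ls.cons Ent.zero (Ls.cons (Ent.neg F4_14_13_1) (Ls.cons (Ent.pos F4_14_13_0) Ls.nil)))))))))))))))))))))))))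
 (Ls.cons (Ls.cons Ent.zero (Ls.cons Ent.zero (Ls.cons Ent.zero (Ls.cons Ent.zero (Ls.cons Ent.zero (Ls.cons Ent.zero (Ls.cons Ent.zero (Ls.cons Ent.zero (Ls.cons Ent.zero (Ls.cons Ent.zero (Ls.cons Ent.zero (Ls.cons Ent.zero (Ls.cons Ent.zero (Ls.cons Ent.zero (Ls.cons Ent.zero (Ls.cons (Ent.neg F4_14_12_9) (Ls.cons (Ent.neg F4_14_12_8) (Ls.cons Ent.zero (Ls.cons Ent.zero (Ls.cons Ent.zero (Ls.cons (Ent.pos F4_14_12_4) (Ls.cons (Ent.pos F4_14_12_3) (Ls.cons Ent.zero (Ls.cons (Ent.neg F4_14_12_1) (Ls.cons (Ent.pos F4_14_12_0) Ls.nil)))))))))))))))))))))))))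
 (Ls.cons (Ls.cons Ent.zero (Ls.cons Ent.zero (Ls.cons Ent.zero (Ls.cons Ent.zero (Ls.cons Ent.zero (Ls.cons Ent.zero (Ls.cons Ent.zero (Ls.cons Ent.zero (Ls.cons Ent.zero (Ls.cons Ent.zero (Ls.cons Ent.zero (Ls.cons Ent.zero (Ls.cons Ent.zero (Ls.cons Ent.zero (Ls.cons Ent.zero (Ls.cons Ent.zero (Ls.cons (Ent.neg F4_14_11_8) (Ls.cons Ent.zero (Ls.cons Ent.zero (Ls.cons (Ent.pos F4_14_11_5) (Ls.cons Ent.zero (Ls.cons Ent.zero (Ls.cons Ent.zero (Ls.cons (Ent.neg F4_14_11_1) (Ls.cons (Ent.pos F4_14_11_0) Ls.nil)))))))))))))))))))))))))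
 (Ls.cons (Ls.cons Ent.zero (Ls.cons Ent.zero (Ls.cons Ent.zero (Ls.cons Ent.zero (Ls.cons Ent.zero (Ls.cons Ent.zero (Ls.cons Ent.zero (Ls.cons Ent.zero (Ls.cons Ent.zero (Ls.cons Ent.zero (Ls.cons Ent.zero (Ls.cons Ent.zero (Ls.cons Ent.zero (Ls.cons Ent.zero (Ls.cons Ent.zero (Ls.cons (Ent.neg F4_14_10_9) (Ls.cons Ent.zero (Ls.cons Ent.zero (Ls.cons Ent.zero (Ls.cons (Ent.pos F4_14_10_5) (Ls.cons Ent.zero (Ls.cons Ent.zero (Ls.cons Ent.zero (Ls.cons (Ent.neg F4_14_10_1) (Ls.cons (Ent.pos F4_14_10_0) Ls.nil)))))))))))))))))))))))))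
 (Ls.cons (Ls.cons Ent.zero (Ls.cons Ent.zero (Ls.cons Ent.zero (Ls.cons Ent.zero (Ls.cons Ent.zero (Ls.cons Ent.zero (Ls.cons Ent.zero (Ls.cons Ent.zero (Ls.cons Ent.zero (Ls.cons Ent.zero (Ls.cons Ent.zero (Ls.cons Ent.zero (Ls.cons (Ent.pos F4_14_12_9) (Ls.cons Ent.zero (Ls.cons (Ent.pos F4_14_10_9) (Ls.cons Ent.zero (Ls.cons Ent.zero (Ls.cons Ent.zero (Ls.cons Ent.zero (Ls.cons (Ent.neg F4_14_9_5) (Ls.cons Ent.zero (Ls.cons (Ent.neg F4_14_9_3) (Ls.cons Ent.zero (Ls.cons (Ent.pos F4_14_9_1) (Ls.cons (Ent.neg F4_14_9_0) Ls.nil)))))))))))))))))))))))))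
 (Ls.cons (Ls.cons Ent.zero (Ls.cons Ent.zero (Ls.cons Ent.zero (Ls.cons Ent.zero (Ls.cons Ent.zero (Ls.cons Ent.zero (Ls.cons Ent.zero (Ls.cons Ent.zero (Ls.cons Ent.zero (Ls.cons Ent.zero (Ls.cons Ent.zero (Ls.cons Ent.zero (Ls.cons (Ent.pos F4_14_12_8) (Ls.cons (Ent.pos F4_14_11_8) (Ls.cons Ent.zero (Ls.cons Ent.zero (Ls.cons Ent.zero (Ls.cons Ent.zero (Ls.cons Ent.zero (Ls.cons (Ent.neg F4_14_8_5) (Ls.cons (Ent.neg F4_14_8_4) (Ls.cons Ent.zero (Ls.cons Ent.zero (Ls.cons (Ent.pos F4_14_8_1) (Ls.cons (Ent.neg F4_14_8_0) Ls.nil)))))))))))))))))))))))))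
 (Ls.cons (Ls.cons Ent.zero (Ls.cons Ent.zero (Ls.cons Ent.zero (Ls.cons Ent.zero (Ls.cons Ent.zero (Ls.cons Ent.zero (Ls.cons Ent.zero (Ls.cons Ent.zero (Ls.cons Ent.zero (Ls.cons (Ent.neg F4_15_14_7) (Ls.cons Ent.zero (Ls.cons Ent.zero (Ls.cons Ent.zero (Ls.cons Ent.zero (Ls.cons Ent.zero (Ls.cons Ent.zero (Ls.cons Ent.zero (Ls.cons Ent.zero (Ls.cons Ent.zero (Ls.cons Ent.zero (Ls.cons Ent.zero (Ls.cons Ent.zero (Ls.cons (Ent.pos F4_14_7_2) (Ls.cons (Ent.neg F4_14_7_1) (Ls.cons (Ent.pos F4_14_7_0) Ls.nil)))))))))))))))))))))))))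
 (Ls.cons (Ls.cons Ent.zero (Ls.cons Ent.zero (Ls.cons Ent.zero (Ls.cons Ent.zero (Ls.cons Ent.zero (Ls.cons Ent.zero (Ls.cons Ent.zero (Ls.cons Ent.zero (Ls.cons (Ent.neg F4_16_14_6) (Ls.cons Ent.zero (Ls.cons Ent.zero (Ls.cons (Ent.pos F4_14_13_6) (Ls.cons Ent.zero (Ls.cons Ent.zero (Ls.cons Ent.zero (Ls.cons Ent.zero (Ls.cons Ent.zero (Ls.cons Ent.zero (Ls.cons Ent.zero (Ls.cons (Ent.neg F4_14_6_5) (Ls.cons Ent.zero (Ls.cons Ent.zero (Ls.cons (Ent.pos F4_14_6_2) (Ls.cons (Ent.neg F4_14_6_1) (Ls.cons (Ent.pos F4_14_6_0) Ls.nil)))))))))))))))))))))))))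
 (Ls.cons (Ls.cons Ent.zero (Ls.cons Ent.zero (Ls.cons Ent.zero (Ls.cons Ent.zero (Ls.cons Ent.zero (Ls.cons Ent.zero (Ls.cons Ent.zero (Ls.cons (Ent.neg F4_17_14_5) (Ls.cons (Ent.neg F4_16_14_5) (Ls.cons (Ent.neg F4_15_14_5) (Ls.cons Ent.zero (Ls.cons (Ent.neg F4_14_13_5) (Ls.cons Ent.zero (Ls.cons (Ent.neg F4_14_11_5) (Ls.cons (Ent.neg F4_14_10_5) (Ls.cons (Ent.pos F4_14_9_5) (Ls.cons (Ent.pos F4_14_8_5) (Ls.cons Ent.zero (Ls.cons (Ent.pos F4_14_6_5) (Ls.cons Ent.zero (Ls.cons (Ent.pos F4_14_5_4) (Ls.cons (Ent.pos F4_14_5_3) (Ls.cons (Ent.pos F4_14_5_2) (Ls.cons (Ent.neg F4_14_5_1) (Ls.cons (Ent.pos F4_14_5_0) Ls.nil)))))))))))))))))))))))))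
 (Ls.cons (Ls.cons Ent.zero (Ls.cons Ent.zero (Ls.cons Ent.zero (Ls.cons Ent.zero (Ls.cons Ent.zero (Ls.cons Ent.zero (Ls.cons (Ent.neg F4_18_14_4) (Ls.cons Ent.zero (Ls.cons Ent.zero (Ls.cons (Ent.pos F4_15_14_4) (Ls.cons Ent.zero (Ls.cons Ent.zero (Ls.cons (Ent.neg F4_14_12_4) (Ls.cons Ent.zero (Ls.cons Ent.zero (Ls.cons Ent.zero (Ls.cons (Ent.pos F4_14_8_4) (Ls.cons Ent.zero (Ls.cons Ent.zero (Ls.cons (Ent.neg F4_14_5_4) (Ls.cons Ent.zero (Ls.cons Ent.zero (Ls.cons (Ent.pos F4_14_4_2) (Ls.cons (Ent.neg F4_14_4_1) (Ls.cons (Ent.pos F4_14_4_0) Ls.nil)))))))))))))))))))))))))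
 (Ls.cons (Ls.cons Ent.zero (Ls.cons Ent.zero (Ls.cons Ent.zero (Ls.cons Ent.zero (Ls.cons Ent.zero (Ls.cons (Ent.neg F4_19_14_3) (Ls.cons Ent.zero (Ls.cons Ent.zero (Ls.cons (Ent.pos F4_16_14_3) (Ls.cons Ent.zero (Ls.cons Ent.zero (Ls.cons Ent.zero (Ls.cons (Ent.neg F4_14_12_3) (Ls.cons Ent.zero (Ls.cons Ent.zero (Ls.cons (Ent.pos F4_14_9_3) (Ls.cons Ent.zero (Ls.cons Ent.zero (Ls.cons Ent.zero (Ls.cons (Ent.neg F4_14_5_3) (Ls.cons Ent.zero (Ls.cons Ent.zero (Ls.cons (Ent.pos F4_14_3_2) (Ls.cons (Ent.neg F4_14_3_1) (Ls.cons (Ent.pos F4_14_3_0) Ls.nil)))))))))))))))))))))))))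
 (Ls.cons (Ls.cons Ent.zero (Ls.cons Ent.zero (Ls.cons Ent.zero (Ls.cons Ent.zero (Ls.cons Ent.zero (Ls.cons (Ent.pos F4_19_14_2) (Ls.cons (Ent.pos F4_18_14_2) (Ls.cons (Ent.pos F4_17_14_2) (Ls.cons (Ent.pos F4_16_14_2) (Ls.cons (Ent.pos F4_15_14_2) (Ls.cons Ent.zero (Ls.cons Ent.zero (Ls.cons Ent.zero (Ls.cons Ent.zero (Ls.cons Ent.zero (Ls.cons Ent.zero (Ls.cons Ent.zero (Ls.cons (Ent.neg F4_14_7_2) (Ls.cons (Ent.neg F4_14_6_2) (Ls.cons (Ent.neg F4_14_5_2) (Ls.cons (Ent.neg F4_14_4_2) (Ls.cons (Ent.neg F4_14_3_2) (Ls.cons Ent.zero (Ls.cons (Ent.pos F4_14_2_1) (Ls.cons (Ent.neg F4_14_2_0) Ls.nil)))))))))))))))))))))))))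
 (Ls.cons (Ls.cons Ent.zero (Ls.cons Ent.zero (Ls.cons Ent.zero (Ls.cons Ent.zero (Ls.cons Ent.zero (Ls.cons (Ent.neg F4_19_14_1) (Ls.cons (Ent.neg F4_18_14_1) (Ls.cons (Ent.neg F4_17_14_1) (Ls.cons (Ent.neg F4_16_14_1) (Ls.cons (Ent.neg F4_15_14_1) (Ls.cons Ent.zero (Ls.cons (Ent.pos F4_14_13_1) (Ls.cons (Ent.pos F4_14_12_1) (Ls.cons (Ent.pos F4_14_11_1) (Ls.cons (Ent.pos F4_14_10_1) (Ls.cons (Ent.neg F4_14_9_1) (Ls.cons (Ent.neg F4_14_8_1) (Ls.cons (Ent.pos F4_14_7_1) (Ls.cons (Ent.pos F4_14_6_1) (Ls.cons (Ent.pos F4_14_5_1) (Ls.cons (Ent.pos F4_14_4_1) (Ls.cons (Ent.pos F4_14_3_1) (Ls.cons (Ent.neg F4_14_2_1) (Ls.cons Ent.zero (Ls.cons (Ent.pos F4_14_1_0) Ls.nil)))))))))))))))))))))))))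
 (Ls.cons (Ls.cons Ent.zero (Ls.cons Ent.zero (Ls.cons Ent.zero (Ls.cons Ent.zero (Ls.cons Ent.zero (Ls.cons (Ent.pos F4_19_14_0) (Ls.cons (Ent.pos F4_18_14_0) (Ls.cons (Ent.pos F4_17_14_0) (Ls.cons (Ent.pos F4_16_14_0) (Ls.cons (Ent.pos F4_15_14_0) (Ls.cons Ent.zero (Ls.cons (Ent.neg F4_14_13_0) (Ls.cons (Ent.neg F4_14_12_0) (Ls.cons (Ent.neg F4_14_11_0) (Ls.cons (Ent.neg F4_14_10_0) (Ls.cons (Ent.pos F4_14_9_0) (Ls.cons (Ent.pos F4_14_8_0) (Ls.cons (Ent.neg F4_14_7_0) (Ls.cons (Ent.neg F4_14_6_0) (Ls.cons (Ent.neg F4_14_5_0) (Ls.cons (Ent.neg F4_14_4_0) (Ls.cons (Ent.neg F4_14_3_0) (Ls.cons (Ent.pos F4_14_2_0) (Ls.cons (Ent.neg F4_14_1_0) (Ls.cons Ent.zero Ls.nil)))))))))))))))))))))))))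
 Ls.nil))))))))))))))))))))

noncomputable def boxF4 : L3 := (Ls.cons bxF4_14 (Ls.cons bxF4_13 (Ls.cons bxF4_12 (Ls.cons bxF4_11 (Ls.cons bxF4_10 (Ls.cons bxF4_9 (Ls.cons bxF4_8 (Ls.cons bxF4_7 (Ls.cons bxF4_6 (Ls.cons bxF4_5 (Ls.cons bxF4_4 (Ls.cons bxF4_3 (Ls.cons bxF4_2 (Ls.cons bxF4_1 (Ls.cons bxF4_0 Ls.nil)))))))))))))))

noncomputable def bsF5 : Ls L3 := Ls.cons boxF4 bsF4

end Vale.Agent.P181.K
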