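import Vale.Agent.P181.Six.F.D13_0
import Vale.Agent.P181.Six.F.D13_1
import Vale.Agent.P181.Six.F.D13_2
import Vale.Agent.P181.Six.F.D13_3
import Vale.Agent.P181.Six.F.B12

set_option maxRecDepth 100000
set_option maxHeartbeats 0

namespace Vale.Agent.P181.K

noncomputable def cF13_0_0 : L2 :=
 (Ls.cons Ls.nil
 (Ls.cons (Ls.cons (Ent.neg F13_24_1_0) (Ls.cons (Ent.neg F13_23_1_0) (Ls.cons (Ent.neg F13_22_1_0) (Ls.cons (Ent.neg F13_21_1_0) (Ls.cons (Ent.neg F13_20_1_0) (Ls.cons (Ent.neg F13_19_1_0) (Ls.cons (Ent.neg F13_18_1_0) (Ls.cons (Ent.neg F13_17_1_0) (Ls.cons (Ent.neg F13_16_1_0) (Ls.cons (Ent.neg F13_15_1_0) (Ls.cons (Ent.neg F13_14_1_0) (Ls.cons (Ent.neg F13_13_1_0) (Ls.cons (Ent.neg F13_12_1_0) (Ls.cons (Ent.neg F13_11_1_0) (Ls.cons (Ent.neg F13_10_1_0) (Ls.cons (Ent.neg F13_9_1_0) (Ls.cons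 (Ent.neg F13_8_1_0) (Ls.cons (Ent.neg F13_7_1_0) (Ls.cons (Ent.neg F13_6_1_0) (Ls.cons (Ent.neg F13_5_1_0) (Ls.cons (Ent.neg F13_4_1_0) (Ls.cons (Ent.neg F13_3_1_0) (Ls.cons (Ent.pos F13_2_1_0) Ls.nil)))))))))))))))))))))))
 (Ls.cons (Ls.cons (Ent.pos F13_24_2_0) (Ls.cons (Ent.pos F13_23_2_0) (Ls.cons (Ent.pos F13_22_2_0) (Ls.cons (Ent.pos F13_21_2_0) (Ls.cons (Ent.pos F13_20_2_0) (Ls.cons (Ent.pos F13_19_2_0) (Ls.cons (Ent.pos F13_18_2_0) (Ls.cons (Ent.pos F13_17_2_0) (Ls.cons (Ent.pos F13_16_2_0) (Ls.cons (Ent.pos F13_15_2_0) (Ls.cons (Ent.pos F13_14_2_0) (Ls.cons (Ent.pos F13_13_2_0) (Ls.cons (Ent.pos F13_12_2_0) (Ls.cons (Ent.pos F13_11_2_0) (Ls.cons (Ent.pos F13_10_2_0) (Ls.cons (Ent.pos F13_9_2_0) (Ls.cons (Ent.pos F13_8_2_0) (Ls.cons (Ent.pos F13_7_2_0) (Ls.cons (Ent.pos F13_6_2_0) (Ls.cons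 (Ent.pos F13_5_2_0) (Ls.cons (Ent.pos F13_4_2_0) (Ls.cons (Ent.pos F13_3_2_0) Ls.nil))))))))))))))))))))))
 (Ls.cons (Ls.cons (Ent.pos F13_24_3_0) (Ls.cons (Ent.pos F13_23_3_0) (Ls.cons (Ent.pos F13_22_3_0) (Ls.cons (Ent.pos F13_21_3_0) (Ls.cons (Ent.pos F13_20_3_0) (Ls.cons (Ent.pos F13_19_3_0) (Ls.cons (Ent.pos F13_18_3_0) (Ls.cons (Ent.pos F13_17_3_0) (Ls.cons (Ent.pos F13_16_3_0) (Ls.cons (Ent.pos F13_15_3_0) (Ls.cons (Ent.pos F13_14_3_0) (Ls.cons (Ent.pos F13_13_3_0) (Ls.cons (Ent.pos F13_12_3_0) (Ls.cons (Ent.pos F13_11_3_0) (Ls.cons (Ent.pos F13_10_3_0) (Ls.cons (Ent.pos F13_9_3_0) (Ls.cons (Ent.pos F13_8_3_0) (Ls.cons (Ent.pos F13_7_3_0) (Ls.cons (Ent.pos F13_6_3_0) (Ls.cons (Ent.pos F13_5_3_0) (Ls.cons (Ent.pos F13_4_3_0) Ls.nil)))))))))))))))))))))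
 (Ls.cons (Ls.cons Ent.zero (Ls.cons (Ent.pos F13_23_4_0) (Ls.cons (Ent.pos F13_22_4_0) (Ls.cons (Ent.pos F13_21_4_0) (Ls.cons (Ent.pos F13_20_4_0) (Ls.cons (Ent.pos F13_19_4_0) (Ls.cons (Ent.pos F13_18_4_0) (Ls.cons (Ent.pos F13_17_4_0) (Ls.cons (Ent.pos F13_16_4_0) (Ls.cons (Ent.pos F13_15_4_0) (Ls.cons (Ent.pos F13_14_4_0) (Ls.cons (Ent.pos F13_13_4_0) (Ls.cons (Ent.pos F13_12_4_0) (Ls.cons (Ent.pos F13_11_4_0) (Ls.cons (Ent.pos F13_10_4_0) (Ls.cons (Ent.pos F13_9_4_0) (Ls.cons (Ent.pos F13_8_4_0) (Ls.cons (Ent.pos F13_7_4_0) (Ls.cons (Ent.pos F13_6_4_0) (Ls.cons (Ent.pos F13_5_4_0) Ls.nil))))))))))))))))))))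
 (Ls.cons (Ls.cons Ent.zero (Ls.cons (Ent.pos F13_23_5_0) (Ls.cons (Ent.pos F13_22_5_0) (Ls.cons (Ent.pos F13_21_5_0) (Ls.cons (Ent.pos F13_20_5_0) (Ls.cons (Ent.pos F13_19_5_0) (Ls.cons (Ent.pos F13_18_5_0) (Ls.cons (Ent.pos F13_17_5_0) (Ls.cons (Ent.pos F13_16_5_0) (Ls.cons (Ent.pos F13_15_5_0) (Ls.cons (Ent.pos F13_14_5_0) (Ls.cons (Ent.pos F13_13_5_0) (Ls.cons (Ent.pos F13_12_5_0) (Ls.cons (Ent.pos F13_11_5_0) (Ls.cons (Ent.pos F13_10_5_0) (Ls.cons (Ent.pos F13_9_5_0) (Ls.cons (Ent.pos F13_8_5_0) (Ls.cons (Ent.pos F13_7_5_0) (Ls.cons (Ent.pos F13_6_5_0) Ls.nil)))))))))))))))))))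
 (Ls.cons (Ls.cons Ent.zero (Ls.cons Ent.zero (Ls.cons (Ent.pos F13_22_6_0) (Ls.cons (Ent.pos F13_21_6_0) (Ls.cons (Ent.pos F13_20_6_0) (Ls.cons (Ent.pos F13_19_6_0) (Ls.cons (Ent.pos F13_18_6_0) (Ls.cons (Ent.pos F13_17_6_0) (Ls.cons (Ent.pos F13_16_6_0) (Ls.cons (Ent.pos F13_15_6_0) (Ls.cons (Ent.pos F13_14_6_0) (Ls.cons (Ent.pos F13_13_6_0) (Ls.cons (Ent.pos F13_12_6_0) (Ls.cons (Ent.pos F13_11_6_0) (Ls.cons (Ent.pos F13_10_6_0) (Ls.cons (Ent.pos F13_9_6_0) (Ls.cons (Ent.pos F13_8_6_0) (Ls.cons (Ent.pos F13_7_6_0) Ls.nil))))))))))))))))))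
 (Ls.cons (Ls.cons Ent.zero (Ls.cons Ent.zero (Ls.cons (Ent.pos F13_22_7_0) (Ls.cons (Ent.pos F13_21_7_0) (Ls.cons (Ent.pos F13_20_7_0) (Ls.cons (Ent.pos F13_19_7_0) (Ls.cons (Ent.pos F13_18_7_0) (Ls.cons (Ent.pos F13_17_7_0) (Ls.cons (Ent.pos F13_16_7_0) (Ls.cons (Ent.pos F13_15_7_0) (Ls.cons (Ent.pos F13_14_7_0) (Ls.cons (Ent.pos F13_13_7_0) (Ls.cons (Ent.pos F13_12_7_0) (Ls.cons (Ent.pos F13_11_7_0) (Ls.cons (Ent.pos F13_10_7_0) (Ls.cons (Ent.pos F13_9_7_0) (Ls.cons (Ent.pos F13_8_7_0) Ls.nil)))))))))))))))))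
 (Ls.cons (Ls.cons Ent.zero (Ls.cons Ent.zero (Ls.cons (Ent.pos F13_22_8_0) (Ls.cons (Ent.pos F13_21_8_0) (Ls.cons (Ent.pos F13_20_8_0) (Ls.cons (Ent.pos F13_19_8_0) (Ls.cons (Ent.pos F13_18_8_0) (Ls.cons (Ent.pos F13_17_8_0) (Ls.cons (Ent.pos F13_16_8_0) (Ls.cons (Ent.pos F13_15_8_0) (Ls.cons (Ent.pos F13_14_8_0) (Ls.cons (Ent.pos F13_13_8_0) (Ls.cons (Ent.pos F13_12_8_0) (Ls.cons (Ent.pos F13_11_8_0) (Ls.cons (Ent.pos F13_10_8_0) (Ls.cons (Ent.pos F13_9_8_0) Ls.nil))))))))))))))))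
 (Ls.cons (Ls.cons Ent.zero (Ls.cons Ent.zero (Ls.cons (Ent.pos F13_22_9_0) (Ls.cons (Ent.pos F13_21_9_0) (Ls.cons (Ent.pos F13_20_9_0) (Ls.cons (Ent.pos F13_19_9_0) (Ls.cons (Ent.pos F13_18_9_0) (Ls.cons (Ent.pos F13_17_9_0) (Ls.cons (Ent.pos F13_16_9_0) (Ls.cons (Ent.pos F13_15_9_0) (Ls.cons (Ent.pos F13_14_9_0) (Ls.cons (Ent.pos F13_13_9_0) (Ls.cons (Ent.pos F13_12_9_0) (Ls.cons (Ent.pos F13_11_9_0) (Ls.cons (Ent.pos F13_10_9_0) Ls.nil)))))))))))))))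
 (Ls.cons (Ls.cons Ent.zero (Ls.cons Ent.zero (Ls.cons (Ent.pos F13_22_10_0) (Ls.cons (Ent.pos F13_21_10_0) (Ls.cons (Ent.pos F13_20_10_0) (Ls.cons (Ent.pos F13_19_10_0) (Ls.cons (Ent.pos F13_18_10_0) (Ls.cons (Ent.pos F13_17_10_0) (Ls.cons (Ent.pos F13_16_10_0) (Ls.cons (Ent.pos F13_15_10_0) (Ls.cons (Ent.pos F13_14_10_0) (Ls.cons (Ent.pos F13_13_10_0) (Ls.cons (Ent.pos F13_12_10_0) (Ls.cons (Ent.pos F13_11_10_0) Ls.nil))))))))))))))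
 (Ls.cons (Ls.cons Ent.zero (Ls.cons Ent.zero (Ls.cons (Ent.pos F13_22_11_0) (Ls.cons (Ent.pos F13_21_11_0) (Ls.cons (Ent.pos F13_20_11_0) (Ls.cons (Ent.pos F13_19_11_0) (Ls.cons (Ent.pos F13_18_11_0) (Ls.cons (Ent.pos F13_17_11_0) (Ls.cons (Ent.pos F13_16_11_0) (Ls.cons (Ent.pos F13_15_11_0) (Ls.cons (Ent.pos F13_14_11_0) (Ls.cons (Ent.pos F13_13_11_0) (Ls.cons (Ent.pos F13_12_11_0) Ls.nil)))))))))))))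
 (Ls.cons (Ls.cons Ent.zero (Ls.cons Ent.zero (Ls.cons Ent.zero (Ls.cons (Ent.pos F13_21_12_0) (Ls.cons (Ent.pos F13_20_12_0) (Ls.cons (Ent.pos F13_19_12_0) (Ls.cons (Ent.pos F13_18_12_0) (Ls.cons (Ent.pos F13_17_12_0) (Ls.cons (Ent.pos F13_16_12_0) (Ls.cons (Ent.pos F13_15_12_0) (Ls.cons (Ent.pos F13_14_12_0) (Ls.cons (Ent.pos F13_13_12_0) Ls.nil))))))))))))
 (Ls.cons (Ls.cons Ent.zero (Ls.cons Ent.zero (Ls.cons Ent.zero (Ls.cons (Ent.pos F13_21_13_0) (Ls.cons (Ent.pos F13_20_13_0) (Ls.cons (Ent.pos F13_19_13_0) (Ls.cons (Ent.pos F13_18_13_0) (Ls.cons (Ent.pos F13_17_13_0) (Ls.cons (Ent.pos F13_16_13_0) (Ls.cons (Ent.pos F13_15_13_0) (Ls.cons (Ent.pos F13_14_13_0) Ls.nil)))))))))))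
 (Ls.cons (Ls.cons Ent.zero (Ls.cons Ent.zero (Ls.cons Ent.zero (Ls.cons (Ent.pos F13_21_14_0) (Ls.cons (Ent.pos F13_20_14_0) (Ls.cons (Ent.pos F13_19_14_0) (Ls.cons (Ent.pos F13_18_14_0) (Ls.cons (Ent.pos F13_17_14_0) (Ls.cons (Ent.pos F13_16_14_0) (Ls.cons (Ent.pos F13_15_14_0) Ls.nil))))))))))
 (Ls.cons (Ls.cons Ent.zero (Ls.cons Ent.zero (Ls.cons Ent.zero (Ls.cons (Ent.pos F13_21_15_0) (Ls.cons (Ent.pos F13_20_15_0) (Ls.cons (Ent.pos F13_19_15_0) (Ls.cons (Ent.pos F13_18_15_0) (Ls.cons (Ent.pos F13_17_15_0) (Ls.cons (Ent.pos F13_16_15_0) Ls.nil)))))))))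
 (Ls.cons (Ls.cons Ent.zero (Ls.cons Ent.zero (Ls.cons Ent.zero (Ls.cons Ent.zero (Ls.cons (Ent.pos F13_20_16_0) (Ls.cons (Ent.pos F13_19_16_0) (Ls.cons (Ent.pos F13_18_16_0) (Ls.cons (Ent.pos F13_17_16_0) Ls.nil))))))))
 (Ls.cons (Ls.cons Ent.zero (Ls.cons Ent.zero (Ls.cons Ent.zero (Ls.cons Ent.zero (Ls.cons (Ent.pos F13_20_17_0) (Ls.cons (Ent.pos F13_19_17_0) (Ls.cons (Ent.pos F13_18_17_0) Ls.nil)))))))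
 (Ls.cons (Ls.cons Ent.zero (Ls.cons Ent.zero (Ls.cons Ent.zero (Ls.cons Ent.zero (Ls.cons (Ent.pos F13_20_18_0) (Ls.cons (Ent.pos F13_19_18_0) Ls.nil))))))
 (Ls.cons (Ls.cons Ent.zero (Ls.cons Ent.zero (Ls.cons Ent.zero (Ls.cons Ent.zero (Ls.cons (Ent.pos F13_20_19_0) Ls.nil)))))
 Ls.nil))))))))))))))))))))

noncomputable def cF13_1_0 : L2 :=
 (Ls.cons Ls.nil
 (Ls.cons Ls.nil
 (Ls.cons (Ls.cons (Ent.neg F13_24_2_1) (Ls.cons (Ent.neg F13_23_2_1) (Ls.cons (Ent.neg F13_22_2_1) (Ls.cons (Ent.neg F13_21_2_1) (Ls.cons (Ent.neg F13_20_2_1) (Ls.cons (Ent.neg F13_19_2_1) (Ls.cons (Ent.neg F13_18_2_1) (Ls.cons (Ent.neg F13_17_2_1) (Ls.cons (Ent.neg F13_16_2_1) (Ls.cons (Ent.neg F13_15_2_1) (Ls.cons (Ent.neg F13_14_2_1) (Ls.cons (Ent.neg F13_13_2_1) (Ls.cons (Ent.neg F13_12_2_1) (Ls.cons (Ent.neg F13_11_2_1)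 (Ls.cons (Ent.neg F13_10_2_1) (Ls.cons (Ent.neg F13_9_2_1) (Ls.cons (Ent.neg F13_8_2_1) (Ls.cons (Ent.neg F13_7_2_1) (Ls.cons (Ent.neg F13_6_2_1) (Ls.cons (Ent.neg F13_5_2_1) (Ls.cons (Ent.neg F13_4_2_1) (Ls.cons (Ent.neg F13_3_2_1) Ls.nil))))))))))))))))))))))
 (Ls.cons (Ls.cons Ent.zero (Ls.cons (Ent.neg F13_23_3_1) (Ls.cons (Ent.neg F13_22_3_1) (Ls.cons (Ent.neg F13_21_3_1) (Ls.cons (Ent.neg F13_20_3_1) (Ls.cons (Ent.neg F13_19_3_1) (Ls.cons (Ent.neg F13_18_3_1) (Ls.cons (Ent.neg F13_17_3_1) (Ls.cons (Ent.neg F13_16_3_1) (Ls.cons (Ent.neg F13_15_3_1) (Ls.cons (Ent.neg F13_14_3_1) (Ls.cons (Ent.neg F13_13_3_1) (Ls.cons (Ent.neg F13_12_3_1) (Ls.cons (Ent.neg F13_11_3_1) (Ls.cons (Ent.neg F13_10_3_1) (Ls.cons (Ent.neg F13_9_3_1) (Ls.cons (Ent.neg F13_8_3_1) (Ls.cons (Ent.neg F13_7_3_1) (Ls.cons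 (Ent.neg F13_6_3_1) (Ls.cons (Ent.neg F13_5_3_1) (Ls.cons (Ent.neg F13_4_3_1) Ls.nil)))))))))))))))))))))
 (Ls.cons (Ls.cons Ent.zero (Ls.cons (Ent.neg F13_23_4_1) (Ls.cons (Ent.neg F13_22_4_1) (Ls.cons (Ent.neg F13_21_4_1) (Ls.cons (Ent.neg F13_20_4_1) (Ls.cons (Ent.neg F13_19_4_1) (Ls.cons (Ent.neg F13_18_4_1) (Ls.cons (Ent.neg F13_17_4_1) (Ls.cons (Ent.neg F13_16_4_1) (Ls.cons (Ent.neg F13_15_4_1) (Ls.cons (Ent.neg F13_14_4_1) (Ls.cons (Ent.neg F13_13_4_1) (Ls.cons (Ent.neg F13_12_4_1) (Ls.cons (Ent.neg F13_11_4_1) (Ls.cons (Ent.neg F13_10_4_1) (Ls.cons (Ent.neg F13_9_4_1) (Ls.cons (Ent.neg F13_8_4_1) (Ls.cons (Ent.neg F13_7_4_1) (Ls.cons (Ent.neg F13_6_4_1) (Ls.cons (Ent.neg F13_5_4_1) Ls.nil))))))))))))))))))))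
 (Ls.cons (Ls.cons Ent.zero (Ls.cons Ent.zero (Ls.cons Ent.zero (Ls.cons (Ent.neg F13_21_5_1) (Ls.cons (Ent.neg F13_20_5_1) (Ls.cons (Ent.neg F13_19_5_1) (Ls.cons (Ent.neg F13_18_5_1) (Ls.cons (Ent.neg F13_17_5_1) (Ls.cons (Ent.neg F13_16_5_1) (Ls.cons (Ent.neg F13_15_5_1) (Ls.cons (Ent.neg F13_14_5_1) (Ls.cons (Ent.neg F13_13_5_1) (Ls.cons (Ent.neg F13_12_5_1) (Ls.cons (Ent.neg F13_11_5_1) (Ls.cons (Ent.neg F13_10_5_1) (Ls.cons (Ent.neg F13_9_5_1) (Ls.cons (Ent.neg F13_8_5_1) (Ls.cons (Ent.neg F13_7_5_1) (Ls.cons (Ent.neg F13_6_5_1) Ls.nil)))))))))))))))))))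
 (Ls.cons (Ls.cons Ent.zero (Ls.cons Ent.zero (Ls.cons Ent.zero (Ls.cons (Ent.neg F13_21_6_1) (Ls.cons (Ent.neg F13_20_6_1) (Ls.cons (Ent.neg F13_19_6_1) (Ls.cons (Ent.neg F13_18_6_1) (Ls.cons (Ent.neg F13_17_6_1) (Ls.cons (Ent.neg F13_16_6_1) (Ls.cons (Ent.neg F13_15_6_1) (Ls.cons (Ent.neg F13_14_6_1) (Ls.cons (Ent.neg F13_13_6_1) (Ls.cons (Ent.neg F13_12_6_1) (Ls.cons (Ent.neg F13_11_6_1) (Ls.cons (Ent.neg F13_10_6_1) (Ls.cons (Ent.neg F13_9_6_1) (Ls.cons (Ent.neg F13_8_6_1) (Ls.cons (Ent.neg F13_7_6_1) Ls.nil))))))))))))))))))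
 (Ls.cons (Ls.cons Ent.zero (Ls.cons Ent.zero (Ls.cons Ent.zero (Ls.cons (Ent.neg F13_21_7_1) (Ls.cons (Ent.neg F13_20_7_1) (Ls.cons (Ent.neg F13_19_7_1) (Ls.cons (Ent.neg F13_18_7_1) (Ls.cons (Ent.neg F13_17_7_1) (Ls.cons (Ent.neg F13_16_7_1) (Ls.cons (Ent.neg F13_15_7_1) (Ls.cons (Ent.neg F13_14_7_1) (Ls.cons (Ent.neg F13_13_7_1) (Ls.cons (Ent.neg F13_12_7_1) (Ls.cons (Ent.neg F13_11_7_1) (Ls.cons (Ent.neg F13_10_7_1) (Ls.cons (Ent.neg F13_9_7_1) (Ls.cons (Ent.neg F13_8_7_1) Ls.nil)))))))))))))))))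
 (Ls.cons (Ls.cons Ent.zero (Ls.cons Ent.zero (Ls.cons Ent.zero (Ls.cons (Ent.neg F13_21_8_1) (Ls.cons (Ent.neg F13_20_8_1) (Ls.cons (Ent.neg F13_19_8_1) (Ls.cons (Ent.neg F13_18_8_1) (Ls.cons (Ent.neg F13_17_8_1) (Ls.cons (Ent.neg F13_16_8_1) (Ls.cons (Ent.neg F13_15_8_1) (Ls.cons (Ent.neg F13_14_8_1) (Ls.cons (Ent.neg F13_13_8_1) (Ls.cons (Ent.neg F13_12_8_1) (Ls.cons (Ent.neg F13_11_8_1) (Ls.cons (Ent.neg F13_10_8_1) (Ls.cons (Ent.neg F13_9_8_1) Ls.nil))))))))))))))))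
 (Ls.cons (Ls.cons Ent.zero (Ls.cons Ent.zero (Ls.cons Ent.zero (Ls.cons Ent.zero (Ls.cons (Ent.neg F13_20_9_1) (Ls.cons (Ent.neg F13_19_9_1) (Ls.cons (Ent.neg F13_18_9_1) (Ls.cons (Ent.neg F13_17_9_1) (Ls.cons (Ent.neg F13_16_9_1) (Ls.cons (Ent.neg F13_15_9_1) (Ls.cons (Ent.neg F13_14_9_1) (Ls.cons (Ent.neg F13_13_9_1) (Ls.cons (Ent.neg F13_12_9_1) (Ls.cons (Ent.neg F13_11_9_1) (Ls.cons (Ent.neg F13_10_9_1) Ls.nil)))))))))))))))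
 (Ls.cons (Ls.cons Ent.zero (Ls.cons Ent.zero (Ls.cons Ent.zero (Ls.cons Ent.zero (Ls.cons (Ent.neg F13_20_10_1) (Ls.cons (Ent.neg F13_19_10_1) (Ls.cons (Ent.neg F13_18_10_1) (Ls.cons (Ent.neg F13_17_10_1) (Ls.cons (Ent.neg F13_16_10_1) (Ls.cons (Ent.neg F13_15_10_1) (Ls.cons (Ent.neg F13_14_10_1) (Ls.cons (Ent.neg F13_13_10_1) (Ls.cons (Ent.neg F13_12_10_1) (Ls.cons (Ent.neg F13_11_10_1) Ls.nil))))))))))))))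
 (Ls.cons (Ls.cons Ent.zero (Ls.cons Ent.zero (Ls.cons Ent.zero (Ls.cons Ent.zero (Ls.cons (Ent.neg F13_20_11_1) (Ls.cons (Ent.neg F13_19_11_1) (Ls.cons (Ent.neg F13_18_11_1) (Ls.cons (Ent.neg F13_17_11_1) (Ls.cons (Ent.neg F13_16_11_1) (Ls.cons (Ent.neg F13_15_11_1) (Ls.cons (Ent.neg F13_14_11_1) (Ls.cons (Ent.neg F13_13_11_1) (Ls.cons (Ent.neg F13_12_11_1) Ls.nil)))))))))))))
 (Ls.cons (Ls.cons Ent.zero (Ls.cons Ent.zero (Ls.cons Ent.zero (Ls.cons Ent.zero (Ls.cons (Ent.neg F13_20_12_1) (Ls.cons (Ent.neg F13_19_12_1) (Ls.cons (Ent.neg F13_18_12_1) (Ls.cons (Ent.neg F13_17_12_1) (Ls.cons (Ent.neg F13_16_12_1) (Ls.cons (Ent.neg F13_15_12_1) (Ls.cons (Ent.neg F13_14_12_1) (Ls.cons (Ent.neg F13_13_12_1) Ls.nil))))))))))))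
 (Ls.cons (Ls.cons Ent.zero (Ls.cons Ent.zero (Ls.cons Ent.zero (Ls.cons Ent.zero (Ls.cons Ent.zero (Ls.cons (Ent.neg F13_19_13_1) (Ls.cons (Ent.neg F13_18_13_1) (Ls.cons (Ent.neg F13_17_13_1) (Ls.cons (Ent.neg F13_16_13_1) (Ls.cons (Ent.neg F13_15_13_1) (Ls.cons (Ent.neg F13_14_13_1) Ls.nil)))))))))))
 (Ls.cons (Ls.cons Ent.zero (Ls.cons Ent.zero (Ls.cons Ent.zero (Ls.cons Ent.zero (Ls.cons Ent.zero (Ls.cons (Ent.neg F13_19_14_1) (Ls.cons (Ent.neg F13_18_14_1) (Ls.cons (Ent.neg F13_17_14_1) (Ls.cons (Ent.neg F13_16_14_1) (Ls.cons (Ent.neg F13_15_14_1) Ls.nil))))))))))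
 (Ls.cons (Ls.cons Ent.zero (Ls.cons Ent.zero (Ls.cons Ent.zero (Ls.cons Ent.zero (Ls.cons Ent.zero (Ls.cons (Ent.neg F13_19_15_1) (Ls.cons (Ent.neg F13_18_15_1) (Ls.cons (Ent.neg F13_17_15_1) (Ls.cons (Ent.neg F13_16_15_1) Ls.nil)))))))))
 (Ls.cons (Ls.cons Ent.zero (Ls.cons Ent.zero (Ls.cons Ent.zero (Ls.cons Ent.zero (Ls.cons Ent.zero (Ls.cons (Ent.neg F13_19_16_1) (Ls.cons (Ent.neg F13_18_16_1) (Ls.cons (Ent.neg F13_17_16_1) Ls.nil))))))))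
 (Ls.cons (Ls.cons Ent.zero (Ls.cons Ent.zero (Ls.cons Ent.zero (Ls.cons Ent.zero (Ls.cons Ent.zero (Ls.cons Ent.zero (Ls.cons (Ent.neg F13_18_17_1) Ls.nil)))))))
 (Ls.cons Ls.nil
 (Ls.cons Ls.nil
 Ls.nil))))))))))))))))))))

noncomputable def cF13_2_0 : L2 :=
 (Ls.cons Ls.nil
 (Ls.cons Ls.nil
 (Ls.cons Ls.nil
 (Ls.cons (Ls.cons Ent.zero (Ls.cons Ent.zero (Ls.cons (Ent.neg F13_22_3_2) (Ls.cons (Ent.neg F13_21_3_2) (Ls.cons (Ent.neg F13_20_3_2) (Ls.cons (Ent.neg F13_19_3_2) (Ls.cons (Ent.neg F13_18_3_2) (Ls.cons (Ent.neg F13_17_3_2) (Ls.cons (Ent.neg F13_16_3_2) (Ls.cons (Ent.neg F13_15_3_2) (Ls.cons (Ent.neg F13_14_3_2) (Ls.cons (Ent.neg F13_13_3_2) (Ls.cons (Ent.neg F13_12_3_2) (Ls.cons (Ent.neg F13_11_3_2) (Ls.cons (Ent.neg F13_10_3_2) (Ls.cons (Ent.neg F13_9_3_2) (Ls.cons (Ent.neg F13_8_3_2)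 (Ls.cons (Ent.neg F13_7_3_2) (Ls.cons (Ent.neg F13_6_3_2) (Ls.cons (Ent.neg F13_5_3_2) (Ls.cons (Ent.neg F13_4_3_2) Ls.nil)))))))))))))))))))))
 (Ls.cons (Ls.cons Ent.zero (Ls.cons Ent.zero (Ls.cons Ent.zero (Ls.cons (Ent.neg F13_21_4_2) (Ls.cons (Ent.neg F13_20_4_2) (Ls.cons (Ent.neg F13_19_4_2) (Ls.cons (Ent.neg F13_18_4_2) (Ls.cons (Ent.neg F13_17_4_2) (Ls.cons (Ent.neg F13_16_4_2) (Ls.cons (Ent.neg F13_15_4_2) (Ls.cons (Ent.neg F13_14_4_2) (Ls.cons (Ent.neg F13_13_4_2) (Ls.cons (Ent.neg F13_12_4_2) (Ls.cons (Ent.neg F13_11_4_2) (Ls.cons (Ent.neg F13_10_4_2) (Ls.cons (Ent.neg F13_9_4_2) (Ls.cons (Ent.neg F13_8_4_2) (Ls.cons (Ent.neg F13_7_4_2) (Ls.cons (Ent.neg F13_6_4_2) (Ls.cons (Ent.neg F13_5_4_2) Ls.nil))))))))))))))))))))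
 (Ls.cons (Ls.cons Ent.zero (Ls.cons Ent.zero (Ls.cons Ent.zero (Ls.cons (Ent.neg F13_21_5_2) (Ls.cons (Ent.neg F13_20_5_2) (Ls.cons (Ent.neg F13_19_5_2) (Ls.cons (Ent.neg F13_18_5_2) (Ls.cons (Ent.neg F13_17_5_2) (Ls.cons (Ent.neg F13_16_5_2) (Ls.cons (Ent.neg F13_15_5_2) (Ls.cons (Ent.neg F13_14_5_2) (Ls.cons (Ent.neg F13_13_5_2) (Ls.cons (Ent.neg F13_12_5_2) (Ls.cons (Ent.neg F13_11_5_2) (Ls.cons (Ent.neg F13_10_5_2) (Ls.cons (Ent.neg F13_9_5_2) (Ls.cons (Ent.neg F13_8_5_2) (Ls.cons (Ent.neg F13_7_5_2) (Ls.cons (Ent.neg F13_6_5_2) Ls.nil)))))))))))))))))))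
 (Ls.cons (Ls.cons Ent.zero (Ls.cons Ent.zero (Ls.cons Ent.zero (Ls.cons (Ent.neg F13_21_6_2) (Ls.cons (Ent.neg F13_20_6_2) (Ls.cons (Ent.neg F13_19_6_2) (Ls.cons (Ent.neg F13_18_6_2) (Ls.cons (Ent.neg F13_17_6_2) (Ls.cons (Ent.neg F13_16_6_2) (Ls.cons (Ent.neg F13_15_6_2) (Ls.cons (Ent.neg F13_14_6_2) (Ls.cons (Ent.neg F13_13_6_2) (Ls.cons (Ent.neg F13_12_6_2) (Ls.cons (Ent.neg F13_11_6_2) (Ls.cons (Ent.neg F13_10_6_2) (Ls.cons (Ent.neg F13_9_6_2) (Ls.cons (Ent.neg F13_8_6_2) (Ls.cons (Ent.neg F13_7_6_2) Ls.nil))))))))))))))))))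
 (Ls.cons (Ls.cons Ent.zero (Ls.cons Ent.zero (Ls.cons Ent.zero (Ls.cons (Ent.neg F13_21_7_2) (Ls.cons (Ent.neg F13_20_7_2) (Ls.cons (Ent.neg F13_19_7_2) (Ls.cons (Ent.neg F13_18_7_2) (Ls.cons (Ent.neg F13_17_7_2) (Ls.cons (Ent.neg F13_16_7_2) (Ls.cons (Ent.neg F13_15_7_2) (Ls.cons (Ent.neg F13_14_7_2) (Ls.cons (Ent.neg F13_13_7_2) (Ls.cons (Ent.neg F13_12_7_2) (Ls.cons (Ent.neg F13_11_7_2) (Ls.cons (Ent.neg F13_10_7_2) (Ls.cons (Ent.neg F13_9_7_2) (Ls.cons (Ent.neg F13_8_7_2) Ls.nil)))))))))))))))))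
 (Ls.cons (Ls.cons Ent.zero (Ls.cons Ent.zero (Ls.cons Ent.zero (Ls.cons Ent.zero (Ls.cons (Ent.neg F13_20_8_2) (Ls.cons (Ent.neg F13_19_8_2) (Ls.cons (Ent.neg F13_18_8_2) (Ls.cons (Ent.neg F13_17_8_2) (Ls.cons (Ent.neg F13_16_8_2) (Ls.cons (Ent.neg F13_15_8_2) (Ls.cons (Ent.neg F13_14_8_2) (Ls.cons (Ent.neg F13_13_8_2) (Ls.cons (Ent.neg F13_12_8_2) (Ls.cons (Ent.neg F13_11_8_2) (Ls.cons (Ent.neg F13_10_8_2) (Ls.cons (Ent.neg F13_9_8_2) Ls.nil))))))))))))))))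
 (Ls.cons (Ls.cons Ent.zero (Ls.cons Ent.zero (Ls.cons Ent.zero (Ls.cons Ent.zero (Ls.cons (Ent.neg F13_20_9_2) (Ls.cons (Ent.neg F13_19_9_2) (Ls.cons (Ent.neg F13_18_9_2) (Ls.cons (Ent.neg F13_17_9_2) (Ls.cons (Ent.neg F13_16_9_2) (Ls.cons (Ent.neg F13_15_9_2) (Ls.cons (Ent.neg F13_14_9_2) (Ls.cons (Ent.neg F13_13_9_2) (Ls.cons (Ent.neg F13_12_9_2) (Ls.cons (Ent.neg F13_11_9_2) (Ls.cons (Ent.neg F13_10_9_2) Ls.nil)))))))))))))))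
 (Ls.cons (Ls.cons Ent.zero (Ls.cons Ent.zero (Ls.cons Ent.zero (Ls.cons Ent.zero (Ls.cons (Ent.neg F13_20_10_2) (Ls.cons (Ent.neg F13_19_10_2) (Ls.cons (Ent.neg F13_18_10_2) (Ls.cons (Ent.neg F13_17_10_2) (Ls.cons (Ent.neg F13_16_10_2) (Ls.cons (Ent.neg F13_15_10_2) (Ls.cons (Ent.neg F13_14_10_2) (Ls.cons (Ent.neg F13_13_10_2) (Ls.cons (Ent.neg F13_12_10_2) (Ls.cons (Ent.neg F13_11_10_2) Ls.nil))))))))))))))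
 (Ls.cons (Ls.cons Ent.zero (Ls.cons Ent.zero (Ls.cons Ent.zero (Ls.cons Ent.zero (Ls.cons (Ent.neg F13_20_11_2) (Ls.cons (Ent.neg F13_19_11_2) (Ls.cons (Ent.neg F13_18_11_2) (Ls.cons (Ent.neg F13_17_11_2) (Ls.cons (Ent.neg F13_16_11_2) (Ls.cons (Ent.neg F13_15_11_2) (Ls.cons (Ent.neg F13_14_11_2) (Ls.cons (Ent.neg F13_13_11_2) (Ls.cons (Ent.neg F13_12_11_2) Ls.nil)))))))))))))
 (Ls.cons (Ls.cons Ent.zero (Ls.cons Ent.zero (Ls.cons Ent.zero (Ls.cons Ent.zero (Ls.cons Ent.zero (Ls.cons (Ent.neg F13_19_12_2) (Ls.cons (Ent.neg F13_18_12_2) (Ls.cons (Ent.neg F13_17_12_2) (Ls.cons (Ent.neg F13_16_12_2) (Ls.cons (Ent.neg F13_15_12_2) (Ls.cons (Ent.neg F13_14_12_2) (Ls.cons (Ent.neg F13_13_12_2) Ls.nil))))))))))))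
 (Ls.cons (Ls.cons Ent.zero (Ls.cons Ent.zero (Ls.cons Ent.zero (Ls.cons Ent.zero (Ls.cons Ent.zero (Ls.cons (Ent.neg F13_19_13_2) (Ls.cons (Ent.neg F13_18_13_2) (Ls.cons (Ent.neg F13_17_13_2) (Ls.cons (Ent.neg F13_16_13_2) (Ls.cons (Ent.neg F13_15_13_2) (Ls.cons (Ent.neg F13_14_13_2) Ls.nil)))))))))))
 (Ls.cons (Ls.cons Ent.zero (Ls.cons Ent.zero (Ls.cons Ent.zero (Ls.cons Ent.zero (Ls.cons Ent.zero (Ls.cons (Ent.neg F13_19_14_2) (Ls.cons (Ent.neg F13_18_14_2) (Ls.cons (Ent.neg F13_17_14_2) (Ls.cons (Ent.neg F13_16_14_2) (Ls.cons (Ent.neg F13_15_14_2) Ls.nil))))))))))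
 (Ls.cons (Ls.cons Ent.zero (Ls.cons Ent.zero (Ls.cons Ent.zero (Ls.cons Ent.zero (Ls.cons Ent.zero (Ls.cons (Ent.neg F13_19_15_2) (Ls.cons (Ent.neg F13_18_15_2) (Ls.cons (Ent.neg F13_17_15_2) (Ls.cons (Ent.neg F13_16_15_2) Ls.nil)))))))))
 (Ls.cons (Ls.cons Ent.zero (Ls.cons Ent.zero (Ls.cons Ent.zero (Ls.cons Ent.zero (Ls.cons Ent.zero (Ls.cons Ent.zero (Ls.cons (Ent.neg F13_18_16_2) (Ls.cons (Ent.neg F13_17_16_2) Ls.nil))))))))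
 (Ls.cons (Ls.cons Ent.zero (Ls.cons Ent.zero (Ls.cons Ent.zero (Ls.cons Ent.zero (Ls.cons Ent.zero (Ls.cons Ent.zero (Ls.cons (Ent.neg F13_18_17_2) Ls.nil)))))))
 (Ls.cons Ls.nil
 (Ls.cons Ls.nil
 Ls.nil))))))))))))))))))))

noncomputable def cF13_3_0 : L2 :=
 (Ls.cons Ls.nil
 (Ls.cons Ls.nil
 (Ls.cons Ls.nil
 (Ls.cons Ls.nil
 (Ls.cons (Ls.cons Ent.zero (Ls.cons Ent.zero (Ls.cons Ent.zero (Ls.cons (Ent.neg F13_21_4_3) (Ls.cons (Ent.neg F13_20_4_3) (Ls.cons (Ent.neg F13_19_4_3) (Ls.cons (Ent.neg F13_18_4_3) (Ls.cons (Ent.neg F13_17_4_3) (Ls.cons (Ent.neg F13_16_4_3) (Ls.cons (Ent.neg F13_15_4_3) (Ls.cons (Ent.neg F13_14_4_3) (Ls.cons (Ent.neg F13_13_4_3) (Ls.cons (Ent.neg F13_12_4_3) (Ls.cons (Ent.neg F13_11_4_3) (Ls.cons (Ent.neg F13_10_4_3) (Ls.cons (Ent.neg F13_9_4_3) (Ls.cons (Ent.neg F13_8_4_3)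 (Ls.cons (Ent.neg F13_7_4_3) (Ls.cons (Ent.neg F13_6_4_3) (Ls.cons (Ent.neg F13_5_4_3) Ls.nil))))))))))))))))))))
 (Ls.cons (Ls.cons Ent.zero (Ls.cons Ent.zero (Ls.cons Ent.zero (Ls.cons (Ent.neg F13_21_5_3) (Ls.cons (Ent.neg F13_20_5_3) (Ls.cons (Ent.neg F13_19_5_3) (Ls.cons (Ent.neg F13_18_5_3) (Ls.cons (Ent.neg F13_17_5_3) (Ls.cons (Ent.neg F13_16_5_3) (Ls.cons (Ent.neg F13_15_5_3) (Ls.cons (Ent.neg F13_14_5_3) (Ls.cons (Ent.neg F13_13_5_3) (Ls.cons (Ent.neg F13_12_5_3) (Ls.cons (Ent.neg F13_11_5_3) (Ls.cons (Ent.neg F13_10_5_3) (Ls.cons (Ent.neg F13_9_5_3) (Ls.cons (Ent.neg F13_8_5_3) (Ls.cons (Ent.neg F13_7_5_3) (Ls.cons (Ent.neg F13_6_5_3) Ls.nil)))))))))))))))))))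
 (Ls.cons (Ls.cons Ent.zero (Ls.cons Ent.zero (Ls.cons Ent.zero (Ls.cons (Ent.neg F13_21_6_3) (Ls.cons (Ent.neg F13_20_6_3) (Ls.cons (Ent.neg F13_19_6_3) (Ls.cons (Ent.neg F13_18_6_3) (Ls.cons (Ent.neg F13_17_6_3) (Ls.cons (Ent.neg F13_16_6_3) (Ls.cons (Ent.neg F13_15_6_3) (Ls.cons (Ent.neg F13_14_6_3) (Ls.cons (Ent.neg F13_13_6_3) (Ls.cons (Ent.neg F13_12_6_3) (Ls.cons (Ent.neg F13_11_6_3) (Ls.cons (Ent.neg F13_10_6_3) (Ls.cons (Ent.neg F13_9_6_3) (Ls.cons (Ent.neg F13_8_6_3) (Ls.cons (Ent.neg F13_7_6_3) Ls.nil))))))))))))))))))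
 (Ls.cons (Ls.cons Ent.zero (Ls.cons Ent.zero (Ls.cons Ent.zero (Ls.cons Ent.zero (Ls.cons (Ent.neg F13_20_7_3) (Ls.cons (Ent.neg F13_19_7_3) (Ls.cons (Ent.neg F13_18_7_3) (Ls.cons (Ent.neg F13_17_7_3) (Ls.cons (Ent.neg F13_16_7_3) (Ls.cons (Ent.neg F13_15_7_3) (Ls.cons (Ent.neg F13_14_7_3) (Ls.cons (Ent.neg F13_13_7_3) (Ls.cons (Ent.neg F13_12_7_3) (Ls.cons (Ent.neg F13_11_7_3) (Ls.cons (Ent.neg F13_10_7_3) (Ls.cons (Ent.neg F13_9_7_3) (Ls.cons (Ent.neg F13_8_7_3) Ls.nil)))))))))))))))))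
 (Ls.cons (Ls.cons Ent.zero (Ls.cons Ent.zero (Ls.cons Ent.zero (Ls.cons Ent.zero (Ls.cons (Ent.neg F13_20_8_3) (Ls.cons (Ent.neg F13_19_8_3) (Ls.cons (Ent.neg F13_18_8_3) (Ls.cons (Ent.neg F13_17_8_3) (Ls.cons (Ent.neg F13_16_8_3) (Ls.cons (Ent.neg F13_15_8_3) (Ls.cons (Ent.neg F13_14_8_3) (Ls.cons (Ent.neg F13_13_8_3) (Ls.cons (Ent.neg F13_12_8_3) (Ls.cons (Ent.neg F13_11_8_3) (Ls.cons (Ent.neg F13_10_8_3) (Ls.cons (Ent.neg F13_9_8_3) Ls.nil))))))))))))))))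
 (Ls.cons (Ls.cons Ent.zero (Ls.cons Ent.zero (Ls.cons Ent.zero (Ls.cons Ent.zero (Ls.cons (Ent.neg F13_20_9_3) (Ls.cons (Ent.neg F13_19_9_3) (Ls.cons (Ent.neg F13_18_9_3) (Ls.cons (Ent.neg F13_17_9_3) (Ls.cons (Ent.neg F13_16_9_3) (Ls.cons (Ent.neg F13_15_9_3) (Ls.cons (Ent.neg F13_14_9_3) (Ls.cons (Ent.neg F13_13_9_3) (Ls.cons (Ent.neg F13_12_9_3) (Ls.cons (Ent.neg F13_11_9_3) (Ls.cons (Ent.neg F13_10_9_3) Ls.nil)))))))))))))))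
 (Ls.cons (Ls.cons Ent.zero (Ls.cons Ent.zero (Ls.cons Ent.zero (Ls.cons Ent.zero (Ls.cons (Ent.neg F13_20_10_3) (Ls.cons (Ent.neg F13_19_10_3) (Ls.cons (Ent.neg F13_18_10_3) (Ls.cons (Ent.neg F13_17_10_3) (Ls.cons (Ent.neg F13_16_10_3) (Ls.cons (Ent.neg F13_15_10_3) (Ls.cons (Ent.neg F13_14_10_3) (Ls.cons (Ent.neg F13_13_10_3) (Ls.cons (Ent.neg F13_12_10_3) (Ls.cons (Ent.neg F13_11_10_3) Ls.nil))))))))))))))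
 (Ls.cons (Ls.cons Ent.zero (Ls.cons Ent.zero (Ls.cons Ent.zero (Ls.cons Ent.zero (Ls.cons Ent.zero (Ls.cons (Ent.neg F13_19_11_3) (Ls.cons (Ent.neg F13_18_11_3) (Ls.cons (Ent.neg F13_17_11_3) (Ls.cons (Ent.neg F13_16_11_3) (Ls.cons (Ent.neg F13_15_11_3) (Ls.cons (Ent.neg F13_14_11_3) (Ls.cons (Ent.neg F13_13_11_3) (Ls.cons (Ent.neg F13_12_11_3) Ls.nil)))))))))))))
 (Ls.cons (Ls.cons Ent.zero (Ls.cons Ent.zero (Ls.cons Ent.zero (Ls.cons Ent.zero (Ls.cons Ent.zero (Ls.cons (Ent.neg F13_19_12_3) (Ls.cons (Ent.neg F13_18_12_3) (Ls.cons (Ent.neg F13_17_12_3) (Ls.cons (Ent.neg F13_16_12_3) (Ls.cons (Ent.neg F13_15_12_3) (Ls.cons (Ent.neg F13_14_12_3) (Ls.cons (Ent.neg F13_13_12_3) Ls.nil))))))))))))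
 (Ls.cons (Ls.cons Ent.zero (Ls.cons Ent.zero (Ls.cons Ent.zero (Ls.cons Ent.zero (Ls.cons Ent.zero (Ls.cons (Ent.neg F13_19_13_3) (Ls.cons (Ent.neg F13_18_13_3) (Ls.cons (Ent.neg F13_17_13_3) (Ls.cons (Ent.neg F13_16_13_3) (Ls.cons (Ent.neg F13_15_13_3) (Ls.cons (Ent.neg F13_14_13_3) Ls.nil)))))))))))
 (Ls.cons (Ls.cons Ent.zero (Ls.cons Ent.zero (Ls.cons Ent.zero (Ls.cons Ent.zero (Ls.cons Ent.zero (Ls.cons (Ent.neg F13_19_14_3) (Ls.cons (Ent.neg F13_18_14_3) (Ls.cons (Ent.neg F13_17_14_3) (Ls.cons (Ent.neg F13_16_14_3) (Ls.cons (Ent.neg F13_15_14_3) Ls.nil))))))))))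
 (Ls.cons (Ls.cons Ent.zero (Ls.cons Ent.zero (Ls.cons Ent.zero (Ls.cons Ent.zero (Ls.cons Ent.zero (Ls.cons Ent.zero (Ls.cons (Ent.neg F13_18_15_3) (Ls.cons (Ent.neg F13_17_15_3) (Ls.cons (Ent.neg F13_16_15_3) Ls.nil)))))))))
 (Ls.cons (Ls.cons Ent.zero (Ls.cons Ent.zero (Ls.cons Ent.zero (Ls.cons Ent.zero (Ls.cons Ent.zero (Ls.cons Ent.zero (Ls.cons (Ent.neg F13_18_16_3) (Ls.cons (Ent.neg F13_17_16_3) Ls.nil))))))))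
 (Ls.cons (Ls.cons Ent.zero (Ls.cons Ent.zero (Ls.cons Ent.zero (Ls.cons Ent.zero (Ls.cons Ent.zero (Ls.cons Ent.zero (Ls.cons (Ent.neg F13_18_17_3) Ls.nil)))))))
 (Ls.cons Ls.nil
 (Ls.cons Ls.nil
 Ls.nil))))))))))))))))))))

noncomputable def cF13_4_0 : L2 :=
 (Ls.cons Ls.nil
 (Ls.cons Ls.nil
 (Ls.cons Ls.nil
 (Ls.cons Ls.nil
 (Ls.cons Ls.nil
 (Ls.cons (Ls.cons Ent.zero (Ls.cons Ent.zero (Ls.cons Ent.zero (Ls.cons (Ent.neg F13_21_5_4) (Ls.cons (Ent.neg F13_20_5_4) (Ls.cons (Ent.neg F13_19_5_4) (Ls.cons (Ent.neg F13_18_5_4) (Ls.cons (Ent.neg F13_17_5_4) (Ls.cons (Ent.neg F13_16_5_4) (Ls.cons (Ent.neg F13_15_5_4) (Ls.cons (Ent.neg F13_14_5_4) (Ls.cons (Ent.neg F13_13_5_4) (Ls.cons (Ent.neg F13_12_5_4) (Ls.cons (Ent.neg F13_11_5_4) (Ls.cons (Ent.neg F13_10_5_4) (Ls.cons (Ent.neg F13_9_5_4) (Ls.cons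 (Ent.neg F13_8_5_4) (Ls.cons (Ent.neg F13_7_5_4) (Ls.cons (Ent.neg F13_6_5_4) Ls.nil)))))))))))))))))))
 (Ls.cons (Ls.cons Ent.zero (Ls.cons Ent.zero (Ls.cons Ent.zero (Ls.cons Ent.zero (Ls.cons (Ent.neg F13_20_6_4) (Ls.cons (Ent.neg F13_19_6_4) (Ls.cons (Ent.neg F13_18_6_4) (Ls.cons (Ent.neg F13_17_6_4) (Ls.cons (Ent.neg F13_16_6_4) (Ls.cons (Ent.neg F13_15_6_4) (Ls.cons (Ent.neg F13_14_6_4) (Ls.cons (Ent.neg F13_13_6_4) (Ls.cons (Ent.neg F13_12_6_4) (Ls.cons (Ent.neg F13_11_6_4) (Ls.cons (Ent.neg F13_10_6_4) (Ls.cons (Ent.neg F13_9_6_4) (Ls.cons (Ent.neg F13_8_6_4) (Ls.cons (Ent.neg F13_7_6_4) Ls.nil))))))))))))))))))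
 (Ls.cons (Ls.cons Ent.zero (Ls.cons Ent.zero (Ls.cons Ent.zero (Ls.cons Ent.zero (Ls.cons (Ent.neg F13_20_7_4) (Ls.cons (Ent.neg F13_19_7_4) (Ls.cons (Ent.neg F13_18_7_4) (Ls.cons (Ent.neg F13_17_7_4) (Ls.cons (Ent.neg F13_16_7_4) (Ls.cons (Ent.neg F13_15_7_4) (Ls.cons (Ent.neg F13_14_7_4) (Ls.cons (Ent.neg F13_13_7_4) (Ls.cons (Ent.neg F13_12_7_4) (Ls.cons (Ent.neg F13_11_7_4) (Ls.cons (Ent.neg F13_10_7_4) (Ls.cons (Ent.neg F13_9_7_4) (Ls.cons (Ent.neg F13_8_7_4) Ls.nil)))))))))))))))))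
 (Ls.cons (Ls.cons Ent.zero (Ls.cons Ent.zero (Ls.cons Ent.zero (Ls.cons Ent.zero (Ls.cons (Ent.neg F13_20_8_4) (Ls.cons (Ent.neg F13_19_8_4) (Ls.cons (Ent.neg F13_18_8_4) (Ls.cons (Ent.neg F13_17_8_4) (Ls.cons (Ent.neg F13_16_8_4) (Ls.cons (Ent.neg F13_15_8_4) (Ls.cons (Ent.neg F13_14_8_4) (Ls.cons (Ent.neg F13_13_8_4) (Ls.cons (Ent.neg F13_12_8_4) (Ls.cons (Ent.neg F13_11_8_4) (Ls.cons (Ent.neg F13_10_8_4) (Ls.cons (Ent.neg F13_9_8_4) Ls.nil))))))))))))))))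
 (Ls.cons (Ls.cons Ent.zero (Ls.cons Ent.zero (Ls.cons Ent.zero (Ls.cons Ent.zero (Ls.cons (Ent.neg F13_20_9_4) (Ls.cons (Ent.neg F13_19_9_4) (Ls.cons (Ent.neg F13_18_9_4) (Ls.cons (Ent.neg F13_17_9_4) (Ls.cons (Ent.neg F13_16_9_4) (Ls.cons (Ent.neg F13_15_9_4) (Ls.cons (Ent.neg F13_14_9_4) (Ls.cons (Ent.neg F13_13_9_4) (Ls.cons (Ent.neg F13_12_9_4) (Ls.cons (Ent.neg F13_11_9_4) (Ls.cons (Ent.neg F13_10_9_4) Ls.nil)))))))))))))))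
 (Ls.cons (Ls.cons Ent.zero (Ls.cons Ent.zero (Ls.cons Ent.zero (Ls.cons Ent.zero (Ls.cons Ent.zero (Ls.cons (Ent.neg F13_19_10_4) (Ls.cons (Ent.neg F13_18_10_4) (Ls.cons (Ent.neg F13_17_10_4) (Ls.cons (Ent.neg F13_16_10_4) (Ls.cons (Ent.neg F13_15_10_4) (Ls.cons (Ent.neg F13_14_10_4) (Ls.cons (Ent.neg F13_13_10_4) (Ls.cons (Ent.neg F13_12_10_4) (Ls.cons (Ent.neg F13_11_10_4) Ls.nil))))))))))))))
 (Ls.cons (Ls.cons Ent.zero (Ls.cons Ent.zero (Ls.cons Ent.zero (Ls.cons Ent.zero (Ls.cons Ent.zero (Ls.cons (Ent.neg F13_19_11_4) (Ls.cons (Ent.neg F13_18_11_4) (Ls.cons (Ent.neg F13_17_11_4) (Ls.cons (Ent.neg F13_16_11_4) (Ls.cons (Ent.neg F13_15_11_4) (Ls.cons (Ent.neg F13_14_11_4) (Ls.cons (Ent.neg F13_13_11_4) (Ls.cons (Ent.neg F13_12_11_4) Ls.nil)))))))))))))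
 (Ls.cons (Ls.cons Ent.zero (Ls.cons Ent.zero (Ls.cons Ent.zero (Ls.cons Ent.zero (Ls.cons Ent.zero (Ls.cons (Ent.neg F13_19_12_4) (Ls.cons (Ent.neg F13_18_12_4) (Ls.cons (Ent.neg F13_17_12_4) (Ls.cons (Ent.neg F13_16_12_4) (Ls.cons (Ent.neg F13_15_12_4) (Ls.cons (Ent.neg F13_14_12_4) (Ls.cons (Ent.neg F13_13_12_4) Ls.nil))))))))))))
 (Ls.cons (Ls.cons Ent.zero (Ls.cons Ent.zero (Ls.cons Ent.zero (Ls.cons Ent.zero (Ls.cons Ent.zero (Ls.cons (Ent.neg F13_19_13_4) (Ls.cons (Ent.neg F13_18_13_4) (Ls.cons (Ent.neg F13_17_13_4) (Ls.cons (Ent.neg F13_16_13_4) (Ls.cons (Ent.neg F13_15_13_4) (Ls.cons (Ent.neg F13_14_13_4) Ls.nil)))))))))))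
 (Ls.cons (Ls.cons Ent.zero (Ls.cons Ent.zero (Ls.cons Ent.zero (Ls.cons Ent.zero (Ls.cons Ent.zero (Ls.cons Ent.zero (Ls.cons (Ent.neg F13_18_14_4) (Ls.cons (Ent.neg F13_17_14_4) (Ls.cons (Ent.neg F13_16_14_4) (Ls.cons (Ent.neg F13_15_14_4) Ls.nil))))))))))
 (Ls.cons (Ls.cons Ent.zero (Ls.cons Ent.zero (Ls.cons Ent.zero (Ls.cons Ent.zero (Ls.cons Ent.zero (Ls.cons Ent.zero (Ls.cons (Ent.neg F13_18_15_4) (Ls.cons (Ent.neg F13_17_15_4) (Ls.cons (Ent.neg F13_16_15_4) Ls.nil)))))))))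
 (Ls.cons (Ls.cons Ent.zero (Ls.cons Ent.zero (Ls.cons Ent.zero (Ls.cons Ent.zero (Ls.cons Ent.zero (Ls.cons Ent.zero (Ls.cons (Ent.neg F13_18_16_4) (Ls.cons (Ent.neg F13_17_16_4) Ls.nil))))))))
 (Ls.cons (Ls.cons Ent.zero (Ls.cons Ent.zero (Ls.cons Ent.zero (Ls.cons Ent.zero (Ls.cons Ent.zero (Ls.cons Ent.zero (Ls.cons (Ent.neg F13_18_17_4) Ls.nil)))))))
 (Ls.cons Ls.nil
 (Ls.cons Ls.nil
 Ls.nil))))))))))))))))))))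

noncomputable def cF13_5_0 : L2 :=
 (Ls.cons Ls.nil
 (Ls.cons Ls.nil
 (Ls.cons Ls.nil
 (Ls.cons Ls.nil
 (Ls.cons Ls.nil
 (Ls.cons Ls.nil
 (Ls.cons (Ls.cons Ent.zero (Ls.cons Ent.zero (Ls.cons Ent.zero (Ls.cons Ent.zero (Ls.cons (Ent.neg F13_20_6_5) (Ls.cons (Ent.neg F13_19_6_5) (Ls.cons (Ent.neg F13_18_6_5) (Ls.cons (Ent.neg F13_17_6_5) (Ls.cons (Ent.neg F13_16_6_5) (Ls.cons (Ent.neg F13_15_6_5) (Ls.cons (Ent.neg F13_14_6_5) (Ls.cons (Ent.neg F13_13_6_5) (Ls.cons (Ent.neg F13_12_6_5) (Ls.cons (Ent.neg F13_11_6_5) (Ls.cons (Ent.neg F13_10_6_5) (Ls.cons (Ent.neg F13_9_6_5) (Ls.cons (Ent.neg F13_8_6_5) (Ls.cons (Ent.neg F13_7_6_5) Ls.nil))))))))))))))))))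
 (Ls.cons (Ls.cons Ent.zero (Ls.cons Ent.zero (Ls.cons Ent.zero (Ls.cons Ent.zero (Ls.cons (Ent.neg F13_20_7_5) (Ls.cons (Ent.neg F13_19_7_5) (Ls.cons (Ent.neg F13_18_7_5) (Ls.cons (Ent.neg F13_17_7_5) (Ls.cons (Ent.neg F13_16_7_5) (Ls.cons (Ent.neg F13_15_7_5) (Ls.cons (Ent.neg F13_14_7_5) (Ls.cons (Ent.neg F13_13_7_5) (Ls.cons (Ent.neg F13_12_7_5) (Ls.cons (Ent.neg F13_11_7_5) (Ls.cons (Ent.neg F13_10_7_5) (Ls.cons (Ent.neg F13_9_7_5) (Ls.cons (Ent.neg F13_8_7_5) Ls.nil)))))))))))))))))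
 (Ls.cons (Ls.cons Ent.zero (Ls.cons Ent.zero (Ls.cons Ent.zero (Ls.cons Ent.zero (Ls.cons (Ent.neg F13_20_8_5) (Ls.cons (Ent.neg F13_19_8_5) (Ls.cons (Ent.neg F13_18_8_5) (Ls.cons (Ent.neg F13_17_8_5) (Ls.cons (Ent.neg F13_16_8_5) (Ls.cons (Ent.neg F13_15_8_5) (Ls.cons (Ent.neg F13_14_8_5) (Ls.cons (Ent.neg F13_13_8_5) (Ls.cons (Ent.neg F13_12_8_5) (Ls.cons (Ent.neg F13_11_8_5) (Ls.cons (Ent.neg F13_10_8_5) (Ls.cons (Ent.neg F13_9_8_5) Ls.nil))))))))))))))))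
 (Ls.cons (Ls.cons Ent.zero (Ls.cons Ent.zero (Ls.cons Ent.zero (Ls.cons Ent.zero (Ls.cons Ent.zero (Ls.cons (Ent.neg F13_19_9_5) (Ls.cons (Ent.neg F13_18_9_5) (Ls.cons (Ent.neg F13_17_9_5) (Ls.cons (Ent.neg F13_16_9_5) (Ls.cons (Ent.neg F13_15_9_5) (Ls.cons (Ent.neg F13_14_9_5) (Ls.cons (Ent.neg F13_13_9_5) (Ls.cons (Ent.neg F13_12_9_5) (Ls.cons (Ent.neg F13_11_9_5) (Ls.cons (Ent.neg F13_10_9_5) Ls.nil)))))))))))))))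
 (Ls.cons (Ls.cons Ent.zero (Ls.cons Ent.zero (Ls.cons Ent.zero (Ls.cons Ent.zero (Ls.cons Ent.zero (Ls.cons (Ent.neg F13_19_10_5) (Ls.cons (Ent.neg F13_18_10_5) (Ls.cons (Ent.neg F13_17_10_5) (Ls.cons (Ent.neg F13_16_10_5) (Ls.cons (Ent.neg F13_15_10_5) (Ls.cons (Ent.neg F13_14_10_5) (Ls.cons (Ent.neg F13_13_10_5) (Ls.cons (Ent.neg F13_12_10_5) (Ls.cons (Ent.neg F13_11_10_5) Ls.nil))))))))))))))
 (Ls.cons (Ls.cons Ent.zero (Ls.cons Ent.zero (Ls.cons Ent.zero (Ls.cons Ent.zero (Ls.cons Ent.zero (Ls.cons (Ent.neg F13_19_11_5) (Ls.cons (Ent.neg F13_18_11_5) (Ls.cons (Ent.neg F13_17_11_5) (Ls.cons (Ent.neg F13_16_11_5) (Ls.cons (Ent.neg F13_15_11_5) (Ls.cons (Ent.neg F13_14_11_5) (Ls.cons (Ent.neg F13_13_11_5) (Ls.cons (Ent.neg F13_12_11_5) Ls.nil)))))))))))))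
 (Ls.cons (Ls.cons Ent.zero (Ls.cons Ent.zero (Ls.cons Ent.zero (Ls.cons Ent.zero (Ls.cons Ent.zero (Ls.cons (Ent.neg F13_19_12_5) (Ls.cons (Ent.neg F13_18_12_5) (Ls.cons (Ent.neg F13_17_12_5) (Ls.cons (Ent.neg F13_16_12_5) (Ls.cons (Ent.neg F13_15_12_5) (Ls.cons (Ent.neg F13_14_12_5) (Ls.cons (Ent.neg F13_13_12_5) Ls.nil))))))))))))
 (Ls.cons (Ls.cons Ent.zero (Ls.cons Ent.zero (Ls.cons Ent.zero (Ls.cons Ent.zero (Ls.cons Ent.zero (Ls.cons Ent.zero (Ls.cons (Ent.neg F13_18_13_5) (Ls.cons (Ent.neg F13_17_13_5) (Ls.cons (Ent.neg F13_16_13_5) (Ls.cons (Ent.neg F13_15_13_5) (Ls.cons (Ent.neg F13_14_13_5) Ls.nil)))))))))))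
 (Ls.cons (Ls.cons Ent.zero (Ls.cons Ent.zero (Ls.cons Ent.zero (Ls.cons Ent.zero (Ls.cons Ent.zero (Ls.cons Ent.zero (Ls.cons (Ent.neg F13_18_14_5) (Ls.cons (Ent.neg F13_17_14_5) (Ls.cons (Ent.neg F13_16_14_5) (Ls.cons (Ent.neg F13_15_14_5) Ls.nil))))))))))
 (Ls.cons (Ls.cons Ent.zero (Ls.cons Ent.zero (Ls.cons Ent.zero (Ls.cons Ent.zero (Ls.cons Ent.zero (Ls.cons Ent.zero (Ls.cons (Ent.neg F13_18_15_5) (Ls.cons (Ent.neg F13_17_15_5) (Ls.cons (Ent.neg F13_16_15_5) Ls.nil)))))))))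
 (Ls.cons (Ls.cons Ent.zero (Ls.cons Ent.zero (Ls.cons Ent.zero (Ls.cons Ent.zero (Ls.cons Ent.zero (Ls.cons Ent.zero (Ls.cons (Ent.neg F13_18_16_5) (Ls.cons (Ent.neg F13_17_16_5) Ls.nil))))))))
 (Ls.cons Ls.nil
 (Ls.cons Ls.nil
 (Ls.cons Ls.nil
 Ls.nil))))))))))))))))))))

noncomputable def cF13_6_0 : L2 :=
 (Ls.cons Ls.nil
 (Ls.cons Ls.nil
 (Ls.cons Ls.nil
 (Ls.cons Ls.nil
 (Ls.cons Ls.nil
 (Ls.cons Ls.nil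
 (Ls.cons Ls.nil
 (Ls.cons (Ls.cons Ent.zero (Ls.cons Ent.zero (Ls.cons Ent.zero (Ls.cons Ent.zero (Ls.cons (Ent.neg F13_20_7_6) (Ls.cons (Ent.neg F13_19_7_6) (Ls.cons (Ent.neg F13_18_7_6) (Ls.cons (Ent.neg F13_17_7_6) (Ls.cons (Ent.neg F13_16_7_6) (Ls.cons (Ent.neg F13_15_7_6) (Ls.cons (Ent.neg F13_14_7_6) (Ls.cons (Ent.neg F13_13_7_6) (Ls.cons (Ent.neg F13_12_7_6) (Ls.cons (Ent.neg F13_11_7_6) (Ls.cons (Ent.neg F13_10_7_6) (Ls.cons (Ent.neg F13_9_7_6) (Ls.cons (Ent.neg F13_8_7_6) Ls.nil)))))))))))))))))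
 (Ls.cons (Ls.cons Ent.zero (Ls.cons Ent.zero (Ls.cons Ent.zero (Ls.cons Ent.zero (Ls.cons Ent.zero (Ls.cons (Ent.neg F13_19_8_6) (Ls.cons (Ent.neg F13_18_8_6) (Ls.cons (Ent.neg F13_17_8_6) (Ls.cons (Ent.neg F13_16_8_6) (Ls.cons (Ent.neg F13_15_8_6) (Ls.cons (Ent.neg F13_14_8_6) (Ls.cons (Ent.neg F13_13_8_6) (Ls.cons (Ent.neg F13_12_8_6) (Ls.cons (Ent.neg F13_11_8_6) (Ls.cons (Ent.neg F13_10_8_6) (Ls.cons (Ent.neg F13_9_8_6) Ls.nil))))))))))))))))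
 (Ls.cons (Ls.cons Ent.zero (Ls.cons Ent.zero (Ls.cons Ent.zero (Ls.cons Ent.zero (Ls.cons Ent.zero (Ls.cons (Ent.neg F13_19_9_6) (Ls.cons (Ent.neg F13_18_9_6) (Ls.cons (Ent.neg F13_17_9_6) (Ls.cons (Ent.neg F13_16_9_6) (Ls.cons (Ent.neg F13_15_9_6) (Ls.cons (Ent.neg F13_14_9_6) (Ls.cons (Ent.neg F13_13_9_6) (Ls.cons (Ent.neg F13_12_9_6) (Ls.cons (Ent.neg F13_11_9_6) (Ls.cons (Ent.neg F13_10_9_6) Ls.nil)))))))))))))))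
 (Ls.cons (Ls.cons Ent.zero (Ls.cons Ent.zero (Ls.cons Ent.zero (Ls.cons Ent.zero (Ls.cons Ent.zero (Ls.cons (Ent.neg F13_19_10_6) (Ls.cons (Ent.neg F13_18_10_6) (Ls.cons (Ent.neg F13_17_10_6) (Ls.cons (Ent.neg F13_16_10_6) (Ls.cons (Ent.neg F13_15_10_6) (Ls.cons (Ent.neg F13_14_10_6) (Ls.cons (Ent.neg F13_13_10_6) (Ls.cons (Ent.neg F13_12_10_6) (Ls.cons (Ent.neg F13_11_10_6) Ls.nil))))))))))))))
 (Ls.cons (Ls.cons Ent.zero (Ls.cons Ent.zero (Ls.cons Ent.zero (Ls.cons Ent.zero (Ls.cons Ent.zero (Ls.cons (Ent.neg F13_19_11_6) (Ls.cons (Ent.neg F13_18_11_6) (Ls.cons (Ent.neg F13_17_11_6) (Ls.cons (Ent.neg F13_16_11_6) (Ls.cons (Ent.neg F13_15_11_6) (Ls.cons (Ent.neg F13_14_11_6) (Ls.cons (Ent.neg F13_13_11_6) (Ls.cons (Ent.neg F13_12_11_6) Ls.nil)))))))))))))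
 (Ls.cons (Ls.cons Ent.zero (Ls.cons Ent.zero (Ls.cons Ent.zero (Ls.cons Ent.zero (Ls.cons Ent.zero (Ls.cons Ent.zero (Ls.cons (Ent.neg F13_18_12_6) (Ls.cons (Ent.neg F13_17_12_6) (Ls.cons (Ent.neg F13_16_12_6) (Ls.cons (Ent.neg F13_15_12_6) (Ls.cons (Ent.neg F13_14_12_6) (Ls.cons (Ent.neg F13_13_12_6) Ls.nil))))))))))))
 (Ls.cons (Ls.cons Ent.zero (Ls.cons Ent.zero (Ls.cons Ent.zero (Ls.cons Ent.zero (Ls.cons Ent.zero (Ls.cons Ent.zero (Ls.cons (Ent.neg F13_18_13_6) (Ls.cons (Ent.neg F13_17_13_6) (Ls.cons (Ent.neg F13_16_13_6) (Ls.cons (Ent.neg F13_15_13_6) (Ls.cons (Ent.neg F13_14_13_6) Ls.nil)))))))))))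
 (Ls.cons (Ls.cons Ent.zero (Ls.cons Ent.zero (Ls.cons Ent.zero (Ls.cons Ent.zero (Ls.cons Ent.zero (Ls.cons Ent.zero (Ls.cons (Ent.neg F13_18_14_6) (Ls.cons (Ent.neg F13_17_14_6) (Ls.cons (Ent.neg F13_16_14_6) (Ls.cons (Ent.neg F13_15_14_6) Ls.nil))))))))))
 (Ls.cons (Ls.cons Ent.zero (Ls.cons Ent.zero (Ls.cons Ent.zero (Ls.cons Ent.zero (Ls.cons Ent.zero (Ls.cons Ent.zero (Ls.cons (Ent.neg F13_18_15_6) (Ls.cons (Ent.neg F13_17_15_6) (Ls.cons (Ent.neg F13_16_15_6) Ls.nil)))))))))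
 (Ls.cons (Ls.cons Ent.zero (Ls.cons Ent.zero (Ls.cons Ent.zero (Ls.cons Ent.zero (Ls.cons Ent.zero (Ls.cons Ent.zero (Ls.cons Ent.zero (Ls.cons (Ent.neg F13_17_16_6) Ls.nil))))))))
 (Ls.cons Ls.nil
 (Ls.cons Ls.nil
 (Ls.cons Ls.nil
 Ls.nil))))))))))))))))))))

noncomputable def cF13_7_0 : L2 :=
 (Ls.cons Ls.nil
 (Ls.cons Ls.nil
 (Ls.cons Ls.nil
 (Ls.cons Ls.nil
 (Ls.cons Ls.nil
 (Ls.cons Ls.nil
 (Ls.cons Ls.nil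
 (Ls.cons Ls.nil
 (Ls.cons (Ls.cons Ent.zero (Ls.cons Ent.zero (Ls.cons Ent.zero (Ls.cons Ent.zero (Ls.cons Ent.zero (Ls.cons (Ent.neg F13_19_8_7) (Ls.cons (Ent.neg F13_18_8_7) (Ls.cons (Ent.neg F13_17_8_7) (Ls.cons (Ent.neg F13_16_8_7) (Ls.cons (Ent.neg F13_15_8_7) (Ls.cons (Ent.neg F13_14_8_7) (Ls.cons (Ent.neg F13_13_8_7) (Ls.cons (Ent.neg F13_12_8_7) (Ls.cons (Ent.neg F13_11_8_7) (Ls.cons (Ent.neg F13_10_8_7) (Ls.cons (Ent.neg F13_9_8_7) Ls.nil))))))))))))))))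
 (Ls.cons (Ls.cons Ent.zero (Ls.cons Ent.zero (Ls.cons Ent.zero (Ls.cons Ent.zero (Ls.cons Ent.zero (Ls.cons (Ent.neg F13_19_9_7) (Ls.cons (Ent.neg F13_18_9_7) (Ls.cons (Ent.neg F13_17_9_7) (Ls.cons (Ent.neg F13_16_9_7) (Ls.cons (Ent.neg F13_15_9_7) (Ls.cons (Ent.neg F13_14_9_7) (Ls.cons (Ent.neg F13_13_9_7) (Ls.cons (Ent.neg F13_12_9_7) (Ls.cons (Ent.neg F13_11_9_7) (Ls.cons (Ent.neg F13_10_9_7) Ls.nil)))))))))))))))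
 (Ls.cons (Ls.cons Ent.zero (Ls.cons Ent.zero (Ls.cons Ent.zero (Ls.cons Ent.zero (Ls.cons Ent.zero (Ls.cons (Ent.neg F13_19_10_7) (Ls.cons (Ent.neg F13_18_10_7) (Ls.cons (Ent.neg F13_17_10_7) (Ls.cons (Ent.neg F13_16_10_7) (Ls.cons (Ent.neg F13_15_10_7) (Ls.cons (Ent.neg F13_14_10_7) (Ls.cons (Ent.neg F13_13_10_7) (Ls.cons (Ent.neg F13_12_10_7) (Ls.cons (Ent.neg F13_11_10_7) Ls.nil))))))))))))))
 (Ls.cons (Ls.cons Ent.zero (Ls.cons Ent.zero (Ls.cons Ent.zero (Ls.cons Ent.zero (Ls.cons Ent.zero (Ls.cons Ent.zero (Ls.cons (Ent.neg F13_18_11_7) (Ls.cons (Ent.neg F13_17_11_7) (Ls.cons (Ent.neg F13_16_11_7) (Ls.cons (Ent.neg F13_15_11_7) (Ls.cons (Ent.neg F13_14_11_7) (Ls.cons (Ent.neg F13_13_11_7) (Ls.cons (Ent.neg F13_12_11_7) Ls.nil)))))))))))))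
 (Ls.cons (Ls.cons Ent.zero (Ls.cons Ent.zero (Ls.cons Ent.zero (Ls.cons Ent.zero (Ls.cons Ent.zero (Ls.cons Ent.zero (Ls.cons (Ent.neg F13_18_12_7) (Ls.cons (Ent.neg F13_17_12_7) (Ls.cons (Ent.neg F13_16_12_7) (Ls.cons (Ent.neg F13_15_12_7) (Ls.cons (Ent.neg F13_14_12_7) (Ls.cons (Ent.neg F13_13_12_7) Ls.nil))))))))))))
 (Ls.cons (Ls.cons Ent.zero (Ls.cons Ent.zero (Ls.cons Ent.zero (Ls.cons Ent.zero (Ls.cons Ent.zero (Ls.cons Ent.zero (Ls.cons (Ent.neg F13_18_13_7) (Ls.cons (Ent.neg F13_17_13_7) (Ls.cons (Ent.neg F13_16_13_7) (Ls.cons (Ent.neg F13_15_13_7) (Ls.cons (Ent.neg F13_14_13_7) Ls.nil)))))))))))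
 (Ls.cons (Ls.cons Ent.zero (Ls.cons Ent.zero (Ls.cons Ent.zero (Ls.cons Ent.zero (Ls.cons Ent.zero (Ls.cons Ent.zero (Ls.cons (Ent.neg F13_18_14_7) (Ls.cons (Ent.neg F13_17_14_7) (Ls.cons (Ent.neg F13_16_14_7) (Ls.cons (Ent.neg F13_15_14_7) Ls.nil))))))))))
 (Ls.cons (Ls.cons Ent.zero (Ls.cons Ent.zero (Ls.cons Ent.zero (Ls.cons Ent.zero (Ls.cons Ent.zero (Ls.cons Ent.zero (Ls.cons Ent.zero (Ls.cons (Ent.neg F13_17_15_7) (Ls.cons (Ent.neg F13_16_15_7) Ls.nil)))))))))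
 (Ls.cons (Ls.cons Ent.zero (Ls.cons Ent.zero (Ls.cons Ent.zero (Ls.cons Ent.zero (Ls.cons Ent.zero (Ls.cons Ent.zero (Ls.cons Ent.zero (Ls.cons (Ent.neg F13_17_16_7) Ls.nil))))))))
 (Ls.cons Ls.nil
 (Ls.cons Ls.nil
 (Ls.cons Ls.nil
 Ls.nil))))))))))))))))))))

noncomputable def cF13_8_0 : L2 :=
 (Ls.cons Ls.nil
 (Ls.cons Ls.nil
 (Ls.cons Ls.nil
 (Ls.cons Ls.nil
 (Ls.cons Ls.nil
 (Ls.cons Ls.nil
 (Ls.cons Ls.nil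
 (Ls.cons Ls.nil
 (Ls.cons Ls.nil
 (Ls.cons (Ls.cons Ent.zero (Ls.cons Ent.zero (Ls.cons Ent.zero (Ls.cons Ent.zero (Ls.cons Ent.zero (Ls.cons (Ent.neg F13_19_9_8) (Ls.cons (Ent.neg F13_18_9_8) (Ls.cons (Ent.neg F13_17_9_8) (Ls.cons (Ent.neg F13_16_9_8) (Ls.cons (Ent.neg F13_15_9_8) (Ls.cons (Ent.neg F13_14_9_8) (Ls.cons (Ent.neg F13_13_9_8) (Ls.cons (Ent.neg F13_12_9_8) (Ls.cons (Ent.neg F13_11_9_8) (Ls.cons (Ent.neg F13_10_9_8) Ls.nil)))))))))))))))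
 (Ls.cons (Ls.cons Ent.zero (Ls.cons Ent.zero (Ls.cons Ent.zero (Ls.cons Ent.zero (Ls.cons Ent.zero (Ls.cons Ent.zero (Ls.cons (Ent.neg F13_18_10_8) (Ls.cons (Ent.neg F13_17_10_8) (Ls.cons (Ent.neg F13_16_10_8) (Ls.cons (Ent.neg F13_15_10_8) (Ls.cons (Ent.neg F13_14_10_8) (Ls.cons (Ent.neg F13_13_10_8) (Ls.cons (Ent.neg F13_12_10_8) (Ls.cons (Ent.neg F13_11_10_8) Ls.nil))))))))))))))
 (Ls.cons (Ls.cons Ent.zero (Ls.cons Ent.zero (Ls.cons Ent.zero (Ls.cons Ent.zero (Ls.cons Ent.zero (Ls.cons Ent.zero (Ls.cons (Ent.neg F13_18_11_8) (Ls.cons (Ent.neg F13_17_11_8) (Ls.cons (Ent.neg F13_16_11_8) (Ls.cons (Ent.neg F13_15_11_8) (Ls.cons (Ent.neg F13_14_11_8) (Ls.cons (Ent.neg F13_13_11_8) (Ls.cons (Ent.neg F13_12_11_8) Ls.nil)))))))))))))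
 (Ls.cons (Ls.cons Ent.zero (Ls.cons Ent.zero (Ls.cons Ent.zero (Ls.cons Ent.zero (Ls.cons Ent.zero (Ls.cons Ent.zero (Ls.cons (Ent.neg F13_18_12_8) (Ls.cons (Ent.neg F13_17_12_8) (Ls.cons (Ent.neg F13_16_12_8) (Ls.cons (Ent.neg F13_15_12_8) (Ls.cons (Ent.neg F13_14_12_8) (Ls.cons (Ent.neg F13_13_12_8) Ls.nil))))))))))))
 (Ls.cons (Ls.cons Ent.zero (Ls.cons Ent.zero (Ls.cons Ent.zero (Ls.cons Ent.zero (Ls.cons Ent.zero (Ls.cons Ent.zero (Ls.cons (Ent.neg F13_18_13_8) (Ls.cons (Ent.neg F13_17_13_8) (Ls.cons (Ent.neg F13_16_13_8) (Ls.cons (Ent.neg F13_15_13_8) (Ls.cons (Ent.neg F13_14_13_8) Ls.nil)))))))))))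
 (Ls.cons (Ls.cons Ent.zero (Ls.cons Ent.zero (Ls.cons Ent.zero (Ls.cons Ent.zero (Ls.cons Ent.zero (Ls.cons Ent.zero (Ls.cons Ent.zero (Ls.cons (Ent.neg F13_17_14_8) (Ls.cons (Ent.neg F13_16_14_8) (Ls.cons (Ent.neg F13_15_14_8) Ls.nil))))))))))
 (Ls.cons (Ls.cons Ent.zero (Ls.cons Ent.zero (Ls.cons Ent.zero (Ls.cons Ent.zero (Ls.cons Ent.zero (Ls.cons Ent.zero (Ls.cons Ent.zero (Ls.cons (Ent.neg F13_17_15_8) (Ls.cons (Ent.neg F13_16_15_8) Ls.nil)))))))))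
 (Ls.cons (Ls.cons Ent.zero (Ls.cons Ent.zero (Ls.cons Ent.zero (Ls.cons Ent.zero (Ls.cons Ent.zero (Ls.cons Ent.zero (Ls.cons Ent.zero (Ls.cons (Ent.neg F13_17_16_8) Ls.nil))))))))
 (Ls.cons Ls.nil
 (Ls.cons Ls.nil
 (Ls.cons Ls.nil
 Ls.nil))))))))))))))))))))

noncomputable def cF13_9_0 : L2 :=
 (Ls.cons Ls.nil
 (Ls.cons Ls.nil
 (Ls.cons Ls.nil
 (Ls.cons Ls.nil
 (Ls.cons Ls.nil
 (Ls.cons Ls.nil
 (Ls.cons Ls.nil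
 (Ls.cons Ls.nil
 (Ls.cons Ls.nil
 (Ls.cons Ls.nil
 (Ls.cons (Ls.cons Ent.zero (Ls.cons Ent.zero (Ls.cons Ent.zero (Ls.cons Ent.zero (Ls.cons Ent.zero (Ls.cons Ent.zero (Ls.cons (Ent.neg F13_18_10_9) (Ls.cons (Ent.neg F13_17_10_9) (Ls.cons (Ent.neg F13_16_10_9) (Ls.cons (Ent.neg F13_15_10_9) (Ls.cons (Ent.neg F13_14_10_9) (Ls.cons (Ent.neg F13_13_10_9) (Ls.cons (Ent.neg F13_12_10_9) (Ls.cons (Ent.neg F13_11_10_9) Ls.nil))))))))))))))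
 (Ls.cons (Ls.cons Ent.zero (Ls.cons Ent.zero (Ls.cons Ent.zero (Ls.cons Ent.zero (Ls.cons Ent.zero (Ls.cons Ent.zero (Ls.cons (Ent.neg F13_18_11_9) (Ls.cons (Ent.neg F13_17_11_9) (Ls.cons (Ent.neg F13_16_11_9) (Ls.cons (Ent.neg F13_15_11_9) (Ls.cons (Ent.neg F13_14_11_9) (Ls.cons (Ent.neg F13_13_11_9) (Ls.cons (Ent.neg F13_12_11_9) Ls.nil)))))))))))))
 (Ls.cons (Ls.cons Ent.zero (Ls.cons Ent.zero (Ls.cons Ent.zero (Ls.cons Ent.zero (Ls.cons Ent.zero (Ls.cons Ent.zero (Ls.cons (Ent.neg F13_18_12_9) (Ls.cons (Ent.neg F13_17_12_9) (Ls.cons (Ent.neg F13_16_12_9) (Ls.cons (Ent.neg F13_15_12_9) (Ls.cons (Ent.neg F13_14_12_9) (Ls.cons (Ent.neg F13_13_12_9) Ls.nil))))))))))))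
 (Ls.cons (Ls.cons Ent.zero (Ls.cons Ent.zero (Ls.cons Ent.zero (Ls.cons Ent.zero (Ls.cons Ent.zero (Ls.cons Ent.zero (Ls.cons Ent.zero (Ls.cons (Ent.neg F13_17_13_9) (Ls.cons (Ent.neg F13_16_13_9) (Ls.cons (Ent.neg F13_15_13_9) (Ls.cons (Ent.neg F13_14_13_9) Ls.nil)))))))))))
 (Ls.cons (Ls.cons Ent.zero (Ls.cons Ent.zero (Ls.cons Ent.zero (Ls.cons Ent.zero (Ls.cons Ent.zero (Ls.cons Ent.zero (Ls.cons Ent.zero (Ls.cons (Ent.neg F13_17_14_9) (Ls.cons (Ent.neg F13_16_14_9) (Ls.cons (Ent.neg F13_15_14_9) Ls.nil))))))))))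
 (Ls.cons (Ls.cons Ent.zero (Ls.cons Ent.zero (Ls.cons Ent.zero (Ls.cons Ent.zero (Ls.cons Ent.zero (Ls.cons Ent.zero (Ls.cons Ent.zero (Ls.cons (Ent.neg F13_17_15_9) (Ls.cons (Ent.neg F13_16_15_9) Ls.nil)))))))))
 (Ls.cons (Ls.cons Ent.zero (Ls.cons Ent.zero (Ls.cons Ent.zero (Ls.cons Ent.zero (Ls.cons Ent.zero (Ls.cons Ent.zero (Ls.cons Ent.zero (Ls.cons (Ent.neg F13_17_16_9) Ls.nil))))))))
 (Ls.cons Ls.nil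
 (Ls.cons Ls.nil
 (Ls.cons Ls.nil
 Ls.nil))))))))))))))))))))

noncomputable def cF13_10_0 : L2 :=
 (Ls.cons Ls.nil
 (Ls.cons Ls.nil
 (Ls.cons Ls.nil
 (Ls.cons Ls.nil
 (Ls.cons Ls.nil
 (Ls.cons Ls.nil
 (Ls.cons Ls.nil
 (Ls.cons Ls.nil
 (Ls.cons Ls.nil
 (Ls.cons Ls.nil
 (Ls.cons Ls.nil
 (Ls.cons (Ls.cons Ent.zero (Ls.cons Ent.zero (Ls.cons Ent.zero (Ls.cons Ent.zero (Ls.cons Ent.zero (Ls.cons Ent.zero (Ls.cons (Ent.neg F13_18_11_10) (Ls.cons (Ent.neg F13_17_11_10) (Ls.cons (Ent.neg F13_16_11_10) (Ls.cons (Ent.neg F13_15_11_10) (Ls.cons (Ent.neg F13_14_11_10) (Ls.cons (Ent.neg F13_13_11_10) (Ls.cons (Ent.neg F13_12_11_10) Ls.nil)))))))))))))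
 (Ls.cons (Ls.cons Ent.zero (Ls.cons Ent.zero (Ls.cons Ent.zero (Ls.cons Ent.zero (Ls.cons Ent.zero (Ls.cons Ent.zero (Ls.cons Ent.zero (Ls.cons (Ent.neg F13_17_12_10) (Ls.cons (Ent.neg F13_16_12_10) (Ls.cons (Ent.neg F13_15_12_10) (Ls.cons (Ent.neg F13_14_12_10) (Ls.cons (Ent.neg F13_13_12_10) Ls.nil))))))))))))
 (Ls.cons (Ls.cons Ent.zero (Ls.cons Ent.zero (Ls.cons Ent.zero (Ls.cons Ent.zero (Ls.cons Ent.zero (Ls.cons Ent.zero (Ls.cons Ent.zero (Ls.cons (Ent.neg F13_17_13_10) (Ls.cons (Ent.neg F13_16_13_10) (Ls.cons (Ent.neg F13_15_13_10) (Ls.cons (Ent.neg F13_14_13_10) Ls.nil)))))))))))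
 (Ls.cons (Ls.cons Ent.zero (Ls.cons Ent.zero (Ls.cons Ent.zero (Ls.cons Ent.zero (Ls.cons Ent.zero (Ls.cons Ent.zero (Ls.cons Ent.zero (Ls.cons (Ent.neg F13_17_14_10) (Ls.cons (Ent.neg F13_16_14_10) (Ls.cons (Ent.neg F13_15_14_10) Ls.nil))))))))))
 (Ls.cons (Ls.cons Ent.zero (Ls.cons Ent.zero (Ls.cons Ent.zero (Ls.cons Ent.zero (Ls.cons Ent.zero (Ls.cons Ent.zero (Ls.cons Ent.zero (Ls.cons (Ent.neg F13_17_15_10) (Ls.cons (Ent.neg F13_16_15_10) Ls.nil)))))))))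
 (Ls.cons Ls.nil
 (Ls.cons Ls.nil
 (Ls.cons Ls.nil
 (Ls.cons Ls.nil
 Ls.nil))))))))))))))))))))

noncomputable def cF13_11_0 : L2 :=
 (Ls.cons Ls.nil
 (Ls.cons Ls.nil
 (Ls.cons Ls.nil
 (Ls.cons Ls.nil
 (Ls.cons Ls.nil
 (Ls.cons Ls.nil
 (Ls.cons Ls.nil
 (Ls.cons Ls.nil
 (Ls.cons Ls.nil
 (Ls.cons Ls.nil
 (Ls.cons Ls.nil
 (Ls.cons Ls.nil
 (Ls.cons (Ls.cons Ent.zero (Ls.cons Ent.zero (Ls.cons Ent.zero (Ls.cons Ent.zero (Ls.cons Ent.zero (Ls.cons Ent.zero (Ls.cons Ent.zero (Ls.cons (Ent.neg F13_17_12_11) (Ls.cons (Ent.neg F13_16_12_11) (Ls.cons (Ent.neg F13_15_12_11) (Ls.cons (Ent.neg F13_14_12_11) (Ls.cons (Ent.neg F13_13_12_11) Ls.nil))))))))))))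
 (Ls.cons (Ls.cons Ent.zero (Ls.cons Ent.zero (Ls.cons Ent.zero (Ls.cons Ent.zero (Ls.cons Ent.zero (Ls.cons Ent.zero (Ls.cons Ent.zero (Ls.cons (Ent.neg F13_17_13_11) (Ls.cons (Ent.neg F13_16_13_11) (Ls.cons (Ent.neg F13_15_13_11) (Ls.cons (Ent.neg F13_14_13_11) Ls.nil)))))))))))
 (Ls.cons (Ls.cons Ent.zero (Ls.cons Ent.zero (Ls.cons Ent.zero (Ls.cons Ent.zero (Ls.cons Ent.zero (Ls.cons Ent.zero (Ls.cons Ent.zero (Ls.cons (Ent.neg F13_17_14_11) (Ls.cons (Ent.neg F13_16_14_11) (Ls.cons (Ent.neg F13_15_14_11) Ls.nil))))))))))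
 (Ls.cons (Ls.cons Ent.zero (Ls.cons Ent.zero (Ls.cons Ent.zero (Ls.cons Ent.zero (Ls.cons Ent.zero (Ls.cons Ent.zero (Ls.cons Ent.zero (Ls.cons Ent.zero (Ls.cons (Ent.neg F13_16_15_11) Ls.nil)))))))))
 (Ls.cons Ls.nil
 (Ls.cons Ls.nil
 (Ls.cons Ls.nil
 (Ls.cons Ls.nil
 Ls.nil))))))))))))))))))))

noncomputable def cF13_12_0 : L2 :=
 (Ls.cons Ls.nil
 (Ls.cons Ls.nil
 (Ls.cons Ls.nil
 (Ls.cons Ls.nil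
 (Ls.cons Ls.nil
 (Ls.cons Ls.nil
 (Ls.cons Ls.nil
 (Ls.cons Ls.nil
 (Ls.cons Ls.nil
 (Ls.cons Ls.nil
 (Ls.cons Ls.nil
 (Ls.cons Ls.nil
 (Ls.cons Ls.nil
 (Ls.cons (Ls.cons Ent.zero (Ls.cons Ent.zero (Ls.cons Ent.zero (Ls.cons Ent.zero (Ls.cons Ent.zero (Ls.cons Ent.zero (Ls.cons Ent.zero (Ls.cons (Ent.neg F13_17_13_12) (Ls.cons (Ent.neg F13_16_13_12) (Ls.cons (Ent.neg F13_15_13_12) (Ls.cons (Ent.neg F13_14_13_12) Ls.nil)))))))))))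
 (Ls.cons (Ls.cons Ent.zero (Ls.cons Ent.zero (Ls.cons Ent.zero (Ls.cons Ent.zero (Ls.cons Ent.zero (Ls.cons Ent.zero (Ls.cons Ent.zero (Ls.cons Ent.zero (Ls.cons (Ent.neg F13_16_14_12) (Ls.cons (Ent.neg F13_15_14_12) Ls.nil))))))))))
 (Ls.cons (Ls.cons Ent.zero (Ls.cons Ent.zero (Ls.cons Ent.zero (Ls.cons Ent.zero (Ls.cons Ent.zero (Ls.cons Ent.zero (Ls.cons Ent.zero (Ls.cons Ent.zero (Ls.cons (Ent.neg F13_16_15_12) Ls.nil)))))))))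
 (Ls.cons Ls.nil
 (Ls.cons Ls.nil
 (Ls.cons Ls.nil
 (Ls.cons Ls.nil
 Ls.nil))))))))))))))))))))

noncomputable def cF13_13_0 : L2 :=
 (Ls.cons Ls.nil
 (Ls.cons Ls.nil
 (Ls.cons Ls.nil
 (Ls.cons Ls.nil
 (Ls.cons Ls.nil
 (Ls.cons Ls.nil
 (Ls.cons Ls.nil
 (Ls.cons Ls.nil
 (Ls.cons Ls.nil
 (Ls.cons Ls.nil
 (Ls.cons Ls.nil
 (Ls.cons Ls.nil
 (Ls.cons Ls.nil
 (Ls.cons Ls.nil
 (Ls.cons (Ls.cons Ent.zero (Ls.cons Ent.zero (Ls.cons Ent.zero (Ls.cons Ent.zero (Ls.cons Ent.zero (Ls.cons Ent.zero (Ls.cons Ent.zero (Ls.cons Ent.zero (Ls.cons (Ent.neg F13_16_14_13) (Ls.cons (Ent.neg F13_15_14_13) Ls.nil))))))))))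
 (Ls.cons (Ls.cons Ent.zero (Ls.cons Ent.zero (Ls.cons Ent.zero (Ls.cons Ent.zero (Ls.cons Ent.zero (Ls.cons Ent.zero (Ls.cons Ent.zero (Ls.cons Ent.zero (Ls.cons (Ent.neg F13_16_15_13) Ls.nil)))))))))
 (Ls.cons Ls.nil
 (Ls.cons Ls.nil
 (Ls.cons Ls.nil
 (Ls.cons Ls.nil
 Ls.nil))))))))))))))))))))

noncomputable def cF13_14_0 : L2 :=
 (Ls.cons Ls.nil
 (Ls.cons Ls.nil
 (Ls.cons Ls.nil
 (Ls.cons Ls.nil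
 (Ls.cons Ls.nil
 (Ls.cons Ls.nil
 (Ls.cons Ls.nil
 (Ls.cons Ls.nil
 (Ls.cons Ls.nil
 (Ls.cons Ls.nil
 (Ls.cons Ls.nil
 (Ls.cons Ls.nil
 (Ls.cons Ls.nil
 (Ls.cons Ls.nil
 (Ls.cons Ls.nil
 (Ls.cons (Ls.cons Ent.zero (Ls.cons Ent.zero (Ls.cons Ent.zero (Ls.cons Ent.zero (Ls.cons Ent.zero (Ls.cons Ent.zero (Ls.cons Ent.zero (Ls.cons Ent.zero (Ls.cons (Ent.neg F13_16_15_14) Ls.nil)))))))))
 (Ls.cons Ls.nil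
 (Ls.cons Ls.nil
 (Ls.cons Ls.nil
 (Ls.cons Ls.nil
 Ls.nil))))))))))))))))))))

noncomputable def tbF13 : L3 := (Ls.cons cF13_0_0 (Ls.cons cF13_1_0 (Ls.cons cF13_2_0 (Ls.cons cF13_3_0 (Ls.cons cF13_4_0 (Ls.cons cF13_5_0 (Ls.cons cF13_6_0 (Ls.cons cF13_7_0 (Ls.cons cF13_8_0 (Ls.cons cF13_9_0 (Ls.cons cF13_10_0 (Ls.cons cF13_11_0 (Ls.cons cF13_12_0 (Ls.cons cF13_13_0 (Ls.cons cF13_14_0 Ls.nil)))))))))))))))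

noncomputable def bxF13_0 : L2 :=
 (Ls.cons (Ls.cons Ent.zero (Ls.cons Ent.zero (Ls.cons Ent.zero (Ls.cons Ent.zero (Ls.cons (Ent.pos F13_20_19_0) (Ls.cons Ent.zero (Ls.cons (Ent.neg F13_19_18_0) (Ls.cons (Ent.neg F13_19_17_0) (Ls.cons (Ent.neg F13_19_16_0) (Ls.cons (Ent.neg F13_19_15_0) (Ls.cons (Ent.neg F13_19_14_0) (Ls.cons (Ent.neg F13_19_13_0) (Ls.cons (Ent.neg F13_19_12_0) (Ls.cons (Ent.neg F13_19_11_0) (Ls.cons (Ent.neg F13_19_10_0) (Ls.cons (Ent.neg F13_19_9_0) (Ls.cons (Ent.neg F13_19_8_0) (Ls.cons (Ent.neg F13_19_7_0) (Ls.cons (Ent.neg F13_19_6_0) (Ls.cons (Ent.neg F13_19_5_0) (Ls.cons (Ent.neg F13_19_4_0) (Ls.cons (Ent.neg F13_19_3_0) (Ls.cons (Ent.neg F13_19_2_0) (Ls.cons (Ent.pos F13_19_1_0) (Ls.cons Ent.zero Ls.nil)))))))))))))))))))))))))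
 (Ls.cons (Ls.cons Ent.zero (Ls.cons Ent.zero (Ls.cons Ent.zero (Ls.cons Ent.zero (Ls.cons (Ent.pos F13_20_18_0) (Ls.cons (Ent.pos F13_19_18_0) (Ls.cons Ent.zero (Ls.cons (Ent.neg F13_18_17_0) (Ls.cons (Ent.neg F13_18_16_0) (Ls.cons (Ent.neg F13_18_15_0) (Ls.cons (Ent.neg F13_18_14_0) (Ls.cons (Ent.neg F13_18_13_0) (Ls.cons (Ent.neg F13_18_12_0) (Ls.cons (Ent.neg F13_18_11_0) (Ls.cons (Ent.neg F13_18_10_0) (Ls.cons (Ent.neg F13_18_9_0) (Ls.cons (Ent.neg F13_18_8_0) (Ls.cons (Ent.neg F13_18_7_0) (Ls.cons (Ent.neg F13_18_6_0) (Ls.cons (Ent.neg F13_18_5_0) (Ls.cons (Ent.neg F13_18_4_0) (Ls.cons (Ent.neg F13_18_3_0) (Ls.cons (Ent.neg F13_18_2_0) (Ls.cons (Ent.pos F13_18_1_0) (Ls.cons Ent.zero Ls.nil)))))))))))))))))))))))))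
 (Ls.cons (Ls.cons Ent.zero (Ls.cons Ent.zero (Ls.cons Ent.zero (Ls.cons Ent.zero (Ls.cons (Ent.pos F13_20_17_0) (Ls.cons (Ent.pos F13_19_17_0) (Ls.cons (Ent.pos F13_18_17_0) (Ls.cons Ent.zero (Ls.cons (Ent.neg F13_17_16_0) (Ls.cons (Ent.neg F13_17_15_0) (Ls.cons (Ent.neg F13_17_14_0) (Ls.cons (Ent.neg F13_17_13_0) (Ls.cons (Ent.neg F13_17_12_0) (Ls.cons (Ent.neg F13_17_11_0) (Ls.cons (Ent.neg F13_17_10_0) (Ls.cons (Ent.neg F13_17_9_0) (Ls.cons (Ent.neg F13_17_8_0) (Ls.cons (Ent.neg F13_17_7_0) (Ls.cons (Ent.neg F13_17_6_0) (Ls.cons (Ent.neg F13_17_5_0) (Ls.cons (Ent.neg F13_17_4_0) (Ls.cons (Ent.neg F13_17_3_0) (Ls.cons (Ent.neg F13_17_2_0) (Ls.cons (Ent.pos F13_17_1_0) (Ls.cons Ent.zero Ls.nil)))))))))))))))))))))))))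
 (Ls.cons (Ls.cons Ent.zero (Ls.cons Ent.zero (Ls.cons Ent.zero (Ls.cons Ent.zero (Ls.cons (Ent.pos F13_20_16_0) (Ls.cons (Ent.pos F13_19_16_0) (Ls.cons (Ent.pos F13_18_16_0) (Ls.cons (Ent.pos F13_17_16_0) (Ls.cons Ent.zero (Ls.cons (Ent.neg F13_16_15_0) (Ls.cons (Ent.neg F13_16_14_0) (Ls.cons (Ent.neg F13_16_13_0) (Ls.cons (Ent.neg F13_16_12_0) (Ls.cons (Ent.neg F13_16_11_0) (Ls.cons (Ent.neg F13_16_10_0) (Ls.cons (Ent.neg F13_16_9_0) (Ls.cons (Ent.neg F13_16_8_0) (Ls.cons (Ent.neg F13_16_7_0) (Ls.cons (Ent.neg F13_16_6_0) (Ls.cons (Ent.neg F13_16_5_0) (Ls.cons (Ent.neg F13_16_4_0) (Ls.cons (Ent.neg F13_16_3_0) (Ls.cons (Ent.neg F13_16_2_0) (Ls.cons (Ent.pos F13_16_1_0) (Ls.cons Ent.zero Ls.nil)))))))))))))))))))))))))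
 (Ls.cons (Ls.cons Ent.zero (Ls.cons Ent.zero (Ls.cons Ent.zero (Ls.cons (Ent.pos F13_21_15_0) (Ls.cons (Ent.pos F13_20_15_0) (Ls.cons (Ent.pos F13_19_15_0) (Ls.cons (Ent.pos F13_18_15_0) (Ls.cons (Ent.pos F13_17_15_0) (Ls.cons (Ent.pos F13_16_15_0) (Ls.cons Ent.zero (Ls.cons (Ent.neg F13_15_14_0) (Ls.cons (Ent.neg F13_15_13_0) (Ls.cons (Ent.neg F13_15_12_0) (Ls.cons (Ent.neg F13_15_11_0) (Ls.cons (Ent.neg F13_15_10_0) (Ls.cons (Ent.neg F13_15_9_0) (Ls.cons (Ent.neg F13_15_8_0) (Ls.cons (Ent.neg F13_15_7_0) (Ls.cons (Ent.neg F13_15_6_0) (Ls.cons (Ent.neg F13_15_5_0) (Ls.cons (Ent.neg F13_15_4_0) (Ls.cons (Ent.neg F13_15_3_0) (Ls.cons (Ent.neg F13_15_2_0) (Ls.cons (Ent.pos F13_15_1_0) (Ls.cons Ent.zero Ls.nil)))))))))))))))))))))))))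
 (Ls.cons (Ls.cons Ent.zero (Ls.cons Ent.zero (Ls.cons Ent.zero (Ls.cons (Ent.pos F13_21_14_0) (Ls.cons (Ent.pos F13_20_14_0) (Ls.cons (Ent.pos F13_19_14_0) (Ls.cons (Ent.pos F13_18_14_0) (Ls.cons (Ent.pos F13_17_14_0) (Ls.cons (Ent.pos F13_16_14_0) (Ls.cons (Ent.pos F13_15_14_0) (Ls.cons Ent.zero (Ls.cons (Ent.neg F13_14_13_0) (Ls.cons (Ent.neg F13_14_12_0) (Ls.cons (Ent.neg F13_14_11_0) (Ls.cons (Ent.neg F13_14_10_0) (Ls.cons (Ent.neg F13_14_9_0) (Ls.cons (Ent.neg F13_14_8_0) (Ls.cons (Ent.neg F13_14_7_0) (Ls.cons (Ent.neg F13_14_6_0) (Ls.cons (Ent.neg F13_14_5_0) (Ls.cons (Ent.neg F13_14_4_0) (Ls.cons (Ent.neg F13_14_3_0) (Ls.cons (Ent.neg F13_14_2_0) (Ls.cons (Ent.pos F13_14_1_0) (Ls.cons Ent.zero Ls.nil)))))))))))))))))))))))))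
 (Ls.cons (Ls.cons Ent.zero (Ls.cons Ent.zero (Ls.cons Ent.zero (Ls.cons (Ent.pos F13_21_13_0) (Ls.cons (Ent.pos F13_20_13_0) (Ls.cons (Ent.pos F13_19_13_0) (Ls.cons (Ent.pos F13_18_13_0) (Ls.cons (Ent.pos F13_17_13_0) (Ls.cons (Ent.pos F13_16_13_0) (Ls.cons (Ent.pos F13_15_13_0) (Ls.cons (Ent.pos F13_14_13_0) (Ls.cons Ent.zero (Ls.cons (Ent.neg F13_13_12_0) (Ls.cons (Ent.neg F13_13_11_0) (Ls.cons (Ent.neg F13_13_10_0) (Ls.cons (Ent.neg F13_13_9_0) (Ls.cons (Ent.neg F13_13_8_0) (Ls.cons (Ent.neg F13_13_7_0) (Ls.cons (Ent.neg F13_13_6_0) (Ls.cons (Ent.neg F13_13_5_0) (Ls.cons (Ent.neg F13_13_4_0) (Ls.cons (Ent.neg F13_13_3_0) (Ls.cons (Ent.neg F13_13_2_0) (Ls.cons (Ent.pos F13_13_1_0) (Ls.cons Ent.zero Ls.nil)))))))))))))))))))))))))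
 (Ls.cons (Ls.cons Ent.zero (Ls.cons Ent.zero (Ls.cons Ent.zero (Ls.cons (Ent.pos F13_21_12_0) (Ls.cons (Ent.pos F13_20_12_0) (Ls.cons (Ent.pos F13_19_12_0) (Ls.cons (Ent.pos F13_18_12_0) (Ls.cons (Ent.pos F13_17_12_0) (Ls.cons (Ent.pos F13_16_12_0) (Ls.cons (Ent.pos F13_15_12_0) (Ls.cons (Ent.pos F13_14_12_0) (Ls.cons (Ent.pos F13_13_12_0) (Ls.cons Ent.zero (Ls.cons (Ent.neg F13_12_11_0) (Ls.cons (Ent.neg F13_12_10_0) (Ls.cons (Ent.neg F13_12_9_0) (Ls.cons (Ent.neg F13_12_8_0) (Ls.cons (Ent.neg F13_12_7_0) (Ls.cons (Ent.neg F13_12_6_0) (Ls.cons (Ent.neg F13_12_5_0) (Ls.cons (Ent.neg F13_12_4_0) (Ls.cons (Ent.neg F13_12_3_0) (Ls.cons (Ent.neg F13_12_2_0) (Ls.cons (Ent.pos F13_12_1_0) (Ls.cons Ent.zero Ls.nil)))))))))))))))))))))))))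
 (Ls.cons (Ls.cons Ent.zero (Ls.cons Ent.zero (Ls.cons (Ent.pos F13_22_11_0) (Ls.cons (Ent.pos F13_21_11_0) (Ls.cons (Ent.pos F13_20_11_0) (Ls.cons (Ent.pos F13_19_11_0) (Ls.cons (Ent.pos F13_18_11_0) (Ls.cons (Ent.pos F13_17_11_0) (Ls.cons (Ent.pos F13_16_11_0) (Ls.cons (Ent.pos F13_15_11_0) (Ls.cons (Ent.pos F13_14_11_0) (Ls.cons (Ent.pos F13_13_11_0) (Ls.cons (Ent.pos F13_12_11_0) (Ls.cons Ent.zero (Ls.cons (Ent.neg F13_11_10_0) (Ls.cons (Ent.neg F13_11_9_0) (Ls.cons (Ent.neg F13_11_8_0) (Ls.cons (Ent.neg F13_11_7_0) (Ls.cons (Ent.neg F13_11_6_0) (Ls.cons (Ent.neg F13_11_5_0) (Ls.cons (Ent.neg F13_11_4_0) (Ls.cons (Ent.neg F13_11_3_0) (Ls.cons (Ent.neg F13_11_2_0) (Ls.cons (Ent.pos F13_11_1_0) (Ls.cons Ent.zero Ls.nil)))))))))))))))))))))))))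
 (Ls.cons (Ls.cons Ent.zero (Ls.cons Ent.zero (Ls.cons (Ent.pos F13_22_10_0) (Ls.cons (Ent.pos F13_21_10_0) (Ls.cons (Ent.pos F13_20_10_0) (Ls.cons (Ent.pos F13_19_10_0) (Ls.cons (Ent.pos F13_18_10_0) (Ls.cons (Ent.pos F13_17_10_0) (Ls.cons (Ent.pos F13_16_10_0) (Ls.cons (Ent.pos F13_15_10_0) (Ls.cons (Ent.pos F13_14_10_0) (Ls.cons (Ent.pos F13_13_10_0) (Ls.cons (Ent.pos F13_12_10_0) (Ls.cons (Ent.pos F13_11_10_0) (Ls.cons Ent.zero (Ls.cons (Ent.neg F13_10_9_0) (Ls.cons (Ent.neg F13_10_8_0) (Ls.cons (Ent.neg F13_10_7_0) (Ls.cons (Ent.neg F13_10_6_0) (Ls.cons (Ent.neg F13_10_5_0) (Ls.cons (Ent.neg F13_10_4_0) (Ls.cons (Ent.neg F13_10_3_0) (Ls.cons (Ent.neg F13_10_2_0) (Ls.cons (Ent.pos F13_10_1_0) (Ls.cons Ent.zero Ls.nil)))))))))))))))))))))))))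
 (Ls.cons (Ls.cons Ent.zero (Ls.cons Ent.zero (Ls.cons (Ent.pos F13_22_9_0) (Ls.cons (Ent.pos F13_21_9_0) (Ls.cons (Ent.pos F13_20_9_0) (Ls.cons (Ent.pos F13_19_9_0) (Ls.cons (Ent.pos F13_18_9_0) (Ls.cons (Ent.pos F13_17_9_0) (Ls.cons (Ent.pos F13_16_9_0) (Ls.cons (Ent.pos F13_15_9_0) (Ls.cons (Ent.pos F13_14_9_0) (Ls.cons (Ent.pos F13_13_9_0) (Ls.cons (Ent.pos F13_12_9_0) (Ls.cons (Ent.pos F13_11_9_0) (Ls.cons (Ent.pos F13_10_9_0) (Ls.cons Ent.zero (Ls.cons (Ent.neg F13_9_8_0) (Ls.cons (Ent.neg F13_9_7_0) (Ls.cons (Ent.neg F13_9_6_0) (Ls.cons (Ent.neg F13_9_5_0) (Ls.cons (Ent.neg F13_9_4_0) (Ls.cons (Ent.neg F13_9_3_0) (Ls.cons (Ent.neg F13_9_2_0) (Ls.cons (Ent.pos F13_9_1_0) (Ls.cons Ent.zero Ls.nil)))))))))))))))))))))))))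
 (Ls.cons (Ls.cons Ent.zero (Ls.cons Ent.zero (Ls.cons (Ent.pos F13_22_8_0) (Ls.cons (Ent.pos F13_21_8_0) (Ls.cons (Ent.pos F13_20_8_0) (Ls.cons (Ent.pos F13_19_8_0) (Ls.cons (Ent.pos F13_18_8_0) (Ls.cons (Ent.pos F13_17_8_0) (Ls.cons (Ent.pos F13_16_8_0) (Ls.cons (Ent.pos F13_15_8_0) (Ls.cons (Ent.pos F13_14_8_0) (Ls.cons (Ent.pos F13_13_8_0) (Ls.cons (Ent.pos F13_12_8_0) (Ls.cons (Ent.pos F13_11_8_0) (Ls.cons (Ent.pos F13_10_8_0) (Ls.cons (Ent.pos F13_9_8_0) (Ls.cons Ent.zero (Ls.cons (Ent.neg F13_8_7_0) (Ls.cons (Ent.neg F13_8_6_0) (Ls.cons (Ent.neg F13_8_5_0) (Ls.cons (Ent.neg F13_8_4_0) (Ls.cons (Ent.neg F13_8_3_0) (Ls.cons (Ent.neg F13_8_2_0) (Ls.cons (Ent.pos F13_8_1_0) (Ls.cons Ent.zero Ls.nil)))))))))))))))))))))))))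
 (Ls.cons (Ls.cons Ent.zero (Ls.cons Ent.zero (Ls.cons (Ent.pos F13_22_7_0) (Ls.cons (Ent.pos F13_21_7_0) (Ls.cons (Ent.pos F13_20_7_0) (Ls.cons (Ent.pos F13_19_7_0) (Ls.cons (Ent.pos F13_18_7_0) (Ls.cons (Ent.pos F13_17_7_0) (Ls.cons (Ent.pos F13_16_7_0) (Ls.cons (Ent.pos F13_15_7_0) (Ls.cons (Ent.pos F13_14_7_0) (Ls.cons (Ent.pos F13_13_7_0) (Ls.cons (Ent.pos F13_12_7_0) (Ls.cons (Ent.pos F13_11_7_0) (Ls.cons (Ent.pos F13_10_7_0) (Ls.cons (Ent.pos F13_9_7_0) (Ls.cons (Ent.pos F13_8_7_0) (Ls.cons Ent.zero (Ls.cons (Ent.neg F13_7_6_0) (Ls.cons (Ent.neg F13_7_5_0) (Ls.cons (Ent.neg F13_7_4_0) (Ls.cons (Ent.neg F13_7_3_0) (Ls.cons (Ent.neg F13_7_2_0) (Ls.cons (Ent.pos F13_7_1_0) (Ls.cons Ent.zero Ls.nil)))))))))))))))))))))))))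
 (Ls.cons (Ls.cons Ent.zero (Ls.cons Ent.zero (Ls.cons (Ent.pos F13_22_6_0) (Ls.cons (Ent.pos F13_21_6_0) (Ls.cons (Ent.pos F13_20_6_0) (Ls.cons (Ent.pos F13_19_6_0) (Ls.cons (Ent.pos F13_18_6_0) (Ls.cons (Ent.pos F13_17_6_0) (Ls.cons (Ent.pos F13_16_6_0) (Ls.cons (Ent.pos F13_15_6_0) (Ls.cons (Ent.pos F13_14_6_0) (Ls.cons (Ent.pos F13_13_6_0) (Ls.cons (Ent.pos F13_12_6_0) (Ls.cons (Ent.pos F13_11_6_0) (Ls.cons (Ent.pos F13_10_6_0) (Ls.cons (Ent.pos F13_9_6_0) (Ls.cons (Ent.pos F13_8_6_0) (Ls.cons (Ent.pos F13_7_6_0) (Ls.cons Ent.zero (Ls.cons (Ent.neg F13_6_5_0) (Ls.cons (Ent.neg F13_6_4_0) (Ls.cons (Ent.neg F13_6_3_0) (Ls.cons (Ent.neg F13_6_2_0) (Ls.cons (Ent.pos F13_6_1_0) (Ls.cons Ent.zero Ls.nil)))))))))))))))))))))))))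
 (Ls.cons (Ls.cons Ent.zero (Ls.cons (Ent.pos F13_23_5_0) (Ls.cons (Ent.pos F13_22_5_0) (Ls.cons (Ent.pos F13_21_5_0) (Ls.cons (Ent.pos F13_20_5_0) (Ls.cons (Ent.pos F13_19_5_0) (Ls.cons (Ent.pos F13_18_5_0) (Ls.cons (Ent.pos F13_17_5_0) (Ls.cons (Ent.pos F13_16_5_0) (Ls.cons (Ent.pos F13_15_5_0) (Ls.cons (Ent.pos F13_14_5_0) (Ls.cons (Ent.pos F13_13_5_0) (Ls.cons (Ent.pos F13_12_5_0) (Ls.cons (Ent.pos F13_11_5_0) (Ls.cons (Ent.pos F13_10_5_0) (Ls.cons (Ent.pos F13_9_5_0) (Ls.cons (Ent.pos F13_8_5_0) (Ls.cons (Ent.pos F13_7_5_0) (Ls.cons (Ent.pos F13_6_5_0) (Ls.cons Ent.zero (Ls.cons (Ent.neg F13_5_4_0) (Ls.cons (Ent.neg F13_5_3_0) (Ls.cons (Ent.neg F13_5_2_0) (Ls.cons (Ent.pos F13_5_1_0) (Ls.cons Ent.zero Ls.nil)))))))))))))))))))))))))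
 (Ls.cons (Ls.cons Ent.zero (Ls.cons (Ent.pos F13_23_4_0) (Ls.cons (Ent.pos F13_22_4_0) (Ls.cons (Ent.pos F13_21_4_0) (Ls.cons (Ent.pos F13_20_4_0) (Ls.cons (Ent.pos F13_19_4_0) (Ls.cons (Ent.pos F13_18_4_0) (Ls.cons (Ent.pos F13_17_4_0) (Ls.cons (Ent.pos F13_16_4_0) (Ls.cons (Ent.pos F13_15_4_0) (Ls.cons (Ent.pos F13_14_4_0) (Ls.cons (Ent.pos F13_13_4_0) (Ls.cons (Ent.pos F13_12_4_0) (Ls.cons (Ent.pos F13_11_4_0) (Ls.cons (Ent.pos F13_10_4_0) (Ls.cons (Ent.pos F13_9_4_0) (Ls.cons (Ent.pos F13_8_4_0) (Ls.cons (Ent.pos F13_7_4_0) (Ls.cons (Ent.pos F13_6_4_0) (Ls.cons (Ent.pos F13_5_4_0) (Ls.cons Ent.zero (Ls.cons (Ent.neg F13_4_3_0) (Ls.cons (Ent.neg F13_4_2_0) (Ls.cons (Ent.pos F13_4_1_0) (Ls.cons Ent.zero Ls.nil)))))))))))))))))))))))))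
 (Ls.cons (Ls.cons (Ent.pos F13_24_3_0) (Ls.cons (Ent.pos F13_23_3_0) (Ls.cons (Ent.pos F13_22_3_0) (Ls.cons (Ent.pos F13_21_3_0) (Ls.cons (Ent.pos F13_20_3_0) (Ls.cons (Ent.pos F13_19_3_0) (Ls.cons (Ent.pos F13_18_3_0) (Ls.cons (Ent.pos F13_17_3_0) (Ls.cons (Ent.pos F13_16_3_0) (Ls.cons (Ent.pos F13_15_3_0) (Ls.cons (Ent.pos F13_14_3_0) (Ls.cons (Ent.pos F13_13_3_0) (Ls.cons (Ent.pos F13_12_3_0) (Ls.cons (Ent.pos F13_11_3_0) (Ls.cons (Ent.pos F13_10_3_0) (Ls.cons (Ent.pos F13_9_3_0) (Ls.cons (Ent.pos F13_8_3_0) (Ls.cons (Ent.pos F13_7_3_0) (Ls.cons (Ent.pos F13_6_3_0) (Ls.cons (Ent.pos F13_5_3_0) (Ls.cons (Ent.pos F13_4_3_0) (Ls.cons Ent.zero (Ls.cons (Ent.neg F13_3_2_0) (Ls.cons (Ent.pos F13_3_1_0) (Ls.cons Ent.zero Ls.nil)))))))))))))))))))))))))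
 (Ls.cons (Ls.cons (Ent.pos F13_24_2_0) (Ls.cons (Ent.pos F13_23_2_0) (Ls.cons (Ent.pos F13_22_2_0) (Ls.cons (Ent.pos F13_21_2_0) (Ls.cons (Ent.pos F13_20_2_0) (Ls.cons (Ent.pos F13_19_2_0) (Ls.cons (Ent.pos F13_18_2_0) (Ls.cons (Ent.pos F13_17_2_0) (Ls.cons (Ent.pos F13_16_2_0) (Ls.cons (Ent.pos F13_15_2_0) (Ls.cons (Ent.pos F13_14_2_0) (Ls.cons (Ent.pos F13_13_2_0) (Ls.cons (Ent.pos F13_12_2_0) (Ls.cons (Ent.pos F13_11_2_0) (Ls.cons (Ent.pos F13_10_2_0) (Ls.cons (Ent.pos F13_9_2_0) (Ls.cons (Ent.pos F13_8_2_0) (Ls.cons (Ent.pos F13_7_2_0) (Ls.cons (Ent.pos F13_6_2_0) (Ls.cons (Ent.pos F13_5_2_0) (Ls.cons (Ent.pos F13_4_2_0) (Ls.cons (Ent.pos F13_3_2_0) (Ls.cons Ent.zero (Ls.cons (Ent.neg F13_2_1_0) (Ls.cons Ent.zero Ls.nil)))))))))))))))))))))))))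
 (Ls.cons (Ls.cons (Ent.neg F13_24_1_0) (Ls.cons (Ent.neg F13_23_1_0) (Ls.cons (Ent.neg F13_22_1_0) (Ls.cons (Ent.neg F13_21_1_0) (Ls.cons (Ent.neg F13_20_1_0) (Ls.cons (Ent.neg F13_19_1_0) (Ls.cons (Ent.neg F13_18_1_0) (Ls.cons (Ent.neg F13_17_1_0) (Ls.cons (Ent.neg F13_16_1_0) (Ls.cons (Ent.neg F13_15_1_0) (Ls.cons (Ent.neg F13_14_1_0) (Ls.cons (Ent.neg F13_13_1_0) (Ls.cons (Ent.neg F13_12_1_0) (Ls.cons (Ent.neg F13_11_1_0) (Ls.cons (Ent.neg F13_10_1_0) (Ls.cons (Ent.neg F13_9_1_0) (Ls.cons (Ent.neg F13_8_1_0) (Ls.cons (Ent.neg F13_7_1_0) (Ls.cons (Ent.neg F13_6_1_0) (Ls.cons (Ent.neg F13_5_1_0) (Ls.cons (Ent.neg F13_4_1_0) (Ls.cons (Ent.neg F13_3_1_0) (Ls.cons (Ent.pos F13_2_1_0) (Ls.cons Ent.zero (Ls.cons Ent.zero Ls.nil)))))))))))))))))))))))))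
 (Ls.cons (Ls.cons Ent.zero (Ls.cons Ent.zero (Ls.cons Ent.zero (Ls.cons Ent.zero (Ls.cons Ent.zero (Ls.cons Ent.zero (Ls.cons Ent.zero (Ls.cons Ent.zero (Ls.cons Ent.zero (Ls.cons Ent.zero (Ls.cons Ent.zero (Ls.cons Ent.zero (Ls.cons Ent.zero (Ls.cons Ent.zero (Ls.cons Ent.zero (Ls.cons Ent.zero (Ls.cons Ent.zero (Ls.cons Ent.zero (Ls.cons Ent.zero (Ls.cons Ent.zero (Ls.cons Ent.zero (Ls.cons Ent.zero (Ls.cons Ent.zero (Ls.cons Ent.zero (Ls.cons Ent.zero Ls.nil)))))))))))))))))))))))))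
 Ls.nil))))))))))))))))))))

noncomputable def bxF13_1 : L2 :=
 (Ls.cons (Ls.cons Ent.zero (Ls.cons Ent.zero (Ls.cons Ent.zero (Ls.cons Ent.zero (Ls.cons Ent.zero (Ls.cons Ent.zero (Ls.cons Ent.zero (Ls.cons Ent.zero (Ls.cons (Ent.pos F13_19_16_1) (Ls.cons (Ent.pos F13_19_15_1) (Ls.cons (Ent.pos F13_19_14_1) (Ls.cons (Ent.pos F13_19_13_1) (Ls.cons (Ent.pos F13_19_12_1) (Ls.cons (Ent.pos F13_19_11_1) (Ls.cons (Ent.pos F13_19_10_1) (Ls.cons (Ent.pos F13_19_9_1) (Ls.cons (Ent.pos F13_19_8_1) (Ls.cons (Ent.pos F13_19_7_1) (Ls.cons (Ent.pos F13_19_6_1) (Ls.cons (Ent.pos F13_19_5_1) (Ls.cons (Ent.pos F13_19_4_1) (Ls.cons (Ent.pos F13_19_3_1) (Ls.cons (Ent.pos F13_19_2_1) (Ls.cons Ent.zero (Ls.cons (Ent.neg F13_19_1_0) Ls.nil)))))))))))))))))))))))))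
 (Ls.cons (Ls.cons Ent.zero (Ls.cons Ent.zero (Ls.cons Ent.zero (Ls.cons Ent.zero (Ls.cons Ent.zero (Ls.cons Ent.zero (Ls.cons Ent.zero (Ls.cons (Ent.pos F13_18_17_1) (Ls.cons (Ent.pos F13_18_16_1) (Ls.cons (Ent.pos F13_18_15_1) (Ls.cons (Ent.pos F13_18_14_1) (Ls.cons (Ent.pos F13_18_13_1) (Ls.cons (Ent.pos F13_18_12_1) (Ls.cons (Ent.pos F13_18_11_1) (Ls.cons (Ent.pos F13_18_10_1) (Ls.cons (Ent.pos F13_18_9_1) (Ls.cons (Ent.pos F13_18_8_1) (Ls.cons (Ent.pos F13_18_7_1) (Ls.cons (Ent.pos F13_18_6_1) (Ls.cons (Ent.pos F13_18_5_1) (Ls.cons (Ent.pos F13_18_4_1) (Ls.cons (Ent.pos F13_18_3_1) (Ls.cons (Ent.pos F13_18_2_1) (Ls.cons Ent.zero (Ls.cons (Ent.neg F13_18_1_0) Ls.nil)))))))))))))))))))))))))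
 (Ls.cons (Ls.cons Ent.zero (Ls.cons Ent.zero (Ls.cons Ent.zero (Ls.cons Ent.zero (Ls.cons Ent.zero (Ls.cons Ent.zero (Ls.cons (Ent.neg F13_18_17_1) (Ls.cons Ent.zero (Ls.cons (Ent.pos F13_17_16_1) (Ls.cons (Ent.pos F13_17_15_1) (Ls.cons (Ent.pos F13_17_14_1) (Ls.cons (Ent.pos F13_17_13_1) (Ls.cons (Ent.pos F13_17_12_1) (Ls.cons (Ent.pos F13_17_11_1) (Ls.cons (Ent.pos F13_17_10_1) (Ls.cons (Ent.pos F13_17_9_1) (Ls.cons (Ent.pos F13_17_8_1) (Ls.cons (Ent.pos F13_17_7_1) (Ls.cons (Ent.pos F13_17_6_1) (Ls.cons (Ent.pos F13_17_5_1) (Ls.cons (Ent.pos F13_17_4_1) (Ls.cons (Ent.pos F13_17_3_1) (Ls.cons (Ent.pos F13_17_2_1) (Ls.cons Ent.zero (Ls.cons (Ent.neg F13_17_1_0) Ls.nil)))))))))))))))))))))))))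
 (Ls.cons (Ls.cons Ent.zero (Ls.cons Ent.zero (Ls.cons Ent.zero (Ls.cons Ent.zero (Ls.cons Ent.zero (Ls.cons (Ent.neg F13_19_16_1) (Ls.cons (Ent.neg F13_18_16_1) (Ls.cons (Ent.neg F13_17_16_1) (Ls.cons Ent.zero (Ls.cons (Ent.pos F13_16_15_1) (Ls.cons (Ent.pos F13_16_14_1) (Ls.cons (Ent.pos F13_16_13_1) (Ls.cons (Ent.pos F13_16_12_1) (Ls.cons (Ent.pos F13_16_11_1) (Ls.cons (Ent.pos F13_16_10_1) (Ls.cons (Ent.pos F13_16_9_1) (Ls.cons (Ent.pos F13_16_8_1) (Ls.cons (Ent.pos F13_16_7_1) (Ls.cons (Ent.pos F13_16_6_1) (Ls.cons (Ent.pos F13_16_5_1) (Ls.cons (Ent.pos F13_16_4_1) (Ls.cons (Ent.pos F13_16_3_1) (Ls.cons (Ent.pos F13_16_2_1) (Ls.cons Ent.zero (Ls.cons (Ent.neg F13_16_1_0) Ls.nil)))))))))))))))))))))))))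
 (Ls.cons (Ls.cons Ent.zero (Ls.cons Ent.zero (Ls.cons Ent.zero (Ls.cons Ent.zero (Ls.cons Ent.zero (Ls.cons (Ent.neg F13_19_15_1) (Ls.cons (Ent.neg F13_18_15_1) (Ls.cons (Ent.neg F13_17_15_1) (Ls.cons (Ent.neg F13_16_15_1) (Ls.cons Ent.zero (Ls.cons (Ent.pos F13_15_14_1) (Ls.cons (Ent.pos F13_15_13_1) (Ls.cons (Ent.pos F13_15_12_1) (Ls.cons (Ent.pos F13_15_11_1) (Ls.cons (Ent.pos F13_15_10_1) (Ls.cons (Ent.pos F13_15_9_1) (Ls.cons (Ent.pos F13_15_8_1) (Ls.cons (Ent.pos F13_15_7_1) (Ls.cons (Ent.pos F13_15_6_1) (Ls.cons (Ent.pos F13_15_5_1) (Ls.cons (Ent.pos F13_15_4_1) (Ls.cons (Ent.pos F13_15_3_1) (Ls.cons (Ent.pos F13_15_2_1) (Ls.cons Ent.zero (Ls.cons (Ent.neg F13_15_1_0) Ls.nil)))))))))))))))))))))))))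
 (Ls.cons (Ls.cons Ent.zero (Ls.cons Ent.zero (Ls.cons Ent.zero (Ls.cons Ent.zero (Ls.cons Ent.zero (Ls.cons (Ent.neg F13_19_14_1) (Ls.cons (Ent.neg F13_18_14_1) (Ls.cons (Ent.neg F13_17_14_1) (Ls.cons (Ent.neg F13_16_14_1) (Ls.cons (Ent.neg F13_15_14_1) (Ls.cons Ent.zero (Ls.cons (Ent.pos F13_14_13_1) (Ls.cons (Ent.pos F13_14_12_1) (Ls.cons (Ent.pos F13_14_11_1) (Ls.cons (Ent.pos F13_14_10_1) (Ls.cons (Ent.pos F13_14_9_1) (Ls.cons (Ent.pos F13_14_8_1) (Ls.cons (Ent.pos F13_14_7_1) (Ls.cons (Ent.pos F13_14_6_1) (Ls.cons (Ent.pos F13_14_5_1) (Ls.cons (Ent.pos F13_14_4_1) (Ls.cons (Ent.pos F13_14_3_1) (Ls.cons (Ent.pos F13_14_2_1) (Ls.cons Ent.zero (Ls.cons (Ent.neg F13_14_1_0) Ls.nil)))))))))))))))))))))))))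
 (Ls.cons (Ls.cons Ent.zero (Ls.cons Ent.zero (Ls.cons Ent.zero (Ls.cons Ent.zero (Ls.cons Ent.zero (Ls.cons (Ent.neg F13_19_13_1) (Ls.cons (Ent.neg F13_18_13_1) (Ls.cons (Ent.neg F13_17_13_1) (Ls.cons (Ent.neg F13_16_13_1) (Ls.cons (Ent.neg F13_15_13_1) (Ls.cons (Ent.neg F13_14_13_1) (Ls.cons Ent.zero (Ls.cons (Ent.pos F13_13_12_1) (Ls.cons (Ent.pos F13_13_11_1) (Ls.cons (Ent.pos F13_13_10_1) (Ls.cons (Ent.pos F13_13_9_1) (Ls.cons (Ent.pos F13_13_8_1) (Ls.cons (Ent.pos F13_13_7_1) (Ls.cons (Ent.pos F13_13_6_1) (Ls.cons (Ent.pos F13_13_5_1) (Ls.cons (Ent.pos F13_13_4_1) (Ls.cons (Ent.pos F13_13_3_1) (Ls.cons (Ent.pos F13_13_2_1) (Ls.cons Ent.zero (Ls.cons (Ent.neg F13_13_1_0) Ls.nil)))))))))))))))))))))))))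
 (Ls.cons (Ls.cons Ent.zero (Ls.cons Ent.zero (Ls.cons Ent.zero (Ls.cons Ent.zero (Ls.cons (Ent.neg F13_20_12_1) (Ls.cons (Ent.neg F13_19_12_1) (Ls.cons (Ent.neg F13_18_12_1) (Ls.cons (Ent.neg F13_17_12_1) (Ls.cons (Ent.neg F13_16_12_1) (Ls.cons (Ent.neg F13_15_12_1) (Ls.cons (Ent.neg F13_14_12_1) (Ls.cons (Ent.neg F13_13_12_1) (Ls.cons Ent.zero (Ls.cons (Ent.pos F13_12_11_1) (Ls.cons (Ent.pos F13_12_10_1) (Ls.cons (Ent.pos F13_12_9_1) (Ls.cons (Ent.pos F13_12_8_1) (Ls.cons (Ent.pos F13_12_7_1) (Ls.cons (Ent.pos F13_12_6_1) (Ls.cons (Ent.pos F13_12_5_1) (Ls.cons (Ent.pos F13_12_4_1) (Ls.cons (Ent.pos F13_12_3_1) (Ls.cons (Ent.pos F13_12_2_1) (Ls.cons Ent.zero (Ls.cons (Ent.neg F13_12_1_0) Ls.nil)))))))))))))))))))))))))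
 (Ls.cons (Ls.cons Ent.zero (Ls.cons Ent.zero (Ls.cons Ent.zero (Ls.cons Ent.zero (Ls.cons (Ent.neg F13_20_11_1) (Ls.cons (Ent.neg F13_19_11_1) (Ls.cons (Ent.neg F13_18_11_1) (Ls.cons (Ent.neg F13_17_11_1) (Ls.cons (Ent.neg F13_16_11_1) (Ls.cons (Ent.neg F13_15_11_1) (Ls.cons (Ent.neg F13_14_11_1) (Ls.cons (Ent.neg F13_13_11_1) (Ls.cons (Ent.neg F13_12_11_1) (Ls.cons Ent.zero (Ls.cons (Ent.pos F13_11_10_1) (Ls.cons (Ent.pos F13_11_9_1) (Ls.cons (Ent.pos F13_11_8_1) (Ls.cons (Ent.pos F13_11_7_1) (Ls.cons (Ent.pos F13_11_6_1) (Ls.cons (Ent.pos F13_11_5_1) (Ls.cons (Ent.pos F13_11_4_1) (Ls.cons (Ent.pos F13_11_3_1) (Ls.cons (Ent.pos F13_11_2_1) (Ls.cons Ent.zero (Ls.cons (Ent.neg F13_11_1_0) Ls.nil)))))))))))))))))))))))))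
 (Ls.cons (Ls.cons Ent.zero (Ls.cons Ent.zero (Ls.cons Ent.zero (Ls.cons Ent.zero (Ls.cons (Ent.neg F13_20_10_1) (Ls.cons (Ent.neg F13_19_10_1) (Ls.cons (Ent.neg F13_18_10_1) (Ls.cons (Ent.neg F13_17_10_1) (Ls.cons (Ent.neg F13_16_10_1) (Ls.cons (Ent.neg F13_15_10_1) (Ls.cons (Ent.neg F13_14_10_1) (Ls.cons (Ent.neg F13_13_10_1) (Ls.cons (Ent.neg F13_12_10_1) (Ls.cons (Ent.neg F13_11_10_1) (Ls.cons Ent.zero (Ls.cons (Ent.pos F13_10_9_1) (Ls.cons (Ent.pos F13_10_8_1) (Ls.cons (Ent.pos F13_10_7_1) (Ls.cons (Ent.pos F13_10_6_1) (Ls.cons (Ent.pos F13_10_5_1) (Ls.cons (Ent.pos F13_10_4_1) (Ls.cons (Ent.pos F13_10_3_1) (Ls.cons (Ent.pos F13_10_2_1) (Ls.cons Ent.zero (Ls.cons (Ent.neg F13_10_1_0) Ls.nil)))))))))))))))))))))))))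
 (Ls.cons (Ls.cons Ent.zero (Ls.cons Ent.zero (Ls.cons Ent.zero (Ls.cons Ent.zero (Ls.cons (Ent.neg F13_20_9_1) (Ls.cons (Ent.neg F13_19_9_1) (Ls.cons (Ent.neg F13_18_9_1) (Ls.cons (Ent.neg F13_17_9_1) (Ls.cons (Ent.neg F13_16_9_1) (Ls.cons (Ent.neg F13_15_9_1) (Ls.cons (Ent.neg F13_14_9_1) (Ls.cons (Ent.neg F13_13_9_1) (Ls.cons (Ent.neg F13_12_9_1) (Ls.cons (Ent.neg F13_11_9_1) (Ls.cons (Ent.neg F13_10_9_1) (Ls.cons Ent.zero (Ls.cons (Ent.pos F13_9_8_1) (Ls.cons (Ent.pos F13_9_7_1) (Ls.cons (Ent.pos F13_9_6_1) (Ls.cons (Ent.pos F13_9_5_1) (Ls.cons (Ent.pos F13_9_4_1) (Ls.cons (Ent.pos F13_9_3_1) (Ls.cons (Ent.pos F13_9_2_1) (Ls.cons Ent.zero (Ls.cons (Ent.neg F13_9_1_0) Ls.nil)))))))))))))))))))))))))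
 (Ls.cons (Ls.cons Ent.zero (Ls.cons Ent.zero (Ls.cons Ent.zero (Ls.cons (Ent.neg F13_21_8_1) (Ls.cons (Ent.neg F13_20_8_1) (Ls.cons (Ent.neg F13_19_8_1) (Ls.cons (Ent.neg F13_18_8_1) (Ls.cons (Ent.neg F13_17_8_1) (Ls.cons (Ent.neg F13_16_8_1) (Ls.cons (Ent.neg F13_15_8_1) (Ls.cons (Ent.neg F13_14_8_1) (Ls.cons (Ent.neg F13_13_8_1) (Ls.cons (Ent.neg F13_12_8_1) (Ls.cons (Ent.neg F13_11_8_1) (Ls.cons (Ent.neg F13_10_8_1) (Ls.cons (Ent.neg F13_9_8_1) (Ls.cons Ent.zero (Ls.cons (Ent.pos F13_8_7_1) (Ls.cons (Ent.pos F13_8_6_1) (Ls.cons (Ent.pos F13_8_5_1) (Ls.cons (Ent.pos F13_8_4_1) (Ls.cons (Ent.pos F13_8_3_1) (Ls.cons (Ent.pos F13_8_2_1) (Ls.cons Ent.zero (Ls.cons (Ent.neg F13_8_1_0) Ls.nil)))))))))))))))))))))))))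
 (Ls.cons (Ls.cons Ent.zero (Ls.cons Ent.zero (Ls.cons Ent.zero (Ls.cons (Ent.neg F13_21_7_1) (Ls.cons (Ent.neg F13_20_7_1) (Ls.cons (Ent.neg F13_19_7_1) (Ls.cons (Ent.neg F13_18_7_1) (Ls.cons (Ent.neg F13_17_7_1) (Ls.cons (Ent.neg F13_16_7_1) (Ls.cons (Ent.neg F13_15_7_1) (Ls.cons (Ent.neg F13_14_7_1) (Ls.cons (Ent.neg F13_13_7_1) (Ls.cons (Ent.neg F13_12_7_1) (Ls.cons (Ent.neg F13_11_7_1) (Ls.cons (Ent.neg F13_10_7_1) (Ls.cons (Ent.neg F13_9_7_1) (Ls.cons (Ent.neg F13_8_7_1) (Ls.cons Ent.zero (Ls.cons (Ent.pos F13_7_6_1) (Ls.cons (Ent.pos F13_7_5_1) (Ls.cons (Ent.pos F13_7_4_1) (Ls.cons (Ent.pos F13_7_3_1) (Ls.cons (Ent.pos F13_7_2_1) (Ls.cons Ent.zero (Ls.cons (Ent.neg F13_7_1_0) Ls.nil)))))))))))))))))))))))))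
 (Ls.cons (Ls.cons Ent.zero (Ls.cons Ent.zero (Ls.cons Ent.zero (Ls.cons (Ent.neg F13_21_6_1) (Ls.cons (Ent.neg F13_20_6_1) (Ls.cons (Ent.neg F13_19_6_1) (Ls.cons (Ent.neg F13_18_6_1) (Ls.cons (Ent.neg F13_17_6_1) (Ls.cons (Ent.neg F13_16_6_1) (Ls.cons (Ent.neg F13_15_6_1) (Ls.cons (Ent.neg F13_14_6_1) (Ls.cons (Ent.neg F13_13_6_1) (Ls.cons (Ent.neg F13_12_6_1) (Ls.cons (Ent.neg F13_11_6_1) (Ls.cons (Ent.neg F13_10_6_1) (Ls.cons (Ent.neg F13_9_6_1) (Ls.cons (Ent.neg F13_8_6_1) (Ls.cons (Ent.neg F13_7_6_1) (Ls.cons Ent.zero (Ls.cons (Ent.pos F13_6_5_1) (Ls.cons (Ent.pos F13_6_4_1) (Ls.cons (Ent.pos F13_6_3_1) (Ls.cons (Ent.pos F13_6_2_1) (Ls.cons Ent.zero (Ls.cons (Ent.neg F13_6_1_0) Ls.nil)))))))))))))))))))))))))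
 (Ls.cons (Ls.cons Ent.zero (Ls.cons Ent.zero (Ls.cons Ent.zero (Ls.cons (Ent.neg F13_21_5_1) (Ls.cons (Ent.neg F13_20_5_1) (Ls.cons (Ent.neg F13_19_5_1) (Ls.cons (Ent.neg F13_18_5_1) (Ls.cons (Ent.neg F13_17_5_1) (Ls.cons (Ent.neg F13_16_5_1) (Ls.cons (Ent.neg F13_15_5_1) (Ls.cons (Ent.neg F13_14_5_1) (Ls.cons (Ent.neg F13_13_5_1) (Ls.cons (Ent.neg F13_12_5_1) (Ls.cons (Ent.neg F13_11_5_1) (Ls.cons (Ent.neg F13_10_5_1) (Ls.cons (Ent.neg F13_9_5_1) (Ls.cons (Ent.neg F13_8_5_1) (Ls.cons (Ent.neg F13_7_5_1) (Ls.cons (Ent.neg F13_6_5_1) (Ls.cons Ent.zero (Ls.cons (Ent.pos F13_5_4_1) (Ls.cons (Ent.pos F13_5_3_1) (Ls.cons (Ent.pos F13_5_2_1) (Ls.cons Ent.zero (Ls.cons (Ent.neg F13_5_1_0) Ls.nil)))))))))))))))))))))))))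
 (Ls.cons (Ls.cons Ent.zero (Ls.cons (Ent.neg F13_23_4_1) (Ls.cons (Ent.neg F13_22_4_1) (Ls.cons (Ent.neg F13_21_4_1) (Ls.cons (Ent.neg F13_20_4_1) (Ls.cons (Ent.neg F13_19_4_1) (Ls.cons (Ent.neg F13_18_4_1) (Ls.cons (Ent.neg F13_17_4_1) (Ls.cons (Ent.neg F13_16_4_1) (Ls.cons (Ent.neg F13_15_4_1) (Ls.cons (Ent.neg F13_14_4_1) (Ls.cons (Ent.neg F13_13_4_1) (Ls.cons (Ent.neg F13_12_4_1) (Ls.cons (Ent.neg F13_11_4_1) (Ls.cons (Ent.neg F13_10_4_1) (Ls.cons (Ent.neg F13_9_4_1) (Ls.cons (Ent.neg F13_8_4_1) (Ls.cons (Ent.neg F13_7_4_1) (Ls.cons (Ent.neg F13_6_4_1) (Ls.cons (Ent.neg F13_5_4_1) (Ls.cons Ent.zero (Ls.cons (Ent.pos F13_4_3_1) (Ls.cons (Ent.pos F13_4_2_1) (Ls.cons Ent.zero (Ls.cons (Ent.neg F13_4_1_0) Ls.nil)))))))))))))))))))))))))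
 (Ls.cons (Ls.cons Ent.zero (Ls.cons (Ent.neg F13_23_3_1) (Ls.cons (Ent.neg F13_22_3_1) (Ls.cons (Ent.neg F13_21_3_1) (Ls.cons (Ent.neg F13_20_3_1) (Ls.cons (Ent.neg F13_19_3_1) (Ls.cons (Ent.neg F13_18_3_1) (Ls.cons (Ent.neg F13_17_3_1) (Ls.cons (Ent.neg F13_16_3_1) (Ls.cons (Ent.neg F13_15_3_1) (Ls.cons (Ent.neg F13_14_3_1) (Ls.cons (Ent.neg F13_13_3_1) (Ls.cons (Ent.neg F13_12_3_1) (Ls.cons (Ent.neg F13_11_3_1) (Ls.cons (Ent.neg F13_10_3_1) (Ls.cons (Ent.neg F13_9_3_1) (Ls.cons (Ent.neg F13_8_3_1) (Ls.cons (Ent.neg F13_7_3_1) (Ls.cons (Ent.neg F13_6_3_1) (Ls.cons (Ent.neg F13_5_3_1) (Ls.cons (Ent.neg F13_4_3_1) (Ls.cons Ent.zero (Ls.cons (Ent.pos F13_3_2_1) (Ls.cons Ent.zero (Ls.cons (Ent.neg F13_3_1_0) Ls.nil)))))))))))))))))))))))))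
 (Ls.cons (Ls.cons (Ent.neg F13_24_2_1) (Ls.cons (Ent.neg F13_23_2_1) (Ls.cons (Ent.neg F13_22_2_1) (Ls.cons (Ent.neg F13_21_2_1) (Ls.cons (Ent.neg F13_20_2_1) (Ls.cons (Ent.neg F13_19_2_1) (Ls.cons (Ent.neg F13_18_2_1) (Ls.cons (Ent.neg F13_17_2_1) (Ls.cons (Ent.neg F13_16_2_1) (Ls.cons (Ent.neg F13_15_2_1) (Ls.cons (Ent.neg F13_14_2_1) (Ls.cons (Ent.neg F13_13_2_1) (Ls.cons (Ent.neg F13_12_2_1) (Ls.cons (Ent.neg F13_11_2_1) (Ls.cons (Ent.neg F13_10_2_1) (Ls.cons (Ent.neg F13_9_2_1) (Ls.cons (Ent.neg F13_8_2_1) (Ls.cons (Ent.neg F13_7_2_1) (Ls.cons (Ent.neg F13_6_2_1) (Ls.cons (Ent.neg F13_5_2_1) (Ls.cons (Ent.neg F13_4_2_1) (Ls.cons (Ent.neg F13_3_2_1) (Ls.cons Ent.zero (Ls.cons Ent.zero (Ls.cons (Ent.pos F13_2_1_0) Ls.nil)))))))))))))))))))))))))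
 (Ls.cons (Ls.cons Ent.zero (Ls.cons Ent.zero (Ls.cons Ent.zero (Ls.cons Ent.zero (Ls.cons Ent.zero (Ls.cons Ent.zero (Ls.cons Ent.zero (Ls.cons Ent.zero (Ls.cons Ent.zero (Ls.cons Ent.zero (Ls.cons Ent.zero (Ls.cons Ent.zero (Ls.cons Ent.zero (Ls.cons Ent.zero (Ls.cons Ent.zero (Ls.cons Ent.zero (Ls.cons Ent.zero (Ls.cons Ent.zero (Ls.cons Ent.zero (Ls.cons Ent.zero (Ls.cons Ent.zero (Ls.cons Ent.zero (Ls.cons Ent.zero (Ls.cons Ent.zero (Ls.cons Ent.zero Ls.nil)))))))))))))))))))))))))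
 (Ls.cons (Ls.cons (Ent.pos F13_24_1_0) (Ls.cons (Ent.pos F13_23_1_0) (Ls.cons (Ent.pos F13_22_1_0) (Ls.cons (Ent.pos F13_21_1_0) (Ls.cons (Ent.pos F13_20_1_0) (Ls.cons (Ent.pos F13_19_1_0) (Ls.cons (Ent.pos F13_18_1_0) (Ls.cons (Ent.pos F13_17_1_0) (Ls.cons (Ent.pos F13_16_1_0) (Ls.cons (Ent.pos F13_15_1_0) (Ls.cons (Ent.pos F13_14_1_0) (Ls.cons (Ent.pos F13_13_1_0) (Ls.cons (Ent.pos F13_12_1_0) (Ls.cons (Ent.pos F13_11_1_0) (Ls.cons (Ent.pos F13_10_1_0) (Ls.cons (Ent.pos F13_9_1_0) (Ls.cons (Ent.pos F13_8_1_0) (Ls.cons (Ent.pos F13_7_1_0) (Ls.cons (Ent.pos F13_6_1_0) (Ls.cons (Ent.pos F13_5_1_0) (Ls.cons (Ent.pos F13_4_1_0) (Ls.cons (Ent.pos F13_3_1_0) (Ls.cons (Ent.neg F13_2_1_0) (Ls.cons Ent.zero (Ls.cons Ent.zero Ls.nil)))))))))))))))))))))))))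
 Ls.nil))))))))))))))))))))

noncomputable def bxF13_2 : L2 :=
 (Ls.cons (Ls.cons Ent.zero (Ls.cons Ent.zero (Ls.cons Ent.zero (Ls.cons Ent.zero (Ls.cons Ent.zero (Ls.cons Ent.zero (Ls.cons Ent.zero (Ls.cons Ent.zero (Ls.cons Ent.zero (Ls.cons (Ent.pos F13_19_15_2) (Ls.cons (Ent.pos F13_19_14_2) (Ls.cons (Ent.pos F13_19_13_2) (Ls.cons (Ent.pos F13_19_12_2) (Ls.cons (Ent.pos F13_19_11_2) (Ls.cons (Ent.pos F13_19_10_2) (Ls.cons (Ent.pos F13_19_9_2) (Ls.cons (Ent.pos F13_19_8_2) (Ls.cons (Ent.pos F13_19_7_2) (Ls.cons (Ent.pos F13_19_6_2) (Ls.cons (Ent.pos F13_19_5_2) (Ls.cons (Ent.pos F13_19_4_2) (Ls.cons (Ent.pos F13_19_3_2) (Ls.cons Ent.zero (Ls.cons (Ent.neg F13_19_2_1) (Ls.cons (Ent.pos F13_19_2_0) Ls.nil)))))))))))))))))))))))))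
 (Ls.cons (Ls.cons Ent.zero (Ls.cons Ent.zero (Ls.cons Ent.zero (Ls.cons Ent.zero (Ls.cons Ent.zero (Ls.cons Ent.zero (Ls.cons Ent.zero (Ls.cons (Ent.pos F13_18_17_2) (Ls.cons (Ent.pos F13_18_16_2) (Ls.cons (Ent.pos F13_18_15_2) (Ls.cons (Ent.pos F13_18_14_2) (Ls.cons (Ent.pos F13_18_13_2) (Ls.cons (Ent.pos F13_18_12_2) (Ls.cons (Ent.pos F13_18_11_2) (Ls.cons (Ent.pos F13_18_10_2) (Ls.cons (Ent.pos F13_18_9_2) (Ls.cons (Ent.pos F13_18_8_2) (Ls.cons (Ent.pos F13_18_7_2) (Ls.cons (Ent.pos F13_18_6_2) (Ls.cons (Ent.pos F13_18_5_2) (Ls.cons (Ent.pos F13_18_4_2) (Ls.cons (Ent.pos F13_18_3_2) (Ls.cons Ent.zero (Ls.cons (Ent.neg F13_18_2_1) (Ls.cons (Ent.pos F13_18_2_0) Ls.nil)))))))))))))))))))))))))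
 (Ls.cons (Ls.cons Ent.zero (Ls.cons Ent.zero (Ls.cons Ent.zero (Ls.cons Ent.zero (Ls.cons Ent.zero (Ls.cons Ent.zero (Ls.cons (Ent.neg F13_18_17_2) (Ls.cons Ent.zero (Ls.cons (Ent.pos F13_17_16_2) (Ls.cons (Ent.pos F13_17_15_2) (Ls.cons (Ent.pos F13_17_14_2) (Ls.cons (Ent.pos F13_17_13_2) (Ls.cons (Ent.pos F13_17_12_2) (Ls.cons (Ent.pos F13_17_11_2) (Ls.cons (Ent.pos F13_17_10_2) (Ls.cons (Ent.pos F13_17_9_2) (Ls.cons (Ent.pos F13_17_8_2) (Ls.cons (Ent.pos F13_17_7_2) (Ls.cons (Ent.pos F13_17_6_2) (Ls.cons (Ent.pos F13_17_5_2) (Ls.cons (Ent.pos F13_17_4_2) (Ls.cons (Ent.pos F13_17_3_2) (Ls.cons Ent.zero (Ls.cons (Ent.neg F13_17_2_1) (Ls.cons (Ent.pos F13_17_2_0) Ls.nil)))))))))))))))))))))))))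
 (Ls.cons (Ls.cons Ent.zero (Ls.cons Ent.zero (Ls.cons Ent.zero (Ls.cons Ent.zero (Ls.cons Ent.zero (Ls.cons Ent.zero (Ls.cons (Ent.neg F13_18_16_2) (Ls.cons (Ent.neg F13_17_16_2) (Ls.cons Ent.zero (Ls.cons (Ent.pos F13_16_15_2) (Ls.cons (Ent.pos F13_16_14_2) (Ls.cons (Ent.pos F13_16_13_2) (Ls.cons (Ent.pos F13_16_12_2) (Ls.cons (Ent.pos F13_16_11_2) (Ls.cons (Ent.pos F13_16_10_2) (Ls.cons (Ent.pos F13_16_9_2) (Ls.cons (Ent.pos F13_16_8_2) (Ls.cons (Ent.pos F13_16_7_2) (Ls.cons (Ent.pos F13_16_6_2) (Ls.cons (Ent.pos F13_16_5_2) (Ls.cons (Ent.pos F13_16_4_2) (Ls.cons (Ent.pos F13_16_3_2) (Ls.cons Ent.zero (Ls.cons (Ent.neg F13_16_2_1) (Ls.cons (Ent.pos F13_16_2_0) Ls.nil)))))))))))))))))))))))))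
 (Ls.cons (Ls.cons Ent.zero (Ls.cons Ent.zero (Ls.cons Ent.zero (Ls.cons Ent.zero (Ls.cons Ent.zero (Ls.cons (Ent.neg F13_19_15_2) (Ls.cons (Ent.neg F13_18_15_2) (Ls.cons (Ent.neg F13_17_15_2) (Ls.cons (Ent.neg F13_16_15_2) (Ls.cons Ent.zero (Ls.cons (Ent.pos F13_15_14_2) (Ls.cons (Ent.pos F13_15_13_2) (Ls.cons (Ent.pos F13_15_12_2) (Ls.cons (Ent.pos F13_15_11_2) (Ls.cons (Ent.pos F13_15_10_2) (Ls.cons (Ent.pos F13_15_9_2) (Ls.cons (Ent.pos F13_15_8_2) (Ls.cons (Ent.pos F13_15_7_2) (Ls.cons (Ent.pos F13_15_6_2) (Ls.cons (Ent.pos F13_15_5_2) (Ls.cons (Ent.pos F13_15_4_2) (Ls.cons (Ent.pos F13_15_3_2) (Ls.cons Ent.zero (Ls.cons (Ent.neg F13_15_2_1) (Ls.cons (Ent.pos F13_15_2_0) Ls.nil)))))))))))))))))))))))))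
 (Ls.cons (Ls.cons Ent.zero (Ls.cons Ent.zero (Ls.cons Ent.zero (Ls.cons Ent.zero (Ls.cons Ent.zero (Ls.cons (Ent.neg F13_19_14_2) (Ls.cons (Ent.neg F13_18_14_2) (Ls.cons (Ent.neg F13_17_14_2) (Ls.cons (Ent.neg F13_16_14_2) (Ls.cons (Ent.neg F13_15_14_2) (Ls.cons Ent.zero (Ls.cons (Ent.pos F13_14_13_2) (Ls.cons (Ent.pos F13_14_12_2) (Ls.cons (Ent.pos F13_14_11_2) (Ls.cons (Ent.pos F13_14_10_2) (Ls.cons (Ent.pos F13_14_9_2) (Ls.cons (Ent.pos F13_14_8_2) (Ls.cons (Ent.pos F13_14_7_2) (Ls.cons (Ent.pos F13_14_6_2) (Ls.cons (Ent.pos F13_14_5_2) (Ls.cons (Ent.pos F13_14_4_2) (Ls.cons (Ent.pos F13_14_3_2) (Ls.cons Ent.zero (Ls.cons (Ent.neg F13_14_2_1) (Ls.cons (Ent.pos F13_14_2_0) Ls.nil)))))))))))))))))))))))))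
 (Ls.cons (Ls.cons Ent.zero (Ls.cons Ent.zero (Ls.cons Ent.zero (Ls.cons Ent.zero (Ls.cons Ent.zero (Ls.cons (Ent.neg F13_19_13_2) (Ls.cons (Ent.neg F13_18_13_2) (Ls.cons (Ent.neg F13_17_13_2) (Ls.cons (Ent.neg F13_16_13_2) (Ls.cons (Ent.neg F13_15_13_2) (Ls.cons (Ent.neg F13_14_13_2) (Ls.cons Ent.zero (Ls.cons (Ent.pos F13_13_12_2) (Ls.cons (Ent.pos F13_13_11_2) (Ls.cons (Ent.pos F13_13_10_2) (Ls.cons (Ent.pos F13_13_9_2) (Ls.cons (Ent.pos F13_13_8_2) (Ls.cons (Ent.pos F13_13_7_2) (Ls.cons (Ent.pos F13_13_6_2) (Ls.cons (Ent.pos F13_13_5_2) (Ls.cons (Ent.pos F13_13_4_2) (Ls.cons (Ent.pos F13_13_3_2) (Ls.cons Ent.zero (Ls.cons (Ent.neg F13_13_2_1) (Ls.cons (Ent.pos F13_13_2_0) Ls.nil)))))))))))))))))))))))))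
 (Ls.cons (Ls.cons Ent.zero (Ls.cons Ent.zero (Ls.cons Ent.zero (Ls.cons Ent.zero (Ls.cons Ent.zero (Ls.cons (Ent.neg F13_19_12_2) (Ls.cons (Ent.neg F13_18_12_2) (Ls.cons (Ent.neg F13_17_12_2) (Ls.cons (Ent.neg F13_16_12_2) (Ls.cons (Ent.neg F13_15_12_2) (Ls.cons (Ent.neg F13_14_12_2) (Ls.cons (Ent.neg F13_13_12_2) (Ls.cons Ent.zero (Ls.cons (Ent.pos F13_12_11_2) (Ls.cons (Ent.pos F13_12_10_2) (Ls.cons (Ent.pos F13_12_9_2) (Ls.cons (Ent.pos F13_12_8_2) (Ls.cons (Ent.pos F13_12_7_2) (Ls.cons (Ent.pos F13_12_6_2) (Ls.cons (Ent.pos F13_12_5_2) (Ls.cons (Ent.pos F13_12_4_2) (Ls.cons (Ent.pos F13_12_3_2) (Ls.cons Ent.zero (Ls.cons (Ent.neg F13_12_2_1) (Ls.cons (Ent.pos F13_12_2_0) Ls.nil)))))))))))))))))))))))))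
 (Ls.cons (Ls.cons Ent.zero (Ls.cons Ent.zero (Ls.cons Ent.zero (Ls.cons Ent.zero (Ls.cons (Ent.neg F13_20_11_2) (Ls.cons (Ent.neg F13_19_11_2) (Ls.cons (Ent.neg F13_18_11_2) (Ls.cons (Ent.neg F13_17_11_2) (Ls.cons (Ent.neg F13_16_11_2) (Ls.cons (Ent.neg F13_15_11_2) (Ls.cons (Ent.neg F13_14_11_2) (Ls.cons (Ent.neg F13_13_11_2) (Ls.cons (Ent.neg F13_12_11_2) (Ls.cons Ent.zero (Ls.cons (Ent.pos F13_11_10_2) (Ls.cons (Ent.pos F13_11_9_2) (Ls.cons (Ent.pos F13_11_8_2) (Ls.cons (Ent.pos F13_11_7_2) (Ls.cons (Ent.pos F13_11_6_2) (Ls.cons (Ent.pos F13_11_5_2) (Ls.cons (Ent.pos F13_11_4_2) (Ls.cons (Ent.pos F13_11_3_2) (Ls.cons Ent.zero (Ls.cons (Ent.neg F13_11_2_1) (Ls.cons (Ent.pos F13_11_2_0) Ls.nil)))))))))))))))))))))))))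
 (Ls.cons (Ls.cons Ent.zero (Ls.cons Ent.zero (Ls.cons Ent.zero (Ls.cons Ent.zero (Ls.cons (Ent.neg F13_20_10_2) (Ls.cons (Ent.neg F13_19_10_2) (Ls.cons (Ent.neg F13_18_10_2) (Ls.cons (Ent.neg F13_17_10_2) (Ls.cons (Ent.neg F13_16_10_2) (Ls.cons (Ent.neg F13_15_10_2) (Ls.cons (Ent.neg F13_14_10_2) (Ls.cons (Ent.neg F13_13_10_2) (Ls.cons (Ent.neg F13_12_10_2) (Ls.cons (Ent.neg F13_11_10_2) (Ls.cons Ent.zero (Ls.cons (Ent.pos F13_10_9_2) (Ls.cons (Ent.pos F13_10_8_2) (Ls.cons (Ent.pos F13_10_7_2) (Ls.cons (Ent.pos F13_10_6_2) (Ls.cons (Ent.pos F13_10_5_2) (Ls.cons (Ent.pos F13_10_4_2) (Ls.cons (Ent.pos F13_10_3_2) (Ls.cons Ent.zero (Ls.cons (Ent.neg F13_10_2_1) (Ls.cons (Ent.pos F13_10_2_0) Ls.nil)))))))))))))))))))))))))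
 (Ls.cons (Ls.cons Ent.zero (Ls.cons Ent.zero (Ls.cons Ent.zero (Ls.cons Ent.zero (Ls.cons (Ent.neg F13_20_9_2) (Ls.cons (Ent.neg F13_19_9_2) (Ls.cons (Ent.neg F13_18_9_2) (Ls.cons (Ent.neg F13_17_9_2) (Ls.cons (Ent.neg F13_16_9_2) (Ls.cons (Ent.neg F13_15_9_2) (Ls.cons (Ent.neg F13_14_9_2) (Ls.cons (Ent.neg F13_13_9_2) (Ls.cons (Ent.neg F13_12_9_2) (Ls.cons (Ent.neg F13_11_9_2) (Ls.cons (Ent.neg F13_10_9_2) (Ls.cons Ent.zero (Ls.cons (Ent.pos F13_9_8_2) (Ls.cons (Ent.pos F13_9_7_2) (Ls.cons (Ent.pos F13_9_6_2) (Ls.cons (Ent.pos F13_9_5_2) (Ls.cons (Ent.pos F13_9_4_2) (Ls.cons (Ent.pos F13_9_3_2) (Ls.cons Ent.zero (Ls.cons (Ent.neg F13_9_2_1) (Ls.cons (Ent.pos F13_9_2_0) Ls.nil)))))))))))))))))))))))))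
 (Ls.cons (Ls.cons Ent.zero (Ls.cons Ent.zero (Ls.cons Ent.zero (Ls.cons Ent.zero (Ls.cons (Ent.neg F13_20_8_2) (Ls.cons (Ent.neg F13_19_8_2) (Ls.cons (Ent.neg F13_18_8_2) (Ls.cons (Ent.neg F13_17_8_2) (Ls.cons (Ent.neg F13_16_8_2) (Ls.cons (Ent.neg F13_15_8_2) (Ls.cons (Ent.neg F13_14_8_2) (Ls.cons (Ent.neg F13_13_8_2) (Ls.cons (Ent.neg F13_12_8_2) (Ls.cons (Ent.neg F13_11_8_2) (Ls.cons (Ent.neg F13_10_8_2) (Ls.cons (Ent.neg F13_9_8_2) (Ls.cons Ent.zero (Ls.cons (Ent.pos F13_8_7_2) (Ls.cons (Ent.pos F13_8_6_2) (Ls.cons (Ent.pos F13_8_5_2) (Ls.cons (Ent.pos F13_8_4_2) (Ls.cons (Ent.pos F13_8_3_2) (Ls.cons Ent.zero (Ls.cons (Ent.neg F13_8_2_1) (Ls.cons (Ent.pos F13_8_2_0) Ls.nil)))))))))))))))))))))))))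
 (Ls.cons (Ls.cons Ent.zero (Ls.cons Ent.zero (Ls.cons Ent.zero (Ls.cons (Ent.neg F13_21_7_2) (Ls.cons (Ent.neg F13_20_7_2) (Ls.cons (Ent.neg F13_19_7_2) (Ls.cons (Ent.neg F13_18_7_2) (Ls.cons (Ent.neg F13_17_7_2) (Ls.cons (Ent.neg F13_16_7_2) (Ls.cons (Ent.neg F13_15_7_2) (Ls.cons (Ent.neg F13_14_7_2) (Ls.cons (Ent.neg F13_13_7_2) (Ls.cons (Ent.neg F13_12_7_2) (Ls.cons (Ent.neg F13_11_7_2) (Ls.cons (Ent.neg F13_10_7_2) (Ls.cons (Ent.neg F13_9_7_2) (Ls.cons (Ent.neg F13_8_7_2) (Ls.cons Ent.zero (Ls.cons (Ent.pos F13_7_6_2) (Ls.cons (Ent.pos F13_7_5_2) (Ls.cons (Ent.pos F13_7_4_2) (Ls.cons (Ent.pos F13_7_3_2) (Ls.cons Ent.zero (Ls.cons (Ent.neg F13_7_2_1) (Ls.cons (Ent.pos F13_7_2_0) Ls.nil)))))))))))))))))))))))))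
 (Ls.cons (Ls.cons Ent.zero (Ls.cons Ent.zero (Ls.cons Ent.zero (Ls.cons (Ent.neg F13_21_6_2) (Ls.cons (Ent.neg F13_20_6_2) (Ls.cons (Ent.neg F13_19_6_2) (Ls.cons (Ent.neg F13_18_6_2) (Ls.cons (Ent.neg F13_17_6_2) (Ls.cons (Ent.neg F13_16_6_2) (Ls.cons (Ent.neg F13_15_6_2) (Ls.cons (Ent.neg F13_14_6_2) (Ls.cons (Ent.neg F13_13_6_2) (Ls.cons (Ent.neg F13_12_6_2) (Ls.cons (Ent.neg F13_11_6_2) (Ls.cons (Ent.neg F13_10_6_2) (Ls.cons (Ent.neg F13_9_6_2) (Ls.cons (Ent.neg F13_8_6_2) (Ls.cons (Ent.neg F13_7_6_2) (Ls.cons Ent.zero (Ls.cons (Ent.pos F13_6_5_2) (Ls.cons (Ent.pos F13_6_4_2) (Ls.cons (Ent.pos F13_6_3_2) (Ls.cons Ent.zero (Ls.cons (Ent.neg F13_6_2_1) (Ls.cons (Ent.pos F13_6_2_0) Ls.nil)))))))))))))))))))))))))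
 (Ls.cons (Ls.cons Ent.zero (Ls.cons Ent.zero (Ls.cons Ent.zero (Ls.cons (Ent.neg F13_21_5_2) (Ls.cons (Ent.neg F13_20_5_2) (Ls.cons (Ent.neg F13_19_5_2) (Ls.cons (Ent.neg F13_18_5_2) (Ls.cons (Ent.neg F13_17_5_2) (Ls.cons (Ent.neg F13_16_5_2) (Ls.cons (Ent.neg F13_15_5_2) (Ls.cons (Ent.neg F13_14_5_2) (Ls.cons (Ent.neg F13_13_5_2) (Ls.cons (Ent.neg F13_12_5_2) (Ls.cons (Ent.neg F13_11_5_2) (Ls.cons (Ent.neg F13_10_5_2) (Ls.cons (Ent.neg F13_9_5_2) (Ls.cons (Ent.neg F13_8_5_2) (Ls.cons (Ent.neg F13_7_5_2) (Ls.cons (Ent.neg F13_6_5_2) (Ls.cons Ent.zero (Ls.cons (Ent.pos F13_5_4_2) (Ls.cons (Ent.pos F13_5_3_2) (Ls.cons Ent.zero (Ls.cons (Ent.neg F13_5_2_1) (Ls.cons (Ent.pos F13_5_2_0) Ls.nil)))))))))))))))))))))))))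
 (Ls.cons (Ls.cons Ent.zero (Ls.cons Ent.zero (Ls.cons Ent.zero (Ls.cons (Ent.neg F13_21_4_2) (Ls.cons (Ent.neg F13_20_4_2) (Ls.cons (Ent.neg F13_19_4_2) (Ls.cons (Ent.neg F13_18_4_2) (Ls.cons (Ent.neg F13_17_4_2) (Ls.cons (Ent.neg F13_16_4_2) (Ls.cons (Ent.neg F13_15_4_2) (Ls.cons (Ent.neg F13_14_4_2) (Ls.cons (Ent.neg F13_13_4_2) (Ls.cons (Ent.neg F13_12_4_2) (Ls.cons (Ent.neg F13_11_4_2) (Ls.cons (Ent.neg F13_10_4_2) (Ls.cons (Ent.neg F13_9_4_2) (Ls.cons (Ent.neg F13_8_4_2) (Ls.cons (Ent.neg F13_7_4_2) (Ls.cons (Ent.neg F13_6_4_2) (Ls.cons (Ent.neg F13_5_4_2) (Ls.cons Ent.zero (Ls.cons (Ent.pos F13_4_3_2) (Ls.cons Ent.zero (Ls.cons (Ent.neg F13_4_2_1) (Ls.cons (Ent.pos F13_4_2_0) Ls.nil)))))))))))))))))))))))))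
 (Ls.cons (Ls.cons Ent.zero (Ls.cons Ent.zero (Ls.cons (Ent.neg F13_22_3_2) (Ls.cons (Ent.neg F13_21_3_2) (Ls.cons (Ent.neg F13_20_3_2) (Ls.cons (Ent.neg F13_19_3_2) (Ls.cons (Ent.neg F13_18_3_2) (Ls.cons (Ent.neg F13_17_3_2) (Ls.cons (Ent.neg F13_16_3_2) (Ls.cons (Ent.neg F13_15_3_2) (Ls.cons (Ent.neg F13_14_3_2) (Ls.cons (Ent.neg F13_13_3_2) (Ls.cons (Ent.neg F13_12_3_2) (Ls.cons (Ent.neg F13_11_3_2) (Ls.cons (Ent.neg F13_10_3_2) (Ls.cons (Ent.neg F13_9_3_2) (Ls.cons (Ent.neg F13_8_3_2) (Ls.cons (Ent.neg F13_7_3_2) (Ls.cons (Ent.neg F13_6_3_2) (Ls.cons (Ent.neg F13_5_3_2) (Ls.cons (Ent.neg F13_4_3_2) (Ls.cons Ent.zero (Ls.cons Ent.zero (Ls.cons (Ent.neg F13_3_2_1) (Ls.cons (Ent.pos F13_3_2_0) Ls.nil)))))))))))))))))))))))))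
 (Ls.cons (Ls.cons Ent.zero (Ls.cons Ent.zero (Ls.cons Ent.zero (Ls.cons Ent.zero (Ls.cons Ent.zero (Ls.cons Ent.zero (Ls.cons Ent.zero (Ls.cons Ent.zero (Ls.cons Ent.zero (Ls.cons Ent.zero (Ls.cons Ent.zero (Ls.cons Ent.zero (Ls.cons Ent.zero (Ls.cons Ent.zero (Ls.cons Ent.zero (Ls.cons Ent.zero (Ls.cons Ent.zero (Ls.cons Ent.zero (Ls.cons Ent.zero (Ls.cons Ent.zero (Ls.cons Ent.zero (Ls.cons Ent.zero (Ls.cons Ent.zero (Ls.cons Ent.zero (Ls.cons Ent.zero Ls.nil)))))))))))))))))))))))))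
 (Ls.cons (Ls.cons (Ent.pos F13_24_2_1) (Ls.cons (Ent.pos F13_23_2_1) (Ls.cons (Ent.pos F13_22_2_1) (Ls.cons (Ent.pos F13_21_2_1) (Ls.cons (Ent.pos F13_20_2_1) (Ls.cons (Ent.pos F13_19_2_1) (Ls.cons (Ent.pos F13_18_2_1) (Ls.cons (Ent.pos F13_17_2_1) (Ls.cons (Ent.pos F13_16_2_1) (Ls.cons (Ent.pos F13_15_2_1) (Ls.cons (Ent.pos F13_14_2_1) (Ls.cons (Ent.pos F13_13_2_1) (Ls.cons (Ent.pos F13_12_2_1) (Ls.cons (Ent.pos F13_11_2_1) (Ls.cons (Ent.pos F13_10_2_1) (Ls.cons (Ent.pos F13_9_2_1) (Ls.cons (Ent.pos F13_8_2_1) (Ls.cons (Ent.pos F13_7_2_1) (Ls.cons (Ent.pos F13_6_2_1) (Ls.cons (Ent.pos F13_5_2_1) (Ls.cons (Ent.pos F13_4_2_1) (Ls.cons (Ent.pos F13_3_2_1) (Ls.cons Ent.zero (Ls.cons Ent.zero (Ls.cons (Ent.neg F13_2_1_0) Ls.nil)))))))))))))))))))))))))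
 (Ls.cons (Ls.cons (Ent.neg F13_24_2_0) (Ls.cons (Ent.neg F13_23_2_0) (Ls.cons (Ent.neg F13_22_2_0) (Ls.cons (Ent.neg F13_21_2_0) (Ls.cons (Ent.neg F13_20_2_0) (Ls.cons (Ent.neg F13_19_2_0) (Ls.cons (Ent.neg F13_18_2_0) (Ls.cons (Ent.neg F13_17_2_0) (Ls.cons (Ent.neg F13_16_2_0) (Ls.cons (Ent.neg F13_15_2_0) (Ls.cons (Ent.neg F13_14_2_0) (Ls.cons (Ent.neg F13_13_2_0) (Ls.cons (Ent.neg F13_12_2_0) (Ls.cons (Ent.neg F13_11_2_0) (Ls.cons (Ent.neg F13_10_2_0) (Ls.cons (Ent.neg F13_9_2_0) (Ls.cons (Ent.neg F13_8_2_0) (Ls.cons (Ent.neg F13_7_2_0) (Ls.cons (Ent.neg F13_6_2_0) (Ls.cons (Ent.neg F13_5_2_0) (Ls.cons (Ent.neg F13_4_2_0) (Ls.cons (Ent.neg F13_3_2_0) (Ls.cons Ent.zero (Ls.cons (Ent.pos F13_2_1_0) (Ls.cons Ent.zero Ls.nil)))))))))))))))))))))))))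
 Ls.nil))))))))))))))))))))

noncomputable def bxF13_3 : L2 :=
 (Ls.cons (Ls.cons Ent.zero (Ls.cons Ent.zero (Ls.cons Ent.zero (Ls.cons Ent.zero (Ls.cons Ent.zero (Ls.cons Ent.zero (Ls.cons Ent.zero (Ls.cons Ent.zero (Ls.cons Ent.zero (Ls.cons Ent.zero (Ls.cons (Ent.pos F13_19_14_3) (Ls.cons (Ent.pos F13_19_13_3) (Ls.cons (Ent.pos F13_19_12_3) (Ls.cons (Ent.pos F13_19_11_3) (Ls.cons (Ent.pos F13_19_10_3) (Ls.cons (Ent.pos F13_19_9_3) (Ls.cons (Ent.pos F13_19_8_3) (Ls.cons (Ent.pos F13_19_7_3) (Ls.cons (Ent.pos F13_19_6_3) (Ls.cons (Ent.pos F13_19_5_3) (Ls.cons (Ent.pos F13_19_4_3) (Ls.cons Ent.zero (Ls.cons (Ent.neg F13_19_3_2) (Ls.cons (Ent.neg F13_19_3_1) (Ls.cons (Ent.pos F13_19_3_0) Ls.nil)))))))))))))))))))))))))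
 (Ls.cons (Ls.cons Ent.zero (Ls.cons Ent.zero (Ls.cons Ent.zero (Ls.cons Ent.zero (Ls.cons Ent.zero (Ls.cons Ent.zero (Ls.cons Ent.zero (Ls.cons (Ent.pos F13_18_17_3) (Ls.cons (Ent.pos F13_18_16_3) (Ls.cons (Ent.pos F13_18_15_3) (Ls.cons (Ent.pos F13_18_14_3) (Ls.cons (Ent.pos F13_18_13_3) (Ls.cons (Ent.pos F13_18_12_3) (Ls.cons (Ent.pos F13_18_11_3) (Ls.cons (Ent.pos F13_18_10_3) (Ls.cons (Ent.pos F13_18_9_3) (Ls.cons (Ent.pos F13_18_8_3) (Ls.cons (Ent.pos F13_18_7_3) (Ls.cons (Ent.pos F13_18_6_3) (Ls.cons (Ent.pos F13_18_5_3) (Ls.cons (Ent.pos F13_18_4_3) (Ls.cons Ent.zero (Ls.cons (Ent.neg F13_18_3_2) (Ls.cons (Ent.neg F13_18_3_1) (Ls.cons (Ent.pos F13_18_3_0) Ls.nil)))))))))))))))))))))))))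
 (Ls.cons (Ls.cons Ent.zero (Ls.cons Ent.zero (Ls.cons Ent.zero (Ls.cons Ent.zero (Ls.cons Ent.zero (Ls.cons Ent.zero (Ls.cons (Ent.neg F13_18_17_3) (Ls.cons Ent.zero (Ls.cons (Ent.pos F13_17_16_3) (Ls.cons (Ent.pos F13_17_15_3) (Ls.cons (Ent.pos F13_17_14_3) (Ls.cons (Ent.pos F13_17_13_3) (Ls.cons (Ent.pos F13_17_12_3) (Ls.cons (Ent.pos F13_17_11_3) (Ls.cons (Ent.pos F13_17_10_3) (Ls.cons (Ent.pos F13_17_9_3) (Ls.cons (Ent.pos F13_17_8_3) (Ls.cons (Ent.pos F13_17_7_3) (Ls.cons (Ent.pos F13_17_6_3) (Ls.cons (Ent.pos F13_17_5_3) (Ls.cons (Ent.pos F13_17_4_3) (Ls.cons Ent.zero (Ls.cons (Ent.neg F13_17_3_2) (Ls.cons (Ent.neg F13_17_3_1) (Ls.cons (Ent.pos F13_17_3_0) Ls.nil)))))))))))))))))))))))))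
 (Ls.cons (Ls.cons Ent.zero (Ls.cons Ent.zero (Ls.cons Ent.zero (Ls.cons Ent.zero (Ls.cons Ent.zero (Ls.cons Ent.zero (Ls.cons (Ent.neg F13_18_16_3) (Ls.cons (Ent.neg F13_17_16_3) (Ls.cons Ent.zero (Ls.cons (Ent.pos F13_16_15_3) (Ls.cons (Ent.pos F13_16_14_3) (Ls.cons (Ent.pos F13_16_13_3) (Ls.cons (Ent.pos F13_16_12_3) (Ls.cons (Ent.pos F13_16_11_3) (Ls.cons (Ent.pos F13_16_10_3) (Ls.cons (Ent.pos F13_16_9_3) (Ls.cons (Ent.pos F13_16_8_3) (Ls.cons (Ent.pos F13_16_7_3) (Ls.cons (Ent.pos F13_16_6_3) (Ls.cons (Ent.pos F13_16_5_3) (Ls.cons (Ent.pos F13_16_4_3) (Ls.cons Ent.zero (Ls.cons (Ent.neg F13_16_3_2) (Ls.cons (Ent.neg F13_16_3_1) (Ls.cons (Ent.pos F13_16_3_0) Ls.nil)))))))))))))))))))))))))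
 (Ls.cons (Ls.cons Ent.zero (Ls.cons Ent.zero (Ls.cons Ent.zero (Ls.cons Ent.zero (Ls.cons Ent.zero (Ls.cons Ent.zero (Ls.cons (Ent.neg F13_18_15_3) (Ls.cons (Ent.neg F13_17_15_3) (Ls.cons (Ent.neg F13_16_15_3) (Ls.cons Ent.zero (Ls.cons (Ent.pos F13_15_14_3) (Ls.cons (Ent.pos F13_15_13_3) (Ls.cons (Ent.pos F13_15_12_3) (Ls.cons (Ent.pos F13_15_11_3) (Ls.cons (Ent.pos F13_15_10_3) (Ls.cons (Ent.pos F13_15_9_3) (Ls.cons (Ent.pos F13_15_8_3) (Ls.cons (Ent.pos F13_15_7_3) (Ls.cons (Ent.pos F13_15_6_3) (Ls.cons (Ent.pos F13_15_5_3) (Ls.cons (Ent.pos F13_15_4_3) (Ls.cons Ent.zero (Ls.cons (Ent.neg F13_15_3_2) (Ls.cons (Ent.neg F13_15_3_1) (Ls.cons (Ent.pos F13_15_3_0) Ls.nil)))))))))))))))))))))))))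
 (Ls.cons (Ls.cons Ent.zero (Ls.cons Ent.zero (Ls.cons Ent.zero (Ls.cons Ent.zero (Ls.cons Ent.zero (Ls.cons (Ent.neg F13_19_14_3) (Ls.cons (Ent.neg F13_18_14_3) (Ls.cons (Ent.neg F13_17_14_3) (Ls.cons (Ent.neg F13_16_14_3) (Ls.cons (Ent.neg F13_15_14_3) (Ls.cons Ent.zero (Ls.cons (Ent.pos F13_14_13_3) (Ls.cons (Ent.pos F13_14_12_3) (Ls.cons (Ent.pos F13_14_11_3) (Ls.cons (Ent.pos F13_14_10_3) (Ls.cons (Ent.pos F13_14_9_3) (Ls.cons (Ent.pos F13_14_8_3) (Ls.cons (Ent.pos F13_14_7_3) (Ls.cons (Ent.pos F13_14_6_3) (Ls.cons (Ent.pos F13_14_5_3) (Ls.cons (Ent.pos F13_14_4_3) (Ls.cons Ent.zero (Ls.cons (Ent.neg F13_14_3_2) (Ls.cons (Ent.neg F13_14_3_1) (Ls.cons (Ent.pos F13_14_3_0) Ls.nil)))))))))))))))))))))))))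
 (Ls.cons (Ls.cons Ent.zero (Ls.cons Ent.zero (Ls.cons Ent.zero (Ls.cons Ent.zero (Ls.cons Ent.zero (Ls.cons (Ent.neg F13_19_13_3) (Ls.cons (Ent.neg F13_18_13_3) (Ls.cons (Ent.neg F13_17_13_3) (Ls.cons (Ent.neg F13_16_13_3) (Ls.cons (Ent.neg F13_15_13_3) (Ls.cons (Ent.neg F13_14_13_3) (Ls.cons Ent.zero (Ls.cons (Ent.pos F13_13_12_3) (Ls.cons (Ent.pos F13_13_11_3) (Ls.cons (Ent.pos F13_13_10_3) (Ls.cons (Ent.pos F13_13_9_3) (Ls.cons (Ent.pos F13_13_8_3) (Ls.cons (Ent.pos F13_13_7_3) (Ls.cons (Ent.pos F13_13_6_3) (Ls.cons (Ent.pos F13_13_5_3) (Ls.cons (Ent.pos F13_13_4_3) (Ls.cons Ent.zero (Ls.cons (Ent.neg F13_13_3_2) (Ls.cons (Ent.neg F13_13_3_1) (Ls.cons (Ent.pos F13_13_3_0) Ls.nil)))))))))))))))))))))))))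
 (Ls.cons (Ls.cons Ent.zero (Ls.cons Ent.zero (Ls.cons Ent.zero (Ls.cons Ent.zero (Ls.cons Ent.zero (Ls.cons (Ent.neg F13_19_12_3) (Ls.cons (Ent.neg F13_18_12_3) (Ls.cons (Ent.neg F13_17_12_3) (Ls.cons (Ent.neg F13_16_12_3) (Ls.cons (Ent.neg F13_15_12_3) (Ls.cons (Ent.neg F13_14_12_3) (Ls.cons (Ent.neg F13_13_12_3) (Ls.cons Ent.zero (Ls.cons (Ent.pos F13_12_11_3) (Ls.cons (Ent.pos F13_12_10_3) (Ls.cons (Ent.pos F13_12_9_3) (Ls.cons (Ent.pos F13_12_8_3) (Ls.cons (Ent.pos F13_12_7_3) (Ls.cons (Ent.pos F13_12_6_3) (Ls.cons (Ent.pos F13_12_5_3) (Ls.cons (Ent.pos F13_12_4_3) (Ls.cons Ent.zero (Ls.cons (Ent.neg F13_12_3_2) (Ls.cons (Ent.neg F13_12_3_1) (Ls.cons (Ent.pos F13_12_3_0) Ls.nil)))))))))))))))))))))))))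
 (Ls.cons (Ls.cons Ent.zero (Ls.cons Ent.zero (Ls.cons Ent.zero (Ls.cons Ent.zero (Ls.cons Ent.zero (Ls.cons (Ent.neg F13_19_11_3) (Ls.cons (Ent.neg F13_18_11_3) (Ls.cons (Ent.neg F13_17_11_3) (Ls.cons (Ent.neg F13_16_11_3) (Ls.cons (Ent.neg F13_15_11_3) (Ls.cons (Ent.neg F13_14_11_3) (Ls.cons (Ent.neg F13_13_11_3) (Ls.cons (Ent.neg F13_12_11_3) (Ls.cons Ent.zero (Ls.cons (Ent.pos F13_11_10_3) (Ls.cons (Ent.pos F13_11_9_3) (Ls.cons (Ent.pos F13_11_8_3) (Ls.cons (Ent.pos F13_11_7_3) (Ls.cons (Ent.pos F13_11_6_3) (Ls.cons (Ent.pos F13_11_5_3) (Ls.cons (Ent.pos F13_11_4_3) (Ls.cons Ent.zero (Ls.cons (Ent.neg F13_11_3_2) (Ls.cons (Ent.neg F13_11_3_1) (Ls.cons (Ent.pos F13_11_3_0) Ls.nil)))))))))))))))))))))))))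
 (Ls.cons (Ls.cons Ent.zero (Ls.cons Ent.zero (Ls.cons Ent.zero (Ls.cons Ent.zero (Ls.cons (Ent.neg F13_20_10_3) (Ls.cons (Ent.neg F13_19_10_3) (Ls.cons (Ent.neg F13_18_10_3) (Ls.cons (Ent.neg F13_17_10_3) (Ls.cons (Ent.neg F13_16_10_3) (Ls.cons (Ent.neg F13_15_10_3) (Ls.cons (Ent.neg F13_14_10_3) (Ls.cons (Ent.neg F13_13_10_3) (Ls.cons (Ent.neg F13_12_10_3) (Ls.cons (Ent.neg F13_11_10_3) (Ls.cons Ent.zero (Ls.cons (Ent.pos F13_10_9_3) (Ls.cons (Ent.pos F13_10_8_3) (Ls.cons (Ent.pos F13_10_7_3) (Ls.cons (Ent.pos F13_10_6_3) (Ls.cons (Ent.pos F13_10_5_3) (Ls.cons (Ent.pos F13_10_4_3) (Ls.cons Ent.zero (Ls.cons (Ent.neg F13_10_3_2) (Ls.cons (Ent.neg F13_10_3_1) (Ls.cons (Ent.pos F13_10_3_0) Ls.nil)))))))))))))))))))))))))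
 (Ls.cons (Ls.cons Ent.zero (Ls.cons Ent.zero (Ls.cons Ent.zero (Ls.cons Ent.zero (Ls.cons (Ent.neg F13_20_9_3) (Ls.cons (Ent.neg F13_19_9_3) (Ls.cons (Ent.neg F13_18_9_3) (Ls.cons (Ent.neg F13_17_9_3) (Ls.cons (Ent.neg F13_16_9_3) (Ls.cons (Ent.neg F13_15_9_3) (Ls.cons (Ent.neg F13_14_9_3) (Ls.cons (Ent.neg F13_13_9_3) (Ls.cons (Ent.neg F13_12_9_3) (Ls.cons (Ent.neg F13_11_9_3) (Ls.cons (Ent.neg F13_10_9_3) (Ls.cons Ent.zero (Ls.cons (Ent.pos F13_9_8_3) (Ls.cons (Ent.pos F13_9_7_3) (Ls.cons (Ent.pos F13_9_6_3) (Ls.cons (Ent.pos F13_9_5_3) (Ls.cons (Ent.pos F13_9_4_3) (Ls.cons Ent.zero (Ls.cons (Ent.neg F13_9_3_2) (Ls.cons (Ent.neg F13_9_3_1) (Ls.cons (Ent.pos F13_9_3_0) Ls.nil)))))))))))))))))))))))))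
 (Ls.cons (Ls.cons Ent.zero (Ls.cons Ent.zero (Ls.cons Ent.zero (Ls.cons Ent.zero (Ls.cons (Ent.neg F13_20_8_3) (Ls.cons (Ent.neg F13_19_8_3) (Ls.cons (Ent.neg F13_18_8_3) (Ls.cons (Ent.neg F13_17_8_3) (Ls.cons (Ent.neg F13_16_8_3) (Ls.cons (Ent.neg F13_15_8_3) (Ls.cons (Ent.neg F13_14_8_3) (Ls.cons (Ent.neg F13_13_8_3) (Ls.cons (Ent.neg F13_12_8_3) (Ls.cons (Ent.neg F13_11_8_3) (Ls.cons (Ent.neg F13_10_8_3) (Ls.cons (Ent.neg F13_9_8_3) (Ls.cons Ent.zero (Ls.cons (Ent.pos F13_8_7_3) (Ls.cons (Ent.pos F13_8_6_3) (Ls.cons (Ent.pos F13_8_5_3) (Ls.cons (Ent.pos F13_8_4_3) (Ls.cons Ent.zero (Ls.cons (Ent.neg F13_8_3_2) (Ls.cons (Ent.neg F13_8_3_1) (Ls.cons (Ent.pos F13_8_3_0) Ls.nil)))))))))))))))))))))))))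
 (Ls.cons (Ls.cons Ent.zero (Ls.cons Ent.zero (Ls.cons Ent.zero (Ls.cons Ent.zero (Ls.cons (Ent.neg F13_20_7_3) (Ls.cons (Ent.neg F13_19_7_3) (Ls.cons (Ent.neg F13_18_7_3) (Ls.cons (Ent.neg F13_17_7_3) (Ls.cons (Ent.neg F13_16_7_3) (Ls.cons (Ent.neg F13_15_7_3) (Ls.cons (Ent.neg F13_14_7_3) (Ls.cons (Ent.neg F13_13_7_3) (Ls.cons (Ent.neg F13_12_7_3) (Ls.cons (Ent.neg F13_11_7_3) (Ls.cons (Ent.neg F13_10_7_3) (Ls.cons (Ent.neg F13_9_7_3) (Ls.cons (Ent.neg F13_8_7_3) (Ls.cons Ent.zero (Ls.cons (Ent.pos F13_7_6_3) (Ls.cons (Ent.pos F13_7_5_3) (Ls.cons (Ent.pos F13_7_4_3) (Ls.cons Ent.zero (Ls.cons (Ent.neg F13_7_3_2) (Ls.cons (Ent.neg F13_7_3_1) (Ls.cons (Ent.pos F13_7_3_0) Ls.nil)))))))))))))))))))))))))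
 (Ls.cons (Ls.cons Ent.zero (Ls.cons Ent.zero (Ls.cons Ent.zero (Ls.cons (Ent.neg F13_21_6_3) (Ls.cons (Ent.neg F13_20_6_3) (Ls.cons (Ent.neg F13_19_6_3) (Ls.cons (Ent.neg F13_18_6_3) (Ls.cons (Ent.neg F13_17_6_3) (Ls.cons (Ent.neg F13_16_6_3) (Ls.cons (Ent.neg F13_15_6_3) (Ls.cons (Ent.neg F13_14_6_3) (Ls.cons (Ent.neg F13_13_6_3) (Ls.cons (Ent.neg F13_12_6_3) (Ls.cons (Ent.neg F13_11_6_3) (Ls.cons (Ent.neg F13_10_6_3) (Ls.cons (Ent.neg F13_9_6_3) (Ls.cons (Ent.neg F13_8_6_3) (Ls.cons (Ent.neg F13_7_6_3) (Ls.cons Ent.zero (Ls.cons (Ent.pos F13_6_5_3) (Ls.cons (Ent.pos F13_6_4_3) (Ls.cons Ent.zero (Ls.cons (Ent.neg F13_6_3_2) (Ls.cons (Ent.neg F13_6_3_1) (Ls.cons (Ent.pos F13_6_3_0) Ls.nil)))))))))))))))))))))))))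
 (Ls.cons (Ls.cons Ent.zero (Ls.cons Ent.zero (Ls.cons Ent.zero (Ls.cons (Ent.neg F13_21_5_3) (Ls.cons (Ent.neg F13_20_5_3) (Ls.cons (Ent.neg F13_19_5_3) (Ls.cons (Ent.neg F13_18_5_3) (Ls.cons (Ent.neg F13_17_5_3) (Ls.cons (Ent.neg F13_16_5_3) (Ls.cons (Ent.neg F13_15_5_3) (Ls.cons (Ent.neg F13_14_5_3) (Ls.cons (Ent.neg F13_13_5_3) (Ls.cons (Ent.neg F13_12_5_3) (Ls.cons (Ent.neg F13_11_5_3) (Ls.cons (Ent.neg F13_10_5_3) (Ls.cons (Ent.neg F13_9_5_3) (Ls.cons (Ent.neg F13_8_5_3) (Ls.cons (Ent.neg F13_7_5_3) (Ls.cons (Ent.neg F13_6_5_3) (Ls.cons Ent.zero (Ls.cons (Ent.pos F13_5_4_3) (Ls.cons Ent.zero (Ls.cons (Ent.neg F13_5_3_2) (Ls.cons (Ent.neg F13_5_3_1) (Ls.cons (Ent.pos F13_5_3_0) Ls.nil)))))))))))))))))))))))))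
 (Ls.cons (Ls.cons Ent.zero (Ls.cons Ent.zero (Ls.cons Ent.zero (Ls.cons (Ent.neg F13_21_4_3) (Ls.cons (Ent.neg F13_20_4_3) (Ls.cons (Ent.neg F13_19_4_3) (Ls.cons (Ent.neg F13_18_4_3) (Ls.cons (Ent.neg F13_17_4_3) (Ls.cons (Ent.neg F13_16_4_3) (Ls.cons (Ent.neg F13_15_4_3) (Ls.cons (Ent.neg F13_14_4_3) (Ls.cons (Ent.neg F13_13_4_3) (Ls.cons (Ent.neg F13_12_4_3) (Ls.cons (Ent.neg F13_11_4_3) (Ls.cons (Ent.neg F13_10_4_3) (Ls.cons (Ent.neg F13_9_4_3) (Ls.cons (Ent.neg F13_8_4_3) (Ls.cons (Ent.neg F13_7_4_3) (Ls.cons (Ent.neg F13_6_4_3) (Ls.cons (Ent.neg F13_5_4_3) (Ls.cons Ent.zero (Ls.cons Ent.zero (Ls.cons (Ent.neg F13_4_3_2) (Ls.cons (Ent.neg F13_4_3_1) (Ls.cons (Ent.pos F13_4_3_0) Ls.nil)))))))))))))))))))))))))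
 (Ls.cons (Ls.cons Ent.zero (Ls.cons Ent.zero (Ls.cons Ent.zero (Ls.cons Ent.zero (Ls.cons Ent.zero (Ls.cons Ent.zero (Ls.cons Ent.zero (Ls.cons Ent.zero (Ls.cons Ent.zero (Ls.cons Ent.zero (Ls.cons Ent.zero (Ls.cons Ent.zero (Ls.cons Ent.zero (Ls.cons Ent.zero (Ls.cons Ent.zero (Ls.cons Ent.zero (Ls.cons Ent.zero (Ls.cons Ent.zero (Ls.cons Ent.zero (Ls.cons Ent.zero (Ls.cons Ent.zero (Ls.cons Ent.zero (Ls.cons Ent.zero (Ls.cons Ent.zero (Ls.cons Ent.zero Ls.nil)))))))))))))))))))))))))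
 (Ls.cons (Ls.cons Ent.zero (Ls.cons Ent.zero (Ls.cons (Ent.pos F13_22_3_2) (Ls.cons (Ent.pos F13_21_3_2) (Ls.cons (Ent.pos F13_20_3_2) (Ls.cons (Ent.pos F13_19_3_2) (Ls.cons (Ent.pos F13_18_3_2) (Ls.cons (Ent.pos F13_17_3_2) (Ls.cons (Ent.pos F13_16_3_2) (Ls.cons (Ent.pos F13_15_3_2) (Ls.cons (Ent.pos F13_14_3_2) (Ls.cons (Ent.pos F13_13_3_2) (Ls.cons (Ent.pos F13_12_3_2) (Ls.cons (Ent.pos F13_11_3_2) (Ls.cons (Ent.pos F13_10_3_2) (Ls.cons (Ent.pos F13_9_3_2) (Ls.cons (Ent.pos F13_8_3_2) (Ls.cons (Ent.pos F13_7_3_2) (Ls.cons (Ent.pos F13_6_3_2) (Ls.cons (Ent.pos F13_5_3_2) (Ls.cons (Ent.pos F13_4_3_2) (Ls.cons Ent.zero (Ls.cons Ent.zero (Ls.cons (Ent.pos F13_3_2_1) (Ls.cons (Ent.neg F13_3_2_0) Ls.nil)))))))))))))))))))))))))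
 (Ls.cons (Ls.cons Ent.zero (Ls.cons (Ent.pos F13_23_3_1) (Ls.cons (Ent.pos F13_22_3_1) (Ls.cons (Ent.pos F13_21_3_1) (Ls.cons (Ent.pos F13_20_3_1) (Ls.cons (Ent.pos F13_19_3_1) (Ls.cons (Ent.pos F13_18_3_1) (Ls.cons (Ent.pos F13_17_3_1) (Ls.cons (Ent.pos F13_16_3_1) (Ls.cons (Ent.pos F13_15_3_1) (Ls.cons (Ent.pos F13_14_3_1) (Ls.cons (Ent.pos F13_13_3_1) (Ls.cons (Ent.pos F13_12_3_1) (Ls.cons (Ent.pos F13_11_3_1) (Ls.cons (Ent.pos F13_10_3_1) (Ls.cons (Ent.pos F13_9_3_1) (Ls.cons (Ent.pos F13_8_3_1) (Ls.cons (Ent.pos F13_7_3_1) (Ls.cons (Ent.pos F13_6_3_1) (Ls.cons (Ent.pos F13_5_3_1) (Ls.cons (Ent.pos F13_4_3_1) (Ls.cons Ent.zero (Ls.cons (Ent.neg F13_3_2_1) (Ls.cons Ent.zero (Ls.cons (Ent.pos F13_3_1_0) Ls.nil)))))))))))))))))))))))))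
 (Ls.cons (Ls.cons (Ent.neg F13_24_3_0) (Ls.cons (Ent.neg F13_23_3_0) (Ls.cons (Ent.neg F13_22_3_0) (Ls.cons (Ent.neg F13_21_3_0) (Ls.cons (Ent.neg F13_20_3_0) (Ls.cons (Ent.neg F13_19_3_0) (Ls.cons (Ent.neg F13_18_3_0) (Ls.cons (Ent.neg F13_17_3_0) (Ls.cons (Ent.neg F13_16_3_0) (Ls.cons (Ent.neg F13_15_3_0) (Ls.cons (Ent.neg F13_14_3_0) (Ls.cons (Ent.neg F13_13_3_0) (Ls.cons (Ent.neg F13_12_3_0) (Ls.cons (Ent.neg F13_11_3_0) (Ls.cons (Ent.neg F13_10_3_0) (Ls.cons (Ent.neg F13_9_3_0) (Ls.cons (Ent.neg F13_8_3_0) (Ls.cons (Ent.neg F13_7_3_0) (Ls.cons (Ent.neg F13_6_3_0) (Ls.cons (Ent.neg F13_5_3_0) (Ls.cons (Ent.neg F13_4_3_0) (Ls.cons Ent.zero (Ls.cons (Ent.pos F13_3_2_0) (Ls.cons (Ent.neg F13_3_1_0) (Ls.cons Ent.zero Ls.nil)))))))))))))))))))))))))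
 Ls.nil))))))))))))))))))))

noncomputable def bxF13_4 : L2 :=
 (Ls.cons (Ls.cons Ent.zero (Ls.cons Ent.zero (Ls.cons Ent.zero (Ls.cons Ent.zero (Ls.cons Ent.zero (Ls.cons Ent.zero (Ls.cons Ent.zero (Ls.cons Ent.zero (Ls.cons Ent.zero (Ls.cons Ent.zero (Ls.cons Ent.zero (Ls.cons (Ent.pos F13_19_13_4) (Ls.cons (Ent.pos F13_19_12_4) (Ls.cons (Ent.pos F13_19_11_4) (Ls.cons (Ent.pos F13_19_10_4) (Ls.cons (Ent.pos F13_19_9_4) (Ls.cons (Ent.pos F13_19_8_4) (Ls.cons (Ent.pos F13_19_7_4) (Ls.cons (Ent.pos F13_19_6_4) (Ls.cons (Ent.pos F13_19_5_4) (Ls.cons Ent.zero (Ls.cons (Ent.neg F13_19_4_3) (Ls.cons (Ent.neg F13_19_4_2) (Ls.cons (Ent.neg F13_19_4_1) (Ls.cons (Ent.pos F13_19_4_0) Ls.nil)))))))))))))))))))))))))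
 (Ls.cons (Ls.cons Ent.zero (Ls.cons Ent.zero (Ls.cons Ent.zero (Ls.cons Ent.zero (Ls.cons Ent.zero (Ls.cons Ent.zero (Ls.cons Ent.zero (Ls.cons (Ent.pos F13_18_17_4) (Ls.cons (Ent.pos F13_18_16_4) (Ls.cons (Ent.pos F13_18_15_4) (Ls.cons (Ent.pos F13_18_14_4) (Ls.cons (Ent.pos F13_18_13_4) (Ls.cons (Ent.pos F13_18_12_4) (Ls.cons (Ent.pos F13_18_11_4) (Ls.cons (Ent.pos F13_18_10_4) (Ls.cons (Ent.pos F13_18_9_4) (Ls.cons (Ent.pos F13_18_8_4) (Ls.cons (Ent.pos F13_18_7_4) (Ls.cons (Ent.pos F13_18_6_4) (Ls.cons (Ent.pos F13_18_5_4) (Ls.cons Ent.zero (Ls.cons (Ent.neg F13_18_4_3) (Ls.cons (Ent.neg F13_18_4_2) (Ls.cons (Ent.neg F13_18_4_1) (Ls.cons (Ent.pos F13_18_4_0) Ls.nil)))))))))))))))))))))))))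
 (Ls.cons (Ls.cons Ent.zero (Ls.cons Ent.zero (Ls.cons Ent.zero (Ls.cons Ent.zero (Ls.cons Ent.zero (Ls.cons Ent.zero (Ls.cons (Ent.neg F13_18_17_4) (Ls.cons Ent.zero (Ls.cons (Ent.pos F13_17_16_4) (Ls.cons (Ent.pos F13_17_15_4) (Ls.cons (Ent.pos F13_17_14_4) (Ls.cons (Ent.pos F13_17_13_4) (Ls.cons (Ent.pos F13_17_12_4) (Ls.cons (Ent.pos F13_17_11_4) (Ls.cons (Ent.pos F13_17_10_4) (Ls.cons (Ent.pos F13_17_9_4) (Ls.cons (Ent.pos F13_17_8_4) (Ls.cons (Ent.pos F13_17_7_4) (Ls.cons (Ent.pos F13_17_6_4) (Ls.cons (Ent.pos F13_17_5_4) (Ls.cons Ent.zero (Ls.cons (Ent.neg F13_17_4_3) (Ls.cons (Ent.neg F13_17_4_2) (Ls.cons (Ent.neg F13_17_4_1) (Ls.cons (Ent.pos F13_17_4_0) Ls.nil)))))))))))))))))))))))))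
 (Ls.cons (Ls.cons Ent.zero (Ls.cons Ent.zero (Ls.cons Ent.zero (Ls.cons Ent.zero (Ls.cons Ent.zero (Ls.cons Ent.zero (Ls.cons (Ent.neg F13_18_16_4) (Ls.cons (Ent.neg F13_17_16_4) (Ls.cons Ent.zero (Ls.cons (Ent.pos F13_16_15_4) (Ls.cons (Ent.pos F13_16_14_4) (Ls.cons (Ent.pos F13_16_13_4) (Ls.cons (Ent.pos F13_16_12_4) (Ls.cons (Ent.pos F13_16_11_4) (Ls.cons (Ent.pos F13_16_10_4) (Ls.cons (Ent.pos F13_16_9_4) (Ls.cons (Ent.pos F13_16_8_4) (Ls.cons (Ent.pos F13_16_7_4) (Ls.cons (Ent.pos F13_16_6_4) (Ls.cons (Ent.pos F13_16_5_4) (Ls.cons Ent.zero (Ls.cons (Ent.neg F13_16_4_3) (Ls.cons (Ent.neg F13_16_4_2) (Ls.cons (Ent.neg F13_16_4_1) (Ls.cons (Ent.pos F13_16_4_0) Ls.nil)))))))))))))))))))))))))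
 (Ls.cons (Ls.cons Ent.zero (Ls.cons Ent.zero (Ls.cons Ent.zero (Ls.cons Ent.zero (Ls.cons Ent.zero (Ls.cons Ent.zero (Ls.cons (Ent.neg F13_18_15_4) (Ls.cons (Ent.neg F13_17_15_4) (Ls.cons (Ent.neg F13_16_15_4) (Ls.cons Ent.zero (Ls.cons (Ent.pos F13_15_14_4) (Ls.cons (Ent.pos F13_15_13_4) (Ls.cons (Ent.pos F13_15_12_4) (Ls.cons (Ent.pos F13_15_11_4) (Ls.cons (Ent.pos F13_15_10_4) (Ls.cons (Ent.pos F13_15_9_4) (Ls.cons (Ent.pos F13_15_8_4) (Ls.cons (Ent.pos F13_15_7_4) (Ls.cons (Ent.pos F13_15_6_4) (Ls.cons (Ent.pos F13_15_5_4) (Ls.cons Ent.zero (Ls.cons (Ent.neg F13_15_4_3) (Ls.cons (Ent.neg F13_15_4_2) (Ls.cons (Ent.neg F13_15_4_1) (Ls.cons (Ent.pos F13_15_4_0) Ls.nil)))))))))))))))))))))))))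
 (Ls.cons (Ls.cons Ent.zero (Ls.cons Ent.zero (Ls.cons Ent.zero (Ls.cons Ent.zero (Ls.cons Ent.zero (Ls.cons Ent.zero (Ls.cons (Ent.neg F13_18_14_4) (Ls.cons (Ent.neg F13_17_14_4) (Ls.cons (Ent.neg F13_16_14_4) (Ls.cons (Ent.neg F13_15_14_4) (Ls.cons Ent.zero (Ls.cons (Ent.pos F13_14_13_4) (Ls.cons (Ent.pos F13_14_12_4) (Ls.cons (Ent.pos F13_14_11_4) (Ls.cons (Ent.pos F13_14_10_4) (Ls.cons (Ent.pos F13_14_9_4) (Ls.cons (Ent.pos F13_14_8_4) (Ls.cons (Ent.pos F13_14_7_4) (Ls.cons (Ent.pos F13_14_6_4) (Ls.cons (Ent.pos F13_14_5_4) (Ls.cons Ent.zero (Ls.cons (Ent.neg F13_14_4_3) (Ls.cons (Ent.neg F13_14_4_2) (Ls.cons (Ent.neg F13_14_4_1) (Ls.cons (Ent.pos F13_14_4_0) Ls.nil)))))))))))))))))))))))))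
 (Ls.cons (Ls.cons Ent.zero (Ls.cons Ent.zero (Ls.cons Ent.zero (Ls.cons Ent.zero (Ls.cons Ent.zero (Ls.cons (Ent.neg F13_19_13_4) (Ls.cons (Ent.neg F13_18_13_4) (Ls.cons (Ent.neg F13_17_13_4) (Ls.cons (Ent.neg F13_16_13_4) (Ls.cons (Ent.neg F13_15_13_4) (Ls.cons (Ent.neg F13_14_13_4) (Ls.cons Ent.zero (Ls.cons (Ent.pos F13_13_12_4) (Ls.cons (Ent.pos F13_13_11_4) (Ls.cons (Ent.pos F13_13_10_4) (Ls.cons (Ent.pos F13_13_9_4) (Ls.cons (Ent.pos F13_13_8_4) (Ls.cons (Ent.pos F13_13_7_4) (Ls.cons (Ent.pos F13_13_6_4) (Ls.cons (Ent.pos F13_13_5_4) (Ls.cons Ent.zero (Ls.cons (Ent.neg F13_13_4_3) (Ls.cons (Ent.neg F13_13_4_2) (Ls.cons (Ent.neg F13_13_4_1) (Ls.cons (Ent.pos F13_13_4_0) Ls.nil)))))))))))))))))))))))))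
 (Ls.cons (Ls.cons Ent.zero (Ls.cons Ent.zero (Ls.cons Ent.zero (Ls.cons Ent.zero (Ls.cons Ent.zero (Ls.cons (Ent.neg F13_19_12_4) (Ls.cons (Ent.neg F13_18_12_4) (Ls.cons (Ent.neg F13_17_12_4) (Ls.cons (Ent.neg F13_16_12_4) (Ls.cons (Ent.neg F13_15_12_4) (Ls.cons (Ent.neg F13_14_12_4) (Ls.cons (Ent.neg F13_13_12_4) (Ls.cons Ent.zero (Ls.cons (Ent.pos F13_12_11_4) (Ls.cons (Ent.pos F13_12_10_4) (Ls.cons (Ent.pos F13_12_9_4) (Ls.cons (Ent.pos F13_12_8_4) (Ls.cons (Ent.pos F13_12_7_4) (Ls.cons (Ent.pos F13_12_6_4) (Ls.cons (Ent.pos F13_12_5_4) (Ls.cons Ent.zero (Ls.cons (Ent.neg F13_12_4_3) (Ls.cons (Ent.neg F13_12_4_2) (Ls.cons (Ent.neg F13_12_4_1) (Ls.cons (Ent.pos F13_12_4_0) Ls.nil)))))))))))))))))))))))))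
 (Ls.cons (Ls.cons Ent.zero (Ls.cons Ent.zero (Ls.cons Ent.zero (Ls.cons Ent.zero (Ls.cons Ent.zero (Ls.cons (Ent.neg F13_19_11_4) (Ls.cons (Ent.neg F13_18_11_4) (Ls.cons (Ent.neg F13_17_11_4) (Ls.cons (Ent.neg F13_16_11_4) (Ls.cons (Ent.neg F13_15_11_4) (Ls.cons (Ent.neg F13_14_11_4) (Ls.cons (Ent.neg F13_13_11_4) (Ls.cons (Ent.neg F13_12_11_4) (Ls.cons Ent.zero (Ls.cons (Ent.pos F13_11_10_4) (Ls.cons (Ent.pos F13_11_9_4) (Ls.cons (Ent.pos F13_11_8_4) (Ls.cons (Ent.pos F13_11_7_4) (Ls.cons (Ent.pos F13_11_6_4) (Ls.cons (Ent.pos F13_11_5_4) (Ls.cons Ent.zero (Ls.cons (Ent.neg F13_11_4_3) (Ls.cons (Ent.neg F13_11_4_2) (Ls.cons (Ent.neg F13_11_4_1) (Ls.cons (Ent.pos F13_11_4_0) Ls.nil)))))))))))))))))))))))))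
 (Ls.cons (Ls.cons Ent.zero (Ls.cons Ent.zero (Ls.cons Ent.zero (Ls.cons Ent.zero (Ls.cons Ent.zero (Ls.cons (Ent.neg F13_19_10_4) (Ls.cons (Ent.neg F13_18_10_4) (Ls.cons (Ent.neg F13_17_10_4) (Ls.cons (Ent.neg F13_16_10_4) (Ls.cons (Ent.neg F13_15_10_4) (Ls.cons (Ent.neg F13_14_10_4) (Ls.cons (Ent.neg F13_13_10_4) (Ls.cons (Ent.neg F13_12_10_4) (Ls.cons (Ent.neg F13_11_10_4) (Ls.cons Ent.zero (Ls.cons (Ent.pos F13_10_9_4) (Ls.cons (Ent.pos F13_10_8_4) (Ls.cons (Ent.pos F13_10_7_4) (Ls.cons (Ent.pos F13_10_6_4) (Ls.cons (Ent.pos F13_10_5_4) (Ls.cons Ent.zero (Ls.cons (Ent.neg F13_10_4_3) (Ls.cons (Ent.neg F13_10_4_2) (Ls.cons (Ent.neg F13_10_4_1) (Ls.cons (Ent.pos F13_10_4_0) Ls.nil)))))))))))))))))))))))))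
 (Ls.cons (Ls.cons Ent.zero (Ls.cons Ent.zero (Ls.cons Ent.zero (Ls.cons Ent.zero (Ls.cons (Ent.neg F13_20_9_4) (Ls.cons (Ent.neg F13_19_9_4) (Ls.cons (Ent.neg F13_18_9_4) (Ls.cons (Ent.neg F13_17_9_4) (Ls.cons (Ent.neg F13_16_9_4) (Ls.cons (Ent.neg F13_15_9_4) (Ls.cons (Ent.neg F13_14_9_4) (Ls.cons (Ent.neg F13_13_9_4) (Ls.cons (Ent.neg F13_12_9_4) (Ls.cons (Ent.neg F13_11_9_4) (Ls.cons (Ent.neg F13_10_9_4) (Ls.cons Ent.zero (Ls.cons (Ent.pos F13_9_8_4) (Ls.cons (Ent.pos F13_9_7_4) (Ls.cons (Ent.pos F13_9_6_4) (Ls.cons (Ent.pos F13_9_5_4) (Ls.cons Ent.zero (Ls.cons (Ent.neg F13_9_4_3) (Ls.cons (Ent.neg F13_9_4_2) (Ls.cons (Ent.neg F13_9_4_1) (Ls.cons (Ent.pos F13_9_4_0) Ls.nil)))))))))))))))))))))))))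
 (Ls.cons (Ls.cons Ent.zero (Ls.cons Ent.zero (Ls.cons Ent.zero (Ls.cons Ent.zero (Ls.cons (Ent.neg F13_20_8_4) (Ls.cons (Ent.neg F13_19_8_4) (Ls.cons (Ent.neg F13_18_8_4) (Ls.cons (Ent.neg F13_17_8_4) (Ls.cons (Ent.neg F13_16_8_4) (Ls.cons (Ent.neg F13_15_8_4) (Ls.cons (Ent.neg F13_14_8_4) (Ls.cons (Ent.neg F13_13_8_4) (Ls.cons (Ent.neg F13_12_8_4) (Ls.cons (Ent.neg F13_11_8_4) (Ls.cons (Ent.neg F13_10_8_4) (Ls.cons (Ent.neg F13_9_8_4) (Ls.cons Ent.zero (Ls.cons (Ent.pos F13_8_7_4) (Ls.cons (Ent.pos F13_8_6_4) (Ls.cons (Ent.pos F13_8_5_4) (Ls.cons Ent.zero (Ls.cons (Ent.neg F13_8_4_3) (Ls.cons (Ent.neg F13_8_4_2) (Ls.cons (Ent.neg F13_8_4_1) (Ls.cons (Ent.pos F13_8_4_0) Ls.nil)))))))))))))))))))))))))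
 (Ls.cons (Ls.cons Ent.zero (Ls.cons Ent.zero (Ls.cons Ent.zero (Ls.cons Ent.zero (Ls.cons (Ent.neg F13_20_7_4) (Ls.cons (Ent.neg F13_19_7_4) (Ls.cons (Ent.neg F13_18_7_4) (Ls.cons (Ent.neg F13_17_7_4) (Ls.cons (Ent.neg F13_16_7_4) (Ls.cons (Ent.neg F13_15_7_4) (Ls.cons (Ent.neg F13_14_7_4) (Ls.cons (Ent.neg F13_13_7_4) (Ls.cons (Ent.neg F13_12_7_4) (Ls.cons (Ent.neg F13_11_7_4) (Ls.cons (Ent.neg F13_10_7_4) (Ls.cons (Ent.neg F13_9_7_4) (Ls.cons (Ent.neg F13_8_7_4) (Ls.cons Ent.zero (Ls.cons (Ent.pos F13_7_6_4) (Ls.cons (Ent.pos F13_7_5_4) (Ls.cons Ent.zero (Ls.cons (Ent.neg F13_7_4_3) (Ls.cons (Ent.neg F13_7_4_2) (Ls.cons (Ent.neg F13_7_4_1) (Ls.cons (Ent.pos F13_7_4_0) Ls.nil)))))))))))))))))))))))))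
 (Ls.cons (Ls.cons Ent.zero (Ls.cons Ent.zero (Ls.cons Ent.zero (Ls.cons Ent.zero (Ls.cons (Ent.neg F13_20_6_4) (Ls.cons (Ent.neg F13_19_6_4) (Ls.cons (Ent.neg F13_18_6_4) (Ls.cons (Ent.neg F13_17_6_4) (Ls.cons (Ent.neg F13_16_6_4) (Ls.cons (Ent.neg F13_15_6_4) (Ls.cons (Ent.neg F13_14_6_4) (Ls.cons (Ent.neg F13_13_6_4) (Ls.cons (Ent.neg F13_12_6_4) (Ls.cons (Ent.neg F13_11_6_4) (Ls.cons (Ent.neg F13_10_6_4) (Ls.cons (Ent.neg F13_9_6_4) (Ls.cons (Ent.neg F13_8_6_4) (Ls.cons (Ent.neg F13_7_6_4) (Ls.cons Ent.zero (Ls.cons (Ent.pos F13_6_5_4) (Ls.cons Ent.zero (Ls.cons (Ent.neg F13_6_4_3) (Ls.cons (Ent.neg F13_6_4_2) (Ls.cons (Ent.neg F13_6_4_1) (Ls.cons (Ent.pos F13_6_4_0) Ls.nil)))))))))))))))))))))))))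
 (Ls.cons (Ls.cons Ent.zero (Ls.cons Ent.zero (Ls.cons Ent.zero (Ls.cons (Ent.neg F13_21_5_4) (Ls.cons (Ent.neg F13_20_5_4) (Ls.cons (Ent.neg F13_19_5_4) (Ls.cons (Ent.neg F13_18_5_4) (Ls.cons (Ent.neg F13_17_5_4) (Ls.cons (Ent.neg F13_16_5_4) (Ls.cons (Ent.neg F13_15_5_4) (Ls.cons (Ent.neg F13_14_5_4) (Ls.cons (Ent.neg F13_13_5_4) (Ls.cons (Ent.neg F13_12_5_4) (Ls.cons (Ent.neg F13_11_5_4) (Ls.cons (Ent.neg F13_10_5_4) (Ls.cons (Ent.neg F13_9_5_4) (Ls.cons (Ent.neg F13_8_5_4) (Ls.cons (Ent.neg F13_7_5_4) (Ls.cons (Ent.neg F13_6_5_4) (Ls.cons Ent.zero (Ls.cons Ent.zero (Ls.cons (Ent.neg F13_5_4_3) (Ls.cons (Ent.neg F13_5_4_2) (Ls.cons (Ent.neg F13_5_4_1) (Ls.cons (Ent.pos F13_5_4_0) Ls.nil)))))))))))))))))))))))))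
 (Ls.cons (Ls.cons Ent.zero (Ls.cons Ent.zero (Ls.cons Ent.zero (Ls.cons Ent.zero (Ls.cons Ent.zero (Ls.cons Ent.zero (Ls.cons Ent.zero (Ls.cons Ent.zero (Ls.cons Ent.zero (Ls.cons Ent.zero (Ls.cons Ent.zero (Ls.cons Ent.zero (Ls.cons Ent.zero (Ls.cons Ent.zero (Ls.cons Ent.zero (Ls.cons Ent.zero (Ls.cons Ent.zero (Ls.cons Ent.zero (Ls.cons Ent.zero (Ls.cons Ent.zero (Ls.cons Ent.zero (Ls.cons Ent.zero (Ls.cons Ent.zero (Ls.cons Ent.zero (Ls.cons Ent.zero Ls.nil)))))))))))))))))))))))))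
 (Ls.cons (Ls.cons Ent.zero (Ls.cons Ent.zero (Ls.cons Ent.zero (Ls.cons (Ent.pos F13_21_4_3) (Ls.cons (Ent.pos F13_20_4_3) (Ls.cons (Ent.pos F13_19_4_3) (Ls.cons (Ent.pos F13_18_4_3) (Ls.cons (Ent.pos F13_17_4_3) (Ls.cons (Ent.pos F13_16_4_3) (Ls.cons (Ent.pos F13_15_4_3) (Ls.cons (Ent.pos F13_14_4_3) (Ls.cons (Ent.pos F13_13_4_3) (Ls.cons (Ent.pos F13_12_4_3) (Ls.cons (Ent.pos F13_11_4_3) (Ls.cons (Ent.pos F13_10_4_3) (Ls.cons (Ent.pos F13_9_4_3) (Ls.cons (Ent.pos F13_8_4_3) (Ls.cons (Ent.pos F13_7_4_3) (Ls.cons (Ent.pos F13_6_4_3) (Ls.cons (Ent.pos F13_5_4_3) (Ls.cons Ent.zero (Ls.cons Ent.zero (Ls.cons (Ent.pos F13_4_3_2) (Ls.cons (Ent.pos F13_4_3_1) (Ls.cons (Ent.neg F13_4_3_0) Ls.nil)))))))))))))))))))))))))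
 (Ls.cons (Ls.cons Ent.zero (Ls.cons Ent.zero (Ls.cons Ent.zero (Ls.cons (Ent.pos F13_21_4_2) (Ls.cons (Ent.pos F13_20_4_2) (Ls.cons (Ent.pos F13_19_4_2) (Ls.cons (Ent.pos F13_18_4_2) (Ls.cons (Ent.pos F13_17_4_2) (Ls.cons (Ent.pos F13_16_4_2) (Ls.cons (Ent.pos F13_15_4_2) (Ls.cons (Ent.pos F13_14_4_2) (Ls.cons (Ent.pos F13_13_4_2) (Ls.cons (Ent.pos F13_12_4_2) (Ls.cons (Ent.pos F13_11_4_2) (Ls.cons (Ent.pos F13_10_4_2) (Ls.cons (Ent.pos F13_9_4_2) (Ls.cons (Ent.pos F13_8_4_2) (Ls.cons (Ent.pos F13_7_4_2) (Ls.cons (Ent.pos F13_6_4_2) (Ls.cons (Ent.pos F13_5_4_2) (Ls.cons Ent.zero (Ls.cons (Ent.neg F13_4_3_2) (Ls.cons Ent.zero (Ls.cons (Ent.pos F13_4_2_1) (Ls.cons (Ent.neg F13_4_2_0) Ls.nil)))))))))))))))))))))))))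
 (Ls.cons (Ls.cons Ent.zero (Ls.cons (Ent.pos F13_23_4_1) (Ls.cons (Ent.pos F13_22_4_1) (Ls.cons (Ent.pos F13_21_4_1) (Ls.cons (Ent.pos F13_20_4_1) (Ls.cons (Ent.pos F13_19_4_1) (Ls.cons (Ent.pos F13_18_4_1) (Ls.cons (Ent.pos F13_17_4_1) (Ls.cons (Ent.pos F13_16_4_1) (Ls.cons (Ent.pos F13_15_4_1) (Ls.cons (Ent.pos F13_14_4_1) (Ls.cons (Ent.pos F13_13_4_1) (Ls.cons (Ent.pos F13_12_4_1) (Ls.cons (Ent.pos F13_11_4_1) (Ls.cons (Ent.pos F13_10_4_1) (Ls.cons (Ent.pos F13_9_4_1) (Ls.cons (Ent.pos F13_8_4_1) (Ls.cons (Ent.pos F13_7_4_1) (Ls.cons (Ent.pos F13_6_4_1) (Ls.cons (Ent.pos F13_5_4_1) (Ls.cons Ent.zero (Ls.cons (Ent.neg F13_4_3_1) (Ls.cons (Ent.neg F13_4_2_1) (Ls.cons Ent.zero (Ls.cons (Ent.pos F13_4_1_0) Ls.nil)))))))))))))))))))))))))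
 (Ls.cons (Ls.cons Ent.zero (Ls.cons (Ent.neg F13_23_4_0) (Ls.cons (Ent.neg F13_22_4_0) (Ls.cons (Ent.neg F13_21_4_0) (Ls.cons (Ent.neg F13_20_4_0) (Ls.cons (Ent.neg F13_19_4_0) (Ls.cons (Ent.neg F13_18_4_0) (Ls.cons (Ent.neg F13_17_4_0) (Ls.cons (Ent.neg F13_16_4_0) (Ls.cons (Ent.neg F13_15_4_0) (Ls.cons (Ent.neg F13_14_4_0) (Ls.cons (Ent.neg F13_13_4_0) (Ls.cons (Ent.neg F13_12_4_0) (Ls.cons (Ent.neg F13_11_4_0) (Ls.cons (Ent.neg F13_10_4_0) (Ls.cons (Ent.neg F13_9_4_0) (Ls.cons (Ent.neg F13_8_4_0) (Ls.cons (Ent.neg F13_7_4_0) (Ls.cons (Ent.neg F13_6_4_0) (Ls.cons (Ent.neg F13_5_4_0) (Ls.cons Ent.zero (Ls.cons (Ent.pos F13_4_3_0) (Ls.cons (Ent.pos F13_4_2_0) (Ls.cons (Ent.neg F13_4_1_0) (Ls.cons Ent.zero Ls.nil)))))))))))))))))))))))))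
 Ls.nil))))))))))))))))))))

noncomputable def bxF13_5 : L2 :=
 (Ls.cons (Ls.cons Ent.zero (Ls.cons Ent.zero (Ls.cons Ent.zero (Ls.cons Ent.zero (Ls.cons Ent.zero (Ls.cons Ent.zero (Ls.cons Ent.zero (Ls.cons Ent.zero (Ls.cons Ent.zero (Ls.cons Ent.zero (Ls.cons Ent.zero (Ls.cons Ent.zero (Ls.cons (Ent.pos F13_19_12_5) (Ls.cons (Ent.pos F13_19_11_5) (Ls.cons (Ent.pos F13_19_10_5) (Ls.cons (Ent.pos F13_19_9_5) (Ls.cons (Ent.pos F13_19_8_5) (Ls.cons (Ent.pos F13_19_7_5) (Ls.cons (Ent.pos F13_19_6_5) (Ls.cons Ent.zero (Ls.cons (Ent.neg F13_19_5_4) (Ls.cons (Ent.neg F13_19_5_3) (Ls.cons (Ent.neg F13_19_5_2) (Ls.cons (Ent.neg F13_19_5_1) (Ls.cons (Ent.pos F13_19_5_0) Ls.nil)))))))))))))))))))))))))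
 (Ls.cons (Ls.cons Ent.zero (Ls.cons Ent.zero (Ls.cons Ent.zero (Ls.cons Ent.zero (Ls.cons Ent.zero (Ls.cons Ent.zero (Ls.cons Ent.zero (Ls.cons Ent.zero (Ls.cons (Ent.pos F13_18_16_5) (Ls.cons (Ent.pos F13_18_15_5) (Ls.cons (Ent.pos F13_18_14_5) (Ls.cons (Ent.pos F13_18_13_5) (Ls.cons (Ent.pos F13_18_12_5) (Ls.cons (Ent.pos F13_18_11_5) (Ls.cons (Ent.pos F13_18_10_5) (Ls.cons (Ent.pos F13_18_9_5) (Ls.cons (Ent.pos F13_18_8_5) (Ls.cons (Ent.pos F13_18_7_5) (Ls.cons (Ent.pos F13_18_6_5) (Ls.cons Ent.zero (Ls.cons (Ent.neg F13_18_5_4) (Ls.cons (Ent.neg F13_18_5_3) (Ls.cons (Ent.neg F13_18_5_2) (Ls.cons (Ent.neg F13_18_5_1) (Ls.cons (Ent.pos F13_18_5_0) Ls.nil)))))))))))))))))))))))))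
 (Ls.cons (Ls.cons Ent.zero (Ls.cons Ent.zero (Ls.cons Ent.zero (Ls.cons Ent.zero (Ls.cons Ent.zero (Ls.cons Ent.zero (Ls.cons Ent.zero (Ls.cons Ent.zero (Ls.cons (Ent.pos F13_17_16_5) (Ls.cons (Ent.pos F13_17_15_5) (Ls.cons (Ent.pos F13_17_14_5) (Ls.cons (Ent.pos F13_17_13_5) (Ls.cons (Ent.pos F13_17_12_5) (Ls.cons (Ent.pos F13_17_11_5) (Ls.cons (Ent.pos F13_17_10_5) (Ls.cons (Ent.pos F13_17_9_5) (Ls.cons (Ent.pos F13_17_8_5) (Ls.cons (Ent.pos F13_17_7_5) (Ls.cons (Ent.pos F13_17_6_5) (Ls.cons Ent.zero (Ls.cons (Ent.neg F13_17_5_4) (Ls.cons (Ent.neg F13_17_5_3) (Ls.cons (Ent.neg F13_17_5_2) (Ls.cons (Ent.neg F13_17_5_1) (Ls.cons (Ent.pos F13_17_5_0) Ls.nil)))))))))))))))))))))))))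
 (Ls.cons (Ls.cons Ent.zero (Ls.cons Ent.zero (Ls.cons Ent.zero (Ls.cons Ent.zero (Ls.cons Ent.zero (Ls.cons Ent.zero (Ls.cons (Ent.neg F13_18_16_5) (Ls.cons (Ent.neg F13_17_16_5) (Ls.cons Ent.zero (Ls.cons (Ent.pos F13_16_15_5) (Ls.cons (Ent.pos F13_16_14_5) (Ls.cons (Ent.pos F13_16_13_5) (Ls.cons (Ent.pos F13_16_12_5) (Ls.cons (Ent.pos F13_16_11_5) (Ls.cons (Ent.pos F13_16_10_5) (Ls.cons (Ent.pos F13_16_9_5) (Ls.cons (Ent.pos F13_16_8_5) (Ls.cons (Ent.pos F13_16_7_5) (Ls.cons (Ent.pos F13_16_6_5) (Ls.cons Ent.zero (Ls.cons (Ent.neg F13_16_5_4) (Ls.cons (Ent.neg F13_16_5_3) (Ls.cons (Ent.neg F13_16_5_2) (Ls.cons (Ent.neg F13_16_5_1) (Ls.cons (Ent.pos F13_16_5_0) Ls.nil)))))))))))))))))))))))))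
 (Ls.cons (Ls.cons Ent.zero (Ls.cons Ent.zero (Ls.cons Ent.zero (Ls.cons Ent.zero (Ls.cons Ent.zero (Ls.cons Ent.zero (Ls.cons (Ent.neg F13_18_15_5) (Ls.cons (Ent.neg F13_17_15_5) (Ls.cons (Ent.neg F13_16_15_5) (Ls.cons Ent.zero (Ls.cons (Ent.pos F13_15_14_5) (Ls.cons (Ent.pos F13_15_13_5) (Ls.cons (Ent.pos F13_15_12_5) (Ls.cons (Ent.pos F13_15_11_5) (Ls.cons (Ent.pos F13_15_10_5) (Ls.cons (Ent.pos F13_15_9_5) (Ls.cons (Ent.pos F13_15_8_5) (Ls.cons (Ent.pos F13_15_7_5) (Ls.cons (Ent.pos F13_15_6_5) (Ls.cons Ent.zero (Ls.cons (Ent.neg F13_15_5_4) (Ls.cons (Ent.neg F13_15_5_3) (Ls.cons (Ent.neg F13_15_5_2) (Ls.cons (Ent.neg F13_15_5_1) (Ls.cons (Ent.pos F13_15_5_0) Ls.nil)))))))))))))))))))))))))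
 (Ls.cons (Ls.cons Ent.zero (Ls.cons Ent.zero (Ls.cons Ent.zero (Ls.cons Ent.zero (Ls.cons Ent.zero (Ls.cons Ent.zero (Ls.cons (Ent.neg F13_18_14_5) (Ls.cons (Ent.neg F13_17_14_5) (Ls.cons (Ent.neg F13_16_14_5) (Ls.cons (Ent.neg F13_15_14_5) (Ls.cons Ent.zero (Ls.cons (Ent.pos F13_14_13_5) (Ls.cons (Ent.pos F13_14_12_5) (Ls.cons (Ent.pos F13_14_11_5) (Ls.cons (Ent.pos F13_14_10_5) (Ls.cons (Ent.pos F13_14_9_5) (Ls.cons (Ent.pos F13_14_8_5) (Ls.cons (Ent.pos F13_14_7_5) (Ls.cons (Ent.pos F13_14_6_5) (Ls.cons Ent.zero (Ls.cons (Ent.neg F13_14_5_4) (Ls.cons (Ent.neg F13_14_5_3) (Ls.cons (Ent.neg F13_14_5_2) (Ls.cons (Ent.neg F13_14_5_1) (Ls.cons (Ent.pos F13_14_5_0) Ls.nil)))))))))))))))))))))))))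
 (Ls.cons (Ls.cons Ent.zero (Ls.cons Ent.zero (Ls.cons Ent.zero (Ls.cons Ent.zero (Ls.cons Ent.zero (Ls.cons Ent.zero (Ls.cons (Ent.neg F13_18_13_5) (Ls.cons (Ent.neg F13_17_13_5) (Ls.cons (Ent.neg F13_16_13_5) (Ls.cons (Ent.neg F13_15_13_5) (Ls.cons (Ent.neg F13_14_13_5) (Ls.cons Ent.zero (Ls.cons (Ent.pos F13_13_12_5) (Ls.cons (Ent.pos F13_13_11_5) (Ls.cons (Ent.pos F13_13_10_5) (Ls.cons (Ent.pos F13_13_9_5) (Ls.cons (Ent.pos F13_13_8_5) (Ls.cons (Ent.pos F13_13_7_5) (Ls.cons (Ent.pos F13_13_6_5) (Ls.cons Ent.zero (Ls.cons (Ent.neg F13_13_5_4) (Ls.cons (Ent.neg F13_13_5_3) (Ls.cons (Ent.neg F13_13_5_2) (Ls.cons (Ent.neg F13_13_5_1) (Ls.cons (Ent.pos F13_13_5_0) Ls.nil)))))))))))))))))))))))))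
 (Ls.cons (Ls.cons Ent.zero (Ls.cons Ent.zero (Ls.cons Ent.zero (Ls.cons Ent.zero (Ls.cons Ent.zero (Ls.cons (Ent.neg F13_19_12_5) (Ls.cons (Ent.neg F13_18_12_5) (Ls.cons (Ent.neg F13_17_12_5) (Ls.cons (Ent.neg F13_16_12_5) (Ls.cons (Ent.neg F13_15_12_5) (Ls.cons (Ent.neg F13_14_12_5) (Ls.cons (Ent.neg F13_13_12_5) (Ls.cons Ent.zero (Ls.cons (Ent.pos F13_12_11_5) (Ls.cons (Ent.pos F13_12_10_5) (Ls.cons (Ent.pos F13_12_9_5) (Ls.cons (Ent.pos F13_12_8_5) (Ls.cons (Ent.pos F13_12_7_5) (Ls.cons (Ent.pos F13_12_6_5) (Ls.cons Ent.zero (Ls.cons (Ent.neg F13_12_5_4) (Ls.cons (Ent.neg F13_12_5_3) (Ls.cons (Ent.neg F13_12_5_2) (Ls.cons (Ent.neg F13_12_5_1) (Ls.cons (Ent.pos F13_12_5_0) Ls.nil)))))))))))))))))))))))))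
 (Ls.cons (Ls.cons Ent.zero (Ls.cons Ent.zero (Ls.cons Ent.zero (Ls.cons Ent.zero (Ls.cons Ent.zero (Ls.cons (Ent.neg F13_19_11_5) (Ls.cons (Ent.neg F13_18_11_5) (Ls.cons (Ent.neg F13_17_11_5) (Ls.cons (Ent.neg F13_16_11_5) (Ls.cons (Ent.neg F13_15_11_5) (Ls.cons (Ent.neg F13_14_11_5) (Ls.cons (Ent.neg F13_13_11_5) (Ls.cons (Ent.neg F13_12_11_5) (Ls.cons Ent.zero (Ls.cons (Ent.pos F13_11_10_5) (Ls.cons (Ent.pos F13_11_9_5) (Ls.cons (Ent.pos F13_11_8_5) (Ls.cons (Ent.pos F13_11_7_5) (Ls.cons (Ent.pos F13_11_6_5) (Ls.cons Ent.zero (Ls.cons (Ent.neg F13_11_5_4) (Ls.cons (Ent.neg F13_11_5_3) (Ls.cons (Ent.neg F13_11_5_2) (Ls.cons (Ent.neg F13_11_5_1) (Ls.cons (Ent.pos F13_11_5_0) Ls.nil)))))))))))))))))))))))))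
 (Ls.cons (Ls.cons Ent.zero (Ls.cons Ent.zero (Ls.cons Ent.zero (Ls.cons Ent.zero (Ls.cons Ent.zero (Ls.cons (Ent.neg F13_19_10_5) (Ls.cons (Ent.neg F13_18_10_5) (Ls.cons (Ent.neg F13_17_10_5) (Ls.cons (Ent.neg F13_16_10_5) (Ls.cons (Ent.neg F13_15_10_5) (Ls.cons (Ent.neg F13_14_10_5) (Ls.cons (Ent.neg F13_13_10_5) (Ls.cons (Ent.neg F13_12_10_5) (Ls.cons (Ent.neg F13_11_10_5) (Ls.cons Ent.zero (Ls.cons (Ent.pos F13_10_9_5) (Ls.cons (Ent.pos F13_10_8_5) (Ls.cons (Ent.pos F13_10_7_5) (Ls.cons (Ent.pos F13_10_6_5) (Ls.cons Ent.zero (Ls.cons (Ent.neg F13_10_5_4) (Ls.cons (Ent.neg F13_10_5_3) (Ls.cons (Ent.neg F13_10_5_2) (Ls.cons (Ent.neg F13_10_5_1) (Ls.cons (Ent.pos F13_10_5_0) Ls.nil)))))))))))))))))))))))))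
 (Ls.cons (Ls.cons Ent.zero (Ls.cons Ent.zero (Ls.cons Ent.zero (Ls.cons Ent.zero (Ls.cons Ent.zero (Ls.cons (Ent.neg F13_19_9_5) (Ls.cons (Ent.neg F13_18_9_5) (Ls.cons (Ent.neg F13_17_9_5) (Ls.cons (Ent.neg F13_16_9_5) (Ls.cons (Ent.neg F13_15_9_5) (Ls.cons (Ent.neg F13_14_9_5) (Ls.cons (Ent.neg F13_13_9_5) (Ls.cons (Ent.neg F13_12_9_5) (Ls.cons (Ent.neg F13_11_9_5) (Ls.cons (Ent.neg F13_10_9_5) (Ls.cons Ent.zero (Ls.cons (Ent.pos F13_9_8_5) (Ls.cons (Ent.pos F13_9_7_5) (Ls.cons (Ent.pos F13_9_6_5) (Ls.cons Ent.zero (Ls.cons (Ent.neg F13_9_5_4) (Ls.cons (Ent.neg F13_9_5_3) (Ls.cons (Ent.neg F13_9_5_2) (Ls.cons (Ent.neg F13_9_5_1) (Ls.cons (Ent.pos F13_9_5_0) Ls.nil)))))))))))))))))))))))))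
 (Ls.cons (Ls.cons Ent.zero (Ls.cons Ent.zero (Ls.cons Ent.zero (Ls.cons Ent.zero (Ls.cons (Ent.neg F13_20_8_5) (Ls.cons (Ent.neg F13_19_8_5) (Ls.cons (Ent.neg F13_18_8_5) (Ls.cons (Ent.neg F13_17_8_5) (Ls.cons (Ent.neg F13_16_8_5) (Ls.cons (Ent.neg F13_15_8_5) (Ls.cons (Ent.neg F13_14_8_5) (Ls.cons (Ent.neg F13_13_8_5) (Ls.cons (Ent.neg F13_12_8_5) (Ls.cons (Ent.neg F13_11_8_5) (Ls.cons (Ent.neg F13_10_8_5) (Ls.cons (Ent.neg F13_9_8_5) (Ls.cons Ent.zero (Ls.cons (Ent.pos F13_8_7_5) (Ls.cons (Ent.pos F13_8_6_5) (Ls.cons Ent.zero (Ls.cons (Ent.neg F13_8_5_4) (Ls.cons (Ent.neg F13_8_5_3) (Ls.cons (Ent.neg F13_8_5_2) (Ls.cons (Ent.neg F13_8_5_1) (Ls.cons (Ent.pos F13_8_5_0) Ls.nil)))))))))))))))))))))))))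
 (Ls.cons (Ls.cons Ent.zero (Ls.cons Ent.zero (Ls.cons Ent.zero (Ls.cons Ent.zero (Ls.cons (Ent.neg F13_20_7_5) (Ls.cons (Ent.neg F13_19_7_5) (Ls.cons (Ent.neg F13_18_7_5) (Ls.cons (Ent.neg F13_17_7_5) (Ls.cons (Ent.neg F13_16_7_5) (Ls.cons (Ent.neg F13_15_7_5) (Ls.cons (Ent.neg F13_14_7_5) (Ls.cons (Ent.neg F13_13_7_5) (Ls.cons (Ent.neg F13_12_7_5) (Ls.cons (Ent.neg F13_11_7_5) (Ls.cons (Ent.neg F13_10_7_5) (Ls.cons (Ent.neg F13_9_7_5) (Ls.cons (Ent.neg F13_8_7_5) (Ls.cons Ent.zero (Ls.cons (Ent.pos F13_7_6_5) (Ls.cons Ent.zero (Ls.cons (Ent.neg F13_7_5_4) (Ls.cons (Ent.neg F13_7_5_3) (Ls.cons (Ent.neg F13_7_5_2) (Ls.cons (Ent.neg F13_7_5_1) (Ls.cons (Ent.pos F13_7_5_0) Ls.nil)))))))))))))))))))))))))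
 (Ls.cons (Ls.cons Ent.zero (Ls.cons Ent.zero (Ls.cons Ent.zero (Ls.cons Ent.zero (Ls.cons (Ent.neg F13_20_6_5) (Ls.cons (Ent.neg F13_19_6_5) (Ls.cons (Ent.neg F13_18_6_5) (Ls.cons (Ent.neg F13_17_6_5) (Ls.cons (Ent.neg F13_16_6_5) (Ls.cons (Ent.neg F13_15_6_5) (Ls.cons (Ent.neg F13_14_6_5) (Ls.cons (Ent.neg F13_13_6_5) (Ls.cons (Ent.neg F13_12_6_5) (Ls.cons (Ent.neg F13_11_6_5) (Ls.cons (Ent.neg F13_10_6_5) (Ls.cons (Ent.neg F13_9_6_5) (Ls.cons (Ent.neg F13_8_6_5) (Ls.cons (Ent.neg F13_7_6_5) (Ls.cons Ent.zero (Ls.cons Ent.zero (Ls.cons (Ent.neg F13_6_5_4) (Ls.cons (Ent.neg F13_6_5_3) (Ls.cons (Ent.neg F13_6_5_2) (Ls.cons (Ent.neg F13_6_5_1) (Ls.cons (Ent.pos F13_6_5_0) Ls.nil)))))))))))))))))))))))))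
 (Ls.cons (Ls.cons Ent.zero (Ls.cons Ent.zero (Ls.cons Ent.zero (Ls.cons Ent.zero (Ls.cons Ent.zero (Ls.cons Ent.zero (Ls.cons Ent.zero (Ls.cons Ent.zero (Ls.cons Ent.zero (Ls.cons Ent.zero (Ls.cons Ent.zero (Ls.cons Ent.zero (Ls.cons Ent.zero (Ls.cons Ent.zero (Ls.cons Ent.zero (Ls.cons Ent.zero (Ls.cons Ent.zero (Ls.cons Ent.zero (Ls.cons Ent.zero (Ls.cons Ent.zero (Ls.cons Ent.zero (Ls.cons Ent.zero (Ls.cons Ent.zero (Ls.cons Ent.zero (Ls.cons Ent.zero Ls.nil)))))))))))))))))))))))))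
 (Ls.cons (Ls.cons Ent.zero (Ls.cons Ent.zero (Ls.cons Ent.zero (Ls.cons (Ent.pos F13_21_5_4) (Ls.cons (Ent.pos F13_20_5_4) (Ls.cons (Ent.pos F13_19_5_4) (Ls.cons (Ent.pos F13_18_5_4) (Ls.cons (Ent.pos F13_17_5_4) (Ls.cons (Ent.pos F13_16_5_4) (Ls.cons (Ent.pos F13_15_5_4) (Ls.cons (Ent.pos F13_14_5_4) (Ls.cons (Ent.pos F13_13_5_4) (Ls.cons (Ent.pos F13_12_5_4) (Ls.cons (Ent.pos F13_11_5_4) (Ls.cons (Ent.pos F13_10_5_4) (Ls.cons (Ent.pos F13_9_5_4) (Ls.cons (Ent.pos F13_8_5_4) (Ls.cons (Ent.pos F13_7_5_4) (Ls.cons (Ent.pos F13_6_5_4) (Ls.cons Ent.zero (Ls.cons Ent.zero (Ls.cons (Ent.pos F13_5_4_3) (Ls.cons (Ent.pos F13_5_4_2) (Ls.cons (Ent.pos F13_5_4_1) (Ls.cons (Ent.neg F13_5_4_0) Ls.nil)))))))))))))))))))))))))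
 (Ls.cons (Ls.cons Ent.zero (Ls.cons Ent.zero (Ls.cons Ent.zero (Ls.cons (Ent.pos F13_21_5_3) (Ls.cons (Ent.pos F13_20_5_3) (Ls.cons (Ent.pos F13_19_5_3) (Ls.cons (Ent.pos F13_18_5_3) (Ls.cons (Ent.pos F13_17_5_3) (Ls.cons (Ent.pos F13_16_5_3) (Ls.cons (Ent.pos F13_15_5_3) (Ls.cons (Ent.pos F13_14_5_3) (Ls.cons (Ent.pos F13_13_5_3) (Ls.cons (Ent.pos F13_12_5_3) (Ls.cons (Ent.pos F13_11_5_3) (Ls.cons (Ent.pos F13_10_5_3) (Ls.cons (Ent.pos F13_9_5_3) (Ls.cons (Ent.pos F13_8_5_3) (Ls.cons (Ent.pos F13_7_5_3) (Ls.cons (Ent.pos F13_6_5_3) (Ls.cons Ent.zero (Ls.cons (Ent.neg F13_5_4_3) (Ls.cons Ent.zero (Ls.cons (Ent.pos F13_5_3_2) (Ls.cons (Ent.pos F13_5_3_1) (Ls.cons (Ent.neg F13_5_3_0) Ls.nil)))))))))))))))))))))))))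
 (Ls.cons (Ls.cons Ent.zero (Ls.cons Ent.zero (Ls.cons Ent.zero (Ls.cons (Ent.pos F13_21_5_2) (Ls.cons (Ent.pos F13_20_5_2) (Ls.cons (Ent.pos F13_19_5_2) (Ls.cons (Ent.pos F13_18_5_2) (Ls.cons (Ent.pos F13_17_5_2) (Ls.cons (Ent.pos F13_16_5_2) (Ls.cons (Ent.pos F13_15_5_2) (Ls.cons (Ent.pos F13_14_5_2) (Ls.cons (Ent.pos F13_13_5_2) (Ls.cons (Ent.pos F13_12_5_2) (Ls.cons (Ent.pos F13_11_5_2) (Ls.cons (Ent.pos F13_10_5_2) (Ls.cons (Ent.pos F13_9_5_2) (Ls.cons (Ent.pos F13_8_5_2) (Ls.cons (Ent.pos F13_7_5_2) (Ls.cons (Ent.pos F13_6_5_2) (Ls.cons Ent.zero (Ls.cons (Ent.neg F13_5_4_2) (Ls.cons (Ent.neg F13_5_3_2) (Ls.cons Ent.zero (Ls.cons (Ent.pos F13_5_2_1) (Ls.cons (Ent.neg F13_5_2_0) Ls.nil)))))))))))))))))))))))))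
 (Ls.cons (Ls.cons Ent.zero (Ls.cons Ent.zero (Ls.cons Ent.zero (Ls.cons (Ent.pos F13_21_5_1) (Ls.cons (Ent.pos F13_20_5_1) (Ls.cons (Ent.pos F13_19_5_1) (Ls.cons (Ent.pos F13_18_5_1) (Ls.cons (Ent.pos F13_17_5_1) (Ls.cons (Ent.pos F13_16_5_1) (Ls.cons (Ent.pos F13_15_5_1) (Ls.cons (Ent.pos F13_14_5_1) (Ls.cons (Ent.pos F13_13_5_1) (Ls.cons (Ent.pos F13_12_5_1) (Ls.cons (Ent.pos F13_11_5_1) (Ls.cons (Ent.pos F13_10_5_1) (Ls.cons (Ent.pos F13_9_5_1) (Ls.cons (Ent.pos F13_8_5_1) (Ls.cons (Ent.pos F13_7_5_1) (Ls.cons (Ent.pos F13_6_5_1) (Ls.cons Ent.zero (Ls.cons (Ent.neg F13_5_4_1) (Ls.cons (Ent.neg F13_5_3_1) (Ls.cons (Ent.neg F13_5_2_1) (Ls.cons Ent.zero (Ls.cons (Ent.pos F13_5_1_0) Ls.nil)))))))))))))))))))))))))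
 (Ls.cons (Ls.cons Ent.zero (Ls.cons (Ent.neg F13_23_5_0) (Ls.cons (Ent.neg F13_22_5_0) (Ls.cons (Ent.neg F13_21_5_0) (Ls.cons (Ent.neg F13_20_5_0) (Ls.cons (Ent.neg F13_19_5_0) (Ls.cons (Ent.neg F13_18_5_0) (Ls.cons (Ent.neg F13_17_5_0) (Ls.cons (Ent.neg F13_16_5_0) (Ls.cons (Ent.neg F13_15_5_0) (Ls.cons (Ent.neg F13_14_5_0) (Ls.cons (Ent.neg F13_13_5_0) (Ls.cons (Ent.neg F13_12_5_0) (Ls.cons (Ent.neg F13_11_5_0) (Ls.cons (Ent.neg F13_10_5_0) (Ls.cons (Ent.neg F13_9_5_0) (Ls.cons (Ent.neg F13_8_5_0) (Ls.cons (Ent.neg F13_7_5_0) (Ls.cons (Ent.neg F13_6_5_0) (Ls.cons Ent.zero (Ls.cons (Ent.pos F13_5_4_0) (Ls.cons (Ent.pos F13_5_3_0) (Ls.cons (Ent.pos F13_5_2_0) (Ls.cons (Ent.neg F13_5_1_0) (Ls.cons Ent.zero Ls.nil)))))))))))))))))))))))))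
 Ls.nil))))))))))))))))))))

noncomputable def bxF13_6 : L2 :=
 (Ls.cons (Ls.cons Ent.zero (Ls.cons Ent.zero (Ls.cons Ent.zero (Ls.cons Ent.zero (Ls.cons Ent.zero (Ls.cons Ent.zero (Ls.cons Ent.zero (Ls.cons Ent.zero (Ls.cons Ent.zero (Ls.cons Ent.zero (Ls.cons Ent.zero (Ls.cons Ent.zero (Ls.cons Ent.zero (Ls.cons (Ent.pos F13_19_11_6) (Ls.cons (Ent.pos F13_19_10_6) (Ls.cons (Ent.pos F13_19_9_6) (Ls.cons (Ent.pos F13_19_8_6) (Ls.cons (Ent.pos F13_19_7_6) (Ls.cons Ent.zero (Ls.cons (Ent.neg F13_19_6_5) (Ls.cons (Ent.neg F13_19_6_4) (Ls.cons (Ent.neg F13_19_6_3) (Ls.cons (Ent.neg F13_19_6_2) (Ls.cons (Ent.neg F13_19_6_1) (Ls.cons (Ent.pos F13_19_6_0) Ls.nil)))))))))))))))))))))))))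
 (Ls.cons (Ls.cons Ent.zero (Ls.cons Ent.zero (Ls.cons Ent.zero (Ls.cons Ent.zero (Ls.cons Ent.zero (Ls.cons Ent.zero (Ls.cons Ent.zero (Ls.cons Ent.zero (Ls.cons Ent.zero (Ls.cons (Ent.pos F13_18_15_6) (Ls.cons (Ent.pos F13_18_14_6) (Ls.cons (Ent.pos F13_18_13_6) (Ls.cons (Ent.pos F13_18_12_6) (Ls.cons (Ent.pos F13_18_11_6) (Ls.cons (Ent.pos F13_18_10_6) (Ls.cons (Ent.pos F13_18_9_6) (Ls.cons (Ent.pos F13_18_8_6) (Ls.cons (Ent.pos F13_18_7_6) (Ls.cons Ent.zero (Ls.cons (Ent.neg F13_18_6_5) (Ls.cons (Ent.neg F13_18_6_4) (Ls.cons (Ent.neg F13_18_6_3) (Ls.cons (Ent.neg F13_18_6_2) (Ls.cons (Ent.neg F13_18_6_1) (Ls.cons (Ent.pos F13_18_6_0) Ls.nil)))))))))))))))))))))))))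
 (Ls.cons (Ls.cons Ent.zero (Ls.cons Ent.zero (Ls.cons Ent.zero (Ls.cons Ent.zero (Ls.cons Ent.zero (Ls.cons Ent.zero (Ls.cons Ent.zero (Ls.cons Ent.zero (Ls.cons (Ent.pos F13_17_16_6) (Ls.cons (Ent.pos F13_17_15_6) (Ls.cons (Ent.pos F13_17_14_6) (Ls.cons (Ent.pos F13_17_13_6) (Ls.cons (Ent.pos F13_17_12_6) (Ls.cons (Ent.pos F13_17_11_6) (Ls.cons (Ent.pos F13_17_10_6) (Ls.cons (Ent.pos F13_17_9_6) (Ls.cons (Ent.pos F13_17_8_6) (Ls.cons (Ent.pos F13_17_7_6) (Ls.cons Ent.zero (Ls.cons (Ent.neg F13_17_6_5) (Ls.cons (Ent.neg F13_17_6_4) (Ls.cons (Ent.neg F13_17_6_3) (Ls.cons (Ent.neg F13_17_6_2) (Ls.cons (Ent.neg F13_17_6_1) (Ls.cons (Ent.pos F13_17_6_0) Ls.nil)))))))))))))))))))))))))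
 (Ls.cons (Ls.cons Ent.zero (Ls.cons Ent.zero (Ls.cons Ent.zero (Ls.cons Ent.zero (Ls.cons Ent.zero (Ls.cons Ent.zero (Ls.cons Ent.zero (Ls.cons (Ent.neg F13_17_16_6) (Ls.cons Ent.zero (Ls.cons (Ent.pos F13_16_15_6) (Ls.cons (Ent.pos F13_16_14_6) (Ls.cons (Ent.pos F13_16_13_6) (Ls.cons (Ent.pos F13_16_12_6) (Ls.cons (Ent.pos F13_16_11_6) (Ls.cons (Ent.pos F13_16_10_6) (Ls.cons (Ent.pos F13_16_9_6) (Ls.cons (Ent.pos F13_16_8_6) (Ls.cons (Ent.pos F13_16_7_6) (Ls.cons Ent.zero (Ls.cons (Ent.neg F13_16_6_5) (Ls.cons (Ent.neg F13_16_6_4) (Ls.cons (Ent.neg F13_16_6_3) (Ls.cons (Ent.neg F13_16_6_2) (Ls.cons (Ent.neg F13_16_6_1) (Ls.cons (Ent.pos F13_16_6_0) Ls.nil)))))))))))))))))))))))))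
 (Ls.cons (Ls.cons Ent.zero (Ls.cons Ent.zero (Ls.cons Ent.zero (Ls.cons Ent.zero (Ls.cons Ent.zero (Ls.cons Ent.zero (Ls.cons (Ent.neg F13_18_15_6) (Ls.cons (Ent.neg F13_17_15_6) (Ls.cons (Ent.neg F13_16_15_6) (Ls.cons Ent.zero (Ls.cons (Ent.pos F13_15_14_6) (Ls.cons (Ent.pos F13_15_13_6) (Ls.cons (Ent.pos F13_15_12_6) (Ls.cons (Ent.pos F13_15_11_6) (Ls.cons (Ent.pos F13_15_10_6) (Ls.cons (Ent.pos F13_15_9_6) (Ls.cons (Ent.pos F13_15_8_6) (Ls.cons (Ent.pos F13_15_7_6) (Ls.cons Ent.zero (Ls.cons (Ent.neg F13_15_6_5) (Ls.cons (Ent.neg F13_15_6_4) (Ls.cons (Ent.neg F13_15_6_3) (Ls.cons (Ent.neg F13_15_6_2) (Ls.cons (Ent.neg F13_15_6_1) (Ls.cons (Ent.pos F13_15_6_0) Ls.nil)))))))))))))))))))))))))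
 (Ls.cons (Ls.cons Ent.zero (Ls.cons Ent.zero (Ls.cons Ent.zero (Ls.cons Ent.zero (Ls.cons Ent.zero (Ls.cons Ent.zero (Ls.cons (Ent.neg F13_18_14_6) (Ls.cons (Ent.neg F13_17_14_6) (Ls.cons (Ent.neg F13_16_14_6) (Ls.cons (Ent.neg F13_15_14_6) (Ls.cons Ent.zero (Ls.cons (Ent.pos F13_14_13_6) (Ls.cons (Ent.pos F13_14_12_6) (Ls.cons (Ent.pos F13_14_11_6) (Ls.cons (Ent.pos F13_14_10_6) (Ls.cons (Ent.pos F13_14_9_6) (Ls.cons (Ent.pos F13_14_8_6) (Ls.cons (Ent.pos F13_14_7_6) (Ls.cons Ent.zero (Ls.cons (Ent.neg F13_14_6_5) (Ls.cons (Ent.neg F13_14_6_4) (Ls.cons (Ent.neg F13_14_6_3) (Ls.cons (Ent.neg F13_14_6_2) (Ls.cons (Ent.neg F13_14_6_1) (Ls.cons (Ent.pos F13_14_6_0) Ls.nil)))))))))))))))))))))))))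
 (Ls.cons (Ls.cons Ent.zero (Ls.cons Ent.zero (Ls.cons Ent.zero (Ls.cons Ent.zero (Ls.cons Ent.zero (Ls.cons Ent.zero (Ls.cons (Ent.neg F13_18_13_6) (Ls.cons (Ent.neg F13_17_13_6) (Ls.cons (Ent.neg F13_16_13_6) (Ls.cons (Ent.neg F13_15_13_6) (Ls.cons (Ent.neg F13_14_13_6) (Ls.cons Ent.zero (Ls.cons (Ent.pos F13_13_12_6) (Ls.cons (Ent.pos F13_13_11_6) (Ls.cons (Ent.pos F13_13_10_6) (Ls.cons (Ent.pos F13_13_9_6) (Ls.cons (Ent.pos F13_13_8_6) (Ls.cons (Ent.pos F13_13_7_6) (Ls.cons Ent.zero (Ls.cons (Ent.neg F13_13_6_5) (Ls.cons (Ent.neg F13_13_6_4) (Ls.cons (Ent.neg F13_13_6_3) (Ls.cons (Ent.neg F13_13_6_2) (Ls.cons (Ent.neg F13_13_6_1) (Ls.cons (Ent.pos F13_13_6_0) Ls.nil)))))))))))))))))))))))))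
 (Ls.cons (Ls.cons Ent.zero (Ls.cons Ent.zero (Ls.cons Ent.zero (Ls.cons Ent.zero (Ls.cons Ent.zero (Ls.cons Ent.zero (Ls.cons (Ent.neg F13_18_12_6) (Ls.cons (Ent.neg F13_17_12_6) (Ls.cons (Ent.neg F13_16_12_6) (Ls.cons (Ent.neg F13_15_12_6) (Ls.cons (Ent.neg F13_14_12_6) (Ls.cons (Ent.neg F13_13_12_6) (Ls.cons Ent.zero (Ls.cons (Ent.pos F13_12_11_6) (Ls.cons (Ent.pos F13_12_10_6) (Ls.cons (Ent.pos F13_12_9_6) (Ls.cons (Ent.pos F13_12_8_6) (Ls.cons (Ent.pos F13_12_7_6) (Ls.cons Ent.zero (Ls.cons (Ent.neg F13_12_6_5) (Ls.cons (Ent.neg F13_12_6_4) (Ls.cons (Ent.neg F13_12_6_3) (Ls.cons (Ent.neg F13_12_6_2) (Ls.cons (Ent.neg F13_12_6_1) (Ls.cons (Ent.pos F13_12_6_0) Ls.nil)))))))))))))))))))))))))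
 (Ls.cons (Ls.cons Ent.zero (Ls.cons Ent.zero (Ls.cons Ent.zero (Ls.cons Ent.zero (Ls.cons Ent.zero (Ls.cons (Ent.neg F13_19_11_6) (Ls.cons (Ent.neg F13_18_11_6) (Ls.cons (Ent.neg F13_17_11_6) (Ls.cons (Ent.neg F13_16_11_6) (Ls.cons (Ent.neg F13_15_11_6) (Ls.cons (Ent.neg F13_14_11_6) (Ls.cons (Ent.neg F13_13_11_6) (Ls.cons (Ent.neg F13_12_11_6) (Ls.cons Ent.zero (Ls.cons (Ent.pos F13_11_10_6) (Ls.cons (Ent.pos F13_11_9_6) (Ls.cons (Ent.pos F13_11_8_6) (Ls.cons (Ent.pos F13_11_7_6) (Ls.cons Ent.zero (Ls.cons (Ent.neg F13_11_6_5) (Ls.cons (Ent.neg F13_11_6_4) (Ls.cons (Ent.neg F13_11_6_3) (Ls.cons (Ent.neg F13_11_6_2) (Ls.cons (Ent.neg F13_11_6_1) (Ls.cons (Ent.pos F13_11_6_0) Ls.nil)))))))))))))))))))))))))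
 (Ls.cons (Ls.cons Ent.zero (Ls.cons Ent.zero (Ls.cons Ent.zero (Ls.cons Ent.zero (Ls.cons Ent.zero (Ls.cons (Ent.neg F13_19_10_6) (Ls.cons (Ent.neg F13_18_10_6) (Ls.cons (Ent.neg F13_17_10_6) (Ls.cons (Ent.neg F13_16_10_6) (Ls.cons (Ent.neg F13_15_10_6) (Ls.cons (Ent.neg F13_14_10_6) (Ls.cons (Ent.neg F13_13_10_6) (Ls.cons (Ent.neg F13_12_10_6) (Ls.cons (Ent.neg F13_11_10_6) (Ls.cons Ent.zero (Ls.cons (Ent.pos F13_10_9_6) (Ls.cons (Ent.pos F13_10_8_6) (Ls.cons (Ent.pos F13_10_7_6) (Ls.cons Ent.zero (Ls.cons (Ent.neg F13_10_6_5) (Ls.cons (Ent.neg F13_10_6_4) (Ls.cons (Ent.neg F13_10_6_3) (Ls.cons (Ent.neg F13_10_6_2) (Ls.cons (Ent.neg F13_10_6_1) (Ls.cons (Ent.pos F13_10_6_0) Ls.nil)))))))))))))))))))))))))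
 (Ls.cons (Ls.cons Ent.zero (Ls.cons Ent.zero (Ls.cons Ent.zero (Ls.cons Ent.zero (Ls.cons Ent.zero (Ls.cons (Ent.neg F13_19_9_6) (Ls.cons (Ent.neg F13_18_9_6) (Ls.cons (Ent.neg F13_17_9_6) (Ls.cons (Ent.neg F13_16_9_6) (Ls.cons (Ent.neg F13_15_9_6) (Ls.cons (Ent.neg F13_14_9_6) (Ls.cons (Ent.neg F13_13_9_6) (Ls.cons (Ent.neg F13_12_9_6) (Ls.cons (Ent.neg F13_11_9_6) (Ls.cons (Ent.neg F13_10_9_6) (Ls.cons Ent.zero (Ls.cons (Ent.pos F13_9_8_6) (Ls.cons (Ent.pos F13_9_7_6) (Ls.cons Ent.zero (Ls.cons (Ent.neg F13_9_6_5) (Ls.cons (Ent.neg F13_9_6_4) (Ls.cons (Ent.neg F13_9_6_3) (Ls.cons (Ent.neg F13_9_6_2) (Ls.cons (Ent.neg F13_9_6_1) (Ls.cons (Ent.pos F13_9_6_0) Ls.nil)))))))))))))))))))))))))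
 (Ls.cons (Ls.cons Ent.zero (Ls.cons Ent.zero (Ls.cons Ent.zero (Ls.cons Ent.zero (Ls.cons Ent.zero (Ls.cons (Ent.neg F13_19_8_6) (Ls.cons (Ent.neg F13_18_8_6) (Ls.cons (Ent.neg F13_17_8_6) (Ls.cons (Ent.neg F13_16_8_6) (Ls.cons (Ent.neg F13_15_8_6) (Ls.cons (Ent.neg F13_14_8_6) (Ls.cons (Ent.neg F13_13_8_6) (Ls.cons (Ent.neg F13_12_8_6) (Ls.cons (Ent.neg F13_11_8_6) (Ls.cons (Ent.neg F13_10_8_6) (Ls.cons (Ent.neg F13_9_8_6) (Ls.cons Ent.zero (Ls.cons (Ent.pos F13_8_7_6) (Ls.cons Ent.zero (Ls.cons (Ent.neg F13_8_6_5) (Ls.cons (Ent.neg F13_8_6_4) (Ls.cons (Ent.neg F13_8_6_3) (Ls.cons (Ent.neg F13_8_6_2) (Ls.cons (Ent.neg F13_8_6_1) (Ls.cons (Ent.pos F13_8_6_0) Ls.nil)))))))))))))))))))))))))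
 (Ls.cons (Ls.cons Ent.zero (Ls.cons Ent.zero (Ls.cons Ent.zero (Ls.cons Ent.zero (Ls.cons (Ent.neg F13_20_7_6) (Ls.cons (Ent.neg F13_19_7_6) (Ls.cons (Ent.neg F13_18_7_6) (Ls.cons (Ent.neg F13_17_7_6) (Ls.cons (Ent.neg F13_16_7_6) (Ls.cons (Ent.neg F13_15_7_6) (Ls.cons (Ent.neg F13_14_7_6) (Ls.cons (Ent.neg F13_13_7_6) (Ls.cons (Ent.neg F13_12_7_6) (Ls.cons (Ent.neg F13_11_7_6) (Ls.cons (Ent.neg F13_10_7_6) (Ls.cons (Ent.neg F13_9_7_6) (Ls.cons (Ent.neg F13_8_7_6) (Ls.cons Ent.zero (Ls.cons Ent.zero (Ls.cons (Ent.neg F13_7_6_5) (Ls.cons (Ent.neg F13_7_6_4) (Ls.cons (Ent.neg F13_7_6_3) (Ls.cons (Ent.neg F13_7_6_2) (Ls.cons (Ent.neg F13_7_6_1) (Ls.cons (Ent.pos F13_7_6_0) Ls.nil)))))))))))))))))))))))))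
 (Ls.cons (Ls.cons Ent.zero (Ls.cons Ent.zero (Ls.cons Ent.zero (Ls.cons Ent.zero (Ls.cons Ent.zero (Ls.cons Ent.zero (Ls.cons Ent.zero (Ls.cons Ent.zero (Ls.cons Ent.zero (Ls.cons Ent.zero (Ls.cons Ent.zero (Ls.cons Ent.zero (Ls.cons Ent.zero (Ls.cons Ent.zero (Ls.cons Ent.zero (Ls.cons Ent.zero (Ls.cons Ent.zero (Ls.cons Ent.zero (Ls.cons Ent.zero (Ls.cons Ent.zero (Ls.cons Ent.zero (Ls.cons Ent.zero (Ls.cons Ent.zero (Ls.cons Ent.zero (Ls.cons Ent.zero Ls.nil)))))))))))))))))))))))))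
 (Ls.cons (Ls.cons Ent.zero (Ls.cons Ent.zero (Ls.cons Ent.zero (Ls.cons Ent.zero (Ls.cons (Ent.pos F13_20_6_5) (Ls.cons (Ent.pos F13_19_6_5) (Ls.cons (Ent.pos F13_18_6_5) (Ls.cons (Ent.pos F13_17_6_5) (Ls.cons (Ent.pos F13_16_6_5) (Ls.cons (Ent.pos F13_15_6_5) (Ls.cons (Ent.pos F13_14_6_5) (Ls.cons (Ent.pos F13_13_6_5) (Ls.cons (Ent.pos F13_12_6_5) (Ls.cons (Ent.pos F13_11_6_5) (Ls.cons (Ent.pos F13_10_6_5) (Ls.cons (Ent.pos F13_9_6_5) (Ls.cons (Ent.pos F13_8_6_5) (Ls.cons (Ent.pos F13_7_6_5) (Ls.cons Ent.zero (Ls.cons Ent.zero (Ls.cons (Ent.pos F13_6_5_4) (Ls.cons (Ent.pos F13_6_5_3) (Ls.cons (Ent.pos F13_6_5_2) (Ls.cons (Ent.pos F13_6_5_1) (Ls.cons (Ent.neg F13_6_5_0) Ls.nil)))))))))))))))))))))))))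
 (Ls.cons (Ls.cons Ent.zero (Ls.cons Ent.zero (Ls.cons Ent.zero (Ls.cons Ent.zero (Ls.cons (Ent.pos F13_20_6_4) (Ls.cons (Ent.pos F13_19_6_4) (Ls.cons (Ent.pos F13_18_6_4) (Ls.cons (Ent.pos F13_17_6_4) (Ls.cons (Ent.pos F13_16_6_4) (Ls.cons (Ent.pos F13_15_6_4) (Ls.cons (Ent.pos F13_14_6_4) (Ls.cons (Ent.pos F13_13_6_4) (Ls.cons (Ent.pos F13_12_6_4) (Ls.cons (Ent.pos F13_11_6_4) (Ls.cons (Ent.pos F13_10_6_4) (Ls.cons (Ent.pos F13_9_6_4) (Ls.cons (Ent.pos F13_8_6_4) (Ls.cons (Ent.pos F13_7_6_4) (Ls.cons Ent.zero (Ls.cons (Ent.neg F13_6_5_4) (Ls.cons Ent.zero (Ls.cons (Ent.pos F13_6_4_3) (Ls.cons (Ent.pos F13_6_4_2) (Ls.cons (Ent.pos F13_6_4_1) (Ls.cons (Ent.neg F13_6_4_0) Ls.nil)))))))))))))))))))))))))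
 (Ls.cons (Ls.cons Ent.zero (Ls.cons Ent.zero (Ls.cons Ent.zero (Ls.cons (Ent.pos F13_21_6_3) (Ls.cons (Ent.pos F13_20_6_3) (Ls.cons (Ent.pos F13_19_6_3) (Ls.cons (Ent.pos F13_18_6_3) (Ls.cons (Ent.pos F13_17_6_3) (Ls.cons (Ent.pos F13_16_6_3) (Ls.cons (Ent.pos F13_15_6_3) (Ls.cons (Ent.pos F13_14_6_3) (Ls.cons (Ent.pos F13_13_6_3) (Ls.cons (Ent.pos F13_12_6_3) (Ls.cons (Ent.pos F13_11_6_3) (Ls.cons (Ent.pos F13_10_6_3) (Ls.cons (Ent.pos F13_9_6_3) (Ls.cons (Ent.pos F13_8_6_3) (Ls.cons (Ent.pos F13_7_6_3) (Ls.cons Ent.zero (Ls.cons (Ent.neg F13_6_5_3) (Ls.cons (Ent.neg F13_6_4_3) (Ls.cons Ent.zero (Ls.cons (Ent.pos F13_6_3_2) (Ls.cons (Ent.pos F13_6_3_1) (Ls.cons (Ent.neg F13_6_3_0) Ls.nil)))))))))))))))))))))))))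
 (Ls.cons (Ls.cons Ent.zero (Ls.cons Ent.zero (Ls.cons Ent.zero (Ls.cons (Ent.pos F13_21_6_2) (Ls.cons (Ent.pos F13_20_6_2) (Ls.cons (Ent.pos F13_19_6_2) (Ls.cons (Ent.pos F13_18_6_2) (Ls.cons (Ent.pos F13_17_6_2) (Ls.cons (Ent.pos F13_16_6_2) (Ls.cons (Ent.pos F13_15_6_2) (Ls.cons (Ent.pos F13_14_6_2) (Ls.cons (Ent.pos F13_13_6_2) (Ls.cons (Ent.pos F13_12_6_2) (Ls.cons (Ent.pos F13_11_6_2) (Ls.cons (Ent.pos F13_10_6_2) (Ls.cons (Ent.pos F13_9_6_2) (Ls.cons (Ent.pos F13_8_6_2) (Ls.cons (Ent.pos F13_7_6_2) (Ls.cons Ent.zero (Ls.cons (Ent.neg F13_6_5_2) (Ls.cons (Ent.neg F13_6_4_2) (Ls.cons (Ent.neg F13_6_3_2) (Ls.cons Ent.zero (Ls.cons (Ent.pos F13_6_2_1) (Ls.cons (Ent.neg F13_6_2_0) Ls.nil)))))))))))))))))))))))))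
 (Ls.cons (Ls.cons Ent.zero (Ls.cons Ent.zero (Ls.cons Ent.zero (Ls.cons (Ent.pos F13_21_6_1) (Ls.cons (Ent.pos F13_20_6_1) (Ls.cons (Ent.pos F13_19_6_1) (Ls.cons (Ent.pos F13_18_6_1) (Ls.cons (Ent.pos F13_17_6_1) (Ls.cons (Ent.pos F13_16_6_1) (Ls.cons (Ent.pos F13_15_6_1) (Ls.cons (Ent.pos F13_14_6_1) (Ls.cons (Ent.pos F13_13_6_1) (Ls.cons (Ent.pos F13_12_6_1) (Ls.cons (Ent.pos F13_11_6_1) (Ls.cons (Ent.pos F13_10_6_1) (Ls.cons (Ent.pos F13_9_6_1) (Ls.cons (Ent.pos F13_8_6_1) (Ls.cons (Ent.pos F13_7_6_1) (Ls.cons Ent.zero (Ls.cons (Ent.neg F13_6_5_1) (Ls.cons (Ent.neg F13_6_4_1) (Ls.cons (Ent.neg F13_6_3_1) (Ls.cons (Ent.neg F13_6_2_1) (Ls.cons Ent.zero (Ls.cons (Ent.pos F13_6_1_0) Ls.nil)))))))))))))))))))))))))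
 (Ls.cons (Ls.cons Ent.zero (Ls.cons Ent.zero (Ls.cons (Ent.neg F13_22_6_0) (Ls.cons (Ent.neg F13_21_6_0) (Ls.cons (Ent.neg F13_20_6_0) (Ls.cons (Ent.neg F13_19_6_0) (Ls.cons (Ent.neg F13_18_6_0) (Ls.cons (Ent.neg F13_17_6_0) (Ls.cons (Ent.neg F13_16_6_0) (Ls.cons (Ent.neg F13_15_6_0) (Ls.cons (Ent.neg F13_14_6_0) (Ls.cons (Ent.neg F13_13_6_0) (Ls.cons (Ent.neg F13_12_6_0) (Ls.cons (Ent.neg F13_11_6_0) (Ls.cons (Ent.neg F13_10_6_0) (Ls.cons (Ent.neg F13_9_6_0) (Ls.cons (Ent.neg F13_8_6_0) (Ls.cons (Ent.neg F13_7_6_0) (Ls.cons Ent.zero (Ls.cons (Ent.pos F13_6_5_0) (Ls.cons (Ent.pos F13_6_4_0) (Ls.cons (Ent.pos F13_6_3_0) (Ls.cons (Ent.pos F13_6_2_0) (Ls.cons (Ent.neg F13_6_1_0) (Ls.cons Ent.zero Ls.nil)))))))))))))))))))))))))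
 Ls.nil))))))))))))))))))))

noncomputable def bxF13_7 : L2 :=
 (Ls.cons (Ls.cons Ent.zero (Ls.cons Ent.zero (Ls.cons Ent.zero (Ls.cons Ent.zero (Ls.cons Ent.zero (Ls.cons Ent.zero (Ls.cons Ent.zero (Ls.cons Ent.zero (Ls.cons Ent.zero (Ls.cons Ent.zero (Ls.cons Ent.zero (Ls.cons Ent.zero (Ls.cons Ent.zero (Ls.cons Ent.zero (Ls.cons (Ent.pos F13_19_10_7) (Ls.cons (Ent.pos F13_19_9_7) (Ls.cons (Ent.pos F13_19_8_7) (Ls.cons Ent.zero (Ls.cons (Ent.neg F13_19_7_6) (Ls.cons (Ent.neg F13_19_7_5) (Ls.cons (Ent.neg F13_19_7_4) (Ls.cons (Ent.neg F13_19_7_3) (Ls.cons (Ent.neg F13_19_7_2) (Ls.cons (Ent.neg F13_19_7_1) (Ls.cons (Ent.pos F13_19_7_0) Ls.nil)))))))))))))))))))))))))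
 (Ls.cons (Ls.cons Ent.zero (Ls.cons Ent.zero (Ls.cons Ent.zero (Ls.cons Ent.zero (Ls.cons Ent.zero (Ls.cons Ent.zero (Ls.cons Ent.zero (Ls.cons Ent.zero (Ls.cons Ent.zero (Ls.cons Ent.zero (Ls.cons (Ent.pos F13_18_14_7) (Ls.cons (Ent.pos F13_18_13_7) (Ls.cons (Ent.pos F13_18_12_7) (Ls.cons (Ent.pos F13_18_11_7) (Ls.cons (Ent.pos F13_18_10_7) (Ls.cons (Ent.pos F13_18_9_7) (Ls.cons (Ent.pos F13_18_8_7) (Ls.cons Ent.zero (Ls.cons (Ent.neg F13_18_7_6) (Ls.cons (Ent.neg F13_18_7_5) (Ls.cons (Ent.neg F13_18_7_4) (Ls.cons (Ent.neg F13_18_7_3) (Ls.cons (Ent.neg F13_18_7_2) (Ls.cons (Ent.neg F13_18_7_1) (Ls.cons (Ent.pos F13_18_7_0) Ls.nil)))))))))))))))))))))))))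
 (Ls.cons (Ls.cons Ent.zero (Ls.cons Ent.zero (Ls.cons Ent.zero (Ls.cons Ent.zero (Ls.cons Ent.zero (Ls.cons Ent.zero (Ls.cons Ent.zero (Ls.cons Ent.zero (Ls.cons (Ent.pos F13_17_16_7) (Ls.cons (Ent.pos F13_17_15_7) (Ls.cons (Ent.pos F13_17_14_7) (Ls.cons (Ent.pos F13_17_13_7) (Ls.cons (Ent.pos F13_17_12_7) (Ls.cons (Ent.pos F13_17_11_7) (Ls.cons (Ent.pos F13_17_10_7) (Ls.cons (Ent.pos F13_17_9_7) (Ls.cons (Ent.pos F13_17_8_7) (Ls.cons Ent.zero (Ls.cons (Ent.neg F13_17_7_6) (Ls.cons (Ent.neg F13_17_7_5) (Ls.cons (Ent.neg F13_17_7_4) (Ls.cons (Ent.neg F13_17_7_3) (Ls.cons (Ent.neg F13_17_7_2) (Ls.cons (Ent.neg F13_17_7_1) (Ls.cons (Ent.pos F13_17_7_0) Ls.nil)))))))))))))))))))))))))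
 (Ls.cons (Ls.cons Ent.zero (Ls.cons Ent.zero (Ls.cons Ent.zero (Ls.cons Ent.zero (Ls.cons Ent.zero (Ls.cons Ent.zero (Ls.cons Ent.zero (Ls.cons (Ent.neg F13_17_16_7) (Ls.cons Ent.zero (Ls.cons (Ent.pos F13_16_15_7) (Ls.cons (Ent.pos F13_16_14_7) (Ls.cons (Ent.pos F13_16_13_7) (Ls.cons (Ent.pos F13_16_12_7) (Ls.cons (Ent.pos F13_16_11_7) (Ls.cons (Ent.pos F13_16_10_7) (Ls.cons (Ent.pos F13_16_9_7) (Ls.cons (Ent.pos F13_16_8_7) (Ls.cons Ent.zero (Ls.cons (Ent.neg F13_16_7_6) (Ls.cons (Ent.neg F13_16_7_5) (Ls.cons (Ent.neg F13_16_7_4) (Ls.cons (Ent.neg F13_16_7_3) (Ls.cons (Ent.neg F13_16_7_2) (Ls.cons (Ent.neg F13_16_7_1) (Ls.cons (Ent.pos F13_16_7_0) Ls.nil)))))))))))))))))))))))))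
 (Ls.cons (Ls.cons Ent.zero (Ls.cons Ent.zero (Ls.cons Ent.zero (Ls.cons Ent.zero (Ls.cons Ent.zero (Ls.cons Ent.zero (Ls.cons Ent.zero (Ls.cons (Ent.neg F13_17_15_7) (Ls.cons (Ent.neg F13_16_15_7) (Ls.cons Ent.zero (Ls.cons (Ent.pos F13_15_14_7) (Ls.cons (Ent.pos F13_15_13_7) (Ls.cons (Ent.pos F13_15_12_7) (Ls.cons (Ent.pos F13_15_11_7) (Ls.cons (Ent.pos F13_15_10_7) (Ls.cons (Ent.pos F13_15_9_7) (Ls.cons (Ent.pos F13_15_8_7) (Ls.cons Ent.zero (Ls.cons (Ent.neg F13_15_7_6) (Ls.cons (Ent.neg F13_15_7_5) (Ls.cons (Ent.neg F13_15_7_4) (Ls.cons (Ent.neg F13_15_7_3) (Ls.cons (Ent.neg F13_15_7_2) (Ls.cons (Ent.neg F13_15_7_1) (Ls.cons (Ent.pos F13_15_7_0) Ls.nil)))))))))))))))))))))))))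
 (Ls.cons (Ls.cons Ent.zero (Ls.cons Ent.zero (Ls.cons Ent.zero (Ls.cons Ent.zero (Ls.cons Ent.zero (Ls.cons Ent.zero (Ls.cons (Ent.neg F13_18_14_7) (Ls.cons (Ent.neg F13_17_14_7) (Ls.cons (Ent.neg F13_16_14_7) (Ls.cons (Ent.neg F13_15_14_7) (Ls.cons Ent.zero (Ls.cons (Ent.pos F13_14_13_7) (Ls.cons (Ent.pos F13_14_12_7) (Ls.cons (Ent.pos F13_14_11_7) (Ls.cons (Ent.pos F13_14_10_7) (Ls.cons (Ent.pos F13_14_9_7) (Ls.cons (Ent.pos F13_14_8_7) (Ls.cons Ent.zero (Ls.cons (Ent.neg F13_14_7_6) (Ls.cons (Ent.neg F13_14_7_5) (Ls.cons (Ent.neg F13_14_7_4) (Ls.cons (Ent.neg F13_14_7_3) (Ls.cons (Ent.neg F13_14_7_2) (Ls.cons (Ent.neg F13_14_7_1) (Ls.cons (Ent.pos F13_14_7_0) Ls.nil)))))))))))))))))))))))))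
 (Ls.cons (Ls.cons Ent.zero (Ls.cons Ent.zero (Ls.cons Ent.zero (Ls.cons Ent.zero (Ls.cons Ent.zero (Ls.cons Ent.zero (Ls.cons (Ent.neg F13_18_13_7) (Ls.cons (Ent.neg F13_17_13_7) (Ls.cons (Ent.neg F13_16_13_7) (Ls.cons (Ent.neg F13_15_13_7) (Ls.cons (Ent.neg F13_14_13_7) (Ls.cons Ent.zero (Ls.cons (Ent.pos F13_13_12_7) (Ls.cons (Ent.pos F13_13_11_7) (Ls.cons (Ent.pos F13_13_10_7) (Ls.cons (Ent.pos F13_13_9_7) (Ls.cons (Ent.pos F13_13_8_7) (Ls.cons Ent.zero (Ls.cons (Ent.neg F13_13_7_6) (Ls.cons (Ent.neg F13_13_7_5) (Ls.cons (Ent.neg F13_13_7_4) (Ls.cons (Ent.neg F13_13_7_3) (Ls.cons (Ent.neg F13_13_7_2) (Ls.cons (Ent.neg F13_13_7_1) (Ls.cons (Ent.pos F13_13_7_0) Ls.nil)))))))))))))))))))))))))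
 (Ls.cons (Ls.cons Ent.zero (Ls.cons Ent.zero (Ls.cons Ent.zero (Ls.cons Ent.zero (Ls.cons Ent.zero (Ls.cons Ent.zero (Ls.cons (Ent.neg F13_18_12_7) (Ls.cons (Ent.neg F13_17_12_7) (Ls.cons (Ent.neg F13_16_12_7) (Ls.cons (Ent.neg F13_15_12_7) (Ls.cons (Ent.neg F13_14_12_7) (Ls.cons (Ent.neg F13_13_12_7) (Ls.cons Ent.zero (Ls.cons (Ent.pos F13_12_11_7) (Ls.cons (Ent.pos F13_12_10_7) (Ls.cons (Ent.pos F13_12_9_7) (Ls.cons (Ent.pos F13_12_8_7) (Ls.cons Ent.zero (Ls.cons (Ent.neg F13_12_7_6) (Ls.cons (Ent.neg F13_12_7_5) (Ls.cons (Ent.neg F13_12_7_4) (Ls.cons (Ent.neg F13_12_7_3) (Ls.cons (Ent.neg F13_12_7_2) (Ls.cons (Ent.neg F13_12_7_1) (Ls.cons (Ent.pos F13_12_7_0) Ls.nil)))))))))))))))))))))))))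
 (Ls.cons (Ls.cons Ent.zero (Ls.cons Ent.zero (Ls.cons Ent.zero (Ls.cons Ent.zero (Ls.cons Ent.zero (Ls.cons Ent.zero (Ls.cons (Ent.neg F13_18_11_7) (Ls.cons (Ent.neg F13_17_11_7) (Ls.cons (Ent.neg F13_16_11_7) (Ls.cons (Ent.neg F13_15_11_7) (Ls.cons (Ent.neg F13_14_11_7) (Ls.cons (Ent.neg F13_13_11_7) (Ls.cons (Ent.neg F13_12_11_7) (Ls.cons Ent.zero (Ls.cons (Ent.pos F13_11_10_7) (Ls.cons (Ent.pos F13_11_9_7) (Ls.cons (Ent.pos F13_11_8_7) (Ls.cons Ent.zero (Ls.cons (Ent.neg F13_11_7_6) (Ls.cons (Ent.neg F13_11_7_5) (Ls.cons (Ent.neg F13_11_7_4) (Ls.cons (Ent.neg F13_11_7_3) (Ls.cons (Ent.neg F13_11_7_2) (Ls.cons (Ent.neg F13_11_7_1) (Ls.cons (Ent.pos F13_11_7_0) Ls.nil)))))))))))))))))))))))))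
 (Ls.cons (Ls.cons Ent.zero (Ls.cons Ent.zero (Ls.cons Ent.zero (Ls.cons Ent.zero (Ls.cons Ent.zero (Ls.cons (Ent.neg F13_19_10_7) (Ls.cons (Ent.neg F13_18_10_7) (Ls.cons (Ent.neg F13_17_10_7) (Ls.cons (Ent.neg F13_16_10_7) (Ls.cons (Ent.neg F13_15_10_7) (Ls.cons (Ent.neg F13_14_10_7) (Ls.cons (Ent.neg F13_13_10_7) (Ls.cons (Ent.neg F13_12_10_7) (Ls.cons (Ent.neg F13_11_10_7) (Ls.cons Ent.zero (Ls.cons (Ent.pos F13_10_9_7) (Ls.cons (Ent.pos F13_10_8_7) (Ls.cons Ent.zero (Ls.cons (Ent.neg F13_10_7_6) (Ls.cons (Ent.neg F13_10_7_5) (Ls.cons (Ent.neg F13_10_7_4) (Ls.cons (Ent.neg F13_10_7_3) (Ls.cons (Ent.neg F13_10_7_2) (Ls.cons (Ent.neg F13_10_7_1) (Ls.cons (Ent.pos F13_10_7_0) Ls.nil)))))))))))))))))))))))))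
 (Ls.cons (Ls.cons Ent.zero (Ls.cons Ent.zero (Ls.cons Ent.zero (Ls.cons Ent.zero (Ls.cons Ent.zero (Ls.cons (Ent.neg F13_19_9_7) (Ls.cons (Ent.neg F13_18_9_7) (Ls.cons (Ent.neg F13_17_9_7) (Ls.cons (Ent.neg F13_16_9_7) (Ls.cons (Ent.neg F13_15_9_7) (Ls.cons (Ent.neg F13_14_9_7) (Ls.cons (Ent.neg F13_13_9_7) (Ls.cons (Ent.neg F13_12_9_7) (Ls.cons (Ent.neg F13_11_9_7) (Ls.cons (Ent.neg F13_10_9_7) (Ls.cons Ent.zero (Ls.cons (Ent.pos F13_9_8_7) (Ls.cons Ent.zero (Ls.cons (Ent.neg F13_9_7_6) (Ls.cons (Ent.neg F13_9_7_5) (Ls.cons (Ent.neg F13_9_7_4) (Ls.cons (Ent.neg F13_9_7_3) (Ls.cons (Ent.neg F13_9_7_2) (Ls.cons (Ent.neg F13_9_7_1) (Ls.cons (Ent.pos F13_9_7_0) Ls.nil)))))))))))))))))))))))))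
 (Ls.cons (Ls.cons Ent.zero (Ls.cons Ent.zero (Ls.cons Ent.zero (Ls.cons Ent.zero (Ls.cons Ent.zero (Ls.cons (Ent.neg F13_19_8_7) (Ls.cons (Ent.neg F13_18_8_7) (Ls.cons (Ent.neg F13_17_8_7) (Ls.cons (Ent.neg F13_16_8_7) (Ls.cons (Ent.neg F13_15_8_7) (Ls.cons (Ent.neg F13_14_8_7) (Ls.cons (Ent.neg F13_13_8_7) (Ls.cons (Ent.neg F13_12_8_7) (Ls.cons (Ent.neg F13_11_8_7) (Ls.cons (Ent.neg F13_10_8_7) (Ls.cons (Ent.neg F13_9_8_7) (Ls.cons Ent.zero (Ls.cons Ent.zero (Ls.cons (Ent.neg F13_8_7_6) (Ls.cons (Ent.neg F13_8_7_5) (Ls.cons (Ent.neg F13_8_7_4) (Ls.cons (Ent.neg F13_8_7_3) (Ls.cons (Ent.neg F13_8_7_2) (Ls.cons (Ent.neg F13_8_7_1) (Ls.cons (Ent.pos F13_8_7_0) Ls.nil)))))))))))))))))))))))))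
 (Ls.cons (Ls.cons Ent.zero (Ls.cons Ent.zero (Ls.cons Ent.zero (Ls.cons Ent.zero (Ls.cons Ent.zero (Ls.cons Ent.zero (Ls.cons Ent.zero (Ls.cons Ent.zero (Ls.cons Ent.zero (Ls.cons Ent.zero (Ls.cons Ent.zero (Ls.cons Ent.zero (Ls.cons Ent.zero (Ls.cons Ent.zero (Ls.cons Ent.zero (Ls.cons Ent.zero (Ls.cons Ent.zero (Ls.cons Ent.zero (Ls.cons Ent.zero (Ls.cons Ent.zero (Ls.cons Ent.zero (Ls.cons Ent.zero (Ls.cons Ent.zero (Ls.cons Ent.zero (Ls.cons Ent.zero Ls.nil)))))))))))))))))))))))))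
 (Ls.cons (Ls.cons Ent.zero (Ls.cons Ent.zero (Ls.cons Ent.zero (Ls.cons Ent.zero (Ls.cons (Ent.pos F13_20_7_6) (Ls.cons (Ent.pos F13_19_7_6) (Ls.cons (Ent.pos F13_18_7_6) (Ls.cons (Ent.pos F13_17_7_6) (Ls.cons (Ent.pos F13_16_7_6) (Ls.cons (Ent.pos F13_15_7_6) (Ls.cons (Ent.pos F13_14_7_6) (Ls.cons (Ent.pos F13_13_7_6) (Ls.cons (Ent.pos F13_12_7_6) (Ls.cons (Ent.pos F13_11_7_6) (Ls.cons (Ent.pos F13_10_7_6) (Ls.cons (Ent.pos F13_9_7_6) (Ls.cons (Ent.pos F13_8_7_6) (Ls.cons Ent.zero (Ls.cons Ent.zero (Ls.cons (Ent.pos F13_7_6_5) (Ls.cons (Ent.pos F13_7_6_4) (Ls.cons (Ent.pos F13_7_6_3) (Ls.cons (Ent.pos F13_7_6_2) (Ls.cons (Ent.pos F13_7_6_1) (Ls.cons (Ent.neg F13_7_6_0) Ls.nil)))))))))))))))))))))))))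
 (Ls.cons (Ls.cons Ent.zero (Ls.cons Ent.zero (Ls.cons Ent.zero (Ls.cons Ent.zero (Ls.cons (Ent.pos F13_20_7_5) (Ls.cons (Ent.pos F13_19_7_5) (Ls.cons (Ent.pos F13_18_7_5) (Ls.cons (Ent.pos F13_17_7_5) (Ls.cons (Ent.pos F13_16_7_5) (Ls.cons (Ent.pos F13_15_7_5) (Ls.cons (Ent.pos F13_14_7_5) (Ls.cons (Ent.pos F13_13_7_5) (Ls.cons (Ent.pos F13_12_7_5) (Ls.cons (Ent.pos F13_11_7_5) (Ls.cons (Ent.pos F13_10_7_5) (Ls.cons (Ent.pos F13_9_7_5) (Ls.cons (Ent.pos F13_8_7_5) (Ls.cons Ent.zero (Ls.cons (Ent.neg F13_7_6_5) (Ls.cons Ent.zero (Ls.cons (Ent.pos F13_7_5_4) (Ls.cons (Ent.pos F13_7_5_3) (Ls.cons (Ent.pos F13_7_5_2) (Ls.cons (Ent.pos F13_7_5_1) (Ls.cons (Ent.neg F13_7_5_0) Ls.nil)))))))))))))))))))))))))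
 (Ls.cons (Ls.cons Ent.zero (Ls.cons Ent.zero (Ls.cons Ent.zero (Ls.cons Ent.zero (Ls.cons (Ent.pos F13_20_7_4) (Ls.cons (Ent.pos F13_19_7_4) (Ls.cons (Ent.pos F13_18_7_4) (Ls.cons (Ent.pos F13_17_7_4) (Ls.cons (Ent.pos F13_16_7_4) (Ls.cons (Ent.pos F13_15_7_4) (Ls.cons (Ent.pos F13_14_7_4) (Ls.cons (Ent.pos F13_13_7_4) (Ls.cons (Ent.pos F13_12_7_4) (Ls.cons (Ent.pos F13_11_7_4) (Ls.cons (Ent.pos F13_10_7_4) (Ls.cons (Ent.pos F13_9_7_4) (Ls.cons (Ent.pos F13_8_7_4) (Ls.cons Ent.zero (Ls.cons (Ent.neg F13_7_6_4) (Ls.cons (Ent.neg F13_7_5_4) (Ls.cons Ent.zero (Ls.cons (Ent.pos F13_7_4_3) (Ls.cons (Ent.pos F13_7_4_2) (Ls.cons (Ent.pos F13_7_4_1) (Ls.cons (Ent.neg F13_7_4_0) Ls.nil)))))))))))))))))))))))))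
 (Ls.cons (Ls.cons Ent.zero (Ls.cons Ent.zero (Ls.cons Ent.zero (Ls.cons Ent.zero (Ls.cons (Ent.pos F13_20_7_3) (Ls.cons (Ent.pos F13_19_7_3) (Ls.cons (Ent.pos F13_18_7_3) (Ls.cons (Ent.pos F13_17_7_3) (Ls.cons (Ent.pos F13_16_7_3) (Ls.cons (Ent.pos F13_15_7_3) (Ls.cons (Ent.pos F13_14_7_3) (Ls.cons (Ent.pos F13_13_7_3) (Ls.cons (Ent.pos F13_12_7_3) (Ls.cons (Ent.pos F13_11_7_3) (Ls.cons (Ent.pos F13_10_7_3) (Ls.cons (Ent.pos F13_9_7_3) (Ls.cons (Ent.pos F13_8_7_3) (Ls.cons Ent.zero (Ls.cons (Ent.neg F13_7_6_3) (Ls.cons (Ent.neg F13_7_5_3) (Ls.cons (Ent.neg F13_7_4_3) (Ls.cons Ent.zero (Ls.cons (Ent.pos F13_7_3_2) (Ls.cons (Ent.pos F13_7_3_1) (Ls.cons (Ent.neg F13_7_3_0) Ls.nil)))))))))))))))))))))))))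
 (Ls.cons (Ls.cons Ent.zero (Ls.cons Ent.zero (Ls.cons Ent.zero (Ls.cons (Ent.pos F13_21_7_2) (Ls.cons (Ent.pos F13_20_7_2) (Ls.cons (Ent.pos F13_19_7_2) (Ls.cons (Ent.pos F13_18_7_2) (Ls.cons (Ent.pos F13_17_7_2) (Ls.cons (Ent.pos F13_16_7_2) (Ls.cons (Ent.pos F13_15_7_2) (Ls.cons (Ent.pos F13_14_7_2) (Ls.cons (Ent.pos F13_13_7_2) (Ls.cons (Ent.pos F13_12_7_2) (Ls.cons (Ent.pos F13_11_7_2) (Ls.cons (Ent.pos F13_10_7_2) (Ls.cons (Ent.pos F13_9_7_2) (Ls.cons (Ent.pos F13_8_7_2) (Ls.cons Ent.zero (Ls.cons (Ent.neg F13_7_6_2) (Ls.cons (Ent.neg F13_7_5_2) (Ls.cons (Ent.neg F13_7_4_2) (Ls.cons (Ent.neg F13_7_3_2) (Ls.cons Ent.zero (Ls.cons (Ent.pos F13_7_2_1) (Ls.cons (Ent.neg F13_7_2_0) Ls.nil)))))))))))))))))))))))))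
 (Ls.cons (Ls.cons Ent.zero (Ls.cons Ent.zero (Ls.cons Ent.zero (Ls.cons (Ent.pos F13_21_7_1) (Ls.cons (Ent.pos F13_20_7_1) (Ls.cons (Ent.pos F13_19_7_1) (Ls.cons (Ent.pos F13_18_7_1) (Ls.cons (Ent.pos F13_17_7_1) (Ls.cons (Ent.pos F13_16_7_1) (Ls.cons (Ent.pos F13_15_7_1) (Ls.cons (Ent.pos F13_14_7_1) (Ls.cons (Ent.pos F13_13_7_1) (Ls.cons (Ent.pos F13_12_7_1) (Ls.cons (Ent.pos F13_11_7_1) (Ls.cons (Ent.pos F13_10_7_1) (Ls.cons (Ent.pos F13_9_7_1) (Ls.cons (Ent.pos F13_8_7_1) (Ls.cons Ent.zero (Ls.cons (Ent.neg F13_7_6_1) (Ls.cons (Ent.neg F13_7_5_1) (Ls.cons (Ent.neg F13_7_4_1) (Ls.cons (Ent.neg F13_7_3_1) (Ls.cons (Ent.neg F13_7_2_1) (Ls.cons Ent.zero (Ls.cons (Ent.pos F13_7_1_0) Ls.nil)))))))))))))))))))))))))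
 (Ls.cons (Ls.cons Ent.zero (Ls.cons Ent.zero (Ls.cons (Ent.neg F13_22_7_0) (Ls.cons (Ent.neg F13_21_7_0) (Ls.cons (Ent.neg F13_20_7_0) (Ls.cons (Ent.neg F13_19_7_0) (Ls.cons (Ent.neg F13_18_7_0) (Ls.cons (Ent.neg F13_17_7_0) (Ls.cons (Ent.neg F13_16_7_0) (Ls.cons (Ent.neg F13_15_7_0) (Ls.cons (Ent.neg F13_14_7_0) (Ls.cons (Ent.neg F13_13_7_0) (Ls.cons (Ent.neg F13_12_7_0) (Ls.cons (Ent.neg F13_11_7_0) (Ls.cons (Ent.neg F13_10_7_0) (Ls.cons (Ent.neg F13_9_7_0) (Ls.cons (Ent.neg F13_8_7_0) (Ls.cons Ent.zero (Ls.cons (Ent.pos F13_7_6_0) (Ls.cons (Ent.pos F13_7_5_0) (Ls.cons (Ent.pos F13_7_4_0) (Ls.cons (Ent.pos F13_7_3_0) (Ls.cons (Ent.pos F13_7_2_0) (Ls.cons (Ent.neg F13_7_1_0) (Ls.cons Ent.zero Ls.nil)))))))))))))))))))))))))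
 Ls.nil))))))))))))))))))))

noncomputable def bxF13_8 : L2 :=
 (Ls.cons (Ls.cons Ent.zero (Ls.cons Ent.zero (Ls.cons Ent.zero (Ls.cons Ent.zero (Ls.cons Ent.zero (Ls.cons Ent.zero (Ls.cons Ent.zero (Ls.cons Ent.zero (Ls.cons Ent.zero (Ls.cons Ent.zero (Ls.cons Ent.zero (Ls.cons Ent.zero (Ls.cons Ent.zero (Ls.cons Ent.zero (Ls.cons Ent.zero (Ls.cons (Ent.pos F13_19_9_8) (Ls.cons Ent.zero (Ls.cons (Ent.neg F13_19_8_7) (Ls.cons (Ent.neg F13_19_8_6) (Ls.cons (Ent.neg F13_19_8_5) (Ls.cons (Ent.neg F13_19_8_4) (Ls.cons (Ent.neg F13_19_8_3) (Ls.cons (Ent.neg F13_19_8_2) (Ls.cons (Ent.neg F13_19_8_1) (Ls.cons (Ent.pos F13_19_8_0) Ls.nil)))))))))))))))))))))))))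
 (Ls.cons (Ls.cons Ent.zero (Ls.cons Ent.zero (Ls.cons Ent.zero (Ls.cons Ent.zero (Ls.cons Ent.zero (Ls.cons Ent.zero (Ls.cons Ent.zero (Ls.cons Ent.zero (Ls.cons Ent.zero (Ls.cons Ent.zero (Ls.cons Ent.zero (Ls.cons (Ent.pos F13_18_13_8) (Ls.cons (Ent.pos F13_18_12_8) (Ls.cons (Ent.pos F13_18_11_8) (Ls.cons (Ent.pos F13_18_10_8) (Ls.cons (Ent.pos F13_18_9_8) (Ls.cons Ent.zero (Ls.cons (Ent.neg F13_18_8_7) (Ls.cons (Ent.neg F13_18_8_6) (Ls.cons (Ent.neg F13_18_8_5) (Ls.cons (Ent.neg F13_18_8_4) (Ls.cons (Ent.neg F13_18_8_3) (Ls.cons (Ent.neg F13_18_8_2) (Ls.cons (Ent.neg F13_18_8_1) (Ls.cons (Ent.pos F13_18_8_0) Ls.nil)))))))))))))))))))))))))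
 (Ls.cons (Ls.cons Ent.zero (Ls.cons Ent.zero (Ls.cons Ent.zero (Ls.cons Ent.zero (Ls.cons Ent.zero (Ls.cons Ent.zero (Ls.cons Ent.zero (Ls.cons Ent.zero (Ls.cons (Ent.pos F13_17_16_8) (Ls.cons (Ent.pos F13_17_15_8) (Ls.cons (Ent.pos F13_17_14_8) (Ls.cons (Ent.pos F13_17_13_8) (Ls.cons (Ent.pos F13_17_12_8) (Ls.cons (Ent.pos F13_17_11_8) (Ls.cons (Ent.pos F13_17_10_8) (Ls.cons (Ent.pos F13_17_9_8) (Ls.cons Ent.zero (Ls.cons (Ent.neg F13_17_8_7) (Ls.cons (Ent.neg F13_17_8_6) (Ls.cons (Ent.neg F13_17_8_5) (Ls.cons (Ent.neg F13_17_8_4) (Ls.cons (Ent.neg F13_17_8_3) (Ls.cons (Ent.neg F13_17_8_2) (Ls.cons (Ent.neg F13_17_8_1) (Ls.cons (Ent.pos F13_17_8_0) Ls.nil)))))))))))))))))))))))))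
 (Ls.cons (Ls.cons Ent.zero (Ls.cons Ent.zero (Ls.cons Ent.zero (Ls.cons Ent.zero (Ls.cons Ent.zero (Ls.cons Ent.zero (Ls.cons Ent.zero (Ls.cons (Ent.neg F13_17_16_8) (Ls.cons Ent.zero (Ls.cons (Ent.pos F13_16_15_8) (Ls.cons (Ent.pos F13_16_14_8) (Ls.cons (Ent.pos F13_16_13_8) (Ls.cons (Ent.pos F13_16_12_8) (Ls.cons (Ent.pos F13_16_11_8) (Ls.cons (Ent.pos F13_16_10_8) (Ls.cons (Ent.pos F13_16_9_8) (Ls.cons Ent.zero (Ls.cons (Ent.neg F13_16_8_7) (Ls.cons (Ent.neg F13_16_8_6) (Ls.cons (Ent.neg F13_16_8_5) (Ls.cons (Ent.neg F13_16_8_4) (Ls.cons (Ent.neg F13_16_8_3) (Ls.cons (Ent.neg F13_16_8_2) (Ls.cons (Ent.neg F13_16_8_1) (Ls.cons (Ent.pos F13_16_8_0) Ls.nil)))))))))))))))))))))))))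
 (Ls.cons (Ls.cons Ent.zero (Ls.cons Ent.zero (Ls.cons Ent.zero (Ls.cons Ent.zero (Ls.cons Ent.zero (Ls.cons Ent.zero (Ls.cons Ent.zero (Ls.cons (Ent.neg F13_17_15_8) (Ls.cons (Ent.neg F13_16_15_8) (Ls.cons Ent.zero (Ls.cons (Ent.pos F13_15_14_8) (Ls.cons (Ent.pos F13_15_13_8) (Ls.cons (Ent.pos F13_15_12_8) (Ls.cons (Ent.pos F13_15_11_8) (Ls.cons (Ent.pos F13_15_10_8) (Ls.cons (Ent.pos F13_15_9_8) (Ls.cons Ent.zero (Ls.cons (Ent.neg F13_15_8_7) (Ls.cons (Ent.neg F13_15_8_6) (Ls.cons (Ent.neg F13_15_8_5) (Ls.cons (Ent.neg F13_15_8_4) (Ls.cons (Ent.neg F13_15_8_3) (Ls.cons (Ent.neg F13_15_8_2) (Ls.cons (Ent.neg F13_15_8_1) (Ls.cons (Ent.pos F13_15_8_0) Ls.nil)))))))))))))))))))))))))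
 (Ls.cons (Ls.cons Ent.zero (Ls.cons Ent.zero (Ls.cons Ent.zero (Ls.cons Ent.zero (Ls.cons Ent.zero (Ls.cons Ent.zero (Ls.cons Ent.zero (Ls.cons (Ent.neg F13_17_14_8) (Ls.cons (Ent.neg F13_16_14_8) (Ls.cons (Ent.neg F13_15_14_8) (Ls.cons Ent.zero (Ls.cons (Ent.pos F13_14_13_8) (Ls.cons (Ent.pos F13_14_12_8) (Ls.cons (Ent.pos F13_14_11_8) (Ls.cons (Ent.pos F13_14_10_8) (Ls.cons (Ent.pos F13_14_9_8) (Ls.cons Ent.zero (Ls.cons (Ent.neg F13_14_8_7) (Ls.cons (Ent.neg F13_14_8_6) (Ls.cons (Ent.neg F13_14_8_5) (Ls.cons (Ent.neg F13_14_8_4) (Ls.cons (Ent.neg F13_14_8_3) (Ls.cons (Ent.neg F13_14_8_2) (Ls.cons (Ent.neg F13_14_8_1) (Ls.cons (Ent.pos F13_14_8_0) Ls.nil)))))))))))))))))))))))))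
 (Ls.cons (Ls.cons Ent.zero (Ls.cons Ent.zero (Ls.cons Ent.zero (Ls.cons Ent.zero (Ls.cons Ent.zero (Ls.cons Ent.zero (Ls.cons (Ent.neg F13_18_13_8) (Ls.cons (Ent.neg F13_17_13_8) (Ls.cons (Ent.neg F13_16_13_8) (Ls.cons (Ent.neg F13_15_13_8) (Ls.cons (Ent.neg F13_14_13_8) (Ls.cons Ent.zero (Ls.cons (Ent.pos F13_13_12_8) (Ls.cons (Ent.pos F13_13_11_8) (Ls.cons (Ent.pos F13_13_10_8) (Ls.cons (Ent.pos F13_13_9_8) (Ls.cons Ent.zero (Ls.cons (Ent.neg F13_13_8_7) (Ls.cons (Ent.neg F13_13_8_6) (Ls.cons (Ent.neg F13_13_8_5) (Ls.cons (Ent.neg F13_13_8_4) (Ls.cons (Ent.neg F13_13_8_3) (Ls.cons (Ent.neg F13_13_8_2) (Ls.cons (Ent.neg F13_13_8_1) (Ls.cons (Ent.pos F13_13_8_0) Ls.nil)))))))))))))))))))))))))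
 (Ls.cons (Ls.cons Ent.zero (Ls.cons Ent.zero (Ls.cons Ent.zero (Ls.cons Ent.zero (Ls.cons Ent.zero (Ls.cons Ent.zero (Ls.cons (Ent.neg F13_18_12_8) (Ls.cons (Ent.neg F13_17_12_8) (Ls.cons (Ent.neg F13_16_12_8) (Ls.cons (Ent.neg F13_15_12_8) (Ls.cons (Ent.neg F13_14_12_8) (Ls.cons (Ent.neg F13_13_12_8) (Ls.cons Ent.zero (Ls.cons (Ent.pos F13_12_11_8) (Ls.cons (Ent.pos F13_12_10_8) (Ls.cons (Ent.pos F13_12_9_8) (Ls.cons Ent.zero (Ls.cons (Ent.neg F13_12_8_7) (Ls.cons (Ent.neg F13_12_8_6) (Ls.cons (Ent.neg F13_12_8_5) (Ls.cons (Ent.neg F13_12_8_4) (Ls.cons (Ent.neg F13_12_8_3) (Ls.cons (Ent.neg F13_12_8_2) (Ls.cons (Ent.neg F13_12_8_1) (Ls.cons (Ent.pos F13_12_8_0) Ls.nil)))))))))))))))))))))))))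
 (Ls.cons (Ls.cons Ent.zero (Ls.cons Ent.zero (Ls.cons Ent.zero (Ls.cons Ent.zero (Ls.cons Ent.zero (Ls.cons Ent.zero (Ls.cons (Ent.neg F13_18_11_8) (Ls.cons (Ent.neg F13_17_11_8) (Ls.cons (Ent.neg F13_16_11_8) (Ls.cons (Ent.neg F13_15_11_8) (Ls.cons (Ent.neg F13_14_11_8) (Ls.cons (Ent.neg F13_13_11_8) (Ls.cons (Ent.neg F13_12_11_8) (Ls.cons Ent.zero (Ls.cons (Ent.pos F13_11_10_8) (Ls.cons (Ent.pos F13_11_9_8) (Ls.cons Ent.zero (Ls.cons (Ent.neg F13_11_8_7) (Ls.cons (Ent.neg F13_11_8_6) (Ls.cons (Ent.neg F13_11_8_5) (Ls.cons (Ent.neg F13_11_8_4) (Ls.cons (Ent.neg F13_11_8_3) (Ls.cons (Ent.neg F13_11_8_2) (Ls.cons (Ent.neg F13_11_8_1) (Ls.cons (Ent.pos F13_11_8_0) Ls.nil)))))))))))))))))))))))))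
 (Ls.cons (Ls.cons Ent.zero (Ls.cons Ent.zero (Ls.cons Ent.zero (Ls.cons Ent.zero (Ls.cons Ent.zero (Ls.cons Ent.zero (Ls.cons (Ent.neg F13_18_10_8) (Ls.cons (Ent.neg F13_17_10_8) (Ls.cons (Ent.neg F13_16_10_8) (Ls.cons (Ent.neg F13_15_10_8) (Ls.cons (Ent.neg F13_14_10_8) (Ls.cons (Ent.neg F13_13_10_8) (Ls.cons (Ent.neg F13_12_10_8) (Ls.cons (Ent.neg F13_11_10_8) (Ls.cons Ent.zero (Ls.cons (Ent.pos F13_10_9_8) (Ls.cons Ent.zero (Ls.cons (Ent.neg F13_10_8_7) (Ls.cons (Ent.neg F13_10_8_6) (Ls.cons (Ent.neg F13_10_8_5) (Ls.cons (Ent.neg F13_10_8_4) (Ls.cons (Ent.neg F13_10_8_3) (Ls.cons (Ent.neg F13_10_8_2) (Ls.cons (Ent.neg F13_10_8_1) (Ls.cons (Ent.pos F13_10_8_0) Ls.nil)))))))))))))))))))))))))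
 (Ls.cons (Ls.cons Ent.zero (Ls.cons Ent.zero (Ls.cons Ent.zero (Ls.cons Ent.zero (Ls.cons Ent.zero (Ls.cons (Ent.neg F13_19_9_8) (Ls.cons (Ent.neg F13_18_9_8) (Ls.cons (Ent.neg F13_17_9_8) (Ls.cons (Ent.neg F13_16_9_8) (Ls.cons (Ent.neg F13_15_9_8) (Ls.cons (Ent.neg F13_14_9_8) (Ls.cons (Ent.neg F13_13_9_8) (Ls.cons (Ent.neg F13_12_9_8) (Ls.cons (Ent.neg F13_11_9_8) (Ls.cons (Ent.neg F13_10_9_8) (Ls.cons Ent.zero (Ls.cons Ent.zero (Ls.cons (Ent.neg F13_9_8_7) (Ls.cons (Ent.neg F13_9_8_6) (Ls.cons (Ent.neg F13_9_8_5) (Ls.cons (Ent.neg F13_9_8_4) (Ls.cons (Ent.neg F13_9_8_3) (Ls.cons (Ent.neg F13_9_8_2) (Ls.cons (Ent.neg F13_9_8_1) (Ls.cons (Ent.pos F13_9_8_0) Ls.nil)))))))))))))))))))))))))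
 (Ls.cons (Ls.cons Ent.zero (Ls.cons Ent.zero (Ls.cons Ent.zero (Ls.cons Ent.zero (Ls.cons Ent.zero (Ls.cons Ent.zero (Ls.cons Ent.zero (Ls.cons Ent.zero (Ls.cons Ent.zero (Ls.cons Ent.zero (Ls.cons Ent.zero (Ls.cons Ent.zero (Ls.cons Ent.zero (Ls.cons Ent.zero (Ls.cons Ent.zero (Ls.cons Ent.zero (Ls.cons Ent.zero (Ls.cons Ent.zero (Ls.cons Ent.zero (Ls.cons Ent.zero (Ls.cons Ent.zero (Ls.cons Ent.zero (Ls.cons Ent.zero (Ls.cons Ent.zero (Ls.cons Ent.zero Ls.nil)))))))))))))))))))))))))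
 (Ls.cons (Ls.cons Ent.zero (Ls.cons Ent.zero (Ls.cons Ent.zero (Ls.cons Ent.zero (Ls.cons Ent.zero (Ls.cons (Ent.pos F13_19_8_7) (Ls.cons (Ent.pos F13_18_8_7) (Ls.cons (Ent.pos F13_17_8_7) (Ls.cons (Ent.pos F13_16_8_7) (Ls.cons (Ent.pos F13_15_8_7) (Ls.cons (Ent.pos F13_14_8_7) (Ls.cons (Ent.pos F13_13_8_7) (Ls.cons (Ent.pos F13_12_8_7) (Ls.cons (Ent.pos F13_11_8_7) (Ls.cons (Ent.pos F13_10_8_7) (Ls.cons (Ent.pos F13_9_8_7) (Ls.cons Ent.zero (Ls.cons Ent.zero (Ls.cons (Ent.pos F13_8_7_6) (Ls.cons (Ent.pos F13_8_7_5) (Ls.cons (Ent.pos F13_8_7_4) (Ls.cons (Ent.pos F13_8_7_3) (Ls.cons (Ent.pos F13_8_7_2) (Ls.cons (Ent.pos F13_8_7_1) (Ls.cons (Ent.neg F13_8_7_0) Ls.nil)))))))))))))))))))))))))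
 (Ls.cons (Ls.cons Ent.zero (Ls.cons Ent.zero (Ls.cons Ent.zero (Ls.cons Ent.zero (Ls.cons Ent.zero (Ls.cons (Ent.pos F13_19_8_6) (Ls.cons (Ent.pos F13_18_8_6) (Ls.cons (Ent.pos F13_17_8_6) (Ls.cons (Ent.pos F13_16_8_6) (Ls.cons (Ent.pos F13_15_8_6) (Ls.cons (Ent.pos F13_14_8_6) (Ls.cons (Ent.pos F13_13_8_6) (Ls.cons (Ent.pos F13_12_8_6) (Ls.cons (Ent.pos F13_11_8_6) (Ls.cons (Ent.pos F13_10_8_6) (Ls.cons (Ent.pos F13_9_8_6) (Ls.cons Ent.zero (Ls.cons (Ent.neg F13_8_7_6) (Ls.cons Ent.zero (Ls.cons (Ent.pos F13_8_6_5) (Ls.cons (Ent.pos F13_8_6_4) (Ls.cons (Ent.pos F13_8_6_3) (Ls.cons (Ent.pos F13_8_6_2) (Ls.cons (Ent.pos F13_8_6_1) (Ls.cons (Ent.neg F13_8_6_0) Ls.nil)))))))))))))))))))))))))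
 (Ls.cons (Ls.cons Ent.zero (Ls.cons Ent.zero (Ls.cons Ent.zero (Ls.cons Ent.zero (Ls.cons (Ent.pos F13_20_8_5) (Ls.cons (Ent.pos F13_19_8_5) (Ls.cons (Ent.pos F13_18_8_5) (Ls.cons (Ent.pos F13_17_8_5) (Ls.cons (Ent.pos F13_16_8_5) (Ls.cons (Ent.pos F13_15_8_5) (Ls.cons (Ent.pos F13_14_8_5) (Ls.cons (Ent.pos F13_13_8_5) (Ls.cons (Ent.pos F13_12_8_5) (Ls.cons (Ent.pos F13_11_8_5) (Ls.cons (Ent.pos F13_10_8_5) (Ls.cons (Ent.pos F13_9_8_5) (Ls.cons Ent.zero (Ls.cons (Ent.neg F13_8_7_5) (Ls.cons (Ent.neg F13_8_6_5) (Ls.cons Ent.zero (Ls.cons (Ent.pos F13_8_5_4) (Ls.cons (Ent.pos F13_8_5_3) (Ls.cons (Ent.pos F13_8_5_2) (Ls.cons (Ent.pos F13_8_5_1) (Ls.cons (Ent.neg F13_8_5_0) Ls.nil)))))))))))))))))))))))))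
 (Ls.cons (Ls.cons Ent.zero (Ls.cons Ent.zero (Ls.cons Ent.zero (Ls.cons Ent.zero (Ls.cons (Ent.pos F13_20_8_4) (Ls.cons (Ent.pos F13_19_8_4) (Ls.cons (Ent.pos F13_18_8_4) (Ls.cons (Ent.pos F13_17_8_4) (Ls.cons (Ent.pos F13_16_8_4) (Ls.cons (Ent.pos F13_15_8_4) (Ls.cons (Ent.pos F13_14_8_4) (Ls.cons (Ent.pos F13_13_8_4) (Ls.cons (Ent.pos F13_12_8_4) (Ls.cons (Ent.pos F13_11_8_4) (Ls.cons (Ent.pos F13_10_8_4) (Ls.cons (Ent.pos F13_9_8_4) (Ls.cons Ent.zero (Ls.cons (Ent.neg F13_8_7_4) (Ls.cons (Ent.neg F13_8_6_4) (Ls.cons (Ent.neg F13_8_5_4) (Ls.cons Ent.zero (Ls.cons (Ent.pos F13_8_4_3) (Ls.cons (Ent.pos F13_8_4_2) (Ls.cons (Ent.pos F13_8_4_1) (Ls.cons (Ent.neg F13_8_4_0) Ls.nil)))))))))))))))))))))))))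
 (Ls.cons (Ls.cons Ent.zero (Ls.cons Ent.zero (Ls.cons Ent.zero (Ls.cons Ent.zero (Ls.cons (Ent.pos F13_20_8_3) (Ls.cons (Ent.pos F13_19_8_3) (Ls.cons (Ent.pos F13_18_8_3) (Ls.cons (Ent.pos F13_17_8_3) (Ls.cons (Ent.pos F13_16_8_3) (Ls.cons (Ent.pos F13_15_8_3) (Ls.cons (Ent.pos F13_14_8_3) (Ls.cons (Ent.pos F13_13_8_3) (Ls.cons (Ent.pos F13_12_8_3) (Ls.cons (Ent.pos F13_11_8_3) (Ls.cons (Ent.pos F13_10_8_3) (Ls.cons (Ent.pos F13_9_8_3) (Ls.cons Ent.zero (Ls.cons (Ent.neg F13_8_7_3) (Ls.cons (Ent.neg F13_8_6_3) (Ls.cons (Ent.neg F13_8_5_3) (Ls.cons (Ent.neg F13_8_4_3) (Ls.cons Ent.zero (Ls.cons (Ent.pos F13_8_3_2) (Ls.cons (Ent.pos F13_8_3_1) (Ls.cons (Ent.neg F13_8_3_0) Ls.nil)))))))))))))))))))))))))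
 (Ls.cons (Ls.cons Ent.zero (Ls.cons Ent.zero (Ls.cons Ent.zero (Ls.cons Ent.zero (Ls.cons (Ent.pos F13_20_8_2) (Ls.cons (Ent.pos F13_19_8_2) (Ls.cons (Ent.pos F13_18_8_2) (Ls.cons (Ent.pos F13_17_8_2) (Ls.cons (Ent.pos F13_16_8_2) (Ls.cons (Ent.pos F13_15_8_2) (Ls.cons (Ent.pos F13_14_8_2) (Ls.cons (Ent.pos F13_13_8_2) (Ls.cons (Ent.pos F13_12_8_2) (Ls.cons (Ent.pos F13_11_8_2) (Ls.cons (Ent.pos F13_10_8_2) (Ls.cons (Ent.pos F13_9_8_2) (Ls.cons Ent.zero (Ls.cons (Ent.neg F13_8_7_2) (Ls.cons (Ent.neg F13_8_6_2) (Ls.cons (Ent.neg F13_8_5_2) (Ls.cons (Ent.neg F13_8_4_2) (Ls.cons (Ent.neg F13_8_3_2) (Ls.cons Ent.zero (Ls.cons (Ent.pos F13_8_2_1) (Ls.cons (Ent.neg F13_8_2_0) Ls.nil)))))))))))))))))))))))))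
 (Ls.cons (Ls.cons Ent.zero (Ls.cons Ent.zero (Ls.cons Ent.zero (Ls.cons (Ent.pos F13_21_8_1) (Ls.cons (Ent.pos F13_20_8_1) (Ls.cons (Ent.pos F13_19_8_1) (Ls.cons (Ent.pos F13_18_8_1) (Ls.cons (Ent.pos F13_17_8_1) (Ls.cons (Ent.pos F13_16_8_1) (Ls.cons (Ent.pos F13_15_8_1) (Ls.cons (Ent.pos F13_14_8_1) (Ls.cons (Ent.pos F13_13_8_1) (Ls.cons (Ent.pos F13_12_8_1) (Ls.cons (Ent.pos F13_11_8_1) (Ls.cons (Ent.pos F13_10_8_1) (Ls.cons (Ent.pos F13_9_8_1) (Ls.cons Ent.zero (Ls.cons (Ent.neg F13_8_7_1) (Ls.cons (Ent.neg F13_8_6_1) (Ls.cons (Ent.neg F13_8_5_1) (Ls.cons (Ent.neg F13_8_4_1) (Ls.cons (Ent.neg F13_8_3_1) (Ls.cons (Ent.neg F13_8_2_1) (Ls.cons Ent.zero (Ls.cons (Ent.pos F13_8_1_0) Ls.nil)))))))))))))))))))))))))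
 (Ls.cons (Ls.cons Ent.zero (Ls.cons Ent.zero (Ls.cons (Ent.neg F13_22_8_0) (Ls.cons (Ent.neg F13_21_8_0) (Ls.cons (Ent.neg F13_20_8_0) (Ls.cons (Ent.neg F13_19_8_0) (Ls.cons (Ent.neg F13_18_8_0) (Ls.cons (Ent.neg F13_17_8_0) (Ls.cons (Ent.neg F13_16_8_0) (Ls.cons (Ent.neg F13_15_8_0) (Ls.cons (Ent.neg F13_14_8_0) (Ls.cons (Ent.neg F13_13_8_0) (Ls.cons (Ent.neg F13_12_8_0) (Ls.cons (Ent.neg F13_11_8_0) (Ls.cons (Ent.neg F13_10_8_0) (Ls.cons (Ent.neg F13_9_8_0) (Ls.cons Ent.zero (Ls.cons (Ent.pos F13_8_7_0) (Ls.cons (Ent.pos F13_8_6_0) (Ls.cons (Ent.pos F13_8_5_0) (Ls.cons (Ent.pos F13_8_4_0) (Ls.cons (Ent.pos F13_8_3_0) (Ls.cons (Ent.pos F13_8_2_0) (Ls.cons (Ent.neg F13_8_1_0) (Ls.cons Ent.zero Ls.nil)))))))))))))))))))))))))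
 Ls.nil))))))))))))))))))))

noncomputable def bxF13_9 : L2 :=
 (Ls.cons (Ls.cons Ent.zero (Ls.cons Ent.zero (Ls.cons Ent.zero (Ls.cons Ent.zero (Ls.cons Ent.zero (Ls.cons Ent.zero (Ls.cons Ent.zero (Ls.cons Ent.zero (Ls.cons Ent.zero (Ls.cons Ent.zero (Ls.cons Ent.zero (Ls.cons Ent.zero (Ls.cons Ent.zero (Ls.cons Ent.zero (Ls.cons Ent.zero (Ls.cons Ent.zero (Ls.cons (Ent.neg F13_19_9_8) (Ls.cons (Ent.neg F13_19_9_7) (Ls.cons (Ent.neg F13_19_9_6) (Ls.cons (Ent.neg F13_19_9_5) (Ls.cons (Ent.neg F13_19_9_4) (Ls.cons (Ent.neg F13_19_9_3) (Ls.cons (Ent.neg F13_19_9_2) (Ls.cons (Ent.neg F13_19_9_1) (Ls.cons (Ent.pos F13_19_9_0) Ls.nil)))))))))))))))))))))))))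
 (Ls.cons (Ls.cons Ent.zero (Ls.cons Ent.zero (Ls.cons Ent.zero (Ls.cons Ent.zero (Ls.cons Ent.zero (Ls.cons Ent.zero (Ls.cons Ent.zero (Ls.cons Ent.zero (Ls.cons Ent.zero (Ls.cons Ent.zero (Ls.cons Ent.zero (Ls.cons Ent.zero (Ls.cons (Ent.pos F13_18_12_9) (Ls.cons (Ent.pos F13_18_11_9) (Ls.cons (Ent.pos F13_18_10_9) (Ls.cons Ent.zero (Ls.cons (Ent.neg F13_18_9_8) (Ls.cons (Ent.neg F13_18_9_7) (Ls.cons (Ent.neg F13_18_9_6) (Ls.cons (Ent.neg F13_18_9_5) (Ls.cons (Ent.neg F13_18_9_4) (Ls.cons (Ent.neg F13_18_9_3) (Ls.cons (Ent.neg F13_18_9_2) (Ls.cons (Ent.neg F13_18_9_1) (Ls.cons (Ent.pos F13_18_9_0) Ls.nil)))))))))))))))))))))))))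
 (Ls.cons (Ls.cons Ent.zero (Ls.cons Ent.zero (Ls.cons Ent.zero (Ls.cons Ent.zero (Ls.cons Ent.zero (Ls.cons Ent.zero (Ls.cons Ent.zero (Ls.cons Ent.zero (Ls.cons (Ent.pos F13_17_16_9) (Ls.cons (Ent.pos F13_17_15_9) (Ls.cons (Ent.pos F13_17_14_9) (Ls.cons (Ent.pos F13_17_13_9) (Ls.cons (Ent.pos F13_17_12_9) (Ls.cons (Ent.pos F13_17_11_9) (Ls.cons (Ent.pos F13_17_10_9) (Ls.cons Ent.zero (Ls.cons (Ent.neg F13_17_9_8) (Ls.cons (Ent.neg F13_17_9_7) (Ls.cons (Ent.neg F13_17_9_6) (Ls.cons (Ent.neg F13_17_9_5) (Ls.cons (Ent.neg F13_17_9_4) (Ls.cons (Ent.neg F13_17_9_3) (Ls.cons (Ent.neg F13_17_9_2) (Ls.cons (Ent.neg F13_17_9_1) (Ls.cons (Ent.pos F13_17_9_0) Ls.nil)))))))))))))))))))))))))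
 (Ls.cons (Ls.cons Ent.zero (Ls.cons Ent.zero (Ls.cons Ent.zero (Ls.cons Ent.zero (Ls.cons Ent.zero (Ls.cons Ent.zero (Ls.cons Ent.zero (Ls.cons (Ent.neg F13_17_16_9) (Ls.cons Ent.zero (Ls.cons (Ent.pos F13_16_15_9) (Ls.cons (Ent.pos F13_16_14_9) (Ls.cons (Ent.pos F13_16_13_9) (Ls.cons (Ent.pos F13_16_12_9) (Ls.cons (Ent.pos F13_16_11_9) (Ls.cons (Ent.pos F13_16_10_9) (Ls.cons Ent.zero (Ls.cons (Ent.neg F13_16_9_8) (Ls.cons (Ent.neg F13_16_9_7) (Ls.cons (Ent.neg F13_16_9_6) (Ls.cons (Ent.neg F13_16_9_5) (Ls.cons (Ent.neg F13_16_9_4) (Ls.cons (Ent.neg F13_16_9_3) (Ls.cons (Ent.neg F13_16_9_2) (Ls.cons (Ent.neg F13_16_9_1) (Ls.cons (Ent.pos F13_16_9_0) Ls.nil)))))))))))))))))))))))))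
 (Ls.cons (Ls.cons Ent.zero (Ls.cons Ent.zero (Ls.cons Ent.zero (Ls.cons Ent.zero (Ls.cons Ent.zero (Ls.cons Ent.zero (Ls.cons Ent.zero (Ls.cons (Ent.neg F13_17_15_9) (Ls.cons (Ent.neg F13_16_15_9) (Ls.cons Ent.zero (Ls.cons (Ent.pos F13_15_14_9) (Ls.cons (Ent.pos F13_15_13_9) (Ls.cons (Ent.pos F13_15_12_9) (Ls.cons (Ent.pos F13_15_11_9) (Ls.cons (Ent.pos F13_15_10_9) (Ls.cons Ent.zero (Ls.cons (Ent.neg F13_15_9_8) (Ls.cons (Ent.neg F13_15_9_7) (Ls.cons (Ent.neg F13_15_9_6) (Ls.cons (Ent.neg F13_15_9_5) (Ls.cons (Ent.neg F13_15_9_4) (Ls.cons (Ent.neg F13_15_9_3) (Ls.cons (Ent.neg F13_15_9_2) (Ls.cons (Ent.neg F13_15_9_1) (Ls.cons (Ent.pos F13_15_9_0) Ls.nil)))))))))))))))))))))))))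
 (Ls.cons (Ls.cons Ent.zero (Ls.cons Ent.zero (Ls.cons Ent.zero (Ls.cons Ent.zero (Ls.cons Ent.zero (Ls.cons Ent.zero (Ls.cons Ent.zero (Ls.cons (Ent.neg F13_17_14_9) (Ls.cons (Ent.neg F13_16_14_9) (Ls.cons (Ent.neg F13_15_14_9) (Ls.cons Ent.zero (Ls.cons (Ent.pos F13_14_13_9) (Ls.cons (Ent.pos F13_14_12_9) (Ls.cons (Ent.pos F13_14_11_9) (Ls.cons (Ent.pos F13_14_10_9) (Ls.cons Ent.zero (Ls.cons (Ent.neg F13_14_9_8) (Ls.cons (Ent.neg F13_14_9_7) (Ls.cons (Ent.neg F13_14_9_6) (Ls.cons (Ent.neg F13_14_9_5) (Ls.cons (Ent.neg F13_14_9_4) (Ls.cons (Ent.neg F13_14_9_3) (Ls.cons (Ent.neg F13_14_9_2) (Ls.cons (Ent.neg F13_14_9_1) (Ls.cons (Ent.pos F13_14_9_0) Ls.nil)))))))))))))))))))))))))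
 (Ls.cons (Ls.cons Ent.zero (Ls.cons Ent.zero (Ls.cons Ent.zero (Ls.cons Ent.zero (Ls.cons Ent.zero (Ls.cons Ent.zero (Ls.cons Ent.zero (Ls.cons (Ent.neg F13_17_13_9) (Ls.cons (Ent.neg F13_16_13_9) (Ls.cons (Ent.neg F13_15_13_9) (Ls.cons (Ent.neg F13_14_13_9) (Ls.cons Ent.zero (Ls.cons (Ent.pos F13_13_12_9) (Ls.cons (Ent.pos F13_13_11_9) (Ls.cons (Ent.pos F13_13_10_9) (Ls.cons Ent.zero (Ls.cons (Ent.neg F13_13_9_8) (Ls.cons (Ent.neg F13_13_9_7) (Ls.cons (Ent.neg F13_13_9_6) (Ls.cons (Ent.neg F13_13_9_5) (Ls.cons (Ent.neg F13_13_9_4) (Ls.cons (Ent.neg F13_13_9_3) (Ls.cons (Ent.neg F13_13_9_2) (Ls.cons (Ent.neg F13_13_9_1) (Ls.cons (Ent.pos F13_13_9_0) Ls.nil)))))))))))))))))))))))))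
 (Ls.cons (Ls.cons Ent.zero (Ls.cons Ent.zero (Ls.cons Ent.zero (Ls.cons Ent.zero (Ls.cons Ent.zero (Ls.cons Ent.zero (Ls.cons (Ent.neg F13_18_12_9) (Ls.cons (Ent.neg F13_17_12_9) (Ls.cons (Ent.neg F13_16_12_9) (Ls.cons (Ent.neg F13_15_12_9) (Ls.cons (Ent.neg F13_14_12_9) (Ls.cons (Ent.neg F13_13_12_9) (Ls.cons Ent.zero (Ls.cons (Ent.pos F13_12_11_9) (Ls.cons (Ent.pos F13_12_10_9) (Ls.cons Ent.zero (Ls.cons (Ent.neg F13_12_9_8) (Ls.cons (Ent.neg F13_12_9_7) (Ls.cons (Ent.neg F13_12_9_6) (Ls.cons (Ent.neg F13_12_9_5) (Ls.cons (Ent.neg F13_12_9_4) (Ls.cons (Ent.neg F13_12_9_3) (Ls.cons (Ent.neg F13_12_9_2) (Ls.cons (Ent.neg F13_12_9_1) (Ls.cons (Ent.pos F13_12_9_0) Ls.nil)))))))))))))))))))))))))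
 (Ls.cons (Ls.cons Ent.zero (Ls.cons Ent.zero (Ls.cons Ent.zero (Ls.cons Ent.zero (Ls.cons Ent.zero (Ls.cons Ent.zero (Ls.cons (Ent.neg F13_18_11_9) (Ls.cons (Ent.neg F13_17_11_9) (Ls.cons (Ent.neg F13_16_11_9) (Ls.cons (Ent.neg F13_15_11_9) (Ls.cons (Ent.neg F13_14_11_9) (Ls.cons (Ent.neg F13_13_11_9) (Ls.cons (Ent.neg F13_12_11_9) (Ls.cons Ent.zero (Ls.cons (Ent.pos F13_11_10_9) (Ls.cons Ent.zero (Ls.cons (Ent.neg F13_11_9_8) (Ls.cons (Ent.neg F13_11_9_7) (Ls.cons (Ent.neg F13_11_9_6) (Ls.cons (Ent.neg F13_11_9_5) (Ls.cons (Ent.neg F13_11_9_4) (Ls.cons (Ent.neg F13_11_9_3) (Ls.cons (Ent.neg F13_11_9_2) (Ls.cons (Ent.neg F13_11_9_1) (Ls.cons (Ent.pos F13_11_9_0) Ls.nil)))))))))))))))))))))))))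
 (Ls.cons (Ls.cons Ent.zero (Ls.cons Ent.zero (Ls.cons Ent.zero (Ls.cons Ent.zero (Ls.cons Ent.zero (Ls.cons Ent.zero (Ls.cons (Ent.neg F13_18_10_9) (Ls.cons (Ent.neg F13_17_10_9) (Ls.cons (Ent.neg F13_16_10_9) (Ls.cons (Ent.neg F13_15_10_9) (Ls.cons (Ent.neg F13_14_10_9) (Ls.cons (Ent.neg F13_13_10_9) (Ls.cons (Ent.neg F13_12_10_9) (Ls.cons (Ent.neg F13_11_10_9) (Ls.cons Ent.zero (Ls.cons Ent.zero (Ls.cons (Ent.neg F13_10_9_8) (Ls.cons (Ent.neg F13_10_9_7) (Ls.cons (Ent.neg F13_10_9_6) (Ls.cons (Ent.neg F13_10_9_5) (Ls.cons (Ent.neg F13_10_9_4) (Ls.cons (Ent.neg F13_10_9_3) (Ls.cons (Ent.neg F13_10_9_2) (Ls.cons (Ent.neg F13_10_9_1) (Ls.cons (Ent.pos F13_10_9_0) Ls.nil)))))))))))))))))))))))))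
 (Ls.cons (Ls.cons Ent.zero (Ls.cons Ent.zero (Ls.cons Ent.zero (Ls.cons Ent.zero (Ls.cons Ent.zero (Ls.cons Ent.zero (Ls.cons Ent.zero (Ls.cons Ent.zero (Ls.cons Ent.zero (Ls.cons Ent.zero (Ls.cons Ent.zero (Ls.cons Ent.zero (Ls.cons Ent.zero (Ls.cons Ent.zero (Ls.cons Ent.zero (Ls.cons Ent.zero (Ls.cons Ent.zero (Ls.cons Ent.zero (Ls.cons Ent.zero (Ls.cons Ent.zero (Ls.cons Ent.zero (Ls.cons Ent.zero (Ls.cons Ent.zero (Ls.cons Ent.zero (Ls.cons Ent.zero Ls.nil)))))))))))))))))))))))))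
 (Ls.cons (Ls.cons Ent.zero (Ls.cons Ent.zero (Ls.cons Ent.zero (Ls.cons Ent.zero (Ls.cons Ent.zero (Ls.cons (Ent.pos F13_19_9_8) (Ls.cons (Ent.pos F13_18_9_8) (Ls.cons (Ent.pos F13_17_9_8) (Ls.cons (Ent.pos F13_16_9_8) (Ls.cons (Ent.pos F13_15_9_8) (Ls.cons (Ent.pos F13_14_9_8) (Ls.cons (Ent.pos F13_13_9_8) (Ls.cons (Ent.pos F13_12_9_8) (Ls.cons (Ent.pos F13_11_9_8) (Ls.cons (Ent.pos F13_10_9_8) (Ls.cons Ent.zero (Ls.cons Ent.zero (Ls.cons (Ent.pos F13_9_8_7) (Ls.cons (Ent.pos F13_9_8_6) (Ls.cons (Ent.pos F13_9_8_5) (Ls.cons (Ent.pos F13_9_8_4) (Ls.cons (Ent.pos F13_9_8_3) (Ls.cons (Ent.pos F13_9_8_2) (Ls.cons (Ent.pos F13_9_8_1) (Ls.cons (Ent.neg F13_9_8_0) Ls.nil)))))))))))))))))))))))))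
 (Ls.cons (Ls.cons Ent.zero (Ls.cons Ent.zero (Ls.cons Ent.zero (Ls.cons Ent.zero (Ls.cons Ent.zero (Ls.cons (Ent.pos F13_19_9_7) (Ls.cons (Ent.pos F13_18_9_7) (Ls.cons (Ent.pos F13_17_9_7) (Ls.cons (Ent.pos F13_16_9_7) (Ls.cons (Ent.pos F13_15_9_7) (Ls.cons (Ent.pos F13_14_9_7) (Ls.cons (Ent.pos F13_13_9_7) (Ls.cons (Ent.pos F13_12_9_7) (Ls.cons (Ent.pos F13_11_9_7) (Ls.cons (Ent.pos F13_10_9_7) (Ls.cons Ent.zero (Ls.cons (Ent.neg F13_9_8_7) (Ls.cons Ent.zero (Ls.cons (Ent.pos F13_9_7_6) (Ls.cons (Ent.pos F13_9_7_5) (Ls.cons (Ent.pos F13_9_7_4) (Ls.cons (Ent.pos F13_9_7_3) (Ls.cons (Ent.pos F13_9_7_2) (Ls.cons (Ent.pos F13_9_7_1) (Ls.cons (Ent.neg F13_9_7_0) Ls.nil)))))))))))))))))))))))))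
 (Ls.cons (Ls.cons Ent.zero (Ls.cons Ent.zero (Ls.cons Ent.zero (Ls.cons Ent.zero (Ls.cons Ent.zero (Ls.cons (Ent.pos F13_19_9_6) (Ls.cons (Ent.pos F13_18_9_6) (Ls.cons (Ent.pos F13_17_9_6) (Ls.cons (Ent.pos F13_16_9_6) (Ls.cons (Ent.pos F13_15_9_6) (Ls.cons (Ent.pos F13_14_9_6) (Ls.cons (Ent.pos F13_13_9_6) (Ls.cons (Ent.pos F13_12_9_6) (Ls.cons (Ent.pos F13_11_9_6) (Ls.cons (Ent.pos F13_10_9_6) (Ls.cons Ent.zero (Ls.cons (Ent.neg F13_9_8_6) (Ls.cons (Ent.neg F13_9_7_6) (Ls.cons Ent.zero (Ls.cons (Ent.pos F13_9_6_5) (Ls.cons (Ent.pos F13_9_6_4) (Ls.cons (Ent.pos F13_9_6_3) (Ls.cons (Ent.pos F13_9_6_2) (Ls.cons (Ent.pos F13_9_6_1) (Ls.cons (Ent.neg F13_9_6_0) Ls.nil)))))))))))))))))))))))))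
 (Ls.cons (Ls.cons Ent.zero (Ls.cons Ent.zero (Ls.cons Ent.zero (Ls.cons Ent.zero (Ls.cons Ent.zero (Ls.cons (Ent.pos F13_19_9_5) (Ls.cons (Ent.pos F13_18_9_5) (Ls.cons (Ent.pos F13_17_9_5) (Ls.cons (Ent.pos F13_16_9_5) (Ls.cons (Ent.pos F13_15_9_5) (Ls.cons (Ent.pos F13_14_9_5) (Ls.cons (Ent.pos F13_13_9_5) (Ls.cons (Ent.pos F13_12_9_5) (Ls.cons (Ent.pos F13_11_9_5) (Ls.cons (Ent.pos F13_10_9_5) (Ls.cons Ent.zero (Ls.cons (Ent.neg F13_9_8_5) (Ls.cons (Ent.neg F13_9_7_5) (Ls.cons (Ent.neg F13_9_6_5) (Ls.cons Ent.zero (Ls.cons (Ent.pos F13_9_5_4) (Ls.cons (Ent.pos F13_9_5_3) (Ls.cons (Ent.pos F13_9_5_2) (Ls.cons (Ent.pos F13_9_5_1) (Ls.cons (Ent.neg F13_9_5_0) Ls.nil)))))))))))))))))))))))))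
 (Ls.cons (Ls.cons Ent.zero (Ls.cons Ent.zero (Ls.cons Ent.zero (Ls.cons Ent.zero (Ls.cons (Ent.pos F13_20_9_4) (Ls.cons (Ent.pos F13_19_9_4) (Ls.cons (Ent.pos F13_18_9_4) (Ls.cons (Ent.pos F13_17_9_4) (Ls.cons (Ent.pos F13_16_9_4) (Ls.cons (Ent.pos F13_15_9_4) (Ls.cons (Ent.pos F13_14_9_4) (Ls.cons (Ent.pos F13_13_9_4) (Ls.cons (Ent.pos F13_12_9_4) (Ls.cons (Ent.pos F13_11_9_4) (Ls.cons (Ent.pos F13_10_9_4) (Ls.cons Ent.zero (Ls.cons (Ent.neg F13_9_8_4) (Ls.cons (Ent.neg F13_9_7_4) (Ls.cons (Ent.neg F13_9_6_4) (Ls.cons (Ent.neg F13_9_5_4) (Ls.cons Ent.zero (Ls.cons (Ent.pos F13_9_4_3) (Ls.cons (Ent.pos F13_9_4_2) (Ls.cons (Ent.pos F13_9_4_1) (Ls.cons (Ent.neg F13_9_4_0) Ls.nil)))))))))))))))))))))))))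
 (Ls.cons (Ls.cons Ent.zero (Ls.cons Ent.zero (Ls.cons Ent.zero (Ls.cons Ent.zero (Ls.cons (Ent.pos F13_20_9_3) (Ls.cons (Ent.pos F13_19_9_3) (Ls.cons (Ent.pos F13_18_9_3) (Ls.cons (Ent.pos F13_17_9_3) (Ls.cons (Ent.pos F13_16_9_3) (Ls.cons (Ent.pos F13_15_9_3) (Ls.cons (Ent.pos F13_14_9_3) (Ls.cons (Ent.pos F13_13_9_3) (Ls.cons (Ent.pos F13_12_9_3) (Ls.cons (Ent.pos F13_11_9_3) (Ls.cons (Ent.pos F13_10_9_3) (Ls.cons Ent.zero (Ls.cons (Ent.neg F13_9_8_3) (Ls.cons (Ent.neg F13_9_7_3) (Ls.cons (Ent.neg F13_9_6_3) (Ls.cons (Ent.neg F13_9_5_3) (Ls.cons (Ent.neg F13_9_4_3) (Ls.cons Ent.zero (Ls.cons (Ent.pos F13_9_3_2) (Ls.cons (Ent.pos F13_9_3_1) (Ls.cons (Ent.neg F13_9_3_0) Ls.nil)))))))))))))))))))))))))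
 (Ls.cons (Ls.cons Ent.zero (Ls.cons Ent.zero (Ls.cons Ent.zero (Ls.cons Ent.zero (Ls.cons (Ent.pos F13_20_9_2) (Ls.cons (Ent.pos F13_19_9_2) (Ls.cons (Ent.pos F13_18_9_2) (Ls.cons (Ent.pos F13_17_9_2) (Ls.cons (Ent.pos F13_16_9_2) (Ls.cons (Ent.pos F13_15_9_2) (Ls.cons (Ent.pos F13_14_9_2) (Ls.cons (Ent.pos F13_13_9_2) (Ls.cons (Ent.pos F13_12_9_2) (Ls.cons (Ent.pos F13_11_9_2) (Ls.cons (Ent.pos F13_10_9_2) (Ls.cons Ent.zero (Ls.cons (Ent.neg F13_9_8_2) (Ls.cons (Ent.neg F13_9_7_2) (Ls.cons (Ent.neg F13_9_6_2) (Ls.cons (Ent.neg F13_9_5_2) (Ls.cons (Ent.neg F13_9_4_2) (Ls.cons (Ent.neg F13_9_3_2) (Ls.cons Ent.zero (Ls.cons (Ent.pos F13_9_2_1) (Ls.cons (Ent.neg F13_9_2_0) Ls.nil)))))))))))))))))))))))))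
 (Ls.cons (Ls.cons Ent.zero (Ls.cons Ent.zero (Ls.cons Ent.zero (Ls.cons Ent.zero (Ls.cons (Ent.pos F13_20_9_1) (Ls.cons (Ent.pos F13_19_9_1) (Ls.cons (Ent.pos F13_18_9_1) (Ls.cons (Ent.pos F13_17_9_1) (Ls.cons (Ent.pos F13_16_9_1) (Ls.cons (Ent.pos F13_15_9_1) (Ls.cons (Ent.pos F13_14_9_1) (Ls.cons (Ent.pos F13_13_9_1) (Ls.cons (Ent.pos F13_12_9_1) (Ls.cons (Ent.pos F13_11_9_1) (Ls.cons (Ent.pos F13_10_9_1) (Ls.cons Ent.zero (Ls.cons (Ent.neg F13_9_8_1) (Ls.cons (Ent.neg F13_9_7_1) (Ls.cons (Ent.neg F13_9_6_1) (Ls.cons (Ent.neg F13_9_5_1) (Ls.cons (Ent.neg F13_9_4_1) (Ls.cons (Ent.neg F13_9_3_1) (Ls.cons (Ent.neg F13_9_2_1) (Ls.cons Ent.zero (Ls.cons (Ent.pos F13_9_1_0) Ls.nil)))))))))))))))))))))))))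
 (Ls.cons (Ls.cons Ent.zero (Ls.cons Ent.zero (Ls.cons (Ent.neg F13_22_9_0) (Ls.cons (Ent.neg F13_21_9_0) (Ls.cons (Ent.neg F13_20_9_0) (Ls.cons (Ent.neg F13_19_9_0) (Ls.cons (Ent.neg F13_18_9_0) (Ls.cons (Ent.neg F13_17_9_0) (Ls.cons (Ent.neg F13_16_9_0) (Ls.cons (Ent.neg F13_15_9_0) (Ls.cons (Ent.neg F13_14_9_0) (Ls.cons (Ent.neg F13_13_9_0) (Ls.cons (Ent.neg F13_12_9_0) (Ls.cons (Ent.neg F13_11_9_0) (Ls.cons (Ent.neg F13_10_9_0) (Ls.cons Ent.zero (Ls.cons (Ent.pos F13_9_8_0) (Ls.cons (Ent.pos F13_9_7_0) (Ls.cons (Ent.pos F13_9_6_0) (Ls.cons (Ent.pos F13_9_5_0) (Ls.cons (Ent.pos F13_9_4_0) (Ls.cons (Ent.pos F13_9_3_0) (Ls.cons (Ent.pos F13_9_2_0) (Ls.cons (Ent.neg F13_9_1_0) (Ls.cons Ent.zero Ls.nil)))))))))))))))))))))))))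
 Ls.nil))))))))))))))))))))

noncomputable def bxF13_10 : L2 :=
 (Ls.cons (Ls.cons Ent.zero (Ls.cons Ent.zero (Ls.cons Ent.zero (Ls.cons Ent.zero (Ls.cons Ent.zero (Ls.cons Ent.zero (Ls.cons Ent.zero (Ls.cons Ent.zero (Ls.cons Ent.zero (Ls.cons Ent.zero (Ls.cons Ent.zero (Ls.cons Ent.zero (Ls.cons Ent.zero (Ls.cons Ent.zero (Ls.cons Ent.zero (Ls.cons Ent.zero (Ls.cons Ent.zero (Ls.cons (Ent.neg F13_19_10_7) (Ls.cons (Ent.neg F13_19_10_6) (Ls.cons (Ent.neg F13_19_10_5) (Ls.cons (Ent.neg F13_19_10_4) (Ls.cons (Ent.neg F13_19_10_3) (Ls.cons (Ent.neg F13_19_10_2) (Ls.cons (Ent.neg F13_19_10_1) (Ls.cons (Ent.pos F13_19_10_0) Ls.nil)))))))))))))))))))))))))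
 (Ls.cons (Ls.cons Ent.zero (Ls.cons Ent.zero (Ls.cons Ent.zero (Ls.cons Ent.zero (Ls.cons Ent.zero (Ls.cons Ent.zero (Ls.cons Ent.zero (Ls.cons Ent.zero (Ls.cons Ent.zero (Ls.cons Ent.zero (Ls.cons Ent.zero (Ls.cons Ent.zero (Ls.cons Ent.zero (Ls.cons (Ent.pos F13_18_11_10) (Ls.cons Ent.zero (Ls.cons (Ent.neg F13_18_10_9) (Ls.cons (Ent.neg F13_18_10_8) (Ls.cons (Ent.neg F13_18_10_7) (Ls.cons (Ent.neg F13_18_10_6) (Ls.cons (Ent.neg F13_18_10_5) (Ls.cons (Ent.neg F13_18_10_4) (Ls.cons (Ent.neg F13_18_10_3) (Ls.cons (Ent.neg F13_18_10_2) (Ls.cons (Ent.neg F13_18_10_1) (Ls.cons (Ent.pos F13_18_10_0) Ls.nil)))))))))))))))))))))))))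
 (Ls.cons (Ls.cons Ent.zero (Ls.cons Ent.zero (Ls.cons Ent.zero (Ls.cons Ent.zero (Ls.cons Ent.zero (Ls.cons Ent.zero (Ls.cons Ent.zero (Ls.cons Ent.zero (Ls.cons Ent.zero (Ls.cons (Ent.pos F13_17_15_10) (Ls.cons (Ent.pos F13_17_14_10) (Ls.cons (Ent.pos F13_17_13_10) (Ls.cons (Ent.pos F13_17_12_10) (Ls.cons (Ent.pos F13_17_11_10) (Ls.cons Ent.zero (Ls.cons (Ent.neg F13_17_10_9) (Ls.cons (Ent.neg F13_17_10_8) (Ls.cons (Ent.neg F13_17_10_7) (Ls.cons (Ent.neg F13_17_10_6) (Ls.cons (Ent.neg F13_17_10_5) (Ls.cons (Ent.neg F13_17_10_4) (Ls.cons (Ent.neg F13_17_10_3) (Ls.cons (Ent.neg F13_17_10_2) (Ls.cons (Ent.neg F13_17_10_1) (Ls.cons (Ent.pos F13_17_10_0) Ls.nil)))))))))))))))))))))))))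
 (Ls.cons (Ls.cons Ent.zero (Ls.cons Ent.zero (Ls.cons Ent.zero (Ls.cons Ent.zero (Ls.cons Ent.zero (Ls.cons Ent.zero (Ls.cons Ent.zero (Ls.cons Ent.zero (Ls.cons Ent.zero (Ls.cons (Ent.pos F13_16_15_10) (Ls.cons (Ent.pos F13_16_14_10) (Ls.cons (Ent.pos F13_16_13_10) (Ls.cons (Ent.pos F13_16_12_10) (Ls.cons (Ent.pos F13_16_11_10) (Ls.cons Ent.zero (Ls.cons (Ent.neg F13_16_10_9) (Ls.cons (Ent.neg F13_16_10_8) (Ls.cons (Ent.neg F13_16_10_7) (Ls.cons (Ent.neg F13_16_10_6) (Ls.cons (Ent.neg F13_16_10_5) (Ls.cons (Ent.neg F13_16_10_4) (Ls.cons (Ent.neg F13_16_10_3) (Ls.cons (Ent.neg F13_16_10_2) (Ls.cons (Ent.neg F13_16_10_1) (Ls.cons (Ent.pos F13_16_10_0) Ls.nil)))))))))))))))))))))))))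
 (Ls.cons (Ls.cons Ent.zero (Ls.cons Ent.zero (Ls.cons Ent.zero (Ls.cons Ent.zero (Ls.cons Ent.zero (Ls.cons Ent.zero (Ls.cons Ent.zero (Ls.cons (Ent.neg F13_17_15_10) (Ls.cons (Ent.neg F13_16_15_10) (Ls.cons Ent.zero (Ls.cons (Ent.pos F13_15_14_10) (Ls.cons (Ent.pos F13_15_13_10) (Ls.cons (Ent.pos F13_15_12_10) (Ls.cons (Ent.pos F13_15_11_10) (Ls.cons Ent.zero (Ls.cons (Ent.neg F13_15_10_9) (Ls.cons (Ent.neg F13_15_10_8) (Ls.cons (Ent.neg F13_15_10_7) (Ls.cons (Ent.neg F13_15_10_6) (Ls.cons (Ent.neg F13_15_10_5) (Ls.cons (Ent.neg F13_15_10_4) (Ls.cons (Ent.neg F13_15_10_3) (Ls.cons (Ent.neg F13_15_10_2) (Ls.cons (Ent.neg F13_15_10_1) (Ls.cons (Ent.pos F13_15_10_0) Ls.nil)))))))))))))))))))))))))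
 (Ls.cons (Ls.cons Ent.zero (Ls.cons Ent.zero (Ls.cons Ent.zero (Ls.cons Ent.zero (Ls.cons Ent.zero (Ls.cons Ent.zero (Ls.cons Ent.zero (Ls.cons (Ent.neg F13_17_14_10) (Ls.cons (Ent.neg F13_16_14_10) (Ls.cons (Ent.neg F13_15_14_10) (Ls.cons Ent.zero (Ls.cons (Ent.pos F13_14_13_10) (Ls.cons (Ent.pos F13_14_12_10) (Ls.cons (Ent.pos F13_14_11_10) (Ls.cons Ent.zero (Ls.cons (Ent.neg F13_14_10_9) (Ls.cons (Ent.neg F13_14_10_8) (Ls.cons (Ent.neg F13_14_10_7) (Ls.cons (Ent.neg F13_14_10_6) (Ls.cons (Ent.neg F13_14_10_5) (Ls.cons (Ent.neg F13_14_10_4) (Ls.cons (Ent.neg F13_14_10_3) (Ls.cons (Ent.neg F13_14_10_2) (Ls.cons (Ent.neg F13_14_10_1) (Ls.cons (Ent.pos F13_14_10_0) Ls.nil)))))))))))))))))))))))))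
 (Ls.cons (Ls.cons Ent.zero (Ls.cons Ent.zero (Ls.cons Ent.zero (Ls.cons Ent.zero (Ls.cons Ent.zero (Ls.cons Ent.zero (Ls.cons Ent.zero (Ls.cons (Ent.neg F13_17_13_10) (Ls.cons (Ent.neg F13_16_13_10) (Ls.cons (Ent.neg F13_15_13_10) (Ls.cons (Ent.neg F13_14_13_10) (Ls.cons Ent.zero (Ls.cons (Ent.pos F13_13_12_10) (Ls.cons (Ent.pos F13_13_11_10) (Ls.cons Ent.zero (Ls.cons (Ent.neg F13_13_10_9) (Ls.cons (Ent.neg F13_13_10_8) (Ls.cons (Ent.neg F13_13_10_7) (Ls.cons (Ent.neg F13_13_10_6) (Ls.cons (Ent.neg F13_13_10_5) (Ls.cons (Ent.neg F13_13_10_4) (Ls.cons (Ent.neg F13_13_10_3) (Ls.cons (Ent.neg F13_13_10_2) (Ls.cons (Ent.neg F13_13_10_1) (Ls.cons (Ent.pos F13_13_10_0) Ls.nil)))))))))))))))))))))))))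
 (Ls.cons (Ls.cons Ent.zero (Ls.cons Ent.zero (Ls.cons Ent.zero (Ls.cons Ent.zero (Ls.cons Ent.zero (Ls.cons Ent.zero (Ls.cons Ent.zero (Ls.cons (Ent.neg F13_17_12_10) (Ls.cons (Ent.neg F13_16_12_10) (Ls.cons (Ent.neg F13_15_12_10) (Ls.cons (Ent.neg F13_14_12_10) (Ls.cons (Ent.neg F13_13_12_10) (Ls.cons Ent.zero (Ls.cons (Ent.pos F13_12_11_10) (Ls.cons Ent.zero (Ls.cons (Ent.neg F13_12_10_9) (Ls.cons (Ent.neg F13_12_10_8) (Ls.cons (Ent.neg F13_12_10_7) (Ls.cons (Ent.neg F13_12_10_6) (Ls.cons (Ent.neg F13_12_10_5) (Ls.cons (Ent.neg F13_12_10_4) (Ls.cons (Ent.neg F13_12_10_3) (Ls.cons (Ent.neg F13_12_10_2) (Ls.cons (Ent.neg F13_12_10_1) (Ls.cons (Ent.pos F13_12_10_0) Ls.nil)))))))))))))))))))))))))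
 (Ls.cons (Ls.cons Ent.zero (Ls.cons Ent.zero (Ls.cons Ent.zero (Ls.cons Ent.zero (Ls.cons Ent.zero (Ls.cons Ent.zero (Ls.cons (Ent.neg F13_18_11_10) (Ls.cons (Ent.neg F13_17_11_10) (Ls.cons (Ent.neg F13_16_11_10) (Ls.cons (Ent.neg F13_15_11_10) (Ls.cons (Ent.neg F13_14_11_10) (Ls.cons (Ent.neg F13_13_11_10) (Ls.cons (Ent.neg F13_12_11_10) (Ls.cons Ent.zero (Ls.cons Ent.zero (Ls.cons (Ent.neg F13_11_10_9) (Ls.cons (Ent.neg F13_11_10_8) (Ls.cons (Ent.neg F13_11_10_7) (Ls.cons (Ent.neg F13_11_10_6) (Ls.cons (Ent.neg F13_11_10_5) (Ls.cons (Ent.neg F13_11_10_4) (Ls.cons (Ent.neg F13_11_10_3) (Ls.cons (Ent.neg F13_11_10_2) (Ls.cons (Ent.neg F13_11_10_1) (Ls.cons (Ent.pos F13_11_10_0) Ls.nil)))))))))))))))))))))))))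
 (Ls.cons (Ls.cons Ent.zero (Ls.cons Ent.zero (Ls.cons Ent.zero (Ls.cons Ent.zero (Ls.cons Ent.zero (Ls.cons Ent.zero (Ls.cons Ent.zero (Ls.cons Ent.zero (Ls.cons Ent.zero (Ls.cons Ent.zero (Ls.cons Ent.zero (Ls.cons Ent.zero (Ls.cons Ent.zero (Ls.cons Ent.zero (Ls.cons Ent.zero (Ls.cons Ent.zero (Ls.cons Ent.zero (Ls.cons Ent.zero (Ls.cons Ent.zero (Ls.cons Ent.zero (Ls.cons Ent.zero (Ls.cons Ent.zero (Ls.cons Ent.zero (Ls.cons Ent.zero (Ls.cons Ent.zero Ls.nil)))))))))))))))))))))))))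
 (Ls.cons (Ls.cons Ent.zero (Ls.cons Ent.zero (Ls.cons Ent.zero (Ls.cons Ent.zero (Ls.cons Ent.zero (Ls.cons Ent.zero (Ls.cons (Ent.pos F13_18_10_9) (Ls.cons (Ent.pos F13_17_10_9) (Ls.cons (Ent.pos F13_16_10_9) (Ls.cons (Ent.pos F13_15_10_9) (Ls.cons (Ent.pos F13_14_10_9) (Ls.cons (Ent.pos F13_13_10_9) (Ls.cons (Ent.pos F13_12_10_9) (Ls.cons (Ent.pos F13_11_10_9) (Ls.cons Ent.zero (Ls.cons Ent.zero (Ls.cons (Ent.pos F13_10_9_8) (Ls.cons (Ent.pos F13_10_9_7) (Ls.cons (Ent.pos F13_10_9_6) (Ls.cons (Ent.pos F13_10_9_5) (Ls.cons (Ent.pos F13_10_9_4) (Ls.cons (Ent.pos F13_10_9_3) (Ls.cons (Ent.pos F13_10_9_2) (Ls.cons (Ent.pos F13_10_9_1) (Ls.cons (Ent.neg F13_10_9_0) Ls.nil)))))))))))))))))))))))))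
 (Ls.cons (Ls.cons Ent.zero (Ls.cons Ent.zero (Ls.cons Ent.zero (Ls.cons Ent.zero (Ls.cons Ent.zero (Ls.cons Ent.zero (Ls.cons (Ent.pos F13_18_10_8) (Ls.cons (Ent.pos F13_17_10_8) (Ls.cons (Ent.pos F13_16_10_8) (Ls.cons (Ent.pos F13_15_10_8) (Ls.cons (Ent.pos F13_14_10_8) (Ls.cons (Ent.pos F13_13_10_8) (Ls.cons (Ent.pos F13_12_10_8) (Ls.cons (Ent.pos F13_11_10_8) (Ls.cons Ent.zero (Ls.cons (Ent.neg F13_10_9_8) (Ls.cons Ent.zero (Ls.cons (Ent.pos F13_10_8_7) (Ls.cons (Ent.pos F13_10_8_6) (Ls.cons (Ent.pos F13_10_8_5) (Ls.cons (Ent.pos F13_10_8_4) (Ls.cons (Ent.pos F13_10_8_3) (Ls.cons (Ent.pos F13_10_8_2) (Ls.cons (Ent.pos F13_10_8_1) (Ls.cons (Ent.neg F13_10_8_0) Ls.nil)))))))))))))))))))))))))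
 (Ls.cons (Ls.cons Ent.zero (Ls.cons Ent.zero (Ls.cons Ent.zero (Ls.cons Ent.zero (Ls.cons Ent.zero (Ls.cons (Ent.pos F13_19_10_7) (Ls.cons (Ent.pos F13_18_10_7) (Ls.cons (Ent.pos F13_17_10_7) (Ls.cons (Ent.pos F13_16_10_7) (Ls.cons (Ent.pos F13_15_10_7) (Ls.cons (Ent.pos F13_14_10_7) (Ls.cons (Ent.pos F13_13_10_7) (Ls.cons (Ent.pos F13_12_10_7) (Ls.cons (Ent.pos F13_11_10_7) (Ls.cons Ent.zero (Ls.cons (Ent.neg F13_10_9_7) (Ls.cons (Ent.neg F13_10_8_7) (Ls.cons Ent.zero (Ls.cons (Ent.pos F13_10_7_6) (Ls.cons (Ent.pos F13_10_7_5) (Ls.cons (Ent.pos F13_10_7_4) (Ls.cons (Ent.pos F13_10_7_3) (Ls.cons (Ent.pos F13_10_7_2) (Ls.cons (Ent.pos F13_10_7_1) (Ls.cons (Ent.neg F13_10_7_0) Ls.nil)))))))))))))))))))))))))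
 (Ls.cons (Ls.cons Ent.zero (Ls.cons Ent.zero (Ls.cons Ent.zero (Ls.cons Ent.zero (Ls.cons Ent.zero (Ls.cons (Ent.pos F13_19_10_6) (Ls.cons (Ent.pos F13_18_10_6) (Ls.cons (Ent.pos F13_17_10_6) (Ls.cons (Ent.pos F13_16_10_6) (Ls.cons (Ent.pos F13_15_10_6) (Ls.cons (Ent.pos F13_14_10_6) (Ls.cons (Ent.pos F13_13_10_6) (Ls.cons (Ent.pos F13_12_10_6) (Ls.cons (Ent.pos F13_11_10_6) (Ls.cons Ent.zero (Ls.cons (Ent.neg F13_10_9_6) (Ls.cons (Ent.neg F13_10_8_6) (Ls.cons (Ent.neg F13_10_7_6) (Ls.cons Ent.zero (Ls.cons (Ent.pos F13_10_6_5) (Ls.cons (Ent.pos F13_10_6_4) (Ls.cons (Ent.pos F13_10_6_3) (Ls.cons (Ent.pos F13_10_6_2) (Ls.cons (Ent.pos F13_10_6_1) (Ls.cons (Ent.neg F13_10_6_0) Ls.nil)))))))))))))))))))))))))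
 (Ls.cons (Ls.cons Ent.zero (Ls.cons Ent.zero (Ls.cons Ent.zero (Ls.cons Ent.zero (Ls.cons Ent.zero (Ls.cons (Ent.pos F13_19_10_5) (Ls.cons (Ent.pos F13_18_10_5) (Ls.cons (Ent.pos F13_17_10_5) (Ls.cons (Ent.pos F13_16_10_5) (Ls.cons (Ent.pos F13_15_10_5) (Ls.cons (Ent.pos F13_14_10_5) (Ls.cons (Ent.pos F13_13_10_5) (Ls.cons (Ent.pos F13_12_10_5) (Ls.cons (Ent.pos F13_11_10_5) (Ls.cons Ent.zero (Ls.cons (Ent.neg F13_10_9_5) (Ls.cons (Ent.neg F13_10_8_5) (Ls.cons (Ent.neg F13_10_7_5) (Ls.cons (Ent.neg F13_10_6_5) (Ls.cons Ent.zero (Ls.cons (Ent.pos F13_10_5_4) (Ls.cons (Ent.pos F13_10_5_3) (Ls.cons (Ent.pos F13_10_5_2) (Ls.cons (Ent.pos F13_10_5_1) (Ls.cons (Ent.neg F13_10_5_0) Ls.nil)))))))))))))))))))))))))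
 (Ls.cons (Ls.cons Ent.zero (Ls.cons Ent.zero (Ls.cons Ent.zero (Ls.cons Ent.zero (Ls.cons Ent.zero (Ls.cons (Ent.pos F13_19_10_4) (Ls.cons (Ent.pos F13_18_10_4) (Ls.cons (Ent.pos F13_17_10_4) (Ls.cons (Ent.pos F13_16_10_4) (Ls.cons (Ent.pos F13_15_10_4) (Ls.cons (Ent.pos F13_14_10_4) (Ls.cons (Ent.pos F13_13_10_4) (Ls.cons (Ent.pos F13_12_10_4) (Ls.cons (Ent.pos F13_11_10_4) (Ls.cons Ent.zero (Ls.cons (Ent.neg F13_10_9_4) (Ls.cons (Ent.neg F13_10_8_4) (Ls.cons (Ent.neg F13_10_7_4) (Ls.cons (Ent.neg F13_10_6_4) (Ls.cons (Ent.neg F13_10_5_4) (Ls.cons Ent.zero (Ls.cons (Ent.pos F13_10_4_3) (Ls.cons (Ent.pos F13_10_4_2) (Ls.cons (Ent.pos F13_10_4_1) (Ls.cons (Ent.neg F13_10_4_0) Ls.nil)))))))))))))))))))))))))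
 (Ls.cons (Ls.cons Ent.zero (Ls.cons Ent.zero (Ls.cons Ent.zero (Ls.cons Ent.zero (Ls.cons (Ent.pos F13_20_10_3) (Ls.cons (Ent.pos F13_19_10_3) (Ls.cons (Ent.pos F13_18_10_3) (Ls.cons (Ent.pos F13_17_10_3) (Ls.cons (Ent.pos F13_16_10_3) (Ls.cons (Ent.pos F13_15_10_3) (Ls.cons (Ent.pos F13_14_10_3) (Ls.cons (Ent.pos F13_13_10_3) (Ls.cons (Ent.pos F13_12_10_3) (Ls.cons (Ent.pos F13_11_10_3) (Ls.cons Ent.zero (Ls.cons (Ent.neg F13_10_9_3) (Ls.cons (Ent.neg F13_10_8_3) (Ls.cons (Ent.neg F13_10_7_3) (Ls.cons (Ent.neg F13_10_6_3) (Ls.cons (Ent.neg F13_10_5_3) (Ls.cons (Ent.neg F13_10_4_3) (Ls.cons Ent.zero (Ls.cons (Ent.pos F13_10_3_2) (Ls.cons (Ent.pos F13_10_3_1) (Ls.cons (Ent.neg F13_10_3_0) Ls.nil)))))))))))))))))))))))))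
 (Ls.cons (Ls.cons Ent.zero (Ls.cons Ent.zero (Ls.cons Ent.zero (Ls.cons Ent.zero (Ls.cons (Ent.pos F13_20_10_2) (Ls.cons (Ent.pos F13_19_10_2) (Ls.cons (Ent.pos F13_18_10_2) (Ls.cons (Ent.pos F13_17_10_2) (Ls.cons (Ent.pos F13_16_10_2) (Ls.cons (Ent.pos F13_15_10_2) (Ls.cons (Ent.pos F13_14_10_2) (Ls.cons (Ent.pos F13_13_10_2) (Ls.cons (Ent.pos F13_12_10_2) (Ls.cons (Ent.pos F13_11_10_2) (Ls.cons Ent.zero (Ls.cons (Ent.neg F13_10_9_2) (Ls.cons (Ent.neg F13_10_8_2) (Ls.cons (Ent.neg F13_10_7_2) (Ls.cons (Ent.neg F13_10_6_2) (Ls.cons (Ent.neg F13_10_5_2) (Ls.cons (Ent.neg F13_10_4_2) (Ls.cons (Ent.neg F13_10_3_2) (Ls.cons Ent.zero (Ls.cons (Ent.pos F13_10_2_1) (Ls.cons (Ent.neg F13_10_2_0) Ls.nil)))))))))))))))))))))))))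
 (Ls.cons (Ls.cons Ent.zero (Ls.cons Ent.zero (Ls.cons Ent.zero (Ls.cons Ent.zero (Ls.cons (Ent.pos F13_20_10_1) (Ls.cons (Ent.pos F13_19_10_1) (Ls.cons (Ent.pos F13_18_10_1) (Ls.cons (Ent.pos F13_17_10_1) (Ls.cons (Ent.pos F13_16_10_1) (Ls.cons (Ent.pos F13_15_10_1) (Ls.cons (Ent.pos F13_14_10_1) (Ls.cons (Ent.pos F13_13_10_1) (Ls.cons (Ent.pos F13_12_10_1) (Ls.cons (Ent.pos F13_11_10_1) (Ls.cons Ent.zero (Ls.cons (Ent.neg F13_10_9_1) (Ls.cons (Ent.neg F13_10_8_1) (Ls.cons (Ent.neg F13_10_7_1) (Ls.cons (Ent.neg F13_10_6_1) (Ls.cons (Ent.neg F13_10_5_1) (Ls.cons (Ent.neg F13_10_4_1) (Ls.cons (Ent.neg F13_10_3_1) (Ls.cons (Ent.neg F13_10_2_1) (Ls.cons Ent.zero (Ls.cons (Ent.pos F13_10_1_0) Ls.nil)))))))))))))))))))))))))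
 (Ls.cons (Ls.cons Ent.zero (Ls.cons Ent.zero (Ls.cons (Ent.neg F13_22_10_0) (Ls.cons (Ent.neg F13_21_10_0) (Ls.cons (Ent.neg F13_20_10_0) (Ls.cons (Ent.neg F13_19_10_0) (Ls.cons (Ent.neg F13_18_10_0) (Ls.cons (Ent.neg F13_17_10_0) (Ls.cons (Ent.neg F13_16_10_0) (Ls.cons (Ent.neg F13_15_10_0) (Ls.cons (Ent.neg F13_14_10_0) (Ls.cons (Ent.neg F13_13_10_0) (Ls.cons (Ent.neg F13_12_10_0) (Ls.cons (Ent.neg F13_11_10_0) (Ls.cons Ent.zero (Ls.cons (Ent.pos F13_10_9_0) (Ls.cons (Ent.pos F13_10_8_0) (Ls.cons (Ent.pos F13_10_7_0) (Ls.cons (Ent.pos F13_10_6_0) (Ls.cons (Ent.pos F13_10_5_0) (Ls.cons (Ent.pos F13_10_4_0) (Ls.cons (Ent.pos F13_10_3_0) (Ls.cons (Ent.pos F13_10_2_0) (Ls.cons (Ent.neg F13_10_1_0) (Ls.cons Ent.zero Ls.nil)))))))))))))))))))))))))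
 Ls.nil))))))))))))))))))))

noncomputable def bxF13_11 : L2 :=
 (Ls.cons (Ls.cons Ent.zero (Ls.cons Ent.zero (Ls.cons Ent.zero (Ls.cons Ent.zero (Ls.cons Ent.zero (Ls.cons Ent.zero (Ls.cons Ent.zero (Ls.cons Ent.zero (Ls.cons Ent.zero (Ls.cons Ent.zero (Ls.cons Ent.zero (Ls.cons Ent.zero (Ls.cons Ent.zero (Ls.cons Ent.zero (Ls.cons Ent.zero (Ls.cons Ent.zero (Ls.cons Ent.zero (Ls.cons Ent.zero (Ls.cons (Ent.neg F13_19_11_6) (Ls.cons (Ent.neg F13_19_11_5) (Ls.cons (Ent.neg F13_19_11_4) (Ls.cons (Ent.neg F13_19_11_3) (Ls.cons (Ent.neg F13_19_11_2) (Ls.cons (Ent.neg F13_19_11_1) (Ls.cons (Ent.pos F13_19_11_0) Ls.nil)))))))))))))))))))))))))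
 (Ls.cons (Ls.cons Ent.zero (Ls.cons Ent.zero (Ls.cons Ent.zero (Ls.cons Ent.zero (Ls.cons Ent.zero (Ls.cons Ent.zero (Ls.cons Ent.zero (Ls.cons Ent.zero (Ls.cons Ent.zero (Ls.cons Ent.zero (Ls.cons Ent.zero (Ls.cons Ent.zero (Ls.cons Ent.zero (Ls.cons Ent.zero (Ls.cons (Ent.neg F13_18_11_10) (Ls.cons (Ent.neg F13_18_11_9) (Ls.cons (Ent.neg F13_18_11_8) (Ls.cons (Ent.neg F13_18_11_7) (Ls.cons (Ent.neg F13_18_11_6) (Ls.cons (Ent.neg F13_18_11_5) (Ls.cons (Ent.neg F13_18_11_4) (Ls.cons (Ent.neg F13_18_11_3) (Ls.cons (Ent.neg F13_18_11_2) (Ls.cons (Ent.neg F13_18_11_1) (Ls.cons (Ent.pos F13_18_11_0) Ls.nil)))))))))))))))))))))))))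
 (Ls.cons (Ls.cons Ent.zero (Ls.cons Ent.zero (Ls.cons Ent.zero (Ls.cons Ent.zero (Ls.cons Ent.zero (Ls.cons Ent.zero (Ls.cons Ent.zero (Ls.cons Ent.zero (Ls.cons Ent.zero (Ls.cons Ent.zero (Ls.cons (Ent.pos F13_17_14_11) (Ls.cons (Ent.pos F13_17_13_11) (Ls.cons (Ent.pos F13_17_12_11) (Ls.cons Ent.zero (Ls.cons (Ent.neg F13_17_11_10) (Ls.cons (Ent.neg F13_17_11_9) (Ls.cons (Ent.neg F13_17_11_8) (Ls.cons (Ent.neg F13_17_11_7) (Ls.cons (Ent.neg F13_17_11_6) (Ls.cons (Ent.neg F13_17_11_5) (Ls.cons (Ent.neg F13_17_11_4) (Ls.cons (Ent.neg F13_17_11_3) (Ls.cons (Ent.neg F13_17_11_2) (Ls.cons (Ent.neg F13_17_11_1) (Ls.cons (Ent.pos F13_17_11_0) Ls.nil)))))))))))))))))))))))))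
 (Ls.cons (Ls.cons Ent.zero (Ls.cons Ent.zero (Ls.cons Ent.zero (Ls.cons Ent.zero (Ls.cons Ent.zero (Ls.cons Ent.zero (Ls.cons Ent.zero (Ls.cons Ent.zero (Ls.cons Ent.zero (Ls.cons (Ent.pos F13_16_15_11) (Ls.cons (Ent.pos F13_16_14_11) (Ls.cons (Ent.pos F13_16_13_11) (Ls.cons (Ent.pos F13_16_12_11) (Ls.cons Ent.zero (Ls.cons (Ent.neg F13_16_11_10) (Ls.cons (Ent.neg F13_16_11_9) (Ls.cons (Ent.neg F13_16_11_8) (Ls.cons (Ent.neg F13_16_11_7) (Ls.cons (Ent.neg F13_16_11_6) (Ls.cons (Ent.neg F13_16_11_5) (Ls.cons (Ent.neg F13_16_11_4) (Ls.cons (Ent.neg F13_16_11_3) (Ls.cons (Ent.neg F13_16_11_2) (Ls.cons (Ent.neg F13_16_11_1) (Ls.cons (Ent.pos F13_16_11_0) Ls.nil)))))))))))))))))))))))))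
 (Ls.cons (Ls.cons Ent.zero (Ls.cons Ent.zero (Ls.cons Ent.zero (Ls.cons Ent.zero (Ls.cons Ent.zero (Ls.cons Ent.zero (Ls.cons Ent.zero (Ls.cons Ent.zero (Ls.cons (Ent.neg F13_16_15_11) (Ls.cons Ent.zero (Ls.cons (Ent.pos F13_15_14_11) (Ls.cons (Ent.pos F13_15_13_11) (Ls.cons (Ent.pos F13_15_12_11) (Ls.cons Ent.zero (Ls.cons (Ent.neg F13_15_11_10) (Ls.cons (Ent.neg F13_15_11_9) (Ls.cons (Ent.neg F13_15_11_8) (Ls.cons (Ent.neg F13_15_11_7) (Ls.cons (Ent.neg F13_15_11_6) (Ls.cons (Ent.neg F13_15_11_5) (Ls.cons (Ent.neg F13_15_11_4) (Ls.cons (Ent.neg F13_15_11_3) (Ls.cons (Ent.neg F13_15_11_2) (Ls.cons (Ent.neg F13_15_11_1) (Ls.cons (Ent.pos F13_15_11_0) Ls.nil)))))))))))))))))))))))))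
 (Ls.cons (Ls.cons Ent.zero (Ls.cons Ent.zero (Ls.cons Ent.zero (Ls.cons Ent.zero (Ls.cons Ent.zero (Ls.cons Ent.zero (Ls.cons Ent.zero (Ls.cons (Ent.neg F13_17_14_11) (Ls.cons (Ent.neg F13_16_14_11) (Ls.cons (Ent.neg F13_15_14_11) (Ls.cons Ent.zero (Ls.cons (Ent.pos F13_14_13_11) (Ls.cons (Ent.pos F13_14_12_11) (Ls.cons Ent.zero (Ls.cons (Ent.neg F13_14_11_10) (Ls.cons (Ent.neg F13_14_11_9) (Ls.cons (Ent.neg F13_14_11_8) (Ls.cons (Ent.neg F13_14_11_7) (Ls.cons (Ent.neg F13_14_11_6) (Ls.cons (Ent.neg F13_14_11_5) (Ls.cons (Ent.neg F13_14_11_4) (Ls.cons (Ent.neg F13_14_11_3) (Ls.cons (Ent.neg F13_14_11_2) (Ls.cons (Ent.neg F13_14_11_1) (Ls.cons (Ent.pos F13_14_11_0) Ls.nil)))))))))))))))))))))))))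
 (Ls.cons (Ls.cons Ent.zero (Ls.cons Ent.zero (Ls.cons Ent.zero (Ls.cons Ent.zero (Ls.cons Ent.zero (Ls.cons Ent.zero (Ls.cons Ent.zero (Ls.cons (Ent.neg F13_17_13_11) (Ls.cons (Ent.neg F13_16_13_11) (Ls.cons (Ent.neg F13_15_13_11) (Ls.cons (Ent.neg F13_14_13_11) (Ls.cons Ent.zero (Ls.cons (Ent.pos F13_13_12_11) (Ls.cons Ent.zero (Ls.cons (Ent.neg F13_13_11_10) (Ls.cons (Ent.neg F13_13_11_9) (Ls.cons (Ent.neg F13_13_11_8) (Ls.cons (Ent.neg F13_13_11_7) (Ls.cons (Ent.neg F13_13_11_6) (Ls.cons (Ent.neg F13_13_11_5) (Ls.cons (Ent.neg F13_13_11_4) (Ls.cons (Ent.neg F13_13_11_3) (Ls.cons (Ent.neg F13_13_11_2) (Ls.cons (Ent.neg F13_13_11_1) (Ls.cons (Ent.pos F13_13_11_0) Ls.nil)))))))))))))))))))))))))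
 (Ls.cons (Ls.cons Ent.zero (Ls.cons Ent.zero (Ls.cons Ent.zero (Ls.cons Ent.zero (Ls.cons Ent.zero (Ls.cons Ent.zero (Ls.cons Ent.zero (Ls.cons (Ent.neg F13_17_12_11) (Ls.cons (Ent.neg F13_16_12_11) (Ls.cons (Ent.neg F13_15_12_11) (Ls.cons (Ent.neg F13_14_12_11) (Ls.cons (Ent.neg F13_13_12_11) (Ls.cons Ent.zero (Ls.cons Ent.zero (Ls.cons (Ent.neg F13_12_11_10) (Ls.cons (Ent.neg F13_12_11_9) (Ls.cons (Ent.neg F13_12_11_8) (Ls.cons (Ent.neg F13_12_11_7) (Ls.cons (Ent.neg F13_12_11_6) (Ls.cons (Ent.neg F13_12_11_5) (Ls.cons (Ent.neg F13_12_11_4) (Ls.cons (Ent.neg F13_12_11_3) (Ls.cons (Ent.neg F13_12_11_2) (Ls.cons (Ent.neg F13_12_11_1) (Ls.cons (Ent.pos F13_12_11_0) Ls.nil)))))))))))))))))))))))))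
 (Ls.cons (Ls.cons Ent.zero (Ls.cons Ent.zero (Ls.cons Ent.zero (Ls.cons Ent.zero (Ls.cons Ent.zero (Ls.cons Ent.zero (Ls.cons Ent.zero (Ls.cons Ent.zero (Ls.cons Ent.zero (Ls.cons Ent.zero (Ls.cons Ent.zero (Ls.cons Ent.zero (Ls.cons Ent.zero (Ls.cons Ent.zero (Ls.cons Ent.zero (Ls.cons Ent.zero (Ls.cons Ent.zero (Ls.cons Ent.zero (Ls.cons Ent.zero (Ls.cons Ent.zero (Ls.cons Ent.zero (Ls.cons Ent.zero (Ls.cons Ent.zero (Ls.cons Ent.zero (Ls.cons Ent.zero Ls.nil)))))))))))))))))))))))))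
 (Ls.cons (Ls.cons Ent.zero (Ls.cons Ent.zero (Ls.cons Ent.zero (Ls.cons Ent.zero (Ls.cons Ent.zero (Ls.cons Ent.zero (Ls.cons (Ent.pos F13_18_11_10) (Ls.cons (Ent.pos F13_17_11_10) (Ls.cons (Ent.pos F13_16_11_10) (Ls.cons (Ent.pos F13_15_11_10) (Ls.cons (Ent.pos F13_14_11_10) (Ls.cons (Ent.pos F13_13_11_10) (Ls.cons (Ent.pos F13_12_11_10) (Ls.cons Ent.zero (Ls.cons Ent.zero (Ls.cons (Ent.pos F13_11_10_9) (Ls.cons (Ent.pos F13_11_10_8) (Ls.cons (Ent.pos F13_11_10_7) (Ls.cons (Ent.pos F13_11_10_6) (Ls.cons (Ent.pos F13_11_10_5) (Ls.cons (Ent.pos F13_11_10_4) (Ls.cons (Ent.pos F13_11_10_3) (Ls.cons (Ent.pos F13_11_10_2) (Ls.cons (Ent.pos F13_11_10_1) (Ls.cons (Ent.neg F13_11_10_0) Ls.nil)))))))))))))))))))))))))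
 (Ls.cons (Ls.cons Ent.zero (Ls.cons Ent.zero (Ls.cons Ent.zero (Ls.cons Ent.zero (Ls.cons Ent.zero (Ls.cons Ent.zero (Ls.cons (Ent.pos F13_18_11_9) (Ls.cons (Ent.pos F13_17_11_9) (Ls.cons (Ent.pos F13_16_11_9) (Ls.cons (Ent.pos F13_15_11_9) (Ls.cons (Ent.pos F13_14_11_9) (Ls.cons (Ent.pos F13_13_11_9) (Ls.cons (Ent.pos F13_12_11_9) (Ls.cons Ent.zero (Ls.cons (Ent.neg F13_11_10_9) (Ls.cons Ent.zero (Ls.cons (Ent.pos F13_11_9_8) (Ls.cons (Ent.pos F13_11_9_7) (Ls.cons (Ent.pos F13_11_9_6) (Ls.cons (Ent.pos F13_11_9_5) (Ls.cons (Ent.pos F13_11_9_4) (Ls.cons (Ent.pos F13_11_9_3) (Ls.cons (Ent.pos F13_11_9_2) (Ls.cons (Ent.pos F13_11_9_1) (Ls.cons (Ent.neg F13_11_9_0) Ls.nil)))))))))))))))))))))))))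
 (Ls.cons (Ls.cons Ent.zero (Ls.cons Ent.zero (Ls.cons Ent.zero (Ls.cons Ent.zero (Ls.cons Ent.zero (Ls.cons Ent.zero (Ls.cons (Ent.pos F13_18_11_8) (Ls.cons (Ent.pos F13_17_11_8) (Ls.cons (Ent.pos F13_16_11_8) (Ls.cons (Ent.pos F13_15_11_8) (Ls.cons (Ent.pos F13_14_11_8) (Ls.cons (Ent.pos F13_13_11_8) (Ls.cons (Ent.pos F13_12_11_8) (Ls.cons Ent.zero (Ls.cons (Ent.neg F13_11_10_8) (Ls.cons (Ent.neg F13_11_9_8) (Ls.cons Ent.zero (Ls.cons (Ent.pos F13_11_8_7) (Ls.cons (Ent.pos F13_11_8_6) (Ls.cons (Ent.pos F13_11_8_5) (Ls.cons (Ent.pos F13_11_8_4) (Ls.cons (Ent.pos F13_11_8_3) (Ls.cons (Ent.pos F13_11_8_2) (Ls.cons (Ent.pos F13_11_8_1) (Ls.cons (Ent.neg F13_11_8_0) Ls.nil)))))))))))))))))))))))))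
 (Ls.cons (Ls.cons Ent.zero (Ls.cons Ent.zero (Ls.cons Ent.zero (Ls.cons Ent.zero (Ls.cons Ent.zero (Ls.cons Ent.zero (Ls.cons (Ent.pos F13_18_11_7) (Ls.cons (Ent.pos F13_17_11_7) (Ls.cons (Ent.pos F13_16_11_7) (Ls.cons (Ent.pos F13_15_11_7) (Ls.cons (Ent.pos F13_14_11_7) (Ls.cons (Ent.pos F13_13_11_7) (Ls.cons (Ent.pos F13_12_11_7) (Ls.cons Ent.zero (Ls.cons (Ent.neg F13_11_10_7) (Ls.cons (Ent.neg F13_11_9_7) (Ls.cons (Ent.neg F13_11_8_7) (Ls.cons Ent.zero (Ls.cons (Ent.pos F13_11_7_6) (Ls.cons (Ent.pos F13_11_7_5) (Ls.cons (Ent.pos F13_11_7_4) (Ls.cons (Ent.pos F13_11_7_3) (Ls.cons (Ent.pos F13_11_7_2) (Ls.cons (Ent.pos F13_11_7_1) (Ls.cons (Ent.neg F13_11_7_0) Ls.nil)))))))))))))))))))))))))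
 (Ls.cons (Ls.cons Ent.zero (Ls.cons Ent.zero (Ls.cons Ent.zero (Ls.cons Ent.zero (Ls.cons Ent.zero (Ls.cons (Ent.pos F13_19_11_6) (Ls.cons (Ent.pos F13_18_11_6) (Ls.cons (Ent.pos F13_17_11_6) (Ls.cons (Ent.pos F13_16_11_6) (Ls.cons (Ent.pos F13_15_11_6) (Ls.cons (Ent.pos F13_14_11_6) (Ls.cons (Ent.pos F13_13_11_6) (Ls.cons (Ent.pos F13_12_11_6) (Ls.cons Ent.zero (Ls.cons (Ent.neg F13_11_10_6) (Ls.cons (Ent.neg F13_11_9_6) (Ls.cons (Ent.neg F13_11_8_6) (Ls.cons (Ent.neg F13_11_7_6) (Ls.cons Ent.zero (Ls.cons (Ent.pos F13_11_6_5) (Ls.cons (Ent.pos F13_11_6_4) (Ls.cons (Ent.pos F13_11_6_3) (Ls.cons (Ent.pos F13_11_6_2) (Ls.cons (Ent.pos F13_11_6_1) (Ls.cons (Ent.neg F13_11_6_0) Ls.nil)))))))))))))))))))))))))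
 (Ls.cons (Ls.cons Ent.zero (Ls.cons Ent.zero (Ls.cons Ent.zero (Ls.cons Ent.zero (Ls.cons Ent.zero (Ls.cons (Ent.pos F13_19_11_5) (Ls.cons (Ent.pos F13_18_11_5) (Ls.cons (Ent.pos F13_17_11_5) (Ls.cons (Ent.pos F13_16_11_5) (Ls.cons (Ent.pos F13_15_11_5) (Ls.cons (Ent.pos F13_14_11_5) (Ls.cons (Ent.pos F13_13_11_5) (Ls.cons (Ent.pos F13_12_11_5) (Ls.cons Ent.zero (Ls.cons (Ent.neg F13_11_10_5) (Ls.cons (Ent.neg F13_11_9_5) (Ls.cons (Ent.neg F13_11_8_5) (Ls.cons (Ent.neg F13_11_7_5) (Ls.cons (Ent.neg F13_11_6_5) (Ls.cons Ent.zero (Ls.cons (Ent.pos F13_11_5_4) (Ls.cons (Ent.pos F13_11_5_3) (Ls.cons (Ent.pos F13_11_5_2) (Ls.cons (Ent.pos F13_11_5_1) (Ls.cons (Ent.neg F13_11_5_0) Ls.nil)))))))))))))))))))))))))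
 (Ls.cons (Ls.cons Ent.zero (Ls.cons Ent.zero (Ls.cons Ent.zero (Ls.cons Ent.zero (Ls.cons Ent.zero (Ls.cons (Ent.pos F13_19_11_4) (Ls.cons (Ent.pos F13_18_11_4) (Ls.cons (Ent.pos F13_17_11_4) (Ls.cons (Ent.pos F13_16_11_4) (Ls.cons (Ent.pos F13_15_11_4) (Ls.cons (Ent.pos F13_14_11_4) (Ls.cons (Ent.pos F13_13_11_4) (Ls.cons (Ent.pos F13_12_11_4) (Ls.cons Ent.zero (Ls.cons (Ent.neg F13_11_10_4) (Ls.cons (Ent.neg F13_11_9_4) (Ls.cons (Ent.neg F13_11_8_4) (Ls.cons (Ent.neg F13_11_7_4) (Ls.cons (Ent.neg F13_11_6_4) (Ls.cons (Ent.neg F13_11_5_4) (Ls.cons Ent.zero (Ls.cons (Ent.pos F13_11_4_3) (Ls.cons (Ent.pos F13_11_4_2) (Ls.cons (Ent.pos F13_11_4_1) (Ls.cons (Ent.neg F13_11_4_0) Ls.nil)))))))))))))))))))))))))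
 (Ls.cons (Ls.cons Ent.zero (Ls.cons Ent.zero (Ls.cons Ent.zero (Ls.cons Ent.zero (Ls.cons Ent.zero (Ls.cons (Ent.pos F13_19_11_3) (Ls.cons (Ent.pos F13_18_11_3) (Ls.cons (Ent.pos F13_17_11_3) (Ls.cons (Ent.pos F13_16_11_3) (Ls.cons (Ent.pos F13_15_11_3) (Ls.cons (Ent.pos F13_14_11_3) (Ls.cons (Ent.pos F13_13_11_3) (Ls.cons (Ent.pos F13_12_11_3) (Ls.cons Ent.zero (Ls.cons (Ent.neg F13_11_10_3) (Ls.cons (Ent.neg F13_11_9_3) (Ls.cons (Ent.neg F13_11_8_3) (Ls.cons (Ent.neg F13_11_7_3) (Ls.cons (Ent.neg F13_11_6_3) (Ls.cons (Ent.neg F13_11_5_3) (Ls.cons (Ent.neg F13_11_4_3) (Ls.cons Ent.zero (Ls.cons (Ent.pos F13_11_3_2) (Ls.cons (Ent.pos F13_11_3_1) (Ls.cons (Ent.neg F13_11_3_0) Ls.nil)))))))))))))))))))))))))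
 (Ls.cons (Ls.cons Ent.zero (Ls.cons Ent.zero (Ls.cons Ent.zero (Ls.cons Ent.zero (Ls.cons (Ent.pos F13_20_11_2) (Ls.cons (Ent.pos F13_19_11_2) (Ls.cons (Ent.pos F13_18_11_2) (Ls.cons (Ent.pos F13_17_11_2) (Ls.cons (Ent.pos F13_16_11_2) (Ls.cons (Ent.pos F13_15_11_2) (Ls.cons (Ent.pos F13_14_11_2) (Ls.cons (Ent.pos F13_13_11_2) (Ls.cons (Ent.pos F13_12_11_2) (Ls.cons Ent.zero (Ls.cons (Ent.neg F13_11_10_2) (Ls.cons (Ent.neg F13_11_9_2) (Ls.cons (Ent.neg F13_11_8_2) (Ls.cons (Ent.neg F13_11_7_2) (Ls.cons (Ent.neg F13_11_6_2) (Ls.cons (Ent.neg F13_11_5_2) (Ls.cons (Ent.neg F13_11_4_2) (Ls.cons (Ent.neg F13_11_3_2) (Ls.cons Ent.zero (Ls.cons (Ent.pos F13_11_2_1) (Ls.cons (Ent.neg F13_11_2_0) Ls.nil)))))))))))))))))))))))))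
 (Ls.cons (Ls.cons Ent.zero (Ls.cons Ent.zero (Ls.cons Ent.zero (Ls.cons Ent.zero (Ls.cons (Ent.pos F13_20_11_1) (Ls.cons (Ent.pos F13_19_11_1) (Ls.cons (Ent.pos F13_18_11_1) (Ls.cons (Ent.pos F13_17_11_1) (Ls.cons (Ent.pos F13_16_11_1) (Ls.cons (Ent.pos F13_15_11_1) (Ls.cons (Ent.pos F13_14_11_1) (Ls.cons (Ent.pos F13_13_11_1) (Ls.cons (Ent.pos F13_12_11_1) (Ls.cons Ent.zero (Ls.cons (Ent.neg F13_11_10_1) (Ls.cons (Ent.neg F13_11_9_1) (Ls.cons (Ent.neg F13_11_8_1) (Ls.cons (Ent.neg F13_11_7_1) (Ls.cons (Ent.neg F13_11_6_1) (Ls.cons (Ent.neg F13_11_5_1) (Ls.cons (Ent.neg F13_11_4_1) (Ls.cons (Ent.neg F13_11_3_1) (Ls.cons (Ent.neg F13_11_2_1) (Ls.cons Ent.zero (Ls.cons (Ent.pos F13_11_1_0) Ls.nil)))))))))))))))))))))))))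
 (Ls.cons (Ls.cons Ent.zero (Ls.cons Ent.zero (Ls.cons (Ent.neg F13_22_11_0) (Ls.cons (Ent.neg F13_21_11_0) (Ls.cons (Ent.neg F13_20_11_0) (Ls.cons (Ent.neg F13_19_11_0) (Ls.cons (Ent.neg F13_18_11_0) (Ls.cons (Ent.neg F13_17_11_0) (Ls.cons (Ent.neg F13_16_11_0) (Ls.cons (Ent.neg F13_15_11_0) (Ls.cons (Ent.neg F13_14_11_0) (Ls.cons (Ent.neg F13_13_11_0) (Ls.cons (Ent.neg F13_12_11_0) (Ls.cons Ent.zero (Ls.cons (Ent.pos F13_11_10_0) (Ls.cons (Ent.pos F13_11_9_0) (Ls.cons (Ent.pos F13_11_8_0) (Ls.cons (Ent.pos F13_11_7_0) (Ls.cons (Ent.pos F13_11_6_0) (Ls.cons (Ent.pos F13_11_5_0) (Ls.cons (Ent.pos F13_11_4_0) (Ls.cons (Ent.pos F13_11_3_0) (Ls.cons (Ent.pos F13_11_2_0) (Ls.cons (Ent.neg F13_11_1_0) (Ls.cons Ent.zero Ls.nil)))))))))))))))))))))))))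
 Ls.nil))))))))))))))))))))

noncomputable def bxF13_12 : L2 :=
 (Ls.cons (Ls.cons Ent.zero (Ls.cons Ent.zero (Ls.cons Ent.zero (Ls.cons Ent.zero (Ls.cons Ent.zero (Ls.cons Ent.zero (Ls.cons Ent.zero (Ls.cons Ent.zero (Ls.cons Ent.zero (Ls.cons Ent.zero (Ls.cons Ent.zero (Ls.cons Ent.zero (Ls.cons Ent.zero (Ls.cons Ent.zero (Ls.cons Ent.zero (Ls.cons Ent.zero (Ls.cons Ent.zero (Ls.cons Ent.zero (Ls.cons Ent.zero (Ls.cons (Ent.neg F13_19_12_5) (Ls.cons (Ent.neg F13_19_12_4) (Ls.cons (Ent.neg F13_19_12_3) (Ls.cons (Ent.neg F13_19_12_2) (Ls.cons (Ent.neg F13_19_12_1) (Ls.cons (Ent.pos F13_19_12_0) Ls.nil)))))))))))))))))))))))))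
 (Ls.cons (Ls.cons Ent.zero (Ls.cons Ent.zero (Ls.cons Ent.zero (Ls.cons Ent.zero (Ls.cons Ent.zero (Ls.cons Ent.zero (Ls.cons Ent.zero (Ls.cons Ent.zero (Ls.cons Ent.zero (Ls.cons Ent.zero (Ls.cons Ent.zero (Ls.cons Ent.zero (Ls.cons Ent.zero (Ls.cons Ent.zero (Ls.cons Ent.zero (Ls.cons (Ent.neg F13_18_12_9) (Ls.cons (Ent.neg F13_18_12_8) (Ls.cons (Ent.neg F13_18_12_7) (Ls.cons (Ent.neg F13_18_12_6) (Ls.cons (Ent.neg F13_18_12_5) (Ls.cons (Ent.neg F13_18_12_4) (Ls.cons (Ent.neg F13_18_12_3) (Ls.cons (Ent.neg F13_18_12_2) (Ls.cons (Ent.neg F13_18_12_1) (Ls.cons (Ent.pos F13_18_12_0) Ls.nil)))))))))))))))))))))))))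
 (Ls.cons (Ls.cons Ent.zero (Ls.cons Ent.zero (Ls.cons Ent.zero (Ls.cons Ent.zero (Ls.cons Ent.zero (Ls.cons Ent.zero (Ls.cons Ent.zero (Ls.cons Ent.zero (Ls.cons Ent.zero (Ls.cons Ent.zero (Ls.cons Ent.zero (Ls.cons (Ent.pos F13_17_13_12) (Ls.cons Ent.zero (Ls.cons (Ent.neg F13_17_12_11) (Ls.cons (Ent.neg F13_17_12_10) (Ls.cons (Ent.neg F13_17_12_9) (Ls.cons (Ent.neg F13_17_12_8) (Ls.cons (Ent.neg F13_17_12_7) (Ls.cons (Ent.neg F13_17_12_6) (Ls.cons (Ent.neg F13_17_12_5) (Ls.cons (Ent.neg F13_17_12_4) (Ls.cons (Ent.neg F13_17_12_3) (Ls.cons (Ent.neg F13_17_12_2) (Ls.cons (Ent.neg F13_17_12_1) (Ls.cons (Ent.pos F13_17_12_0) Ls.nil)))))))))))))))))))))))))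
 (Ls.cons (Ls.cons Ent.zero (Ls.cons Ent.zero (Ls.cons Ent.zero (Ls.cons Ent.zero (Ls.cons Ent.zero (Ls.cons Ent.zero (Ls.cons Ent.zero (Ls.cons Ent.zero (Ls.cons Ent.zero (Ls.cons (Ent.pos F13_16_15_12) (Ls.cons (Ent.pos F13_16_14_12) (Ls.cons (Ent.pos F13_16_13_12) (Ls.cons Ent.zero (Ls.cons (Ent.neg F13_16_12_11) (Ls.cons (Ent.neg F13_16_12_10) (Ls.cons (Ent.neg F13_16_12_9) (Ls.cons (Ent.neg F13_16_12_8) (Ls.cons (Ent.neg F13_16_12_7) (Ls.cons (Ent.neg F13_16_12_6) (Ls.cons (Ent.neg F13_16_12_5) (Ls.cons (Ent.neg F13_16_12_4) (Ls.cons (Ent.neg F13_16_12_3) (Ls.cons (Ent.neg F13_16_12_2) (Ls.cons (Ent.neg F13_16_12_1) (Ls.cons (Ent.pos F13_16_12_0) Ls.nil)))))))))))))))))))))))))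
 (Ls.cons (Ls.cons Ent.zero (Ls.cons Ent.zero (Ls.cons Ent.zero (Ls.cons Ent.zero (Ls.cons Ent.zero (Ls.cons Ent.zero (Ls.cons Ent.zero (Ls.cons Ent.zero (Ls.cons (Ent.neg F13_16_15_12) (Ls.cons Ent.zero (Ls.cons (Ent.pos F13_15_14_12) (Ls.cons (Ent.pos F13_15_13_12) (Ls.cons Ent.zero (Ls.cons (Ent.neg F13_15_12_11) (Ls.cons (Ent.neg F13_15_12_10) (Ls.cons (Ent.neg F13_15_12_9) (Ls.cons (Ent.neg F13_15_12_8) (Ls.cons (Ent.neg F13_15_12_7) (Ls.cons (Ent.neg F13_15_12_6) (Ls.cons (Ent.neg F13_15_12_5) (Ls.cons (Ent.neg F13_15_12_4) (Ls.cons (Ent.neg F13_15_12_3) (Ls.cons (Ent.neg F13_15_12_2) (Ls.cons (Ent.neg F13_15_12_1) (Ls.cons (Ent.pos F13_15_12_0) Ls.nil)))))))))))))))))))))))))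
 (Ls.cons (Ls.cons Ent.zero (Ls.cons Ent.zero (Ls.cons Ent.zero (Ls.cons Ent.zero (Ls.cons Ent.zero (Ls.cons Ent.zero (Ls.cons Ent.zero (Ls.cons Ent.zero (Ls.cons (Ent.neg F13_16_14_12) (Ls.cons (Ent.neg F13_15_14_12) (Ls.cons Ent.zero (Ls.cons (Ent.pos F13_14_13_12) (Ls.cons Ent.zero (Ls.cons (Ent.neg F13_14_12_11) (Ls.cons (Ent.neg F13_14_12_10) (Ls.cons (Ent.neg F13_14_12_9) (Ls.cons (Ent.neg F13_14_12_8) (Ls.cons (Ent.neg F13_14_12_7) (Ls.cons (Ent.neg F13_14_12_6) (Ls.cons (Ent.neg F13_14_12_5) (Ls.cons (Ent.neg F13_14_12_4) (Ls.cons (Ent.neg F13_14_12_3) (Ls.cons (Ent.neg F13_14_12_2) (Ls.cons (Ent.neg F13_14_12_1) (Ls.cons (Ent.pos F13_14_12_0) Ls.nil)))))))))))))))))))))))))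
 (Ls.cons (Ls.cons Ent.zero (Ls.cons Ent.zero (Ls.cons Ent.zero (Ls.cons Ent.zero (Ls.cons Ent.zero (Ls.cons Ent.zero (Ls.cons Ent.zero (Ls.cons (Ent.neg F13_17_13_12) (Ls.cons (Ent.neg F13_16_13_12) (Ls.cons (Ent.neg F13_15_13_12) (Ls.cons (Ent.neg F13_14_13_12) (Ls.cons Ent.zero (Ls.cons Ent.zero (Ls.cons (Ent.neg F13_13_12_11) (Ls.cons (Ent.neg F13_13_12_10) (Ls.cons (Ent.neg F13_13_12_9) (Ls.cons (Ent.neg F13_13_12_8) (Ls.cons (Ent.neg F13_13_12_7) (Ls.cons (Ent.neg F13_13_12_6) (Ls.cons (Ent.neg F13_13_12_5) (Ls.cons (Ent.neg F13_13_12_4) (Ls.cons (Ent.neg F13_13_12_3) (Ls.cons (Ent.neg F13_13_12_2) (Ls.cons (Ent.neg F13_13_12_1) (Ls.cons (Ent.pos F13_13_12_0) Ls.nil)))))))))))))))))))))))))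
 (Ls.cons (Ls.cons Ent.zero (Ls.cons Ent.zero (Ls.cons Ent.zero (Ls.cons Ent.zero (Ls.cons Ent.zero (Ls.cons Ent.zero (Ls.cons Ent.zero (Ls.cons Ent.zero (Ls.cons Ent.zero (Ls.cons Ent.zero (Ls.cons Ent.zero (Ls.cons Ent.zero (Ls.cons Ent.zero (Ls.cons Ent.zero (Ls.cons Ent.zero (Ls.cons Ent.zero (Ls.cons Ent.zero (Ls.cons Ent.zero (Ls.cons Ent.zero (Ls.cons Ent.zero (Ls.cons Ent.zero (Ls.cons Ent.zero (Ls.cons Ent.zero (Ls.cons Ent.zero (Ls.cons Ent.zero Ls.nil)))))))))))))))))))))))))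
 (Ls.cons (Ls.cons Ent.zero (Ls.cons Ent.zero (Ls.cons Ent.zero (Ls.cons Ent.zero (Ls.cons Ent.zero (Ls.cons Ent.zero (Ls.cons Ent.zero (Ls.cons (Ent.pos F13_17_12_11) (Ls.cons (Ent.pos F13_16_12_11) (Ls.cons (Ent.pos F13_15_12_11) (Ls.cons (Ent.pos F13_14_12_11) (Ls.cons (Ent.pos F13_13_12_11) (Ls.cons Ent.zero (Ls.cons Ent.zero (Ls.cons (Ent.pos F13_12_11_10) (Ls.cons (Ent.pos F13_12_11_9) (Ls.cons (Ent.pos F13_12_11_8) (Ls.cons (Ent.pos F13_12_11_7) (Ls.cons (Ent.pos F13_12_11_6) (Ls.cons (Ent.pos F13_12_11_5) (Ls.cons (Ent.pos F13_12_11_4) (Ls.cons (Ent.pos F13_12_11_3) (Ls.cons (Ent.pos F13_12_11_2) (Ls.cons (Ent.pos F13_12_11_1) (Ls.cons (Ent.neg F13_12_11_0) Ls.nil)))))))))))))))))))))))))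
 (Ls.cons (Ls.cons Ent.zero (Ls.cons Ent.zero (Ls.cons Ent.zero (Ls.cons Ent.zero (Ls.cons Ent.zero (Ls.cons Ent.zero (Ls.cons Ent.zero (Ls.cons (Ent.pos F13_17_12_10) (Ls.cons (Ent.pos F13_16_12_10) (Ls.cons (Ent.pos F13_15_12_10) (Ls.cons (Ent.pos F13_14_12_10) (Ls.cons (Ent.pos F13_13_12_10) (Ls.cons Ent.zero (Ls.cons (Ent.neg F13_12_11_10) (Ls.cons Ent.zero (Ls.cons (Ent.pos F13_12_10_9) (Ls.cons (Ent.pos F13_12_10_8) (Ls.cons (Ent.pos F13_12_10_7) (Ls.cons (Ent.pos F13_12_10_6) (Ls.cons (Ent.pos F13_12_10_5) (Ls.cons (Ent.pos F13_12_10_4) (Ls.cons (Ent.pos F13_12_10_3) (Ls.cons (Ent.pos F13_12_10_2) (Ls.cons (Ent.pos F13_12_10_1) (Ls.cons (Ent.neg F13_12_10_0) Ls.nil)))))))))))))))))))))))))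
 (Ls.cons (Ls.cons Ent.zero (Ls.cons Ent.zero (Ls.cons Ent.zero (Ls.cons Ent.zero (Ls.cons Ent.zero (Ls.cons Ent.zero (Ls.cons (Ent.pos F13_18_12_9) (Ls.cons (Ent.pos F13_17_12_9) (Ls.cons (Ent.pos F13_16_12_9) (Ls.cons (Ent.pos F13_15_12_9) (Ls.cons (Ent.pos F13_14_12_9) (Ls.cons (Ent.pos F13_13_12_9) (Ls.cons Ent.zero (Ls.cons (Ent.neg F13_12_11_9) (Ls.cons (Ent.neg F13_12_10_9) (Ls.cons Ent.zero (Ls.cons (Ent.pos F13_12_9_8) (Ls.cons (Ent.pos F13_12_9_7) (Ls.cons (Ent.pos F13_12_9_6) (Ls.cons (Ent.pos F13_12_9_5) (Ls.cons (Ent.pos F13_12_9_4) (Ls.cons (Ent.pos F13_12_9_3) (Ls.cons (Ent.pos F13_12_9_2) (Ls.cons (Ent.pos F13_12_9_1) (Ls.cons (Ent.neg F13_12_9_0) Ls.nil)))))))))))))))))))))))))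
 (Ls.cons (Ls.cons Ent.zero (Ls.cons Ent.zero (Ls.cons Ent.zero (Ls.cons Ent.zero (Ls.cons Ent.zero (Ls.cons Ent.zero (Ls.cons (Ent.pos F13_18_12_8) (Ls.cons (Ent.pos F13_17_12_8) (Ls.cons (Ent.pos F13_16_12_8) (Ls.cons (Ent.pos F13_15_12_8) (Ls.cons (Ent.pos F13_14_12_8) (Ls.cons (Ent.pos F13_13_12_8) (Ls.cons Ent.zero (Ls.cons (Ent.neg F13_12_11_8) (Ls.cons (Ent.neg F13_12_10_8) (Ls.cons (Ent.neg F13_12_9_8) (Ls.cons Ent.zero (Ls.cons (Ent.pos F13_12_8_7) (Ls.cons (Ent.pos F13_12_8_6) (Ls.cons (Ent.pos F13_12_8_5) (Ls.cons (Ent.pos F13_12_8_4) (Ls.cons (Ent.pos F13_12_8_3) (Ls.cons (Ent.pos F13_12_8_2) (Ls.cons (Ent.pos F13_12_8_1) (Ls.cons (Ent.neg F13_12_8_0) Ls.nil)))))))))))))))))))))))))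
 (Ls.cons (Ls.cons Ent.zero (Ls.cons Ent.zero (Ls.cons Ent.zero (Ls.cons Ent.zero (Ls.cons Ent.zero (Ls.cons Ent.zero (Ls.cons (Ent.pos F13_18_12_7) (Ls.cons (Ent.pos F13_17_12_7) (Ls.cons (Ent.pos F13_16_12_7) (Ls.cons (Ent.pos F13_15_12_7) (Ls.cons (Ent.pos F13_14_12_7) (Ls.cons (Ent.pos F13_13_12_7) (Ls.cons Ent.zero (Ls.cons (Ent.neg F13_12_11_7) (Ls.cons (Ent.neg F13_12_10_7) (Ls.cons (Ent.neg F13_12_9_7) (Ls.cons (Ent.neg F13_12_8_7) (Ls.cons Ent.zero (Ls.cons (Ent.pos F13_12_7_6) (Ls.cons (Ent.pos F13_12_7_5) (Ls.cons (Ent.pos F13_12_7_4) (Ls.cons (Ent.pos F13_12_7_3) (Ls.cons (Ent.pos F13_12_7_2) (Ls.cons (Ent.pos F13_12_7_1) (Ls.cons (Ent.neg F13_12_7_0) Ls.nil)))))))))))))))))))))))))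
 (Ls.cons (Ls.cons Ent.zero (Ls.cons Ent.zero (Ls.cons Ent.zero (Ls.cons Ent.zero (Ls.cons Ent.zero (Ls.cons Ent.zero (Ls.cons (Ent.pos F13_18_12_6) (Ls.cons (Ent.pos F13_17_12_6) (Ls.cons (Ent.pos F13_16_12_6) (Ls.cons (Ent.pos F13_15_12_6) (Ls.cons (Ent.pos F13_14_12_6) (Ls.cons (Ent.pos F13_13_12_6) (Ls.cons Ent.zero (Ls.cons (Ent.neg F13_12_11_6) (Ls.cons (Ent.neg F13_12_10_6) (Ls.cons (Ent.neg F13_12_9_6) (Ls.cons (Ent.neg F13_12_8_6) (Ls.cons (Ent.neg F13_12_7_6) (Ls.cons Ent.zero (Ls.cons (Ent.pos F13_12_6_5) (Ls.cons (Ent.pos F13_12_6_4) (Ls.cons (Ent.pos F13_12_6_3) (Ls.cons (Ent.pos F13_12_6_2) (Ls.cons (Ent.pos F13_12_6_1) (Ls.cons (Ent.neg F13_12_6_0) Ls.nil)))))))))))))))))))))))))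
 (Ls.cons (Ls.cons Ent.zero (Ls.cons Ent.zero (Ls.cons Ent.zero (Ls.cons Ent.zero (Ls.cons Ent.zero (Ls.cons (Ent.pos F13_19_12_5) (Ls.cons (Ent.pos F13_18_12_5) (Ls.cons (Ent.pos F13_17_12_5) (Ls.cons (Ent.pos F13_16_12_5) (Ls.cons (Ent.pos F13_15_12_5) (Ls.cons (Ent.pos F13_14_12_5) (Ls.cons (Ent.pos F13_13_12_5) (Ls.cons Ent.zero (Ls.cons (Ent.neg F13_12_11_5) (Ls.cons (Ent.neg F13_12_10_5) (Ls.cons (Ent.neg F13_12_9_5) (Ls.cons (Ent.neg F13_12_8_5) (Ls.cons (Ent.neg F13_12_7_5) (Ls.cons (Ent.neg F13_12_6_5) (Ls.cons Ent.zero (Ls.cons (Ent.pos F13_12_5_4) (Ls.cons (Ent.pos F13_12_5_3) (Ls.cons (Ent.pos F13_12_5_2) (Ls.cons (Ent.pos F13_12_5_1) (Ls.cons (Ent.neg F13_12_5_0) Ls.nil)))))))))))))))))))))))))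
 (Ls.cons (Ls.cons Ent.zero (Ls.cons Ent.zero (Ls.cons Ent.zero (Ls.cons Ent.zero (Ls.cons Ent.zero (Ls.cons (Ent.pos F13_19_12_4) (Ls.cons (Ent.pos F13_18_12_4) (Ls.cons (Ent.pos F13_17_12_4) (Ls.cons (Ent.pos F13_16_12_4) (Ls.cons (Ent.pos F13_15_12_4) (Ls.cons (Ent.pos F13_14_12_4) (Ls.cons (Ent.pos F13_13_12_4) (Ls.cons Ent.zero (Ls.cons (Ent.neg F13_12_11_4) (Ls.cons (Ent.neg F13_12_10_4) (Ls.cons (Ent.neg F13_12_9_4) (Ls.cons (Ent.neg F13_12_8_4) (Ls.cons (Ent.neg F13_12_7_4) (Ls.cons (Ent.neg F13_12_6_4) (Ls.cons (Ent.neg F13_12_5_4) (Ls.cons Ent.zero (Ls.cons (Ent.pos F13_12_4_3) (Ls.cons (Ent.pos F13_12_4_2) (Ls.cons (Ent.pos F13_12_4_1) (Ls.cons (Ent.neg F13_12_4_0) Ls.nil)))))))))))))))))))))))))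
 (Ls.cons (Ls.cons Ent.zero (Ls.cons Ent.zero (Ls.cons Ent.zero (Ls.cons Ent.zero (Ls.cons Ent.zero (Ls.cons (Ent.pos F13_19_12_3) (Ls.cons (Ent.pos F13_18_12_3) (Ls.cons (Ent.pos F13_17_12_3) (Ls.cons (Ent.pos F13_16_12_3) (Ls.cons (Ent.pos F13_15_12_3) (Ls.cons (Ent.pos F13_14_12_3) (Ls.cons (Ent.pos F13_13_12_3) (Ls.cons Ent.zero (Ls.cons (Ent.neg F13_12_11_3) (Ls.cons (Ent.neg F13_12_10_3) (Ls.cons (Ent.neg F13_12_9_3) (Ls.cons (Ent.neg F13_12_8_3) (Ls.cons (Ent.neg F13_12_7_3) (Ls.cons (Ent.neg F13_12_6_3) (Ls.cons (Ent.neg F13_12_5_3) (Ls.cons (Ent.neg F13_12_4_3) (Ls.cons Ent.zero (Ls.cons (Ent.pos F13_12_3_2) (Ls.cons (Ent.pos F13_12_3_1) (Ls.cons (Ent.neg F13_12_3_0) Ls.nil)))))))))))))))))))))))))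
 (Ls.cons (Ls.cons Ent.zero (Ls.cons Ent.zero (Ls.cons Ent.zero (Ls.cons Ent.zero (Ls.cons Ent.zero (Ls.cons (Ent.pos F13_19_12_2) (Ls.cons (Ent.pos F13_18_12_2) (Ls.cons (Ent.pos F13_17_12_2) (Ls.cons (Ent.pos F13_16_12_2) (Ls.cons (Ent.pos F13_15_12_2) (Ls.cons (Ent.pos F13_14_12_2) (Ls.cons (Ent.pos F13_13_12_2) (Ls.cons Ent.zero (Ls.cons (Ent.neg F13_12_11_2) (Ls.cons (Ent.neg F13_12_10_2) (Ls.cons (Ent.neg F13_12_9_2) (Ls.cons (Ent.neg F13_12_8_2) (Ls.cons (Ent.neg F13_12_7_2) (Ls.cons (Ent.neg F13_12_6_2) (Ls.cons (Ent.neg F13_12_5_2) (Ls.cons (Ent.neg F13_12_4_2) (Ls.cons (Ent.neg F13_12_3_2) (Ls.cons Ent.zero (Ls.cons (Ent.pos F13_12_2_1) (Ls.cons (Ent.neg F13_12_2_0) Ls.nil)))))))))))))))))))))))))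
 (Ls.cons (Ls.cons Ent.zero (Ls.cons Ent.zero (Ls.cons Ent.zero (Ls.cons Ent.zero (Ls.cons (Ent.pos F13_20_12_1) (Ls.cons (Ent.pos F13_19_12_1) (Ls.cons (Ent.pos F13_18_12_1) (Ls.cons (Ent.pos F13_17_12_1) (Ls.cons (Ent.pos F13_16_12_1) (Ls.cons (Ent.pos F13_15_12_1) (Ls.cons (Ent.pos F13_14_12_1) (Ls.cons (Ent.pos F13_13_12_1) (Ls.cons Ent.zero (Ls.cons (Ent.neg F13_12_11_1) (Ls.cons (Ent.neg F13_12_10_1) (Ls.cons (Ent.neg F13_12_9_1) (Ls.cons (Ent.neg F13_12_8_1) (Ls.cons (Ent.neg F13_12_7_1) (Ls.cons (Ent.neg F13_12_6_1) (Ls.cons (Ent.neg F13_12_5_1) (Ls.cons (Ent.neg F13_12_4_1) (Ls.cons (Ent.neg F13_12_3_1) (Ls.cons (Ent.neg F13_12_2_1) (Ls.cons Ent.zero (Ls.cons (Ent.pos F13_12_1_0) Ls.nil)))))))))))))))))))))))))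
 (Ls.cons (Ls.cons Ent.zero (Ls.cons Ent.zero (Ls.cons Ent.zero (Ls.cons (Ent.neg F13_21_12_0) (Ls.cons (Ent.neg F13_20_12_0) (Ls.cons (Ent.neg F13_19_12_0) (Ls.cons (Ent.neg F13_18_12_0) (Ls.cons (Ent.neg F13_17_12_0) (Ls.cons (Ent.neg F13_16_12_0) (Ls.cons (Ent.neg F13_15_12_0) (Ls.cons (Ent.neg F13_14_12_0) (Ls.cons (Ent.neg F13_13_12_0) (Ls.cons Ent.zero (Ls.cons (Ent.pos F13_12_11_0) (Ls.cons (Ent.pos F13_12_10_0) (Ls.cons (Ent.pos F13_12_9_0) (Ls.cons (Ent.pos F13_12_8_0) (Ls.cons (Ent.pos F13_12_7_0) (Ls.cons (Ent.pos F13_12_6_0) (Ls.cons (Ent.pos F13_12_5_0) (Ls.cons (Ent.pos F13_12_4_0) (Ls.cons (Ent.pos F13_12_3_0) (Ls.cons (Ent.pos F13_12_2_0) (Ls.cons (Ent.neg F13_12_1_0) (Ls.cons Ent.zero Ls.nil)))))))))))))))))))))))))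
 Ls.nil))))))))))))))))))))

noncomputable def bxF13_13 : L2 :=
 (Ls.cons (Ls.cons Ent.zero (Ls.cons Ent.zero (Ls.cons Ent.zero (Ls.cons Ent.zero (Ls.cons Ent.zero (Ls.cons Ent.zero (Ls.cons Ent.zero (Ls.cons Ent.zero (Ls.cons Ent.zero (Ls.cons Ent.zero (Ls.cons Ent.zero (Ls.cons Ent.zero (Ls.cons Ent.zero (Ls.cons Ent.zero (Ls.cons Ent.zero (Ls.cons Ent.zero (Ls.cons Ent.zero (Ls.cons Ent.zero (Ls.cons Ent.zero (Ls.cons Ent.zero (Ls.cons (Ent.neg F13_19_13_4) (Ls.cons (Ent.neg F13_19_13_3) (Ls.cons (Ent.neg F13_19_13_2) (Ls.cons (Ent.neg F13_19_13_1) (Ls.cons (Ent.pos F13_19_13_0) Ls.nil)))))))))))))))))))))))))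
 (Ls.cons (Ls.cons Ent.zero (Ls.cons Ent.zero (Ls.cons Ent.zero (Ls.cons Ent.zero (Ls.cons Ent.zero (Ls.cons Ent.zero (Ls.cons Ent.zero (Ls.cons Ent.zero (Ls.cons Ent.zero (Ls.cons Ent.zero (Ls.cons Ent.zero (Ls.cons Ent.zero (Ls.cons Ent.zero (Ls.cons Ent.zero (Ls.cons Ent.zero (Ls.cons Ent.zero (Ls.cons (Ent.neg F13_18_13_8) (Ls.cons (Ent.neg F13_18_13_7) (Ls.cons (Ent.neg F13_18_13_6) (Ls.cons (Ent.neg F13_18_13_5) (Ls.cons (Ent.neg F13_18_13_4) (Ls.cons (Ent.neg F13_18_13_3) (Ls.cons (Ent.neg F13_18_13_2) (Ls.cons (Ent.neg F13_18_13_1) (Ls.cons (Ent.pos F13_18_13_0) Ls.nil)))))))))))))))))))))))))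
 (Ls.cons (Ls.cons Ent.zero (Ls.cons Ent.zero (Ls.cons Ent.zero (Ls.cons Ent.zero (Ls.cons Ent.zero (Ls.cons Ent.zero (Ls.cons Ent.zero (Ls.cons Ent.zero (Ls.cons Ent.zero (Ls.cons Ent.zero (Ls.cons Ent.zero (Ls.cons Ent.zero (Ls.cons (Ent.neg F13_17_13_12) (Ls.cons (Ent.neg F13_17_13_11) (Ls.cons (Ent.neg F13_17_13_10) (Ls.cons (Ent.neg F13_17_13_9) (Ls.cons (Ent.neg F13_17_13_8) (Ls.cons (Ent.neg F13_17_13_7) (Ls.cons (Ent.neg F13_17_13_6) (Ls.cons (Ent.neg F13_17_13_5) (Ls.cons (Ent.neg F13_17_13_4) (Ls.cons (Ent.neg F13_17_13_3) (Ls.cons (Ent.neg F13_17_13_2) (Ls.cons (Ent.neg F13_17_13_1) (Ls.cons (Ent.pos F13_17_13_0) Ls.nil)))))))))))))))))))))))))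
 (Ls.cons (Ls.cons Ent.zero (Ls.cons Ent.zero (Ls.cons Ent.zero (Ls.cons Ent.zero (Ls.cons Ent.zero (Ls.cons Ent.zero (Ls.cons Ent.zero (Ls.cons Ent.zero (Ls.cons Ent.zero (Ls.cons (Ent.pos F13_16_15_13) (Ls.cons (Ent.pos F13_16_14_13) (Ls.cons Ent.zero (Ls.cons (Ent.neg F13_16_13_12) (Ls.cons (Ent.neg F13_16_13_11) (Ls.cons (Ent.neg F13_16_13_10) (Ls.cons (Ent.neg F13_16_13_9) (Ls.cons (Ent.neg F13_16_13_8) (Ls.cons (Ent.neg F13_16_13_7) (Ls.cons (Ent.neg F13_16_13_6) (Ls.cons (Ent.neg F13_16_13_5) (Ls.cons (Ent.neg F13_16_13_4) (Ls.cons (Ent.neg F13_16_13_3) (Ls.cons (Ent.neg F13_16_13_2) (Ls.cons (Ent.neg F13_16_13_1) (Ls.cons (Ent.pos F13_16_13_0) Ls.nil)))))))))))))))))))))))))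
 (Ls.cons (Ls.cons Ent.zero (Ls.cons Ent.zero (Ls.cons Ent.zero (Ls.cons Ent.zero (Ls.cons Ent.zero (Ls.cons Ent.zero (Ls.cons Ent.zero (Ls.cons Ent.zero (Ls.cons (Ent.neg F13_16_15_13) (Ls.cons Ent.zero (Ls.cons (Ent.pos F13_15_14_13) (Ls.cons Ent.zero (Ls.cons (Ent.neg F13_15_13_12) (Ls.cons (Ent.neg F13_15_13_11) (Ls.cons (Ent.neg F13_15_13_10) (Ls.cons (Ent.neg F13_15_13_9) (Ls.cons (Ent.neg F13_15_13_8) (Ls.cons (Ent.neg F13_15_13_7) (Ls.cons (Ent.neg F13_15_13_6) (Ls.cons (Ent.neg F13_15_13_5) (Ls.cons (Ent.neg F13_15_13_4) (Ls.cons (Ent.neg F13_15_13_3) (Ls.cons (Ent.neg F13_15_13_2) (Ls.cons (Ent.neg F13_15_13_1) (Ls.cons (Ent.pos F13_15_13_0) Ls.nil)))))))))))))))))))))))))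
 (Ls.cons (Ls.cons Ent.zero (Ls.cons Ent.zero (Ls.cons Ent.zero (Ls.cons Ent.zero (Ls.cons Ent.zero (Ls.cons Ent.zero (Ls.cons Ent.zero (Ls.cons Ent.zero (Ls.cons (Ent.neg F13_16_14_13) (Ls.cons (Ent.neg F13_15_14_13) (Ls.cons Ent.zero (Ls.cons Ent.zero (Ls.cons (Ent.neg F13_14_13_12) (Ls.cons (Ent.neg F13_14_13_11) (Ls.cons (Ent.neg F13_14_13_10) (Ls.cons (Ent.neg F13_14_13_9) (Ls.cons (Ent.neg F13_14_13_8) (Ls.cons (Ent.neg F13_14_13_7) (Ls.cons (Ent.neg F13_14_13_6) (Ls.cons (Ent.neg F13_14_13_5) (Ls.cons (Ent.neg F13_14_13_4) (Ls.cons (Ent.neg F13_14_13_3) (Ls.cons (Ent.neg F13_14_13_2) (Ls.cons (Ent.neg F13_14_13_1) (Ls.cons (Ent.pos F13_14_13_0) Ls.nil)))))))))))))))))))))))))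
 (Ls.cons (Ls.cons Ent.zero (Ls.cons Ent.zero (Ls.cons Ent.zero (Ls.cons Ent.zero (Ls.cons Ent.zero (Ls.cons Ent.zero (Ls.cons Ent.zero (Ls.cons Ent.zero (Ls.cons Ent.zero (Ls.cons Ent.zero (Ls.cons Ent.zero (Ls.cons Ent.zero (Ls.cons Ent.zero (Ls.cons Ent.zero (Ls.cons Ent.zero (Ls.cons Ent.zero (Ls.cons Ent.zero (Ls.cons Ent.zero (Ls.cons Ent.zero (Ls.cons Ent.zero (Ls.cons Ent.zero (Ls.cons Ent.zero (Ls.cons Ent.zero (Ls.cons Ent.zero (Ls.cons Ent.zero Ls.nil)))))))))))))))))))))))))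
 (Ls.cons (Ls.cons Ent.zero (Ls.cons Ent.zero (Ls.cons Ent.zero (Ls.cons Ent.zero (Ls.cons Ent.zero (Ls.cons Ent.zero (Ls.cons Ent.zero (Ls.cons (Ent.pos F13_17_13_12) (Ls.cons (Ent.pos F13_16_13_12) (Ls.cons (Ent.pos F13_15_13_12) (Ls.cons (Ent.pos F13_14_13_12) (Ls.cons Ent.zero (Ls.cons Ent.zero (Ls.cons (Ent.pos F13_13_12_11) (Ls.cons (Ent.pos F13_13_12_10) (Ls.cons (Ent.pos F13_13_12_9) (Ls.cons (Ent.pos F13_13_12_8) (Ls.cons (Ent.pos F13_13_12_7) (Ls.cons (Ent.pos F13_13_12_6) (Ls.cons (Ent.pos F13_13_12_5) (Ls.cons (Ent.pos F13_13_12_4) (Ls.cons (Ent.pos F13_13_12_3) (Ls.cons (Ent.pos F13_13_12_2) (Ls.cons (Ent.pos F13_13_12_1) (Ls.cons (Ent.neg F13_13_12_0) Ls.nil)))))))))))))))))))))))))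
 (Ls.cons (Ls.cons Ent.zero (Ls.cons Ent.zero (Ls.cons Ent.zero (Ls.cons Ent.zero (Ls.cons Ent.zero (Ls.cons Ent.zero (Ls.cons Ent.zero (Ls.cons (Ent.pos F13_17_13_11) (Ls.cons (Ent.pos F13_16_13_11) (Ls.cons (Ent.pos F13_15_13_11) (Ls.cons (Ent.pos F13_14_13_11) (Ls.cons Ent.zero (Ls.cons (Ent.neg F13_13_12_11) (Ls.cons Ent.zero (Ls.cons (Ent.pos F13_13_11_10) (Ls.cons (Ent.pos F13_13_11_9) (Ls.cons (Ent.pos F13_13_11_8) (Ls.cons (Ent.pos F13_13_11_7) (Ls.cons (Ent.pos F13_13_11_6) (Ls.cons (Ent.pos F13_13_11_5) (Ls.cons (Ent.pos F13_13_11_4) (Ls.cons (Ent.pos F13_13_11_3) (Ls.cons (Ent.pos F13_13_11_2) (Ls.cons (Ent.pos F13_13_11_1) (Ls.cons (Ent.neg F13_13_11_0) Ls.nil)))))))))))))))))))))))))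
 (Ls.cons (Ls.cons Ent.zero (Ls.cons Ent.zero (Ls.cons Ent.zero (Ls.cons Ent.zero (Ls.cons Ent.zero (Ls.cons Ent.zero (Ls.cons Ent.zero (Ls.cons (Ent.pos F13_17_13_10) (Ls.cons (Ent.pos F13_16_13_10) (Ls.cons (Ent.pos F13_15_13_10) (Ls.cons (Ent.pos F13_14_13_10) (Ls.cons Ent.zero (Ls.cons (Ent.neg F13_13_12_10) (Ls.cons (Ent.neg F13_13_11_10) (Ls.cons Ent.zero (Ls.cons (Ent.pos F13_13_10_9) (Ls.cons (Ent.pos F13_13_10_8) (Ls.cons (Ent.pos F13_13_10_7) (Ls.cons (Ent.pos F13_13_10_6) (Ls.cons (Ent.pos F13_13_10_5) (Ls.cons (Ent.pos F13_13_10_4) (Ls.cons (Ent.pos F13_13_10_3) (Ls.cons (Ent.pos F13_13_10_2) (Ls.cons (Ent.pos F13_13_10_1) (Ls.cons (Ent.neg F13_13_10_0) Ls.nil)))))))))))))))))))))))))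
 (Ls.cons (Ls.cons Ent.zero (Ls.cons Ent.zero (Ls.cons Ent.zero (Ls.cons Ent.zero (Ls.cons Ent.zero (Ls.cons Ent.zero (Ls.cons Ent.zero (Ls.cons (Ent.pos F13_17_13_9) (Ls.cons (Ent.pos F13_16_13_9) (Ls.cons (Ent.pos F13_15_13_9) (Ls.cons (Ent.pos F13_14_13_9) (Ls.cons Ent.zero (Ls.cons (Ent.neg F13_13_12_9) (Ls.cons (Ent.neg F13_13_11_9) (Ls.cons (Ent.neg F13_13_10_9) (Ls.cons Ent.zero (Ls.cons (Ent.pos F13_13_9_8) (Ls.cons (Ent.pos F13_13_9_7) (Ls.cons (Ent.pos F13_13_9_6) (Ls.cons (Ent.pos F13_13_9_5) (Ls.cons (Ent.pos F13_13_9_4) (Ls.cons (Ent.pos F13_13_9_3) (Ls.cons (Ent.pos F13_13_9_2) (Ls.cons (Ent.pos F13_13_9_1) (Ls.cons (Ent.neg F13_13_9_0) Ls.nil)))))))))))))))))))))))))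
 (Ls.cons (Ls.cons Ent.zero (Ls.cons Ent.zero (Ls.cons Ent.zero (Ls.cons Ent.zero (Ls.cons Ent.zero (Ls.cons Ent.zero (Ls.cons (Ent.pos F13_18_13_8) (Ls.cons (Ent.pos F13_17_13_8) (Ls.cons (Ent.pos F13_16_13_8) (Ls.cons (Ent.pos F13_15_13_8) (Ls.cons (Ent.pos F13_14_13_8) (Ls.cons Ent.zero (Ls.cons (Ent.neg F13_13_12_8) (Ls.cons (Ent.neg F13_13_11_8) (Ls.cons (Ent.neg F13_13_10_8) (Ls.cons (Ent.neg F13_13_9_8) (Ls.cons Ent.zero (Ls.cons (Ent.pos F13_13_8_7) (Ls.cons (Ent.pos F13_13_8_6) (Ls.cons (Ent.pos F13_13_8_5) (Ls.cons (Ent.pos F13_13_8_4) (Ls.cons (Ent.pos F13_13_8_3) (Ls.cons (Ent.pos F13_13_8_2) (Ls.cons (Ent.pos F13_13_8_1) (Ls.cons (Ent.neg F13_13_8_0) Ls.nil)))))))))))))))))))))))))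
 (Ls.cons (Ls.cons Ent.zero (Ls.cons Ent.zero (Ls.cons Ent.zero (Ls.cons Ent.zero (Ls.cons Ent.zero (Ls.cons Ent.zero (Ls.cons (Ent.pos F13_18_13_7) (Ls.cons (Ent.pos F13_17_13_7) (Ls.cons (Ent.pos F13_16_13_7) (Ls.cons (Ent.pos F13_15_13_7) (Ls.cons (Ent.pos F13_14_13_7) (Ls.cons Ent.zero (Ls.cons (Ent.neg F13_13_12_7) (Ls.cons (Ent.neg F13_13_11_7) (Ls.cons (Ent.neg F13_13_10_7) (Ls.cons (Ent.neg F13_13_9_7) (Ls.cons (Ent.neg F13_13_8_7) (Ls.cons Ent.zero (Ls.cons (Ent.pos F13_13_7_6) (Ls.cons (Ent.pos F13_13_7_5) (Ls.cons (Ent.pos F13_13_7_4) (Ls.cons (Ent.pos F13_13_7_3) (Ls.cons (Ent.pos F13_13_7_2) (Ls.cons (Ent.pos F13_13_7_1) (Ls.cons (Ent.neg F13_13_7_0) Ls.nil)))))))))))))))))))))))))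
 (Ls.cons (Ls.cons Ent.zero (Ls.cons Ent.zero (Ls.cons Ent.zero (Ls.cons Ent.zero (Ls.cons Ent.zero (Ls.cons Ent.zero (Ls.cons (Ent.pos F13_18_13_6) (Ls.cons (Ent.pos F13_17_13_6) (Ls.cons (Ent.pos F13_16_13_6) (Ls.cons (Ent.pos F13_15_13_6) (Ls.cons (Ent.pos F13_14_13_6) (Ls.cons Ent.zero (Ls.cons (Ent.neg F13_13_12_6) (Ls.cons (Ent.neg F13_13_11_6) (Ls.cons (Ent.neg F13_13_10_6) (Ls.cons (Ent.neg F13_13_9_6) (Ls.cons (Ent.neg F13_13_8_6) (Ls.cons (Ent.neg F13_13_7_6) (Ls.cons Ent.zero (Ls.cons (Ent.pos F13_13_6_5) (Ls.cons (Ent.pos F13_13_6_4) (Ls.cons (Ent.pos F13_13_6_3) (Ls.cons (Ent.pos F13_13_6_2) (Ls.cons (Ent.pos F13_13_6_1) (Ls.cons (Ent.neg F13_13_6_0) Ls.nil)))))))))))))))))))))))))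
 (Ls.cons (Ls.cons Ent.zero (Ls.cons Ent.zero (Ls.cons Ent.zero (Ls.cons Ent.zero (Ls.cons Ent.zero (Ls.cons Ent.zero (Ls.cons (Ent.pos F13_18_13_5) (Ls.cons (Ent.pos F13_17_13_5) (Ls.cons (Ent.pos F13_16_13_5) (Ls.cons (Ent.pos F13_15_13_5) (Ls.cons (Ent.pos F13_14_13_5) (Ls.cons Ent.zero (Ls.cons (Ent.neg F13_13_12_5) (Ls.cons (Ent.neg F13_13_11_5) (Ls.cons (Ent.neg F13_13_10_5) (Ls.cons (Ent.neg F13_13_9_5) (Ls.cons (Ent.neg F13_13_8_5) (Ls.cons (Ent.neg F13_13_7_5) (Ls.cons (Ent.neg F13_13_6_5) (Ls.cons Ent.zero (Ls.cons (Ent.pos F13_13_5_4) (Ls.cons (Ent.pos F13_13_5_3) (Ls.cons (Ent.pos F13_13_5_2) (Ls.cons (Ent.pos F13_13_5_1) (Ls.cons (Ent.neg F13_13_5_0) Ls.nil)))))))))))))))))))))))))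
 (Ls.cons (Ls.cons Ent.zero (Ls.cons Ent.zero (Ls.cons Ent.zero (Ls.cons Ent.zero (Ls.cons Ent.zero (Ls.cons (Ent.pos F13_19_13_4) (Ls.cons (Ent.pos F13_18_13_4) (Ls.cons (Ent.pos F13_17_13_4) (Ls.cons (Ent.pos F13_16_13_4) (Ls.cons (Ent.pos F13_15_13_4) (Ls.cons (Ent.pos F13_14_13_4) (Ls.cons Ent.zero (Ls.cons (Ent.neg F13_13_12_4) (Ls.cons (Ent.neg F13_13_11_4) (Ls.cons (Ent.neg F13_13_10_4) (Ls.cons (Ent.neg F13_13_9_4) (Ls.cons (Ent.neg F13_13_8_4) (Ls.cons (Ent.neg F13_13_7_4) (Ls.cons (Ent.neg F13_13_6_4) (Ls.cons (Ent.neg F13_13_5_4) (Ls.cons Ent.zero (Ls.cons (Ent.pos F13_13_4_3) (Ls.cons (Ent.pos F13_13_4_2) (Ls.cons (Ent.pos F13_13_4_1) (Ls.cons (Ent.neg F13_13_4_0) Ls.nil)))))))))))))))))))))))))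
 (Ls.cons (Ls.cons Ent.zero (Ls.cons Ent.zero (Ls.cons Ent.zero (Ls.cons Ent.zero (Ls.cons Ent.zero (Ls.cons (Ent.pos F13_19_13_3) (Ls.cons (Ent.pos F13_18_13_3) (Ls.cons (Ent.pos F13_17_13_3) (Ls.cons (Ent.pos F13_16_13_3) (Ls.cons (Ent.pos F13_15_13_3) (Ls.cons (Ent.pos F13_14_13_3) (Ls.cons Ent.zero (Ls.cons (Ent.neg F13_13_12_3) (Ls.cons (Ent.neg F13_13_11_3) (Ls.cons (Ent.neg F13_13_10_3) (Ls.cons (Ent.neg F13_13_9_3) (Ls.cons (Ent.neg F13_13_8_3) (Ls.cons (Ent.neg F13_13_7_3) (Ls.cons (Ent.neg F13_13_6_3) (Ls.cons (Ent.neg F13_13_5_3) (Ls.cons (Ent.neg F13_13_4_3) (Ls.cons Ent.zero (Ls.cons (Ent.pos F13_13_3_2) (Ls.cons (Ent.pos F13_13_3_1) (Ls.cons (Ent.neg F13_13_3_0) Ls.nil)))))))))))))))))))))))))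
 (Ls.cons (Ls.cons Ent.zero (Ls.cons Ent.zero (Ls.cons Ent.zero (Ls.cons Ent.zero (Ls.cons Ent.zero (Ls.cons (Ent.pos F13_19_13_2) (Ls.cons (Ent.pos F13_18_13_2) (Ls.cons (Ent.pos F13_17_13_2) (Ls.cons (Ent.pos F13_16_13_2) (Ls.cons (Ent.pos F13_15_13_2) (Ls.cons (Ent.pos F13_14_13_2) (Ls.cons Ent.zero (Ls.cons (Ent.neg F13_13_12_2) (Ls.cons (Ent.neg F13_13_11_2) (Ls.cons (Ent.neg F13_13_10_2) (Ls.cons (Ent.neg F13_13_9_2) (Ls.cons (Ent.neg F13_13_8_2) (Ls.cons (Ent.neg F13_13_7_2) (Ls.cons (Ent.neg F13_13_6_2) (Ls.cons (Ent.neg F13_13_5_2) (Ls.cons (Ent.neg F13_13_4_2) (Ls.cons (Ent.neg F13_13_3_2) (Ls.cons Ent.zero (Ls.cons (Ent.pos F13_13_2_1) (Ls.cons (Ent.neg F13_13_2_0) Ls.nil)))))))))))))))))))))))))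
 (Ls.cons (Ls.cons Ent.zero (Ls.cons Ent.zero (Ls.cons Ent.zero (Ls.cons Ent.zero (Ls.cons Ent.zero (Ls.cons (Ent.pos F13_19_13_1) (Ls.cons (Ent.pos F13_18_13_1) (Ls.cons (Ent.pos F13_17_13_1) (Ls.cons (Ent.pos F13_16_13_1) (Ls.cons (Ent.pos F13_15_13_1) (Ls.cons (Ent.pos F13_14_13_1) (Ls.cons Ent.zero (Ls.cons (Ent.neg F13_13_12_1) (Ls.cons (Ent.neg F13_13_11_1) (Ls.cons (Ent.neg F13_13_10_1) (Ls.cons (Ent.neg F13_13_9_1) (Ls.cons (Ent.neg F13_13_8_1) (Ls.cons (Ent.neg F13_13_7_1) (Ls.cons (Ent.neg F13_13_6_1) (Ls.cons (Ent.neg F13_13_5_1) (Ls.cons (Ent.neg F13_13_4_1) (Ls.cons (Ent.neg F13_13_3_1) (Ls.cons (Ent.neg F13_13_2_1) (Ls.cons Ent.zero (Ls.cons (Ent.pos F13_13_1_0) Ls.nil)))))))))))))))))))))))))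
 (Ls.cons (Ls.cons Ent.zero (Ls.cons Ent.zero (Ls.cons Ent.zero (Ls.cons (Ent.neg F13_21_13_0) (Ls.cons (Ent.neg F13_20_13_0) (Ls.cons (Ent.neg F13_19_13_0) (Ls.cons (Ent.neg F13_18_13_0) (Ls.cons (Ent.neg F13_17_13_0) (Ls.cons (Ent.neg F13_16_13_0) (Ls.cons (Ent.neg F13_15_13_0) (Ls.cons (Ent.neg F13_14_13_0) (Ls.cons Ent.zero (Ls.cons (Ent.pos F13_13_12_0) (Ls.cons (Ent.pos F13_13_11_0) (Ls.cons (Ent.pos F13_13_10_0) (Ls.cons (Ent.pos F13_13_9_0) (Ls.cons (Ent.pos F13_13_8_0) (Ls.cons (Ent.pos F13_13_7_0) (Ls.cons (Ent.pos F13_13_6_0) (Ls.cons (Ent.pos F13_13_5_0) (Ls.cons (Ent.pos F13_13_4_0) (Ls.cons (Ent.pos F13_13_3_0) (Ls.cons (Ent.pos F13_13_2_0) (Ls.cons (Ent.neg F13_13_1_0) (Ls.cons Ent.zero Ls.nil)))))))))))))))))))))))))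
 Ls.nil))))))))))))))))))))

noncomputable def bxF13_14 : L2 :=
 (Ls.cons (Ls.cons Ent.zero (Ls.cons Ent.zero (Ls.cons Ent.zero (Ls.cons Ent.zero (Ls.cons Ent.zero (Ls.cons Ent.zero (Ls.cons Ent.zero (Ls.cons Ent.zero (Ls.cons Ent.zero (Ls.cons Ent.zero (Ls.cons Ent.zero (Ls.cons Ent.zero (Ls.cons Ent.zero (Ls.cons Ent.zero (Ls.cons Ent.zero (Ls.cons Ent.zero (Ls.cons Ent.zero (Ls.cons Ent.zero (Ls.cons Ent.zero (Ls.cons Ent.zero (Ls.cons Ent.zero (Ls.cons (Ent.neg F13_19_14_3) (Ls.cons (Ent.neg F13_19_14_2) (Ls.cons (Ent.neg F13_19_14_1) (Ls.cons (Ent.pos F13_19_14_0) Ls.nil)))))))))))))))))))))))))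
 (Ls.cons (Ls.cons Ent.zero (Ls.cons Ent.zero (Ls.cons Ent.zero (Ls.cons Ent.zero (Ls.cons Ent.zero (Ls.cons Ent.zero (Ls.cons Ent.zero (Ls.cons Ent.zero (Ls.cons Ent.zero (Ls.cons Ent.zero (Ls.cons Ent.zero (Ls.cons Ent.zero (Ls.cons Ent.zero (Ls.cons Ent.zero (Ls.cons Ent.zero (Ls.cons Ent.zero (Ls.cons Ent.zero (Ls.cons (Ent.neg F13_18_14_7) (Ls.cons (Ent.neg F13_18_14_6) (Ls.cons (Ent.neg F13_18_14_5) (Ls.cons (Ent.neg F13_18_14_4) (Ls.cons (Ent.neg F13_18_14_3) (Ls.cons (Ent.neg F13_18_14_2) (Ls.cons (Ent.neg F13_18_14_1) (Ls.cons (Ent.pos F13_18_14_0) Ls.nil)))))))))))))))))))))))))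
 (Ls.cons (Ls.cons Ent.zero (Ls.cons Ent.zero (Ls.cons Ent.zero (Ls.cons Ent.zero (Ls.cons Ent.zero (Ls.cons Ent.zero (Ls.cons Ent.zero (Ls.cons Ent.zero (Ls.cons Ent.zero (Ls.cons Ent.zero (Ls.cons Ent.zero (Ls.cons Ent.zero (Ls.cons Ent.zero (Ls.cons (Ent.neg F13_17_14_11) (Ls.cons (Ent.neg F13_17_14_10) (Ls.cons (Ent.neg F13_17_14_9) (Ls.cons (Ent.neg F13_17_14_8) (Ls.cons (Ent.neg F13_17_14_7) (Ls.cons (Ent.neg F13_17_14_6) (Ls.cons (Ent.neg F13_17_14_5) (Ls.cons (Ent.neg F13_17_14_4) (Ls.cons (Ent.neg F13_17_14_3) (Ls.cons (Ent.neg F13_17_14_2) (Ls.cons (Ent.neg F13_17_14_1) (Ls.cons (Ent.pos F13_17_14_0) Ls.nil)))))))))))))))))))))))))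
 (Ls.cons (Ls.cons Ent.zero (Ls.cons Ent.zero (Ls.cons Ent.zero (Ls.cons Ent.zero (Ls.cons Ent.zero (Ls.cons Ent.zero (Ls.cons Ent.zero (Ls.cons Ent.zero (Ls.cons Ent.zero (Ls.cons (Ent.pos F13_16_15_14) (Ls.cons Ent.zero (Ls.cons (Ent.neg F13_16_14_13) (Ls.cons (Ent.neg F13_16_14_12) (Ls.cons (Ent.neg F13_16_14_11) (Ls.cons (Ent.neg F13_16_14_10) (Ls.cons (Ent.neg F13_16_14_9) (Ls.cons (Ent.neg F13_16_14_8) (Ls.cons (Ent.neg F13_16_14_7) (Ls.cons (Ent.neg F13_16_14_6) (Ls.cons (Ent.neg F13_16_14_5) (Ls.cons (Ent.neg F13_16_14_4) (Ls.cons (Ent.neg F13_16_14_3) (Ls.cons (Ent.neg F13_16_14_2) (Ls.cons (Ent.neg F13_16_14_1) (Ls.cons (Ent.pos F13_16_14_0) Ls.nil)))))))))))))))))))))))))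
 (Ls.cons (Ls.cons Ent.zero (Ls.cons Ent.zero (Ls.cons Ent.zero (Ls.cons Ent.zero (Ls.cons Ent.zero (Ls.cons Ent.zero (Ls.cons Ent.zero (Ls.cons Ent.zero (Ls.cons (Ent.neg F13_16_15_14) (Ls.cons Ent.zero (Ls.cons Ent.zero (Ls.cons (Ent.neg F13_15_14_13) (Ls.cons (Ent.neg F13_15_14_12) (Ls.cons (Ent.neg F13_15_14_11) (Ls.cons (Ent.neg F13_15_14_10) (Ls.cons (Ent.neg F13_15_14_9) (Ls.cons (Ent.neg F13_15_14_8) (Ls.cons (Ent.neg F13_15_14_7) (Ls.cons (Ent.neg F13_15_14_6) (Ls.cons (Ent.neg F13_15_14_5) (Ls.cons (Ent.neg F13_15_14_4) (Ls.cons (Ent.neg F13_15_14_3) (Ls.cons (Ent.neg F13_15_14_2) (Ls.cons (Ent.neg F13_15_14_1) (Ls.cons (Ent.pos F13_15_14_0) Ls.nil)))))))))))))))))))))))))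
 (Ls.cons (Ls.cons Ent.zero (Ls.cons Ent.zero (Ls.cons Ent.zero (Ls.cons Ent.zero (Ls.cons Ent.zero (Ls.cons Ent.zero (Ls.cons Ent.zero (Ls.cons Ent.zero (Ls.cons Ent.zero (Ls.cons Ent.zero (Ls.cons Ent.zero (Ls.cons Ent.zero (Ls.cons Ent.zero (Ls.cons Ent.zero (Ls.cons Ent.zero (Ls.cons Ent.zero (Ls.cons Ent.zero (Ls.cons Ent.zero (Ls.cons Ent.zero (Ls.cons Ent.zero (Ls.cons Ent.zero (Ls.cons Ent.zero (Ls.cons Ent.zero (Ls.cons Ent.zero (Ls.cons Ent.zero Ls.nil)))))))))))))))))))))))))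
 (Ls.cons (Ls.cons Ent.zero (Ls.cons Ent.zero (Ls.cons Ent.zero (Ls.cons Ent.zero (Ls.cons Ent.zero (Ls.cons Ent.zero (Ls.cons Ent.zero (Ls.cons Ent.zero (Ls.cons (Ent.pos F13_16_14_13) (Ls.cons (Ent.pos F13_15_14_13) (Ls.cons Ent.zero (Ls.cons Ent.zero (Ls.cons (Ent.pos F13_14_13_12) (Ls.cons (Ent.pos F13_14_13_11) (Ls.cons (Ent.pos F13_14_13_10) (Ls.cons (Ent.pos F13_14_13_9) (Ls.cons (Ent.pos F13_14_13_8) (Ls.cons (Ent.pos F13_14_13_7) (Ls.cons (Ent.pos F13_14_13_6) (Ls.cons (Ent.pos F13_14_13_5) (Ls.cons (Ent.pos F13_14_13_4) (Ls.cons (Ent.pos F13_14_13_3) (Ls.cons (Ent.pos F13_14_13_2) (Ls.cons (Ent.pos F13_14_13_1) (Ls.cons (Ent.neg F13_14_13_0) Ls.nil)))))))))))))))))))))))))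
 (Ls.cons (Ls.cons Ent.zero (Ls.cons Ent.zero (Ls.cons Ent.zero (Ls.cons Ent.zero (Ls.cons Ent.zero (Ls.cons Ent.zero (Ls.cons Ent.zero (Ls.cons Ent.zero (Ls.cons (Ent.pos F13_16_14_12) (Ls.cons (Ent.pos F13_15_14_12) (Ls.cons Ent.zero (Ls.cons (Ent.neg F13_14_13_12) (Ls.cons Ent.zero (Ls.cons (Ent.pos F13_14_12_11) (Ls.cons (Ent.pos F13_14_12_10) (Ls.cons (Ent.pos F13_14_12_9) (Ls.cons (Ent.pos F13_14_12_8) (Ls.cons (Ent.pos F13_14_12_7) (Ls.cons (Ent.pos F13_14_12_6) (Ls.cons (Ent.pos F13_14_12_5) (Ls.cons (Ent.pos F13_14_12_4) (Ls.cons (Ent.pos F13_14_12_3) (Ls.cons (Ent.pos F13_14_12_2) (Ls.cons (Ent.pos F13_14_12_1) (Ls.cons (Ent.neg F13_14_12_0) Ls.nil)))))))))))))))))))))))))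
 (Ls.cons (Ls.cons Ent.zero (Ls.cons Ent.zero (Ls.cons Ent.zero (Ls.cons Ent.zero (Ls.cons Ent.zero (Ls.cons Ent.zero (Ls.cons Ent.zero (Ls.cons (Ent.pos F13_17_14_11) (Ls.cons (Ent.pos F13_16_14_11) (Ls.cons (Ent.pos F13_15_14_11) (Ls.cons Ent.zero (Ls.cons (Ent.neg F13_14_13_11) (Ls.cons (Ent.neg F13_14_12_11) (Ls.cons Ent.zero (Ls.cons (Ent.pos F13_14_11_10) (Ls.cons (Ent.pos F13_14_11_9) (Ls.cons (Ent.pos F13_14_11_8) (Ls.cons (Ent.pos F13_14_11_7) (Ls.cons (Ent.pos F13_14_11_6) (Ls.cons (Ent.pos F13_14_11_5) (Ls.cons (Ent.pos F13_14_11_4) (Ls.cons (Ent.pos F13_14_11_3) (Ls.cons (Ent.pos F13_14_11_2) (Ls.cons (Ent.pos F13_14_11_1) (Ls.cons (Ent.neg F13_14_11_0) Ls.nil)))))))))))))))))))))))))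
 (Ls.cons (Ls.cons Ent.zero (Ls.cons Ent.zero (Ls.cons Ent.zero (Ls.cons Ent.zero (Ls.cons Ent.zero (Ls.cons Ent.zero (Ls.cons Ent.zero (Ls.cons (Ent.pos F13_17_14_10) (Ls.cons (Ent.pos F13_16_14_10) (Ls.cons (Ent.pos F13_15_14_10) (Ls.cons Ent.zero (Ls.cons (Ent.neg F13_14_13_10) (Ls.cons (Ent.neg F13_14_12_10) (Ls.cons (Ent.neg F13_14_11_10) (Ls.cons Ent.zero (Ls.cons (Ent.pos F13_14_10_9) (Ls.cons (Ent.pos F13_14_10_8) (Ls.cons (Ent.pos F13_14_10_7) (Ls.cons (Ent.pos F13_14_10_6) (Ls.cons (Ent.pos F13_14_10_5) (Ls.cons (Ent.pos F13_14_10_4) (Ls.cons (Ent.pos F13_14_10_3) (Ls.cons (Ent.pos F13_14_10_2) (Ls.cons (Ent.pos F13_14_10_1) (Ls.cons (Ent.neg F13_14_10_0) Ls.nil)))))))))))))))))))))))))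
 (Ls.cons (Ls.cons Ent.zero (Ls.cons Ent.zero (Ls.cons Ent.zero (Ls.cons Ent.zero (Ls.cons Ent.zero (Ls.cons Ent.zero (Ls.cons Ent.zero (Ls.cons (Ent.pos F13_17_14_9) (Ls.cons (Ent.pos F13_16_14_9) (Ls.cons (Ent.pos F13_15_14_9) (Ls.cons Ent.zero (Ls.cons (Ent.neg F13_14_13_9) (Ls.cons (Ent.neg F13_14_12_9) (Ls.cons (Ent.neg F13_14_11_9) (Ls.cons (Ent.neg F13_14_10_9) (Ls.cons Ent.zero (Ls.cons (Ent.pos F13_14_9_8) (Ls.cons (Ent.pos F13_14_9_7) (Ls.cons (Ent.pos F13_14_9_6) (Ls.cons (Ent.pos F13_14_9_5) (Ls.cons (Ent.pos F13_14_9_4) (Ls.cons (Ent.pos F13_14_9_3) (Ls.cons (Ent.pos F13_14_9_2) (Ls.cons (Ent.pos F13_14_9_1) (Ls.cons (Ent.neg F13_14_9_0) Ls.nil)))))))))))))))))))))))))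
 (Ls.cons (Ls.cons Ent.zero (Ls.cons Ent.zero (Ls.cons Ent.zero (Ls.cons Ent.zero (Ls.cons Ent.zero (Ls.cons Ent.zero (Ls.cons Ent.zero (Ls.cons (Ent.pos F13_17_14_8) (Ls.cons (Ent.pos F13_16_14_8) (Ls.cons (Ent.pos F13_15_14_8) (Ls.cons Ent.zero (Ls.cons (Ent.neg F13_14_13_8) (Ls.cons (Ent.neg F13_14_12_8) (Ls.cons (Ent.neg F13_14_11_8) (Ls.cons (Ent.neg F13_14_10_8) (Ls.cons (Ent.neg F13_14_9_8) (Ls.cons Ent.zero (Ls.cons (Ent.pos F13_14_8_7) (Ls.cons (Ent.pos F13_14_8_6) (Ls.cons (Ent.pos F13_14_8_5) (Ls.cons (Ent.pos F13_14_8_4) (Ls.cons (Ent.pos F13_14_8_3) (Ls.cons (Ent.pos F13_14_8_2) (Ls.cons (Ent.pos F13_14_8_1) (Ls.cons (Ent.neg F13_14_8_0) Ls.nil)))))))))))))))))))))))))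
 (Ls.cons (Ls.cons Ent.zero (Ls.cons Ent.zero (Ls.cons Ent.zero (Ls.cons Ent.zero (Ls.cons Ent.zero (Ls.cons Ent.zero (Ls.cons (Ent.pos F13_18_14_7) (Ls.cons (Ent.pos F13_17_14_7) (Ls.cons (Ent.pos F13_16_14_7) (Ls.cons (Ent.pos F13_15_14_7) (Ls.cons Ent.zero (Ls.cons (Ent.neg F13_14_13_7) (Ls.cons (Ent.neg F13_14_12_7) (Ls.cons (Ent.neg F13_14_11_7) (Ls.cons (Ent.neg F13_14_10_7) (Ls.cons (Ent.neg F13_14_9_7) (Ls.cons (Ent.neg F13_14_8_7) (Ls.cons Ent.zero (Ls.cons (Ent.pos F13_14_7_6) (Ls.cons (Ent.pos F13_14_7_5) (Ls.cons (Ent.pos F13_14_7_4) (Ls.cons (Ent.pos F13_14_7_3) (Ls.cons (Ent.pos F13_14_7_2) (Ls.cons (Ent.pos F13_14_7_1) (Ls.cons (Ent.neg F13_14_7_0) Ls.nil)))))))))))))))))))))))))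
 (Ls.cons (Ls.cons Ent.zero (Ls.cons Ent.zero (Ls.cons Ent.zero (Ls.cons Ent.zero (Ls.cons Ent.zero (Ls.cons Ent.zero (Ls.cons (Ent.pos F13_18_14_6) (Ls.cons (Ent.pos F13_17_14_6) (Ls.cons (Ent.pos F13_16_14_6) (Ls.cons (Ent.pos F13_15_14_6) (Ls.cons Ent.zero (Ls.cons (Ent.neg F13_14_13_6) (Ls.cons (Ent.neg F13_14_12_6) (Ls.cons (Ent.neg F13_14_11_6) (Ls.cons (Ent.neg F13_14_10_6) (Ls.cons (Ent.neg F13_14_9_6) (Ls.cons (Ent.neg F13_14_8_6) (Ls.cons (Ent.neg F13_14_7_6) (Ls.cons Ent.zero (Ls.cons (Ent.pos F13_14_6_5) (Ls.cons (Ent.pos F13_14_6_4) (Ls.cons (Ent.pos F13_14_6_3) (Ls.cons (Ent.pos F13_14_6_2) (Ls.cons (Ent.pos F13_14_6_1) (Ls.cons (Ent.neg F13_14_6_0) Ls.nil)))))))))))))))))))))))))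
 (Ls.cons (Ls.cons Ent.zero (Ls.cons Ent.zero (Ls.cons Ent.zero (Ls.cons Ent.zero (Ls.cons Ent.zero (Ls.cons Ent.zero (Ls.cons (Ent.pos F13_18_14_5) (Ls.cons (Ent.pos F13_17_14_5) (Ls.cons (Ent.pos F13_16_14_5) (Ls.cons (Ent.pos F13_15_14_5) (Ls.cons Ent.zero (Ls.cons (Ent.neg F13_14_13_5) (Ls.cons (Ent.neg F13_14_12_5) (Ls.cons (Ent.neg F13_14_11_5) (Ls.cons (Ent.neg F13_14_10_5) (Ls.cons (Ent.neg F13_14_9_5) (Ls.cons (Ent.neg F13_14_8_5) (Ls.cons (Ent.neg F13_14_7_5) (Ls.cons (Ent.neg F13_14_6_5) (Ls.cons Ent.zero (Ls.cons (Ent.pos F13_14_5_4) (Ls.cons (Ent.pos F13_14_5_3) (Ls.cons (Ent.pos F13_14_5_2) (Ls.cons (Ent.pos F13_14_5_1) (Ls.cons (Ent.neg F13_14_5_0) Ls.nil)))))))))))))))))))))))))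
 (Ls.cons (Ls.cons Ent.zero (Ls.cons Ent.zero (Ls.cons Ent.zero (Ls.cons Ent.zero (Ls.cons Ent.zero (Ls.cons Ent.zero (Ls.cons (Ent.pos F13_18_14_4) (Ls.cons (Ent.pos F13_17_14_4) (Ls.cons (Ent.pos F13_16_14_4) (Ls.cons (Ent.pos F13_15_14_4) (Ls.cons Ent.zero (Ls.cons (Ent.neg F13_14_13_4) (Ls.cons (Ent.neg F13_14_12_4) (Ls.cons (Ent.neg F13_14_11_4) (Ls.cons (Ent.neg F13_14_10_4) (Ls.cons (Ent.neg F13_14_9_4) (Ls.cons (Ent.neg F13_14_8_4) (Ls.cons (Ent.neg F13_14_7_4) (Ls.cons (Ent.neg F13_14_6_4) (Ls.cons (Ent.neg F13_14_5_4) (Ls.cons Ent.zero (Ls.cons (Ent.pos F13_14_4_3) (Ls.cons (Ent.pos F13_14_4_2) (Ls.cons (Ent.pos F13_14_4_1) (Ls.cons (Ent.neg F13_14_4_0) Ls.nil)))))))))))))))))))))))))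
 (Ls.cons (Ls.cons Ent.zero (Ls.cons Ent.zero (Ls.cons Ent.zero (Ls.cons Ent.zero (Ls.cons Ent.zero (Ls.cons (Ent.pos F13_19_14_3) (Ls.cons (Ent.pos F13_18_14_3) (Ls.cons (Ent.pos F13_17_14_3) (Ls.cons (Ent.pos F13_16_14_3) (Ls.cons (Ent.pos F13_15_14_3) (Ls.cons Ent.zero (Ls.cons (Ent.neg F13_14_13_3) (Ls.cons (Ent.neg F13_14_12_3) (Ls.cons (Ent.neg F13_14_11_3) (Ls.cons (Ent.neg F13_14_10_3) (Ls.cons (Ent.neg F13_14_9_3) (Ls.cons (Ent.neg F13_14_8_3) (Ls.cons (Ent.neg F13_14_7_3) (Ls.cons (Ent.neg F13_14_6_3) (Ls.cons (Ent.neg F13_14_5_3) (Ls.cons (Ent.neg F13_14_4_3) (Ls.cons Ent.zero (Ls.cons (Ent.pos F13_14_3_2) (Ls.cons (Ent.pos F13_14_3_1) (Ls.cons (Ent.neg F13_14_3_0) Ls.nil)))))))))))))))))))))))))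
 (Ls.cons (Ls.cons Ent.zero (Ls.cons Ent.zero (Ls.cons Ent.zero (Ls.cons Ent.zero (Ls.cons Ent.zero (Ls.cons (Ent.pos F13_19_14_2) (Ls.cons (Ent.pos F13_18_14_2) (Ls.cons (Ent.pos F13_17_14_2) (Ls.cons (Ent.pos F13_16_14_2) (Ls.cons (Ent.pos F13_15_14_2) (Ls.cons Ent.zero (Ls.cons (Ent.neg F13_14_13_2) (Ls.cons (Ent.neg F13_14_12_2) (Ls.cons (Ent.neg F13_14_11_2) (Ls.cons (Ent.neg F13_14_10_2) (Ls.cons (Ent.neg F13_14_9_2) (Ls.cons (Ent.neg F13_14_8_2) (Ls.cons (Ent.neg F13_14_7_2) (Ls.cons (Ent.neg F13_14_6_2) (Ls.cons (Ent.neg F13_14_5_2) (Ls.cons (Ent.neg F13_14_4_2) (Ls.cons (Ent.neg F13_14_3_2) (Ls.cons Ent.zero (Ls.cons (Ent.pos F13_14_2_1) (Ls.cons (Ent.neg F13_14_2_0) Ls.nil)))))))))))))))))))))))))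
 (Ls.cons (Ls.cons Ent.zero (Ls.cons Ent.zero (Ls.cons Ent.zero (Ls.cons Ent.zero (Ls.cons Ent.zero (Ls.cons (Ent.pos F13_19_14_1) (Ls.cons (Ent.pos F13_18_14_1) (Ls.cons (Ent.pos F13_17_14_1) (Ls.cons (Ent.pos F13_16_14_1) (Ls.cons (Ent.pos F13_15_14_1) (Ls.cons Ent.zero (Ls.cons (Ent.neg F13_14_13_1) (Ls.cons (Ent.neg F13_14_12_1) (Ls.cons (Ent.neg F13_14_11_1) (Ls.cons (Ent.neg F13_14_10_1) (Ls.cons (Ent.neg F13_14_9_1) (Ls.cons (Ent.neg F13_14_8_1) (Ls.cons (Ent.neg F13_14_7_1) (Ls.cons (Ent.neg F13_14_6_1) (Ls.cons (Ent.neg F13_14_5_1) (Ls.cons (Ent.neg F13_14_4_1) (Ls.cons (Ent.neg F13_14_3_1) (Ls.cons (Ent.neg F13_14_2_1) (Ls.cons Ent.zero (Ls.cons (Ent.pos F13_14_1_0) Ls.nil)))))))))))))))))))))))))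
 (Ls.cons (Ls.cons Ent.zero (Ls.cons Ent.zero (Ls.cons Ent.zero (Ls.cons (Ent.neg F13_21_14_0) (Ls.cons (Ent.neg F13_20_14_0) (Ls.cons (Ent.neg F13_19_14_0) (Ls.cons (Ent.neg F13_18_14_0) (Ls.cons (Ent.neg F13_17_14_0) (Ls.cons (Ent.neg F13_16_14_0) (Ls.cons (Ent.neg F13_15_14_0) (Ls.cons Ent.zero (Ls.cons (Ent.pos F13_14_13_0) (Ls.cons (Ent.pos F13_14_12_0) (Ls.cons (Ent.pos F13_14_11_0) (Ls.cons (Ent.pos F13_14_10_0) (Ls.cons (Ent.pos F13_14_9_0) (Ls.cons (Ent.pos F13_14_8_0) (Ls.cons (Ent.pos F13_14_7_0) (Ls.cons (Ent.pos F13_14_6_0) (Ls.cons (Ent.pos F13_14_5_0) (Ls.cons (Ent.pos F13_14_4_0) (Ls.cons (Ent.pos F13_14_3_0) (Ls.cons (Ent.pos F13_14_2_0) (Ls.cons (Ent.neg F13_14_1_0) (Ls.cons Ent.zero Ls.nil)))))))))))))))))))))))))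
 Ls.nil))))))))))))))))))))

noncomputable def boxF13 : L3 := (Ls.cons bxF13_14 (Ls.cons bxF13_13 (Ls.cons bxF13_12 (Ls.cons bxF13_11 (Ls.cons bxF13_10 (Ls.cons bxF13_9 (Ls.cons bxF13_8 (Ls.cons bxF13_7 (Ls.cons bxF13_6 (Ls.cons bxF13_5 (Ls.cons bxF13_4 (Ls.cons bxF13_3 (Ls.cons bxF13_2 (Ls.cons bxF13_1 (Ls.cons bxF13_0 Ls.nil)))))))))))))))

noncomputable def bsF14 : Ls L3 := Ls.cons boxF13 bsF13

end Vale.Agent.P181.K
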