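import Vale.Agent.P181.Six.F.D15_0
import Vale.Agent.P181.Six.F.B14

set_option maxRecDepth 100000
set_option maxHeartbeats 0

namespace Vale.Agent.P181.K

noncomputable def cF15_0_0 : L2 :=
 (Ls.cons Ls.nil
 (Ls.cons Ls.nil
 (Ls.cons Ls.nil
 (Ls.cons (Ls.cons (Ent.pos F15_24_3_0) (Ls.cons (Ent.pos F15_23_3_0) (Ls.cons (Ent.pos F15_22_3_0) (Ls.cons (Ent.pos F15_21_3_0) (Ls.cons (Ent.pos F15_20_3_0) (Ls.cons (Ent.pos F15_19_3_0) (Ls.cons (Ent.pos F15_18_3_0) (Ls.cons (Ent.pos F15_17_3_0) (Ls.cons (Ent.pos F15_16_3_0) (Ls.cons (Ent.pos F15_15_3_0) (Ls.cons (Ent.pos F15_14_3_0) (Ls.cons (Ent.pos F15_13_3_0) (Ls.cons (Ent.pos F15_12_3_0) (Ls.cons (Ent.pos F15_11_3_0) (Ls.cons (Ent.pos F15_10_3_0) (Ls.cons (Ent.pos F15_9_3_0) (Ls.cons (Ent.pos F15_8_3_0) (Ls.cons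 (Ent.pos F15_7_3_0) (Ls.cons (Ent.pos F15_6_3_0) (Ls.cons (Ent.pos F15_5_3_0) (Ls.cons (Ent.pos F15_4_3_0) Ls.nil)))))))))))))))))))))
 (Ls.cons (Ls.cons Ent.zero (Ls.cons (Ent.pos F15_23_4_0) (Ls.cons (Ent.pos F15_22_4_0) (Ls.cons (Ent.pos F15_21_4_0) (Ls.cons (Ent.pos F15_20_4_0) (Ls.cons (Ent.pos F15_19_4_0) (Ls.cons (Ent.pos F15_18_4_0) (Ls.cons (Ent.pos F15_17_4_0) (Ls.cons (Ent.pos F15_16_4_0) (Ls.cons (Ent.pos F15_15_4_0) (Ls.cons (Ent.pos F15_14_4_0) (Ls.cons (Ent.pos F15_13_4_0) (Ls.cons (Ent.pos F15_12_4_0) (Ls.cons (Ent.pos F15_11_4_0) (Ls.cons (Ent.pos F15_10_4_0) (Ls.cons (Ent.pos F15_9_4_0) (Ls.cons (Ent.pos F15_8_4_0) (Ls.cons (Ent.pos F15_7_4_0) (Ls.cons (Ent.pos F15_6_4_0) (Ls.cons (Ent.pos F15_5_4_0) Ls.nil))))))))))))))))))))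
 (Ls.cons (Ls.cons Ent.zero (Ls.cons (Ent.pos F15_23_5_0) (Ls.cons (Ent.pos F15_22_5_0) (Ls.cons (Ent.pos F15_21_5_0) (Ls.cons (Ent.pos F15_20_5_0) (Ls.cons (Ent.pos F15_19_5_0) (Ls.cons (Ent.pos F15_18_5_0) (Ls.cons (Ent.pos F15_17_5_0) (Ls.cons (Ent.pos F15_16_5_0) (Ls.cons (Ent.pos F15_15_5_0) (Ls.cons (Ent.pos F15_14_5_0) (Ls.cons (Ent.pos F15_13_5_0) (Ls.cons (Ent.pos F15_12_5_0) (Ls.cons (Ent.pos F15_11_5_0) (Ls.cons (Ent.pos F15_10_5_0) (Ls.cons (Ent.pos F15_9_5_0) (Ls.cons (Ent.pos F15_8_5_0) (Ls.cons (Ent.pos F15_7_5_0) (Ls.cons (Ent.pos F15_6_5_0) Ls.nil)))))))))))))))))))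
 (Ls.cons Ls.nil
 (Ls.cons Ls.nil
 (Ls.cons Ls.nil
 (Ls.cons Ls.nil
 (Ls.cons (Ls.cons Ent.zero (Ls.cons Ent.zero (Ls.cons Ent.zero (Ls.cons Ent.zero (Ls.cons Ent.zero (Ls.cons Ent.zero (Ls.cons Ent.zero (Ls.cons Ent.zero (Ls.cons (Ent.pos F15_16_10_0) (Ls.cons (Ent.pos F15_15_10_0) (Ls.cons (Ent.pos F15_14_10_0) (Ls.cons (Ent.pos F15_13_10_0) (Ls.cons (Ent.pos F15_12_10_0) (Ls.cons (Ent.pos F15_11_10_0) Ls.nil))))))))))))))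
 (Ls.cons (Ls.cons Ent.zero (Ls.cons Ent.zero (Ls.cons (Ent.pos F15_22_11_0) (Ls.cons (Ent.pos F15_21_11_0) (Ls.cons (Ent.pos F15_20_11_0) (Ls.cons (Ent.pos F15_19_11_0) (Ls.cons (Ent.pos F15_18_11_0) (Ls.cons (Ent.pos F15_17_11_0) (Ls.cons (Ent.pos F15_16_11_0) (Ls.cons (Ent.pos F15_15_11_0) (Ls.cons (Ent.pos F15_14_11_0) (Ls.cons (Ent.pos F15_13_11_0) (Ls.cons (Ent.pos F15_12_11_0) Ls.nil)))))))))))))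
 (Ls.cons (Ls.cons Ent.zero (Ls.cons Ent.zero (Ls.cons Ent.zero (Ls.cons (Ent.pos F15_21_12_0) (Ls.cons (Ent.pos F15_20_12_0) (Ls.cons (Ent.pos F15_19_12_0) (Ls.cons (Ent.pos F15_18_12_0) (Ls.cons (Ent.pos F15_17_12_0) (Ls.cons (Ent.pos F15_16_12_0) (Ls.cons (Ent.pos F15_15_12_0) (Ls.cons (Ent.pos F15_14_12_0) (Ls.cons (Ent.pos F15_13_12_0) Ls.nil))))))))))))
 (Ls.cons (Ls.cons Ent.zero (Ls.cons Ent.zero (Ls.cons Ent.zero (Ls.cons Ent.zero (Ls.cons (Ent.pos F15_20_13_0) (Ls.cons (Ent.pos F15_19_13_0) (Ls.cons (Ent.pos F15_18_13_0) (Ls.cons (Ent.pos F15_17_13_0) (Ls.cons (Ent.pos F15_16_13_0) (Ls.cons (Ent.pos F15_15_13_0) (Ls.cons (Ent.pos F15_14_13_0) Ls.nil)))))))))))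
 (Ls.cons Ls.nil
 (Ls.cons (Ls.cons Ent.zero (Ls.cons Ent.zero (Ls.cons Ent.zero (Ls.cons (Ent.pos F15_21_15_0) (Ls.cons (Ent.pos F15_20_15_0) (Ls.cons (Ent.pos F15_19_15_0) (Ls.cons (Ent.pos F15_18_15_0) (Ls.cons (Ent.pos F15_17_15_0) (Ls.cons (Ent.pos F15_16_15_0) Ls.nil)))))))))
 (Ls.cons Ls.nil
 (Ls.cons Ls.nil
 (Ls.cons (Ls.cons Ent.zero (Ls.cons Ent.zero (Ls.cons Ent.zero (Ls.cons Ent.zero (Ls.cons Ent.zero (Ls.cons (Ent.pos F15_19_18_0) Ls.nil))))))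
 (Ls.cons (Ls.cons Ent.zero (Ls.cons Ent.zero (Ls.cons Ent.zero (Ls.cons Ent.zero (Ls.cons (Ent.pos F15_20_19_0) Ls.nil)))))
 Ls.nil))))))))))))))))))))

noncomputable def cF15_1_0 : L2 :=
 (Ls.cons Ls.nil
 (Ls.cons Ls.nil
 (Ls.cons (Ls.cons (Ent.neg F15_24_2_1) (Ls.cons (Ent.neg F15_23_2_1) (Ls.cons (Ent.neg F15_22_2_1) (Ls.cons (Ent.neg F15_21_2_1) (Ls.cons (Ent.neg F15_20_2_1) (Ls.cons (Ent.neg F15_19_2_1) (Ls.cons (Ent.neg F15_18_2_1) (Ls.cons (Ent.neg F15_17_2_1) (Ls.cons (Ent.neg F15_16_2_1) (Ls.cons (Ent.neg F15_15_2_1) (Ls.cons (Ent.neg F15_14_2_1) (Ls.cons (Ent.neg F15_13_2_1) (Ls.cons (Ent.neg F15_12_2_1) (Ls.cons (Ent.neg F15_11_2_1) (Ls.cons (Ent.neg F15_10_2_1) (Ls.cons (Ent.neg F15_9_2_1) (Ls.cons (Ent.neg F15_8_2_1) (Ls.cons (Ent.neg F15_7_2_1)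 (Ls.cons (Ent.neg F15_6_2_1) (Ls.cons (Ent.neg F15_5_2_1) (Ls.cons (Ent.neg F15_4_2_1) (Ls.cons (Ent.neg F15_3_2_1) Ls.nil))))))))))))))))))))))
 (Ls.cons (Ls.cons Ent.zero (Ls.cons (Ent.neg F15_23_3_1) (Ls.cons (Ent.neg F15_22_3_1) (Ls.cons (Ent.neg F15_21_3_1) (Ls.cons (Ent.neg F15_20_3_1) (Ls.cons (Ent.neg F15_19_3_1) (Ls.cons (Ent.neg F15_18_3_1) (Ls.cons (Ent.neg F15_17_3_1) (Ls.cons (Ent.neg F15_16_3_1) (Ls.cons (Ent.neg F15_15_3_1) (Ls.cons (Ent.neg F15_14_3_1) (Ls.cons (Ent.neg F15_13_3_1) (Ls.cons (Ent.neg F15_12_3_1) (Ls.cons (Ent.neg F15_11_3_1) (Ls.cons (Ent.neg F15_10_3_1) (Ls.cons (Ent.neg F15_9_3_1) (Ls.cons (Ent.neg F15_8_3_1) (Ls.cons (Ent.neg F15_7_3_1) (Ls.cons (Ent.neg F15_6_3_1) (Ls.cons (Ent.neg F15_5_3_1) (Ls.cons (Ent.neg F15_4_3_1)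 Ls.nil)))))))))))))))))))))
 (Ls.cons (Ls.cons Ent.zero (Ls.cons (Ent.neg F15_23_4_1) (Ls.cons (Ent.neg F15_22_4_1) (Ls.cons (Ent.neg F15_21_4_1) (Ls.cons (Ent.neg F15_20_4_1) (Ls.cons (Ent.neg F15_19_4_1) (Ls.cons (Ent.neg F15_18_4_1) (Ls.cons (Ent.neg F15_17_4_1) (Ls.cons (Ent.neg F15_16_4_1) (Ls.cons (Ent.neg F15_15_4_1) (Ls.cons (Ent.neg F15_14_4_1) (Ls.cons (Ent.neg F15_13_4_1) (Ls.cons (Ent.neg F15_12_4_1) (Ls.cons (Ent.neg F15_11_4_1) (Ls.cons (Ent.neg F15_10_4_1) (Ls.cons (Ent.neg F15_9_4_1) (Ls.cons (Ent.neg F15_8_4_1) (Ls.cons (Ent.neg F15_7_4_1) (Ls.cons (Ent.neg F15_6_4_1) (Ls.cons (Ent.neg F15_5_4_1) Ls.nil))))))))))))))))))))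
 (Ls.cons Ls.nil
 (Ls.cons Ls.nil
 (Ls.cons Ls.nil
 (Ls.cons Ls.nil
 (Ls.cons Ls.nil
 (Ls.cons Ls.nil
 (Ls.cons Ls.nil
 (Ls.cons Ls.nil
 (Ls.cons Ls.nil
 (Ls.cons Ls.nil
 (Ls.cons Ls.nil
 (Ls.cons Ls.nil
 (Ls.cons Ls.nil
 (Ls.cons Ls.nil
 (Ls.cons Ls.nil
 Ls.nil))))))))))))))))))))

noncomputable def cF15_2_0 : L2 :=
 (Ls.cons Ls.nil
 (Ls.cons Ls.nil
 (Ls.cons Ls.nil
 (Ls.cons Ls.nil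
 (Ls.cons Ls.nil
 (Ls.cons Ls.nil
 (Ls.cons Ls.nil
 (Ls.cons Ls.nil
 (Ls.cons Ls.nil
 (Ls.cons Ls.nil
 (Ls.cons Ls.nil
 (Ls.cons Ls.nil
 (Ls.cons Ls.nil
 (Ls.cons Ls.nil
 (Ls.cons Ls.nil
 (Ls.cons Ls.nil
 (Ls.cons Ls.nil
 (Ls.cons Ls.nil
 (Ls.cons Ls.nil
 (Ls.cons Ls.nil
 Ls.nil))))))))))))))))))))

noncomputable def cF15_3_0 : L2 :=
 (Ls.cons Ls.nil
 (Ls.cons Ls.nil
 (Ls.cons Ls.nil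
 (Ls.cons Ls.nil
 (Ls.cons Ls.nil
 (Ls.cons Ls.nil
 (Ls.cons Ls.nil
 (Ls.cons Ls.nil
 (Ls.cons Ls.nil
 (Ls.cons Ls.nil
 (Ls.cons Ls.nil
 (Ls.cons Ls.nil
 (Ls.cons Ls.nil
 (Ls.cons Ls.nil
 (Ls.cons Ls.nil
 (Ls.cons Ls.nil
 (Ls.cons Ls.nil
 (Ls.cons Ls.nil
 (Ls.cons Ls.nil
 (Ls.cons Ls.nil
 Ls.nil))))))))))))))))))))

noncomputable def cF15_4_0 : L2 :=
 (Ls.cons Ls.nil
 (Ls.cons Ls.nil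
 (Ls.cons Ls.nil
 (Ls.cons Ls.nil
 (Ls.cons Ls.nil
 (Ls.cons Ls.nil
 (Ls.cons Ls.nil
 (Ls.cons Ls.nil
 (Ls.cons Ls.nil
 (Ls.cons Ls.nil
 (Ls.cons Ls.nil
 (Ls.cons Ls.nil
 (Ls.cons Ls.nil
 (Ls.cons Ls.nil
 (Ls.cons Ls.nil
 (Ls.cons Ls.nil
 (Ls.cons Ls.nil
 (Ls.cons Ls.nil
 (Ls.cons Ls.nil
 (Ls.cons Ls.nil
 Ls.nil))))))))))))))))))))

noncomputable def cF15_5_0 : L2 :=
 (Ls.cons Ls.nil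
 (Ls.cons Ls.nil
 (Ls.cons Ls.nil
 (Ls.cons Ls.nil
 (Ls.cons Ls.nil
 (Ls.cons Ls.nil
 (Ls.cons Ls.nil
 (Ls.cons Ls.nil
 (Ls.cons Ls.nil
 (Ls.cons Ls.nil
 (Ls.cons Ls.nil
 (Ls.cons (Ls.cons Ent.zero (Ls.cons Ent.zero (Ls.cons Ent.zero (Ls.cons Ent.zero (Ls.cons Ent.zero (Ls.cons Ent.zero (Ls.cons Ent.zero (Ls.cons (Ent.neg F15_17_11_5) (Ls.cons (Ent.neg F15_16_11_5) (Ls.cons (Ent.neg F15_15_11_5) (Ls.cons (Ent.neg F15_14_11_5) (Ls.cons (Ent.neg F15_13_11_5) (Ls.cons (Ent.neg F15_12_11_5) Ls.nil)))))))))))))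
 (Ls.cons Ls.nil
 (Ls.cons Ls.nil
 (Ls.cons Ls.nil
 (Ls.cons Ls.nil
 (Ls.cons Ls.nil
 (Ls.cons Ls.nil
 (Ls.cons Ls.nil
 (Ls.cons Ls.nil
 Ls.nil))))))))))))))))))))

noncomputable def cF15_6_0 : L2 :=
 (Ls.cons Ls.nil
 (Ls.cons Ls.nil
 (Ls.cons Ls.nil
 (Ls.cons Ls.nil
 (Ls.cons Ls.nil
 (Ls.cons Ls.nil
 (Ls.cons Ls.nil
 (Ls.cons Ls.nil
 (Ls.cons Ls.nil
 (Ls.cons Ls.nil
 (Ls.cons Ls.nil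
 (Ls.cons Ls.nil
 (Ls.cons (Ls.cons Ent.zero (Ls.cons Ent.zero (Ls.cons Ent.zero (Ls.cons Ent.zero (Ls.cons Ent.zero (Ls.cons Ent.zero (Ls.cons (Ent.neg F15_18_12_6) (Ls.cons (Ent.neg F15_17_12_6) (Ls.cons (Ent.neg F15_16_12_6) (Ls.cons (Ent.neg F15_15_12_6) (Ls.cons (Ent.neg F15_14_12_6) (Ls.cons (Ent.neg F15_13_12_6) Ls.nil))))))))))))
 (Ls.cons Ls.nil
 (Ls.cons Ls.nil
 (Ls.cons Ls.nil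
 (Ls.cons Ls.nil
 (Ls.cons Ls.nil
 (Ls.cons Ls.nil
 (Ls.cons Ls.nil
 Ls.nil))))))))))))))))))))

noncomputable def cF15_7_0 : L2 :=
 (Ls.cons Ls.nil
 (Ls.cons Ls.nil
 (Ls.cons Ls.nil
 (Ls.cons Ls.nil
 (Ls.cons Ls.nil
 (Ls.cons Ls.nil
 (Ls.cons Ls.nil
 (Ls.cons Ls.nil
 (Ls.cons Ls.nil
 (Ls.cons Ls.nil
 (Ls.cons Ls.nil
 (Ls.cons Ls.nil
 (Ls.cons Ls.nil
 (Ls.cons Ls.nil
 (Ls.cons Ls.nil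
 (Ls.cons Ls.nil
 (Ls.cons Ls.nil
 (Ls.cons Ls.nil
 (Ls.cons Ls.nil
 (Ls.cons Ls.nil
 Ls.nil))))))))))))))))))))

noncomputable def cF15_8_0 : L2 :=
 (Ls.cons Ls.nil
 (Ls.cons Ls.nil
 (Ls.cons Ls.nil
 (Ls.cons Ls.nil
 (Ls.cons Ls.nil
 (Ls.cons Ls.nil
 (Ls.cons Ls.nil
 (Ls.cons Ls.nil
 (Ls.cons Ls.nil
 (Ls.cons Ls.nil
 (Ls.cons Ls.nil
 (Ls.cons Ls.nil
 (Ls.cons Ls.nil
 (Ls.cons Ls.nil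
 (Ls.cons Ls.nil
 (Ls.cons Ls.nil
 (Ls.cons Ls.nil
 (Ls.cons Ls.nil
 (Ls.cons Ls.nil
 (Ls.cons Ls.nil
 Ls.nil))))))))))))))))))))

noncomputable def cF15_9_0 : L2 :=
 (Ls.cons Ls.nil
 (Ls.cons Ls.nil
 (Ls.cons Ls.nil
 (Ls.cons Ls.nil
 (Ls.cons Ls.nil
 (Ls.cons Ls.nil
 (Ls.cons Ls.nil
 (Ls.cons Ls.nil
 (Ls.cons Ls.nil
 (Ls.cons Ls.nil
 (Ls.cons Ls.nil
 (Ls.cons Ls.nil
 (Ls.cons Ls.nil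
 (Ls.cons Ls.nil
 (Ls.cons Ls.nil
 (Ls.cons Ls.nil
 (Ls.cons Ls.nil
 (Ls.cons Ls.nil
 (Ls.cons Ls.nil
 (Ls.cons Ls.nil
 Ls.nil))))))))))))))))))))

noncomputable def cF15_10_0 : L2 :=
 (Ls.cons Ls.nil
 (Ls.cons Ls.nil
 (Ls.cons Ls.nil
 (Ls.cons Ls.nil
 (Ls.cons Ls.nil
 (Ls.cons Ls.nil
 (Ls.cons Ls.nil
 (Ls.cons Ls.nil
 (Ls.cons Ls.nil
 (Ls.cons Ls.nil
 (Ls.cons Ls.nil
 (Ls.cons Ls.nil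
 (Ls.cons Ls.nil
 (Ls.cons Ls.nil
 (Ls.cons Ls.nil
 (Ls.cons Ls.nil
 (Ls.cons Ls.nil
 (Ls.cons Ls.nil
 (Ls.cons Ls.nil
 (Ls.cons Ls.nil
 Ls.nil))))))))))))))))))))

noncomputable def cF15_11_0 : L2 :=
 (Ls.cons Ls.nil
 (Ls.cons Ls.nil
 (Ls.cons Ls.nil
 (Ls.cons Ls.nil
 (Ls.cons Ls.nil
 (Ls.cons Ls.nil
 (Ls.cons Ls.nil
 (Ls.cons Ls.nil
 (Ls.cons Ls.nil
 (Ls.cons Ls.nil
 (Ls.cons Ls.nil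
 (Ls.cons Ls.nil
 (Ls.cons Ls.nil
 (Ls.cons Ls.nil
 (Ls.cons Ls.nil
 (Ls.cons Ls.nil
 (Ls.cons Ls.nil
 (Ls.cons Ls.nil
 (Ls.cons Ls.nil
 (Ls.cons Ls.nil
 Ls.nil))))))))))))))))))))

noncomputable def cF15_12_0 : L2 :=
 (Ls.cons Ls.nil
 (Ls.cons Ls.nil
 (Ls.cons Ls.nil
 (Ls.cons Ls.nil
 (Ls.cons Ls.nil
 (Ls.cons Ls.nil
 (Ls.cons Ls.nil
 (Ls.cons Ls.nil
 (Ls.cons Ls.nil
 (Ls.cons Ls.nil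
 (Ls.cons Ls.nil
 (Ls.cons Ls.nil
 (Ls.cons Ls.nil
 (Ls.cons Ls.nil
 (Ls.cons Ls.nil
 (Ls.cons Ls.nil
 (Ls.cons Ls.nil
 (Ls.cons Ls.nil
 (Ls.cons Ls.nil
 (Ls.cons Ls.nil
 Ls.nil))))))))))))))))))))

noncomputable def cF15_13_0 : L2 :=
 (Ls.cons Ls.nil
 (Ls.cons Ls.nil
 (Ls.cons Ls.nil
 (Ls.cons Ls.nil
 (Ls.cons Ls.nil
 (Ls.cons Ls.nil
 (Ls.cons Ls.nil
 (Ls.cons Ls.nil
 (Ls.cons Ls.nil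
 (Ls.cons Ls.nil
 (Ls.cons Ls.nil
 (Ls.cons Ls.nil
 (Ls.cons Ls.nil
 (Ls.cons Ls.nil
 (Ls.cons Ls.nil
 (Ls.cons Ls.nil
 (Ls.cons Ls.nil
 (Ls.cons Ls.nil
 (Ls.cons Ls.nil
 (Ls.cons Ls.nil
 Ls.nil))))))))))))))))))))

noncomputable def cF15_14_0 : L2 :=
 (Ls.cons Ls.nil
 (Ls.cons Ls.nil
 (Ls.cons Ls.nil
 (Ls.cons Ls.nil
 (Ls.cons Ls.nil
 (Ls.cons Ls.nil
 (Ls.cons Ls.nil
 (Ls.cons Ls.nil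
 (Ls.cons Ls.nil
 (Ls.cons Ls.nil
 (Ls.cons Ls.nil
 (Ls.cons Ls.nil
 (Ls.cons Ls.nil
 (Ls.cons Ls.nil
 (Ls.cons Ls.nil
 (Ls.cons Ls.nil
 (Ls.cons Ls.nil
 (Ls.cons Ls.nil
 (Ls.cons Ls.nil
 (Ls.cons Ls.nil
 Ls.nil))))))))))))))))))))

noncomputable def tbF15 : L3 := (Ls.cons cF15_0_0 (Ls.cons cF15_1_0 (Ls.cons cF15_2_0 (Ls.cons cF15_3_0 (Ls.cons cF15_4_0 (Ls.cons cF15_5_0 (Ls.cons cF15_6_0 (Ls.cons cF15_7_0 (Ls.cons cF15_8_0 (Ls.cons cF15_9_0 (Ls.cons cF15_10_0 (Ls.cons cF15_11_0 (Ls.cons cF15_12_0 (Ls.cons cF15_13_0 (Ls.cons cF15_14_0 Ls.nil)))))))))))))))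


end Vale.Agent.P181.K
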