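import Vale.Agent.P181.Six.F.H

set_option maxRecDepth 100000
set_option maxHeartbeats 0

namespace Vale.Agent.P181.K

noncomputable def F0_2_1_0 : Sv := un nF oF1_6
 (T.n (nat_lit 18963) (T.s (nat_lit 14308) (T.l (nat_lit 0x6000000000001)))
 (T.n (nat_lit 4704) (T.l (nat_lit 0x4000000000000000000000003))
 (T.l (nat_lit 0x6000000000001))))

noncomputable def F0_3_1_0 : Sv := up nF oF1_6
 (T.n (nat_lit 18914) (T.s (nat_lit 9604) (T.l (nat_lit 0x2000000000003)))
 (T.n (nat_lit 4704) (T.l (nat_lit 0x18000000000000000000000000000000000001))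
 (T.l (nat_lit 0x4000000000000000000000003))))

noncomputable def F0_4_1_0 : Sv := un nF oF1_6
 (T.n (nat_lit 14210) (T.s (nat_lit 9555) (T.l (nat_lit 0xc000000000000000000000001)))
 (T.n (nat_lit 9408) (T.l (nat_lit 0x8000000000000000000000000000000000003))
 (T.l (nat_lit 0x6000000000001))))

noncomputable def F0_5_1_0 : Sv := up nF oF1_5
 (T.n (nat_lit 14210) (T.s (nat_lit 9555) (T.l (nat_lit 0x2000000000003)))
 (T.n (nat_lit 4704) (T.l (nat_lit 0xc000000000000000000000001))
 (T.l (nat_lit 0x2000000000003))))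

noncomputable def F0_3_2_0 : Sv := un nF oF1_6
 (T.a (nat_lit 2) (nat_lit 14112) (T.n (nat_lit 9457) (T.s (nat_lit 4753) (T.l (nat_lit 0x7000000000000800000000000000000000000000000000000c)))
 (T.l (nat_lit 0x60000000000000000000000000000000000004))))

noncomputable def F0_4_2_0 : Sv := up nF oF1_6
 (T.a (nat_lit 2) (nat_lit 9408) (T.a (nat_lit 4) (nat_lit 18816) (T.s (nat_lit 4753) (T.l (nat_lit 0xd000000000000000000000004c000000000000000000000034)))))

noncomputable def F0_5_2_0 : Sv := un nF oF1_5
 (T.n (nat_lit 14161) (T.s (nat_lit 4851) (T.l (nat_lit 0x6000000000001)))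
 (T.n (nat_lit 4704) (T.l (nat_lit 0x8000000000000000000000000000000000003))
 (T.l (nat_lit 0xc000000000000000000000001))))

noncomputable def F0_4_3_0 : Sv := un nF oF1_6
 (T.a (nat_lit 2) (nat_lit 14112) (T.n (nat_lit 9457) (T.s (nat_lit 4802) (T.l (nat_lit 0x18000000000000000000000000000000000001)))
 (T.l (nat_lit 0x10000000000000000000000000000000000018000000000007))))

noncomputable def F0_5_3_0 : Sv := up nF oF1_5
 (T.n (nat_lit 9457) (T.s (nat_lit 4802) (T.l (nat_lit 0x4000000000000000000000003)))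
 (T.n (nat_lit 9408) (T.l (nat_lit 0x18000000000000000000000000000000000001))
 (T.l (nat_lit 0x2000000000003))))

noncomputable def F0_5_4_0 : Sv := un nF oF1_4
 (T.a (nat_lit 2) (nat_lit 4704) (T.a (nat_lit 4) (nat_lit 9408) (T.s (nat_lit 49) (T.l (nat_lit 0x70000000000188000000000070)))))

noncomputable def F0_3_2_1 : Sv := up nF oF1_6
 (T.n (nat_lit 18816) (T.s (nat_lit 196) (T.l (nat_lit 0x2000000000003)))
 (T.n (nat_lit 4704) (T.l (nat_lit 0x60000000000000000000000000000000000000000000000000000000000001))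
 (T.l (nat_lit 0x10000000000000000000000000000000000000000000000003))))

noncomputable def F0_4_2_1 : Sv := un nF oF1_6
 (T.a (nat_lit 2) (nat_lit 14112) (T.n (nat_lit 9408) (T.l (nat_lit 0xe000000000000000000000000800000000000000000000000000000000000c))
 (T.l (nat_lit 0x60000000000000000000000000000000000004))))

noncomputable def F0_5_2_1 : Sv := up nF oF1_5
 (T.a (nat_lit 2) (nat_lit 14112) (T.n (nat_lit 4704) (T.l (nat_lit 0xd0000000000018000000000000000000000000000000000004))
 (T.l (nat_lit 0x2000000000000000000000000000000000000c))))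

noncomputable def F0_4_3_1 : Sv := up nF oF1_6
 (T.a (nat_lit 2) (nat_lit 14112) (T.n (nat_lit 9408) (T.s (nat_lit 98) (T.l (nat_lit 0x8000000000000000000000000000000000003)))
 (T.l (nat_lit 0x6000000000000000000000000000000000001000000000000000000000000d))))

noncomputable def F0_5_3_1 : Sv := un nF oF1_5
 (T.a (nat_lit 2) (nat_lit 9408) (T.a (nat_lit 4) (nat_lit 18816) (T.l (nat_lit 0x700000000000000000000000c400000000000000000000001c))))

noncomputable def F0_5_4_1 : Sv := up nF oF1_4
 (T.a (nat_lit 2) (nat_lit 4704) (T.a (nat_lit 4) (nat_lit 9408) (T.l (nat_lit 0x18800000000010c0000000000000000000000d0))))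

noncomputable def F0_4_3_2 : Sv := un nF oF1_6
 (T.n (nat_lit 4704) (T.s (nat_lit 49) (T.l (nat_lit 0x30000000000000000000000000000000000000000000000001)))
 (T.n (nat_lit 18816) (T.l (nat_lit 0x20000000000000000000000000000000000000000000000000000000000003))
 (T.l (nat_lit 0x6000000000001))))

noncomputable def F0_5_3_2 : Sv := up nF oF1_5
 (T.a (nat_lit 2) (nat_lit 14112) (T.n (nat_lit 4704) (T.s (nat_lit 49) (T.l (nat_lit 0x8000000000000000000000000000000000003)))
 (T.l (nat_lit 0x3000000000000000000000000000000000000800000000000d))))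

noncomputable def F0_5_4_2 : Sv := un nF oF1_4
 (T.a (nat_lit 2) (nat_lit 4704) (T.a (nat_lit 4) (nat_lit 9408) (T.l (nat_lit 0x3800000000000000000000018200000000004c))))

noncomputable def F0_5_4_3 : Sv := up nF oF1_3
 (T.a (nat_lit 2) (nat_lit 4704) (T.a (nat_lit 4) (nat_lit 9408) (T.l (nat_lit 0x34000000000026000000000034))))


end Vale.Agent.P181.K
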