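import Vale.Agent.P181.Six.K3

set_option maxRecDepth 100000
set_option maxHeartbeats 0

namespace Vale.Agent.P181.K

noncomputable def JF : Job := ⟨6, 96, 49, 105, 25, 20, 15⟩

noncomputable def tF : Ls (Ls Nat) := (Ls.cons (Ls.cons 25 (Ls.cons 25 (Ls.cons 25 (Ls.cons 25 (Ls.cons 24 (Ls.cons 24 (Ls.cons 23 (Ls.cons 23 (Ls.cons 23 (Ls.cons 23 (Ls.cons 23 (Ls.cons 23 (Ls.cons 22 (Ls.cons 22 (Ls.cons 22 (Ls.cons 22 (Ls.cons 21 (Ls.cons 21 (Ls.cons 21 (Ls.cons 21 Ls.nil)))))))))))))))))))) (Ls.cons (Ls.cons 25 (Ls.cons 25 (Ls.cons 25 (Ls.cons 24 (Ls.cons 24 (Ls.cons 22 (Ls.cons 22 (Ls.cons 22 (Ls.cons 22 (Ls.cons 21 (Ls.cons 21 (Ls.cons 21 (Ls.cons 21 (Ls.cons 20 (Ls.cons 20 (Ls.cons 20 (Ls.cons 20 (Ls.cons 19 (Ls.cons 0 (Ls.cons 0 Ls.nil)))))))))))))))))))) (Ls.cons (Ls.cons 23 (Ls.cons 23 (Ls.cons 23 (Ls.cons 23 (Ls.cons 22 (Ls.cons 22 (Ls.cons 22 (Ls.cons 22 (Ls.cons 21 (Ls.cons 21 (Ls.cons 21 (Ls.cons 21 (Ls.cons 20 (Ls.cons 20 (Ls.cons 20 (Ls.cons 20 (Ls.cons 19 (Ls.cons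 19 (Ls.cons 0 (Ls.cons 0 Ls.nil)))))))))))))))))))) (Ls.cons (Ls.cons 22 (Ls.cons 22 (Ls.cons 22 (Ls.cons 22 (Ls.cons 22 (Ls.cons 22 (Ls.cons 22 (Ls.cons 21 (Ls.cons 21 (Ls.cons 21 (Ls.cons 21 (Ls.cons 20 (Ls.cons 20 (Ls.cons 20 (Ls.cons 20 (Ls.cons 19 (Ls.cons 19 (Ls.cons 19 (Ls.cons 0 (Ls.cons 0 Ls.nil)))))))))))))))))))) (Ls.cons (Ls.cons 22 (Ls.cons 22 (Ls.cons 22 (Ls.cons 22 (Ls.cons 22 (Ls.cons 22 (Ls.cons 21 (Ls.cons 21 (Ls.cons 21 (Ls.cons 21 (Ls.cons 20 (Ls.cons 20 (Ls.cons 20 (Ls.cons 20 (Ls.cons 19 (Ls.cons 19 (Ls.cons 19 (Ls.cons 19 (Ls.cons 0 (Ls.cons 0 Ls.nil)))))))))))))))))))) (Ls.cons (Ls.cons 21 (Ls.cons 21 (Ls.cons 21 (Ls.cons 21 (Ls.cons 21 (Ls.cons 21 (Ls.cons 21 (Ls.cons 21 (Ls.cons 21 (Ls.cons 20 (Ls.cons 20 (Ls.cons 20 (Ls.cons 20 (Ls.cons 19 (Ls.cons 19 (Ls.cons 19 (Ls.cons 19 (Ls.cons 0 (Ls.cons 0 (Ls.cons 0 Ls.nil)))))))))))))))))))) (Ls.cons (Ls.cons 21 (Ls.cons 21 (Ls.cons 21 (Ls.cons 21 (Ls.cons 21 (Ls.cons 21 (Ls.cons 21 (Ls.cons 21 (Ls.cons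 20 (Ls.cons 20 (Ls.cons 20 (Ls.cons 20 (Ls.cons 19 (Ls.cons 19 (Ls.cons 19 (Ls.cons 19 (Ls.cons 18 (Ls.cons 0 (Ls.cons 0 (Ls.cons 0 Ls.nil)))))))))))))))))))) (Ls.cons (Ls.cons 20 (Ls.cons 20 (Ls.cons 20 (Ls.cons 20 (Ls.cons 20 (Ls.cons 20 (Ls.cons 20 (Ls.cons 20 (Ls.cons 20 (Ls.cons 20 (Ls.cons 20 (Ls.cons 19 (Ls.cons 19 (Ls.cons 19 (Ls.cons 19 (Ls.cons 18 (Ls.cons 18 (Ls.cons 0 (Ls.cons 0 (Ls.cons 0 Ls.nil)))))))))))))))))))) (Ls.cons (Ls.cons 20 (Ls.cons 20 (Ls.cons 20 (Ls.cons 20 (Ls.cons 20 (Ls.cons 20 (Ls.cons 20 (Ls.cons 20 (Ls.cons 20 (Ls.cons 20 (Ls.cons 19 (Ls.cons 19 (Ls.cons 19 (Ls.cons 19 (Ls.cons 18 (Ls.cons 18 (Ls.cons 18 (Ls.cons 0 (Ls.cons 0 (Ls.cons 0 Ls.nil)))))))))))))))))))) (Ls.cons (Ls.cons 19 (Ls.cons 19 (Ls.cons 19 (Ls.cons 19 (Ls.cons 19 (Ls.cons 19 (Ls.cons 19 (Ls.cons 19 (Ls.cons 19 (Ls.cons 19 (Ls.cons 19 (Ls.cons 19 (Ls.cons 19 (Ls.cons 18 (Ls.cons 18 (Ls.cons 18 (Ls.cons 18 (Ls.cons 0 (Ls.cons 0 (Ls.cons 0 Ls.nil)))))))))))))))))))) (Ls.cons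 (Ls.cons 19 (Ls.cons 19 (Ls.cons 19 (Ls.cons 19 (Ls.cons 19 (Ls.cons 19 (Ls.cons 19 (Ls.cons 19 (Ls.cons 19 (Ls.cons 19 (Ls.cons 19 (Ls.cons 19 (Ls.cons 18 (Ls.cons 18 (Ls.cons 18 (Ls.cons 18 (Ls.cons 0 (Ls.cons 0 (Ls.cons 0 (Ls.cons 0 Ls.nil)))))))))))))))))))) (Ls.cons (Ls.cons 18 (Ls.cons 18 (Ls.cons 18 (Ls.cons 18 (Ls.cons 18 (Ls.cons 18 (Ls.cons 18 (Ls.cons 18 (Ls.cons 18 (Ls.cons 18 (Ls.cons 18 (Ls.cons 18 (Ls.cons 18 (Ls.cons 18 (Ls.cons 18 (Ls.cons 17 (Ls.cons 0 (Ls.cons 0 (Ls.cons 0 (Ls.cons 0 Ls.nil)))))))))))))))))))) (Ls.cons (Ls.cons 18 (Ls.cons 18 (Ls.cons 18 (Ls.cons 18 (Ls.cons 18 (Ls.cons 18 (Ls.cons 18 (Ls.cons 18 (Ls.cons 18 (Ls.cons 18 (Ls.cons 18 (Ls.cons 18 (Ls.cons 18 (Ls.cons 18 (Ls.cons 17 (Ls.cons 17 (Ls.cons 0 (Ls.cons 0 (Ls.cons 0 (Ls.cons 0 Ls.nil)))))))))))))))))))) (Ls.cons (Ls.cons 17 (Ls.cons 17 (Ls.cons 17 (Ls.cons 17 (Ls.cons 17 (Ls.cons 17 (Ls.cons 17 (Ls.cons 17 (Ls.cons 17 (Ls.cons 17 (Ls.cons 17 (Ls.cons 17 (Ls.cons 17 (Ls.cons 17 (Ls.cons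 17 (Ls.cons 17 (Ls.cons 0 (Ls.cons 0 (Ls.cons 0 (Ls.cons 0 Ls.nil)))))))))))))))))))) (Ls.cons (Ls.cons 17 (Ls.cons 17 (Ls.cons 17 (Ls.cons 17 (Ls.cons 17 (Ls.cons 17 (Ls.cons 17 (Ls.cons 17 (Ls.cons 17 (Ls.cons 17 (Ls.cons 17 (Ls.cons 17 (Ls.cons 17 (Ls.cons 17 (Ls.cons 17 (Ls.cons 17 (Ls.cons 0 (Ls.cons 0 (Ls.cons 0 (Ls.cons 0 Ls.nil)))))))))))))))))))) Ls.nil)))))))))))))))

noncomputable def tF15 : Ls (Ls Nat) := (Ls.cons (Ls.cons 0 (Ls.cons 0 (Ls.cons 0 (Ls.cons 25 (Ls.cons 24 (Ls.cons 24 (Ls.cons 0 (Ls.cons 0 (Ls.cons 0 (Ls.cons 0 (Ls.cons 17 (Ls.cons 23 (Ls.cons 22 (Ls.cons 21 (Ls.cons 0 (Ls.cons 22 (Ls.cons 0 (Ls.cons 0 (Ls.cons 20 (Ls.cons 21 Ls.nil)))))))))))))))))))) (Ls.cons (Ls.cons 0 (Ls.cons 0 (Ls.cons 25 (Ls.cons 24 (Ls.cons 24 (Ls.cons 0 (Ls.cons 0 (Ls.cons 0 (Ls.cons 0 (Ls.cons 0 (Ls.cons 0 (Ls.cons 0 (Ls.cons 0 (Ls.cons 0 (Ls.cons 0 (Ls.cons 0 (Ls.cons 0 (Ls.cons 0 (Ls.cons 0 (Ls.cons 0 Ls.nil)))))))))))))))))))) (Ls.cons (Ls.cons 0 (Ls.cons 0 (Ls.cons 0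 (Ls.cons 0 (Ls.cons 0 (Ls.cons 0 (Ls.cons 0 (Ls.cons 0 (Ls.cons 0 (Ls.cons 0 (Ls.cons 0 (Ls.cons 0 (Ls.cons 0 (Ls.cons 0 (Ls.cons 0 (Ls.cons 0 (Ls.cons 0 (Ls.cons 0 (Ls.cons 0 (Ls.cons 0 Ls.nil)))))))))))))))))))) (Ls.cons (Ls.cons 0 (Ls.cons 0 (Ls.cons 0 (Ls.cons 0 (Ls.cons 0 (Ls.cons 0 (Ls.cons 0 (Ls.cons 0 (Ls.cons 0 (Ls.cons 0 (Ls.cons 0 (Ls.cons 0 (Ls.cons 0 (Ls.cons 0 (Ls.cons 0 (Ls.cons 0 (Ls.cons 0 (Ls.cons 0 (Ls.cons 0 (Ls.cons 0 Ls.nil)))))))))))))))))))) (Ls.cons (Ls.cons 0 (Ls.cons 0 (Ls.cons 0 (Ls.cons 0 (Ls.cons 0 (Ls.cons 0 (Ls.cons 0 (Ls.cons 0 (Ls.cons 0 (Ls.cons 0 (Ls.cons 0 (Ls.cons 0 (Ls.cons 0 (Ls.cons 0 (Ls.cons 0 (Ls.cons 0 (Ls.cons 0 (Ls.cons 0 (Ls.cons 0 (Ls.cons 0 Ls.nil)))))))))))))))))))) (Ls.cons (Ls.cons 0 (Ls.cons 0 (Ls.cons 0 (Ls.cons 0 (Ls.cons 0 (Ls.cons 0 (Ls.cons 0 (Ls.cons 0 (Ls.cons 0 (Ls.cons 0 (Ls.cons 0 (Ls.cons 18 (Ls.cons 0 (Ls.cons 0 (Ls.cons 0 (Ls.cons 0 (Ls.cons 0 (Ls.cons 0 (Ls.cons 0 (Ls.cons 0 Ls.nil)))))))))))))))))))) (Ls.cons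 (Ls.cons 0 (Ls.cons 0 (Ls.cons 0 (Ls.cons 0 (Ls.cons 0 (Ls.cons 0 (Ls.cons 0 (Ls.cons 0 (Ls.cons 0 (Ls.cons 0 (Ls.cons 0 (Ls.cons 0 (Ls.cons 19 (Ls.cons 0 (Ls.cons 0 (Ls.cons 0 (Ls.cons 0 (Ls.cons 0 (Ls.cons 0 (Ls.cons 0 Ls.nil)))))))))))))))))))) (Ls.cons (Ls.cons 0 (Ls.cons 0 (Ls.cons 0 (Ls.cons 0 (Ls.cons 0 (Ls.cons 0 (Ls.cons 0 (Ls.cons 0 (Ls.cons 0 (Ls.cons 0 (Ls.cons 0 (Ls.cons 0 (Ls.cons 0 (Ls.cons 0 (Ls.cons 0 (Ls.cons 0 (Ls.cons 0 (Ls.cons 0 (Ls.cons 0 (Ls.cons 0 Ls.nil)))))))))))))))))))) (Ls.cons (Ls.cons 0 (Ls.cons 0 (Ls.cons 0 (Ls.cons 0 (Ls.cons 0 (Ls.cons 0 (Ls.cons 0 (Ls.cons 0 (Ls.cons 0 (Ls.cons 0 (Ls.cons 0 (Ls.cons 0 (Ls.cons 0 (Ls.cons 0 (Ls.cons 0 (Ls.cons 0 (Ls.cons 0 (Ls.cons 0 (Ls.cons 0 (Ls.cons 0 Ls.nil)))))))))))))))))))) (Ls.cons (Ls.cons 0 (Ls.cons 0 (Ls.cons 0 (Ls.cons 0 (Ls.cons 0 (Ls.cons 0 (Ls.cons 0 (Ls.cons 0 (Ls.cons 0 (Ls.cons 0 (Ls.cons 0 (Ls.cons 0 (Ls.cons 0 (Ls.cons 0 (Ls.cons 0 (Ls.cons 0 (Ls.cons 0 (Ls.cons 0 (Ls.cons 0 (Ls.cons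 0 Ls.nil)))))))))))))))))))) (Ls.cons (Ls.cons 0 (Ls.cons 0 (Ls.cons 0 (Ls.cons 0 (Ls.cons 0 (Ls.cons 0 (Ls.cons 0 (Ls.cons 0 (Ls.cons 0 (Ls.cons 0 (Ls.cons 0 (Ls.cons 0 (Ls.cons 0 (Ls.cons 0 (Ls.cons 0 (Ls.cons 0 (Ls.cons 0 (Ls.cons 0 (Ls.cons 0 (Ls.cons 0 Ls.nil)))))))))))))))))))) (Ls.cons (Ls.cons 0 (Ls.cons 0 (Ls.cons 0 (Ls.cons 0 (Ls.cons 0 (Ls.cons 0 (Ls.cons 0 (Ls.cons 0 (Ls.cons 0 (Ls.cons 0 (Ls.cons 0 (Ls.cons 0 (Ls.cons 0 (Ls.cons 0 (Ls.cons 0 (Ls.cons 0 (Ls.cons 0 (Ls.cons 0 (Ls.cons 0 (Ls.cons 0 Ls.nil)))))))))))))))))))) (Ls.cons (Ls.cons 0 (Ls.cons 0 (Ls.cons 0 (Ls.cons 0 (Ls.cons 0 (Ls.cons 0 (Ls.cons 0 (Ls.cons 0 (Ls.cons 0 (Ls.cons 0 (Ls.cons 0 (Ls.cons 0 (Ls.cons 0 (Ls.cons 0 (Ls.cons 0 (Ls.cons 0 (Ls.cons 0 (Ls.cons 0 (Ls.cons 0 (Ls.cons 0 Ls.nil)))))))))))))))))))) (Ls.cons (Ls.cons 0 (Ls.cons 0 (Ls.cons 0 (Ls.cons 0 (Ls.cons 0 (Ls.cons 0 (Ls.cons 0 (Ls.cons 0 (Ls.cons 0 (Ls.cons 0 (Ls.cons 0 (Ls.cons 0 (Ls.cons 0 (Ls.cons 0 (Ls.cons 0 (Ls.cons 0 (Ls.cons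 0 (Ls.cons 0 (Ls.cons 0 (Ls.cons 0 Ls.nil)))))))))))))))))))) (Ls.cons (Ls.cons 0 (Ls.cons 0 (Ls.cons 0 (Ls.cons 0 (Ls.cons 0 (Ls.cons 0 (Ls.cons 0 (Ls.cons 0 (Ls.cons 0 (Ls.cons 0 (Ls.cons 0 (Ls.cons 0 (Ls.cons 0 (Ls.cons 0 (Ls.cons 0 (Ls.cons 0 (Ls.cons 0 (Ls.cons 0 (Ls.cons 0 (Ls.cons 0 Ls.nil)))))))))))))))))))) Ls.nil)))))))))))))))

noncomputable def nF : Nat := JF.ones

noncomputable def oF1_3 : Nat := om JF 1 3
noncomputable def oF1_4 : Nat := om JF 1 4
noncomputable def oF1_5 : Nat := om JF 1 5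
noncomputable def oF1_6 : Nat := om JF 1 6
noncomputable def oF1_7 : Nat := om JF 1 7
noncomputable def oF1_8 : Nat := om JF 1 8
noncomputable def oF1_9 : Nat := om JF 1 9
noncomputable def oF1_10 : Nat := om JF 1 10
noncomputable def oF1_11 : Nat := om JF 1 11
noncomputable def oF1_12 : Nat := om JF 1 12
noncomputable def oF1_13 : Nat := om JF 1 13
noncomputable def oF1_14 : Nat := om JF 1 14
noncomputable def oF1_15 : Nat := om JF 1 15
noncomputable def oF1_16 : Nat := om JF 1 16
noncomputable def oF1_17 : Nat := om JF 1 17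
noncomputable def oF1_18 : Nat := om JF 1 18
noncomputable def oF1_19 : Nat := om JF 1 19
noncomputable def oF1_20 : Nat := om JF 1 20
noncomputable def oF1_21 : Nat := om JF 1 21
noncomputable def oF1_22 : Nat := om JF 1 22
noncomputable def oF1_23 : Nat := om JF 1 23
noncomputable def oF1_24 : Nat := om JF 1 24
noncomputable def oF1_25 : Nat := om JF 1 25
noncomputable def oF1_26 : Nat := om JF 1 26
noncomputable def oF1_27 : Nat := om JF 1 27
noncomputable def oF1_28 : Nat := om JF 1 28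
noncomputable def oF1_29 : Nat := om JF 1 29
noncomputable def oF1_30 : Nat := om JF 1 30
noncomputable def oF2_3 : Nat := om JF 2 3
noncomputable def oF2_4 : Nat := om JF 2 4
noncomputable def oF2_5 : Nat := om JF 2 5
noncomputable def oF2_6 : Nat := om JF 2 6
noncomputable def oF2_7 : Nat := om JF 2 7
noncomputable def oF2_8 : Nat := om JF 2 8
noncomputable def oF2_9 : Nat := om JF 2 9
noncomputable def oF2_10 : Nat := om JF 2 10
noncomputable def oF2_11 : Nat := om JF 2 11
noncomputable def oF2_12 : Nat := om JF 2 12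
noncomputable def oF2_13 : Nat := om JF 2 13
noncomputable def oF2_14 : Nat := om JF 2 14
noncomputable def oF2_15 : Nat := om JF 2 15
noncomputable def oF2_16 : Nat := om JF 2 16
noncomputable def oF2_17 : Nat := om JF 2 17
noncomputable def oF2_18 : Nat := om JF 2 18
noncomputable def oF2_19 : Nat := om JF 2 19
noncomputable def oF2_20 : Nat := om JF 2 20
noncomputable def oF2_21 : Nat := om JF 2 21
noncomputable def oF2_22 : Nat := om JF 2 22
noncomputable def oF2_23 : Nat := om JF 2 23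
noncomputable def oF2_24 : Nat := om JF 2 24
noncomputable def oF2_25 : Nat := om JF 2 25
noncomputable def oF2_26 : Nat := om JF 2 26
noncomputable def oF2_27 : Nat := om JF 2 27
noncomputable def oF2_28 : Nat := om JF 2 28
noncomputable def oF2_29 : Nat := om JF 2 29
noncomputable def oF2_30 : Nat := om JF 2 30
noncomputable def oF3_3 : Nat := om JF 3 3
noncomputable def oF3_4 : Nat := om JF 3 4
noncomputable def oF3_5 : Nat := om JF 3 5
noncomputable def oF3_6 : Nat := om JF 3 6
noncomputable def oF3_7 : Nat := om JF 3 7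
noncomputable def oF3_8 : Nat := om JF 3 8
noncomputable def oF3_9 : Nat := om JF 3 9
noncomputable def oF3_10 : Nat := om JF 3 10
noncomputable def oF3_11 : Nat := om JF 3 11
noncomputable def oF3_12 : Nat := om JF 3 12
noncomputable def oF3_13 : Nat := om JF 3 13
noncomputable def oF3_14 : Nat := om JF 3 14
noncomputable def oF3_15 : Nat := om JF 3 15
noncomputable def oF3_16 : Nat := om JF 3 16
noncomputable def oF3_17 : Nat := om JF 3 17
noncomputable def oF3_18 : Nat := om JF 3 18
noncomputable def oF3_19 : Nat := om JF 3 19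
noncomputable def oF3_20 : Nat := om JF 3 20
noncomputable def oF3_21 : Nat := om JF 3 21
noncomputable def oF3_22 : Nat := om JF 3 22
noncomputable def oF3_23 : Nat := om JF 3 23
noncomputable def oF3_24 : Nat := om JF 3 24
noncomputable def oF3_25 : Nat := om JF 3 25
noncomputable def oF3_26 : Nat := om JF 3 26
noncomputable def oF3_27 : Nat := om JF 3 27
noncomputable def oF3_28 : Nat := om JF 3 28
noncomputable def oF3_29 : Nat := om JF 3 29
noncomputable def oF3_30 : Nat := om JF 3 30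
noncomputable def oF3_31 : Nat := om JF 3 31
noncomputable def oF3_32 : Nat := om JF 3 32
noncomputable def oF3_33 : Nat := om JF 3 33
noncomputable def oF4_5 : Nat := om JF 4 5
noncomputable def oF4_6 : Nat := om JF 4 6
noncomputable def oF4_7 : Nat := om JF 4 7
noncomputable def oF4_8 : Nat := om JF 4 8
noncomputable def oF4_9 : Nat := om JF 4 9
noncomputable def oF4_10 : Nat := om JF 4 10
noncomputable def oF4_11 : Nat := om JF 4 11
noncomputable def oF4_12 : Nat := om JF 4 12
noncomputable def oF4_13 : Nat := om JF 4 13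
noncomputable def oF4_14 : Nat := om JF 4 14
noncomputable def oF4_15 : Nat := om JF 4 15
noncomputable def oF4_16 : Nat := om JF 4 16
noncomputable def oF4_17 : Nat := om JF 4 17
noncomputable def oF4_18 : Nat := om JF 4 18
noncomputable def oF4_19 : Nat := om JF 4 19
noncomputable def oF4_20 : Nat := om JF 4 20
noncomputable def oF4_21 : Nat := om JF 4 21
noncomputable def oF4_22 : Nat := om JF 4 22
noncomputable def oF4_23 : Nat := om JF 4 23
noncomputable def oF4_24 : Nat := om JF 4 24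
noncomputable def oF4_25 : Nat := om JF 4 25
noncomputable def oF4_26 : Nat := om JF 4 26
noncomputable def oF4_27 : Nat := om JF 4 27
noncomputable def oF4_28 : Nat := om JF 4 28
noncomputable def oF4_29 : Nat := om JF 4 29
noncomputable def oF4_30 : Nat := om JF 4 30
noncomputable def oF4_31 : Nat := om JF 4 31
noncomputable def oF4_32 : Nat := om JF 4 32
noncomputable def oF4_33 : Nat := om JF 4 33
noncomputable def oF4_34 : Nat := om JF 4 34
noncomputable def oF5_9 : Nat := om JF 5 9
noncomputable def oF5_10 : Nat := om JF 5 10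
noncomputable def oF5_11 : Nat := om JF 5 11
noncomputable def oF5_12 : Nat := om JF 5 12
noncomputable def oF5_13 : Nat := om JF 5 13
noncomputable def oF5_14 : Nat := om JF 5 14
noncomputable def oF5_15 : Nat := om JF 5 15
noncomputable def oF5_16 : Nat := om JF 5 16
noncomputable def oF5_17 : Nat := om JF 5 17
noncomputable def oF5_18 : Nat := om JF 5 18
noncomputable def oF5_19 : Nat := om JF 5 19
noncomputable def oF5_20 : Nat := om JF 5 20
noncomputable def oF5_21 : Nat := om JF 5 21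
noncomputable def oF5_22 : Nat := om JF 5 22
noncomputable def oF5_23 : Nat := om JF 5 23
noncomputable def oF5_24 : Nat := om JF 5 24
noncomputable def oF5_25 : Nat := om JF 5 25
noncomputable def oF5_26 : Nat := om JF 5 26
noncomputable def oF5_27 : Nat := om JF 5 27
noncomputable def oF5_28 : Nat := om JF 5 28
noncomputable def oF5_29 : Nat := om JF 5 29
noncomputable def oF5_30 : Nat := om JF 5 30
noncomputable def oF5_31 : Nat := om JF 5 31
noncomputable def oF5_32 : Nat := om JF 5 32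
noncomputable def oF6_9 : Nat := om JF 6 9
noncomputable def oF6_10 : Nat := om JF 6 10
noncomputable def oF6_11 : Nat := om JF 6 11
noncomputable def oF6_12 : Nat := om JF 6 12
noncomputable def oF6_13 : Nat := om JF 6 13
noncomputable def oF6_14 : Nat := om JF 6 14
noncomputable def oF6_15 : Nat := om JF 6 15
noncomputable def oF6_16 : Nat := om JF 6 16
noncomputable def oF6_17 : Nat := om JF 6 17
noncomputable def oF6_18 : Nat := om JF 6 18
noncomputable def oF6_19 : Nat := om JF 6 19
noncomputable def oF6_20 : Nat := om JF 6 20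
noncomputable def oF6_21 : Nat := om JF 6 21
noncomputable def oF6_22 : Nat := om JF 6 22
noncomputable def oF6_23 : Nat := om JF 6 23
noncomputable def oF6_24 : Nat := om JF 6 24
noncomputable def oF6_25 : Nat := om JF 6 25
noncomputable def oF6_26 : Nat := om JF 6 26
noncomputable def oF6_27 : Nat := om JF 6 27
noncomputable def oF6_28 : Nat := om JF 6 28
noncomputable def oF6_29 : Nat := om JF 6 29
noncomputable def oF6_30 : Nat := om JF 6 30
noncomputable def oF6_31 : Nat := om JF 6 31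
noncomputable def oF6_32 : Nat := om JF 6 32
noncomputable def oF6_33 : Nat := om JF 6 33
noncomputable def oF6_34 : Nat := om JF 6 34
noncomputable def oF7_12 : Nat := om JF 7 12
noncomputable def oF7_13 : Nat := om JF 7 13
noncomputable def oF7_14 : Nat := om JF 7 14
noncomputable def oF7_15 : Nat := om JF 7 15
noncomputable def oF7_16 : Nat := om JF 7 16
noncomputable def oF7_17 : Nat := om JF 7 17
noncomputable def oF7_18 : Nat := om JF 7 18
noncomputable def oF7_19 : Nat := om JF 7 19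
noncomputable def oF7_20 : Nat := om JF 7 20
noncomputable def oF7_21 : Nat := om JF 7 21
noncomputable def oF7_22 : Nat := om JF 7 22
noncomputable def oF7_23 : Nat := om JF 7 23
noncomputable def oF7_24 : Nat := om JF 7 24
noncomputable def oF7_25 : Nat := om JF 7 25
noncomputable def oF7_26 : Nat := om JF 7 26
noncomputable def oF7_27 : Nat := om JF 7 27
noncomputable def oF7_28 : Nat := om JF 7 28
noncomputable def oF7_29 : Nat := om JF 7 29
noncomputable def oF7_30 : Nat := om JF 7 30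
noncomputable def oF7_31 : Nat := om JF 7 31
noncomputable def oF7_32 : Nat := om JF 7 32
noncomputable def oF7_33 : Nat := om JF 7 33
noncomputable def oF7_34 : Nat := om JF 7 34
noncomputable def oF8_14 : Nat := om JF 8 14
noncomputable def oF8_15 : Nat := om JF 8 15
noncomputable def oF8_16 : Nat := om JF 8 16
noncomputable def oF8_17 : Nat := om JF 8 17
noncomputable def oF8_18 : Nat := om JF 8 18
noncomputable def oF8_19 : Nat := om JF 8 19
noncomputable def oF8_20 : Nat := om JF 8 20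
noncomputable def oF8_21 : Nat := om JF 8 21
noncomputable def oF8_22 : Nat := om JF 8 22
noncomputable def oF8_23 : Nat := om JF 8 23
noncomputable def oF8_24 : Nat := om JF 8 24
noncomputable def oF8_25 : Nat := om JF 8 25
noncomputable def oF8_26 : Nat := om JF 8 26
noncomputable def oF8_27 : Nat := om JF 8 27
noncomputable def oF8_28 : Nat := om JF 8 28
noncomputable def oF8_29 : Nat := om JF 8 29
noncomputable def oF8_30 : Nat := om JF 8 30
noncomputable def oF8_31 : Nat := om JF 8 31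
noncomputable def oF8_32 : Nat := om JF 8 32
noncomputable def oF9_17 : Nat := om JF 9 17
noncomputable def oF9_18 : Nat := om JF 9 18
noncomputable def oF9_19 : Nat := om JF 9 19
noncomputable def oF9_20 : Nat := om JF 9 20
noncomputable def oF9_21 : Nat := om JF 9 21
noncomputable def oF9_22 : Nat := om JF 9 22
noncomputable def oF9_23 : Nat := om JF 9 23
noncomputable def oF9_24 : Nat := om JF 9 24
noncomputable def oF9_25 : Nat := om JF 9 25
noncomputable def oF9_26 : Nat := om JF 9 26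
noncomputable def oF9_27 : Nat := om JF 9 27
noncomputable def oF9_28 : Nat := om JF 9 28
noncomputable def oF9_29 : Nat := om JF 9 29
noncomputable def oF9_30 : Nat := om JF 9 30
noncomputable def oF9_31 : Nat := om JF 9 31
noncomputable def oF9_32 : Nat := om JF 9 32
noncomputable def oF9_33 : Nat := om JF 9 33
noncomputable def oF9_34 : Nat := om JF 9 34
noncomputable def oF10_17 : Nat := om JF 10 17
noncomputable def oF10_19 : Nat := om JF 10 19
noncomputable def oF10_20 : Nat := om JF 10 20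
noncomputable def oF10_21 : Nat := om JF 10 21
noncomputable def oF10_22 : Nat := om JF 10 22
noncomputable def oF10_23 : Nat := om JF 10 23
noncomputable def oF10_24 : Nat := om JF 10 24
noncomputable def oF10_25 : Nat := om JF 10 25
noncomputable def oF10_26 : Nat := om JF 10 26
noncomputable def oF10_27 : Nat := om JF 10 27
noncomputable def oF10_28 : Nat := om JF 10 28
noncomputable def oF10_29 : Nat := om JF 10 29
noncomputable def oF10_30 : Nat := om JF 10 30
noncomputable def oF10_31 : Nat := om JF 10 31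
noncomputable def oF10_32 : Nat := om JF 10 32
noncomputable def oF10_33 : Nat := om JF 10 33
noncomputable def oF11_20 : Nat := om JF 11 20
noncomputable def oF11_21 : Nat := om JF 11 21
noncomputable def oF11_22 : Nat := om JF 11 22
noncomputable def oF11_23 : Nat := om JF 11 23
noncomputable def oF11_24 : Nat := om JF 11 24
noncomputable def oF11_25 : Nat := om JF 11 25
noncomputable def oF11_26 : Nat := om JF 11 26
noncomputable def oF11_27 : Nat := om JF 11 27
noncomputable def oF11_28 : Nat := om JF 11 28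
noncomputable def oF11_29 : Nat := om JF 11 29
noncomputable def oF11_30 : Nat := om JF 11 30
noncomputable def oF11_31 : Nat := om JF 11 31
noncomputable def oF11_32 : Nat := om JF 11 32
noncomputable def oF11_33 : Nat := om JF 11 33
noncomputable def oF11_34 : Nat := om JF 11 34
noncomputable def oF12_21 : Nat := om JF 12 21
noncomputable def oF12_22 : Nat := om JF 12 22
noncomputable def oF12_23 : Nat := om JF 12 23
noncomputable def oF12_24 : Nat := om JF 12 24
noncomputable def oF12_25 : Nat := om JF 12 25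
noncomputable def oF12_26 : Nat := om JF 12 26
noncomputable def oF12_27 : Nat := om JF 12 27
noncomputable def oF12_28 : Nat := om JF 12 28
noncomputable def oF12_29 : Nat := om JF 12 29
noncomputable def oF12_30 : Nat := om JF 12 30
noncomputable def oF12_31 : Nat := om JF 12 31
noncomputable def oF12_32 : Nat := om JF 12 32
noncomputable def oF12_33 : Nat := om JF 12 33
noncomputable def oF12_34 : Nat := om JF 12 34
noncomputable def oF13_20 : Nat := om JF 13 20
noncomputable def oF13_21 : Nat := om JF 13 21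
noncomputable def oF13_22 : Nat := om JF 13 22
noncomputable def oF13_23 : Nat := om JF 13 23
noncomputable def oF13_24 : Nat := om JF 13 24
noncomputable def oF13_25 : Nat := om JF 13 25
noncomputable def oF13_26 : Nat := om JF 13 26
noncomputable def oF13_27 : Nat := om JF 13 27
noncomputable def oF13_28 : Nat := om JF 13 28
noncomputable def oF13_29 : Nat := om JF 13 29
noncomputable def oF13_30 : Nat := om JF 13 30
noncomputable def oF13_31 : Nat := om JF 13 31
noncomputable def oF13_32 : Nat := om JF 13 32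
noncomputable def oF13_33 : Nat := om JF 13 33
noncomputable def oF13_34 : Nat := om JF 13 34
noncomputable def oF14_20 : Nat := om JF 14 20
noncomputable def oF14_22 : Nat := om JF 14 22
noncomputable def oF14_23 : Nat := om JF 14 23
noncomputable def oF14_24 : Nat := om JF 14 24
noncomputable def oF14_25 : Nat := om JF 14 25
noncomputable def oF14_26 : Nat := om JF 14 26
noncomputable def oF14_27 : Nat := om JF 14 27
noncomputable def oF14_28 : Nat := om JF 14 28
noncomputable def oF14_29 : Nat := om JF 14 29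
noncomputable def oF14_30 : Nat := om JF 14 30
noncomputable def oF14_31 : Nat := om JF 14 31
noncomputable def oF14_32 : Nat := om JF 14 32
noncomputable def oF14_33 : Nat := om JF 14 33
noncomputable def oF15_20 : Nat := om JF 15 20
noncomputable def oF15_21 : Nat := om JF 15 21
noncomputable def oF15_22 : Nat := om JF 15 22
noncomputable def oF15_23 : Nat := om JF 15 23
noncomputable def oF15_24 : Nat := om JF 15 24
noncomputable def oF15_25 : Nat := om JF 15 25
noncomputable def oF15_26 : Nat := om JF 15 26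
noncomputable def oF15_27 : Nat := om JF 15 27
noncomputable def oF15_28 : Nat := om JF 15 28
noncomputable def oF15_29 : Nat := om JF 15 29
noncomputable def oF15_30 : Nat := om JF 15 30
noncomputable def oF15_31 : Nat := om JF 15 31
noncomputable def oF15_32 : Nat := om JF 15 32
noncomputable def oF15_33 : Nat := om JF 15 33
noncomputable def oF15_34 : Nat := om JF 15 34
noncomputable def oF16_21 : Nat := om JF 16 21
noncomputable def oF16_22 : Nat := om JF 16 22
noncomputable def oF16_23 : Nat := om JF 16 23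
noncomputable def oF16_24 : Nat := om JF 16 24
noncomputable def oF16_25 : Nat := om JF 16 25
noncomputable def oF16_26 : Nat := om JF 16 26
noncomputable def oF16_27 : Nat := om JF 16 27
noncomputable def oF16_28 : Nat := om JF 16 28
noncomputable def oF16_29 : Nat := om JF 16 29
noncomputable def oF16_30 : Nat := om JF 16 30
noncomputable def oF16_31 : Nat := om JF 16 31
noncomputable def oF16_32 : Nat := om JF 16 32
noncomputable def oF16_33 : Nat := om JF 16 33
noncomputable def oF16_34 : Nat := om JF 16 34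
noncomputable def oF17_20 : Nat := om JF 17 20
noncomputable def oF17_21 : Nat := om JF 17 21
noncomputable def oF17_22 : Nat := om JF 17 22
noncomputable def oF17_23 : Nat := om JF 17 23
noncomputable def oF17_24 : Nat := om JF 17 24
noncomputable def oF17_25 : Nat := om JF 17 25
noncomputable def oF17_26 : Nat := om JF 17 26
noncomputable def oF17_27 : Nat := om JF 17 27
noncomputable def oF17_28 : Nat := om JF 17 28
noncomputable def oF17_29 : Nat := om JF 17 29
noncomputable def oF17_30 : Nat := om JF 17 30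
noncomputable def oF17_31 : Nat := om JF 17 31
noncomputable def oF17_32 : Nat := om JF 17 32
noncomputable def oF17_33 : Nat := om JF 17 33
noncomputable def oF17_34 : Nat := om JF 17 34
noncomputable def oF18_21 : Nat := om JF 18 21
noncomputable def oF18_22 : Nat := om JF 18 22
noncomputable def oF18_23 : Nat := om JF 18 23
noncomputable def oF18_24 : Nat := om JF 18 24
noncomputable def oF18_25 : Nat := om JF 18 25
noncomputable def oF18_26 : Nat := om JF 18 26
noncomputable def oF18_27 : Nat := om JF 18 27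
noncomputable def oF18_28 : Nat := om JF 18 28
noncomputable def oF18_29 : Nat := om JF 18 29
noncomputable def oF18_30 : Nat := om JF 18 30
noncomputable def oF18_31 : Nat := om JF 18 31
noncomputable def oF18_32 : Nat := om JF 18 32
noncomputable def oF18_33 : Nat := om JF 18 33
noncomputable def oF19_20 : Nat := om JF 19 20
noncomputable def oF19_21 : Nat := om JF 19 21
noncomputable def oF19_22 : Nat := om JF 19 22
noncomputable def oF19_23 : Nat := om JF 19 23
noncomputable def oF19_24 : Nat := om JF 19 24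
noncomputable def oF19_25 : Nat := om JF 19 25
noncomputable def oF19_26 : Nat := om JF 19 26
noncomputable def oF19_27 : Nat := om JF 19 27
noncomputable def oF19_28 : Nat := om JF 19 28
noncomputable def oF19_29 : Nat := om JF 19 29
noncomputable def oF19_30 : Nat := om JF 19 30
noncomputable def oF19_31 : Nat := om JF 19 31
noncomputable def oF19_32 : Nat := om JF 19 32
noncomputable def oF19_33 : Nat := om JF 19 33
noncomputable def oF20_20 : Nat := om JF 20 20
noncomputable def oF20_21 : Nat := om JF 20 21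
noncomputable def oF20_22 : Nat := om JF 20 22
noncomputable def oF20_23 : Nat := om JF 20 23
noncomputable def oF20_24 : Nat := om JF 20 24
noncomputable def oF20_25 : Nat := om JF 20 25
noncomputable def oF20_26 : Nat := om JF 20 26
noncomputable def oF20_27 : Nat := om JF 20 27
noncomputable def oF20_28 : Nat := om JF 20 28
noncomputable def oF20_29 : Nat := om JF 20 29
noncomputable def oF20_30 : Nat := om JF 20 30
noncomputable def oF20_31 : Nat := om JF 20 31
noncomputable def oF20_32 : Nat := om JF 20 32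
noncomputable def oF20_33 : Nat := om JF 20 33
noncomputable def oF21_21 : Nat := om JF 21 21
noncomputable def oF21_22 : Nat := om JF 21 22
noncomputable def oF21_23 : Nat := om JF 21 23
noncomputable def oF21_24 : Nat := om JF 21 24
noncomputable def oF21_25 : Nat := om JF 21 25
noncomputable def oF21_26 : Nat := om JF 21 26
noncomputable def oF21_27 : Nat := om JF 21 27
noncomputable def oF21_28 : Nat := om JF 21 28
noncomputable def oF21_29 : Nat := om JF 21 29
noncomputable def oF21_30 : Nat := om JF 21 30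
noncomputable def oF21_31 : Nat := om JF 21 31
noncomputable def oF21_32 : Nat := om JF 21 32
noncomputable def oF21_33 : Nat := om JF 21 33
noncomputable def oF22_20 : Nat := om JF 22 20
noncomputable def oF22_21 : Nat := om JF 22 21
noncomputable def oF22_22 : Nat := om JF 22 22
noncomputable def oF22_23 : Nat := om JF 22 23
noncomputable def oF22_24 : Nat := om JF 22 24
noncomputable def oF22_25 : Nat := om JF 22 25
noncomputable def oF22_26 : Nat := om JF 22 26
noncomputable def oF22_27 : Nat := om JF 22 27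
noncomputable def oF22_28 : Nat := om JF 22 28
noncomputable def oF22_29 : Nat := om JF 22 29
noncomputable def oF22_30 : Nat := om JF 22 30
noncomputable def oF22_31 : Nat := om JF 22 31
noncomputable def oF22_32 : Nat := om JF 22 32
noncomputable def oF22_33 : Nat := om JF 22 33
noncomputable def oF23_20 : Nat := om JF 23 20
noncomputable def oF23_21 : Nat := om JF 23 21
noncomputable def oF23_22 : Nat := om JF 23 22
noncomputable def oF23_23 : Nat := om JF 23 23
noncomputable def oF23_24 : Nat := om JF 23 24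
noncomputable def oF23_25 : Nat := om JF 23 25
noncomputable def oF23_26 : Nat := om JF 23 26
noncomputable def oF23_27 : Nat := om JF 23 27
noncomputable def oF23_28 : Nat := om JF 23 28
noncomputable def oF23_29 : Nat := om JF 23 29
noncomputable def oF23_30 : Nat := om JF 23 30
noncomputable def oF23_31 : Nat := om JF 23 31
noncomputable def oF23_32 : Nat := om JF 23 32
noncomputable def oF23_33 : Nat := om JF 23 33
noncomputable def oF24_20 : Nat := om JF 24 20
noncomputable def oF24_21 : Nat := om JF 24 21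
noncomputable def oF24_22 : Nat := om JF 24 22
noncomputable def oF24_23 : Nat := om JF 24 23
noncomputable def oF24_24 : Nat := om JF 24 24
noncomputable def oF24_25 : Nat := om JF 24 25
noncomputable def oF24_26 : Nat := om JF 24 26
noncomputable def oF24_27 : Nat := om JF 24 27
noncomputable def oF24_28 : Nat := om JF 24 28
noncomputable def oF24_29 : Nat := om JF 24 29
noncomputable def oF24_30 : Nat := om JF 24 30
noncomputable def oF24_31 : Nat := om JF 24 31
noncomputable def oF24_32 : Nat := om JF 24 32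
noncomputable def oF25_20 : Nat := om JF 25 20
noncomputable def oF25_21 : Nat := om JF 25 21
noncomputable def oF25_22 : Nat := om JF 25 22
noncomputable def oF25_23 : Nat := om JF 25 23
noncomputable def oF25_24 : Nat := om JF 25 24
noncomputable def oF25_25 : Nat := om JF 25 25
noncomputable def oF25_26 : Nat := om JF 25 26
noncomputable def oF25_27 : Nat := om JF 25 27
noncomputable def oF25_28 : Nat := om JF 25 28
noncomputable def oF25_29 : Nat := om JF 25 29
noncomputable def oF25_30 : Nat := om JF 25 30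
noncomputable def oF25_31 : Nat := om JF 25 31
noncomputable def oF25_32 : Nat := om JF 25 32
noncomputable def oF26_20 : Nat := om JF 26 20
noncomputable def oF26_21 : Nat := om JF 26 21
noncomputable def oF26_22 : Nat := om JF 26 22
noncomputable def oF26_23 : Nat := om JF 26 23
noncomputable def oF26_24 : Nat := om JF 26 24
noncomputable def oF26_25 : Nat := om JF 26 25
noncomputable def oF26_26 : Nat := om JF 26 26
noncomputable def oF26_27 : Nat := om JF 26 27
noncomputable def oF26_28 : Nat := om JF 26 28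
noncomputable def oF26_29 : Nat := om JF 26 29
noncomputable def oF26_30 : Nat := om JF 26 30
noncomputable def oF26_31 : Nat := om JF 26 31
noncomputable def oF26_32 : Nat := om JF 26 32
noncomputable def oF27_20 : Nat := om JF 27 20
noncomputable def oF27_21 : Nat := om JF 27 21
noncomputable def oF27_22 : Nat := om JF 27 22
noncomputable def oF27_23 : Nat := om JF 27 23
noncomputable def oF27_24 : Nat := om JF 27 24
noncomputable def oF27_25 : Nat := om JF 27 25
noncomputable def oF27_26 : Nat := om JF 27 26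
noncomputable def oF27_27 : Nat := om JF 27 27
noncomputable def oF27_28 : Nat := om JF 27 28
noncomputable def oF27_29 : Nat := om JF 27 29
noncomputable def oF27_30 : Nat := om JF 27 30
noncomputable def oF27_31 : Nat := om JF 27 31
noncomputable def oF27_32 : Nat := om JF 27 32
noncomputable def oF28_20 : Nat := om JF 28 20
noncomputable def oF28_21 : Nat := om JF 28 21
noncomputable def oF28_22 : Nat := om JF 28 22
noncomputable def oF28_23 : Nat := om JF 28 23
noncomputable def oF28_24 : Nat := om JF 28 24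
noncomputable def oF28_25 : Nat := om JF 28 25
noncomputable def oF28_26 : Nat := om JF 28 26
noncomputable def oF28_27 : Nat := om JF 28 27
noncomputable def oF28_28 : Nat := om JF 28 28
noncomputable def oF28_29 : Nat := om JF 28 29
noncomputable def oF28_30 : Nat := om JF 28 30
noncomputable def oF28_31 : Nat := om JF 28 31
noncomputable def oF28_32 : Nat := om JF 28 32
noncomputable def oF29_20 : Nat := om JF 29 20
noncomputable def oF29_21 : Nat := om JF 29 21
noncomputable def oF29_22 : Nat := om JF 29 22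
noncomputable def oF29_23 : Nat := om JF 29 23
noncomputable def oF29_24 : Nat := om JF 29 24
noncomputable def oF29_25 : Nat := om JF 29 25
noncomputable def oF29_26 : Nat := om JF 29 26
noncomputable def oF29_27 : Nat := om JF 29 27
noncomputable def oF29_28 : Nat := om JF 29 28
noncomputable def oF29_29 : Nat := om JF 29 29
noncomputable def oF29_30 : Nat := om JF 29 30
noncomputable def oF29_31 : Nat := om JF 29 31
noncomputable def oF29_32 : Nat := om JF 29 32
noncomputable def oF30_20 : Nat := om JF 30 20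
noncomputable def oF30_22 : Nat := om JF 30 22
noncomputable def oF30_23 : Nat := om JF 30 23
noncomputable def oF30_24 : Nat := om JF 30 24
noncomputable def oF30_25 : Nat := om JF 30 25
noncomputable def oF30_26 : Nat := om JF 30 26
noncomputable def oF30_27 : Nat := om JF 30 27
noncomputable def oF30_28 : Nat := om JF 30 28
noncomputable def oF30_29 : Nat := om JF 30 29
noncomputable def oF30_30 : Nat := om JF 30 30
noncomputable def oF30_31 : Nat := om JF 30 31
noncomputable def oF31_20 : Nat := om JF 31 20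
noncomputable def oF31_21 : Nat := om JF 31 21
noncomputable def oF31_22 : Nat := om JF 31 22
noncomputable def oF31_23 : Nat := om JF 31 23
noncomputable def oF31_24 : Nat := om JF 31 24
noncomputable def oF31_25 : Nat := om JF 31 25
noncomputable def oF31_26 : Nat := om JF 31 26
noncomputable def oF31_27 : Nat := om JF 31 27
noncomputable def oF31_28 : Nat := om JF 31 28
noncomputable def oF31_29 : Nat := om JF 31 29
noncomputable def oF31_30 : Nat := om JF 31 30
noncomputable def oF31_31 : Nat := om JF 31 31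
noncomputable def oF32_21 : Nat := om JF 32 21
noncomputable def oF32_22 : Nat := om JF 32 22
noncomputable def oF32_23 : Nat := om JF 32 23
noncomputable def oF32_24 : Nat := om JF 32 24
noncomputable def oF32_25 : Nat := om JF 32 25
noncomputable def oF32_26 : Nat := om JF 32 26
noncomputable def oF32_27 : Nat := om JF 32 27
noncomputable def oF32_28 : Nat := om JF 32 28
noncomputable def oF32_29 : Nat := om JF 32 29
noncomputable def oF32_30 : Nat := om JF 32 30
noncomputable def oF32_31 : Nat := om JF 32 31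
noncomputable def oF33_20 : Nat := om JF 33 20
noncomputable def oF33_21 : Nat := om JF 33 21
noncomputable def oF33_22 : Nat := om JF 33 22
noncomputable def oF33_23 : Nat := om JF 33 23
noncomputable def oF33_24 : Nat := om JF 33 24
noncomputable def oF33_25 : Nat := om JF 33 25
noncomputable def oF33_26 : Nat := om JF 33 26
noncomputable def oF33_27 : Nat := om JF 33 27
noncomputable def oF33_28 : Nat := om JF 33 28
noncomputable def oF33_29 : Nat := om JF 33 29
noncomputable def oF33_30 : Nat := om JF 33 30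
noncomputable def oF33_31 : Nat := om JF 33 31
noncomputable def oF34_21 : Nat := om JF 34 21
noncomputable def oF34_22 : Nat := om JF 34 22
noncomputable def oF34_23 : Nat := om JF 34 23
noncomputable def oF34_24 : Nat := om JF 34 24
noncomputable def oF34_25 : Nat := om JF 34 25
noncomputable def oF34_26 : Nat := om JF 34 26
noncomputable def oF34_27 : Nat := om JF 34 27
noncomputable def oF34_28 : Nat := om JF 34 28
noncomputable def oF34_29 : Nat := om JF 34 29
noncomputable def oF34_30 : Nat := om JF 34 30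
noncomputable def oF35_20 : Nat := om JF 35 20
noncomputable def oF35_22 : Nat := om JF 35 22
noncomputable def oF35_23 : Nat := om JF 35 23
noncomputable def oF35_24 : Nat := om JF 35 24
noncomputable def oF35_25 : Nat := om JF 35 25
noncomputable def oF35_26 : Nat := om JF 35 26
noncomputable def oF35_27 : Nat := om JF 35 27
noncomputable def oF35_28 : Nat := om JF 35 28
noncomputable def oF35_29 : Nat := om JF 35 29
noncomputable def oF35_30 : Nat := om JF 35 30
noncomputable def oF36_20 : Nat := om JF 36 20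
noncomputable def oF36_21 : Nat := om JF 36 21
noncomputable def oF36_22 : Nat := om JF 36 22
noncomputable def oF36_23 : Nat := om JF 36 23
noncomputable def oF36_24 : Nat := om JF 36 24
noncomputable def oF36_25 : Nat := om JF 36 25
noncomputable def oF36_26 : Nat := om JF 36 26
noncomputable def oF36_27 : Nat := om JF 36 27
noncomputable def oF36_28 : Nat := om JF 36 28
noncomputable def oF36_29 : Nat := om JF 36 29
noncomputable def oF36_30 : Nat := om JF 36 30
noncomputable def oF37_21 : Nat := om JF 37 21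
noncomputable def oF37_22 : Nat := om JF 37 22
noncomputable def oF37_23 : Nat := om JF 37 23
noncomputable def oF37_24 : Nat := om JF 37 24
noncomputable def oF37_25 : Nat := om JF 37 25
noncomputable def oF37_26 : Nat := om JF 37 26
noncomputable def oF37_27 : Nat := om JF 37 27
noncomputable def oF37_28 : Nat := om JF 37 28
noncomputable def oF37_29 : Nat := om JF 37 29
noncomputable def oF38_21 : Nat := om JF 38 21
noncomputable def oF38_22 : Nat := om JF 38 22
noncomputable def oF38_23 : Nat := om JF 38 23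
noncomputable def oF38_24 : Nat := om JF 38 24
noncomputable def oF38_25 : Nat := om JF 38 25
noncomputable def oF38_26 : Nat := om JF 38 26
noncomputable def oF38_27 : Nat := om JF 38 27
noncomputable def oF38_28 : Nat := om JF 38 28
noncomputable def oF39_21 : Nat := om JF 39 21
noncomputable def oF39_22 : Nat := om JF 39 22
noncomputable def oF39_23 : Nat := om JF 39 23
noncomputable def oF39_24 : Nat := om JF 39 24
noncomputable def oF39_25 : Nat := om JF 39 25
noncomputable def oF39_26 : Nat := om JF 39 26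
noncomputable def oF39_27 : Nat := om JF 39 27
noncomputable def oF41_23 : Nat := om JF 41 23
noncomputable def oF41_24 : Nat := om JF 41 24
noncomputable def oF41_25 : Nat := om JF 41 25
noncomputable def oF42_23 : Nat := om JF 42 23
noncomputable def oF42_24 : Nat := om JF 42 24
noncomputable def oF42_25 : Nat := om JF 42 25

end Vale.Agent.P181.K
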