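import Vale.Agent.P181.Six.KGlue
import Vale.Agent.P181.Six.F.K1_0
import Vale.Agent.P181.Six.F.K2_0
import Vale.Agent.P181.Six.F.K3_0
import Vale.Agent.P181.Six.F.K4_0
import Vale.Agent.P181.Six.F.K4_1
import Vale.Agent.P181.Six.F.K5_0
import Vale.Agent.P181.Six.F.K5_1
import Vale.Agent.P181.Six.F.K5_2
import Vale.Agent.P181.Six.F.K6_0
import Vale.Agent.P181.Six.F.K6_1
import Vale.Agent.P181.Six.F.K6_2
import Vale.Agent.P181.Six.F.K7_0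
import Vale.Agent.P181.Six.F.K7_1
import Vale.Agent.P181.Six.F.K7_2
import Vale.Agent.P181.Six.F.K8_0
import Vale.Agent.P181.Six.F.K8_1
import Vale.Agent.P181.Six.F.K8_2
import Vale.Agent.P181.Six.F.K8_3
import Vale.Agent.P181.Six.F.K9_0
import Vale.Agent.P181.Six.F.K9_1
import Vale.Agent.P181.Six.F.K9_2
import Vale.Agent.P181.Six.F.K9_3
import Vale.Agent.P181.Six.F.K10_0
import Vale.Agent.P181.Six.F.K10_1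
import Vale.Agent.P181.Six.F.K10_2
import Vale.Agent.P181.Six.F.K10_3
import Vale.Agent.P181.Six.F.K11_0
import Vale.Agent.P181.Six.F.K11_1
import Vale.Agent.P181.Six.F.K11_2
import Vale.Agent.P181.Six.F.K11_3
import Vale.Agent.P181.Six.F.K12_0
import Vale.Agent.P181.Six.F.K12_1
import Vale.Agent.P181.Six.F.K12_2
import Vale.Agent.P181.Six.F.K12_3
import Vale.Agent.P181.Six.F.K12_4
import Vale.Agent.P181.Six.F.K13_0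
import Vale.Agent.P181.Six.F.K13_1
import Vale.Agent.P181.Six.F.K13_2
import Vale.Agent.P181.Six.F.K13_3
import Vale.Agent.P181.Six.F.K13_4
import Vale.Agent.P181.Six.F.K14_0
import Vale.Agent.P181.Six.F.K14_1
import Vale.Agent.P181.Six.F.K14_2
import Vale.Agent.P181.Six.F.K14_3
import Vale.Agent.P181.Six.F.K14_4
import Vale.Agent.P181.Six.F.K15_0
import Vale.Agent.P181.Six.F.SK0
import Vale.Agent.P181.Six.F.SK1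
import Vale.Agent.P181.Six.F.SK2
import Vale.Agent.P181.Six.F.SK3
import Vale.Agent.P181.Six.F.SK4
import Vale.Agent.P181.Six.F.SK5
import Vale.Agent.P181.Six.F.SK6
import Vale.Agent.P181.Six.F.SK7
import Vale.Agent.P181.Six.F.SK8
import Vale.Agent.P181.Six.F.SK9
import Vale.Agent.P181.Six.F.SK10
import Vale.Agent.P181.Six.F.SK11
import Vale.Agent.P181.Six.F.SK12
import Vale.Agent.P181.Six.F.SK13
import Vale.Agent.P181.Six.F.SK14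
import Vale.Agent.P181.Six.F.SK15
import Vale.Agent.P181.Six.F.Q0
import Vale.Agent.P181.Six.F.Q1
import Vale.Agent.P181.Six.F.Q2
import Vale.Agent.P181.Six.F.Q3
import Vale.Agent.P181.Six.F.Q4
import Vale.Agent.P181.Six.F.Q5
import Vale.Agent.P181.Six.F.Q6
import Vale.Agent.P181.Six.F.Q7
import Vale.Agent.P181.Six.F.Q8
import Vale.Agent.P181.Six.F.Q9
import Vale.Agent.P181.Six.F.Q10
import Vale.Agent.P181.Six.F.Q11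
import Vale.Agent.P181.Six.F.Q12
import Vale.Agent.P181.Six.F.Q13
import Vale.Agent.P181.Six.F.Q14

set_option maxRecDepth 100000
set_option maxHeartbeats 0

namespace Vale.Agent.P181.K

theorem tF_ok : TOK JF tF := tok_of_check (by decide +kernel)

theorem tF_anti : TAnti tF := tanti_of_check tF_ok (by decide +kernel)

theorem tF15_ok : TOK JF tF15 := tok_of_check (by decide +kernel)

theorem tF15_le : TLe tF15 tF := tle_of_check tF15_ok (by decide +kernel)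

theorem tbF0_ok : TblOK JF tF 0 0 tbF0 := tbl0_ok (by decide +kernel) tF_ok

theorem bsF1_ok : BoxesOK JF tF 1 1 bsF1 :=
  boxes_step tF_anti tbF0_ok boxF0_eq BoxesOK.nil rfl rfl

theorem levF1 : LevOK JF 1 1 1 := by decide +kernel

theorem cF1_0_0_ok : ChunkOK JF tF 1 1 0 0 20 cF1_0_0 :=
  chunk_ok_of_beq levF1 tF_ok (TLe.refl _) bsF1_ok cF1_0_0_eq

theorem cF1_1_0_ok : ChunkOK JF tF 1 1 1 0 20 cF1_1_0 :=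
  chunk_ok_of_beq levF1 tF_ok (TLe.refl _) bsF1_ok cF1_1_0_eq

theorem cF1_2_0_ok : ChunkOK JF tF 1 1 2 0 20 cF1_2_0 :=
  chunk_ok_of_beq levF1 tF_ok (TLe.refl _) bsF1_ok cF1_2_0_eq

theorem cF1_3_0_ok : ChunkOK JF tF 1 1 3 0 20 cF1_3_0 :=
  chunk_ok_of_beq levF1 tF_ok (TLe.refl _) bsF1_ok cF1_3_0_eq

theorem cF1_4_0_ok : ChunkOK JF tF 1 1 4 0 20 cF1_4_0 :=
  chunk_ok_of_beq levF1 tF_ok (TLe.refl _) bsF1_ok cF1_4_0_eq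

theorem cF1_5_0_ok : ChunkOK JF tF 1 1 5 0 20 cF1_5_0 :=
  chunk_ok_of_beq levF1 tF_ok (TLe.refl _) bsF1_ok cF1_5_0_eq

theorem cF1_6_0_ok : ChunkOK JF tF 1 1 6 0 20 cF1_6_0 :=
  chunk_ok_of_beq levF1 tF_ok (TLe.refl _) bsF1_ok cF1_6_0_eq

theorem cF1_7_0_ok : ChunkOK JF tF 1 1 7 0 20 cF1_7_0 :=
  chunk_ok_of_beq levF1 tF_ok (TLe.refl _) bsF1_ok cF1_7_0_eq

theorem cF1_8_0_ok : ChunkOK JF tF 1 1 8 0 20 cF1_8_0 :=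
  chunk_ok_of_beq levF1 tF_ok (TLe.refl _) bsF1_ok cF1_8_0_eq

theorem cF1_9_0_ok : ChunkOK JF tF 1 1 9 0 20 cF1_9_0 :=
  chunk_ok_of_beq levF1 tF_ok (TLe.refl _) bsF1_ok cF1_9_0_eq

theorem cF1_10_0_ok : ChunkOK JF tF 1 1 10 0 20 cF1_10_0 :=
  chunk_ok_of_beq levF1 tF_ok (TLe.refl _) bsF1_ok cF1_10_0_eq

theorem cF1_11_0_ok : ChunkOK JF tF 1 1 11 0 20 cF1_11_0 :=
  chunk_ok_of_beq levF1 tF_ok (TLe.refl _) bsF1_ok cF1_11_0_eq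

theorem cF1_12_0_ok : ChunkOK JF tF 1 1 12 0 20 cF1_12_0 :=
  chunk_ok_of_beq levF1 tF_ok (TLe.refl _) bsF1_ok cF1_12_0_eq

theorem cF1_13_0_ok : ChunkOK JF tF 1 1 13 0 20 cF1_13_0 :=
  chunk_ok_of_beq levF1 tF_ok (TLe.refl _) bsF1_ok cF1_13_0_eq

theorem cF1_14_0_ok : ChunkOK JF tF 1 1 14 0 20 cF1_14_0 :=
  chunk_ok_of_beq levF1 tF_ok (TLe.refl _) bsF1_ok cF1_14_0_eq

theorem tbF1_ok : TblOK JF tF 1 1 tbF1 := tblOK_of_from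
  (tblFrom_cons tF_ok (Nat.le_refl 20) cF1_0_0_ok
  (tblFrom_cons tF_ok (Nat.le_refl 20) cF1_1_0_ok
  (tblFrom_cons tF_ok (Nat.le_refl 20) cF1_2_0_ok
  (tblFrom_cons tF_ok (Nat.le_refl 20) cF1_3_0_ok
  (tblFrom_cons tF_ok (Nat.le_refl 20) cF1_4_0_ok
  (tblFrom_cons tF_ok (Nat.le_refl 20) cF1_5_0_ok
  (tblFrom_cons tF_ok (Nat.le_refl 20) cF1_6_0_ok
  (tblFrom_cons tF_ok (Nat.le_refl 20) cF1_7_0_ok
  (tblFrom_cons tF_ok (Nat.le_refl 20) cF1_8_0_ok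
  (tblFrom_cons tF_ok (Nat.le_refl 20) cF1_9_0_ok
  (tblFrom_cons tF_ok (Nat.le_refl 20) cF1_10_0_ok
  (tblFrom_cons tF_ok (Nat.le_refl 20) cF1_11_0_ok
  (tblFrom_cons tF_ok (Nat.le_refl 20) cF1_12_0_ok
  (tblFrom_cons tF_ok (Nat.le_refl 20) cF1_13_0_ok
  (tblFrom_cons tF_ok (Nat.le_refl 20) cF1_14_0_ok
  (tblFrom_nil tF_ok (Nat.le_refl 15)))))))))))))))))

theorem bsF2_ok : BoxesOK JF tF 2 3 bsF2 :=
  boxes_step tF_anti tbF1_ok boxF1_eq bsF1_ok rfl rfl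

theorem levF2 : LevOK JF 2 1 3 := by decide +kernel

theorem cF2_0_0_ok : ChunkOK JF tF 2 1 0 0 20 cF2_0_0 :=
  chunk_ok_of_beq levF2 tF_ok (TLe.refl _) bsF2_ok cF2_0_0_eq

theorem cF2_1_0_ok : ChunkOK JF tF 2 1 1 0 20 cF2_1_0 :=
  chunk_ok_of_beq levF2 tF_ok (TLe.refl _) bsF2_ok cF2_1_0_eq

theorem cF2_2_0_ok : ChunkOK JF tF 2 1 2 0 20 cF2_2_0 :=
  chunk_ok_of_beq levF2 tF_ok (TLe.refl _) bsF2_ok cF2_2_0_eq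

theorem cF2_3_0_ok : ChunkOK JF tF 2 1 3 0 20 cF2_3_0 :=
  chunk_ok_of_beq levF2 tF_ok (TLe.refl _) bsF2_ok cF2_3_0_eq

theorem cF2_4_0_ok : ChunkOK JF tF 2 1 4 0 20 cF2_4_0 :=
  chunk_ok_of_beq levF2 tF_ok (TLe.refl _) bsF2_ok cF2_4_0_eq

theorem cF2_5_0_ok : ChunkOK JF tF 2 1 5 0 20 cF2_5_0 :=
  chunk_ok_of_beq levF2 tF_ok (TLe.refl _) bsF2_ok cF2_5_0_eq

theorem cF2_6_0_ok : ChunkOK JF tF 2 1 6 0 20 cF2_6_0 :=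
  chunk_ok_of_beq levF2 tF_ok (TLe.refl _) bsF2_ok cF2_6_0_eq

theorem cF2_7_0_ok : ChunkOK JF tF 2 1 7 0 20 cF2_7_0 :=
  chunk_ok_of_beq levF2 tF_ok (TLe.refl _) bsF2_ok cF2_7_0_eq

theorem cF2_8_0_ok : ChunkOK JF tF 2 1 8 0 20 cF2_8_0 :=
  chunk_ok_of_beq levF2 tF_ok (TLe.refl _) bsF2_ok cF2_8_0_eq

theorem cF2_9_0_ok : ChunkOK JF tF 2 1 9 0 20 cF2_9_0 :=
  chunk_ok_of_beq levF2 tF_ok (TLe.refl _) bsF2_ok cF2_9_0_eq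

theorem cF2_10_0_ok : ChunkOK JF tF 2 1 10 0 20 cF2_10_0 :=
  chunk_ok_of_beq levF2 tF_ok (TLe.refl _) bsF2_ok cF2_10_0_eq

theorem cF2_11_0_ok : ChunkOK JF tF 2 1 11 0 20 cF2_11_0 :=
  chunk_ok_of_beq levF2 tF_ok (TLe.refl _) bsF2_ok cF2_11_0_eq

theorem cF2_12_0_ok : ChunkOK JF tF 2 1 12 0 20 cF2_12_0 :=
  chunk_ok_of_beq levF2 tF_ok (TLe.refl _) bsF2_ok cF2_12_0_eq

theorem cF2_13_0_ok : ChunkOK JF tF 2 1 13 0 20 cF2_13_0 :=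
  chunk_ok_of_beq levF2 tF_ok (TLe.refl _) bsF2_ok cF2_13_0_eq

theorem cF2_14_0_ok : ChunkOK JF tF 2 1 14 0 20 cF2_14_0 :=
  chunk_ok_of_beq levF2 tF_ok (TLe.refl _) bsF2_ok cF2_14_0_eq

theorem tbF2_ok : TblOK JF tF 2 1 tbF2 := tblOK_of_from
  (tblFrom_cons tF_ok (Nat.le_refl 20) cF2_0_0_ok
  (tblFrom_cons tF_ok (Nat.le_refl 20) cF2_1_0_ok
  (tblFrom_cons tF_ok (Nat.le_refl 20) cF2_2_0_ok
  (tblFrom_cons tF_ok (Nat.le_refl 20) cF2_3_0_ok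
  (tblFrom_cons tF_ok (Nat.le_refl 20) cF2_4_0_ok
  (tblFrom_cons tF_ok (Nat.le_refl 20) cF2_5_0_ok
  (tblFrom_cons tF_ok (Nat.le_refl 20) cF2_6_0_ok
  (tblFrom_cons tF_ok (Nat.le_refl 20) cF2_7_0_ok
  (tblFrom_cons tF_ok (Nat.le_refl 20) cF2_8_0_ok
  (tblFrom_cons tF_ok (Nat.le_refl 20) cF2_9_0_ok
  (tblFrom_cons tF_ok (Nat.le_refl 20) cF2_10_0_ok
  (tblFrom_cons tF_ok (Nat.le_refl 20) cF2_11_0_ok
  (tblFrom_cons tF_ok (Nat.le_refl 20) cF2_12_0_ok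
  (tblFrom_cons tF_ok (Nat.le_refl 20) cF2_13_0_ok
  (tblFrom_cons tF_ok (Nat.le_refl 20) cF2_14_0_ok
  (tblFrom_nil tF_ok (Nat.le_refl 15)))))))))))))))))

theorem bsF3_ok : BoxesOK JF tF 3 5 bsF3 :=
  boxes_step tF_anti tbF2_ok boxF2_eq bsF2_ok rfl rfl

theorem levF3 : LevOK JF 3 2 5 := by decide +kernel

theorem cF3_0_0_ok : ChunkOK JF tF 3 2 0 0 20 cF3_0_0 :=
  chunk_ok_of_beq levF3 tF_ok (TLe.refl _) bsF3_ok cF3_0_0_eq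

theorem cF3_1_0_ok : ChunkOK JF tF 3 2 1 0 20 cF3_1_0 :=
  chunk_ok_of_beq levF3 tF_ok (TLe.refl _) bsF3_ok cF3_1_0_eq

theorem cF3_2_0_ok : ChunkOK JF tF 3 2 2 0 20 cF3_2_0 :=
  chunk_ok_of_beq levF3 tF_ok (TLe.refl _) bsF3_ok cF3_2_0_eq

theorem cF3_3_0_ok : ChunkOK JF tF 3 2 3 0 20 cF3_3_0 :=
  chunk_ok_of_beq levF3 tF_ok (TLe.refl _) bsF3_ok cF3_3_0_eq

theorem cF3_4_0_ok : ChunkOK JF tF 3 2 4 0 20 cF3_4_0 :=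
  chunk_ok_of_beq levF3 tF_ok (TLe.refl _) bsF3_ok cF3_4_0_eq

theorem cF3_5_0_ok : ChunkOK JF tF 3 2 5 0 20 cF3_5_0 :=
  chunk_ok_of_beq levF3 tF_ok (TLe.refl _) bsF3_ok cF3_5_0_eq

theorem cF3_6_0_ok : ChunkOK JF tF 3 2 6 0 20 cF3_6_0 :=
  chunk_ok_of_beq levF3 tF_ok (TLe.refl _) bsF3_ok cF3_6_0_eq

theorem cF3_7_0_ok : ChunkOK JF tF 3 2 7 0 20 cF3_7_0 :=
  chunk_ok_of_beq levF3 tF_ok (TLe.refl _) bsF3_ok cF3_7_0_eq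

theorem cF3_8_0_ok : ChunkOK JF tF 3 2 8 0 20 cF3_8_0 :=
  chunk_ok_of_beq levF3 tF_ok (TLe.refl _) bsF3_ok cF3_8_0_eq

theorem cF3_9_0_ok : ChunkOK JF tF 3 2 9 0 20 cF3_9_0 :=
  chunk_ok_of_beq levF3 tF_ok (TLe.refl _) bsF3_ok cF3_9_0_eq

theorem cF3_10_0_ok : ChunkOK JF tF 3 2 10 0 20 cF3_10_0 :=
  chunk_ok_of_beq levF3 tF_ok (TLe.refl _) bsF3_ok cF3_10_0_eq

theorem cF3_11_0_ok : ChunkOK JF tF 3 2 11 0 20 cF3_11_0 :=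
  chunk_ok_of_beq levF3 tF_ok (TLe.refl _) bsF3_ok cF3_11_0_eq

theorem cF3_12_0_ok : ChunkOK JF tF 3 2 12 0 20 cF3_12_0 :=
  chunk_ok_of_beq levF3 tF_ok (TLe.refl _) bsF3_ok cF3_12_0_eq

theorem cF3_13_0_ok : ChunkOK JF tF 3 2 13 0 20 cF3_13_0 :=
  chunk_ok_of_beq levF3 tF_ok (TLe.refl _) bsF3_ok cF3_13_0_eq

theorem cF3_14_0_ok : ChunkOK JF tF 3 2 14 0 20 cF3_14_0 :=
  chunk_ok_of_beq levF3 tF_ok (TLe.refl _) bsF3_ok cF3_14_0_eq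

theorem tbF3_ok : TblOK JF tF 3 2 tbF3 := tblOK_of_from
  (tblFrom_cons tF_ok (Nat.le_refl 20) cF3_0_0_ok
  (tblFrom_cons tF_ok (Nat.le_refl 20) cF3_1_0_ok
  (tblFrom_cons tF_ok (Nat.le_refl 20) cF3_2_0_ok
  (tblFrom_cons tF_ok (Nat.le_refl 20) cF3_3_0_ok
  (tblFrom_cons tF_ok (Nat.le_refl 20) cF3_4_0_ok
  (tblFrom_cons tF_ok (Nat.le_refl 20) cF3_5_0_ok
  (tblFrom_cons tF_ok (Nat.le_refl 20) cF3_6_0_ok
  (tblFrom_cons tF_ok (Nat.le_refl 20) cF3_7_0_ok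
  (tblFrom_cons tF_ok (Nat.le_refl 20) cF3_8_0_ok
  (tblFrom_cons tF_ok (Nat.le_refl 20) cF3_9_0_ok
  (tblFrom_cons tF_ok (Nat.le_refl 20) cF3_10_0_ok
  (tblFrom_cons tF_ok (Nat.le_refl 20) cF3_11_0_ok
  (tblFrom_cons tF_ok (Nat.le_refl 20) cF3_12_0_ok
  (tblFrom_cons tF_ok (Nat.le_refl 20) cF3_13_0_ok
  (tblFrom_cons tF_ok (Nat.le_refl 20) cF3_14_0_ok
  (tblFrom_nil tF_ok (Nat.le_refl 15)))))))))))))))))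

theorem bsF4_ok : BoxesOK JF tF 4 9 bsF4 :=
  boxes_step tF_anti tbF3_ok boxF3_eq bsF3_ok rfl rfl

theorem levF4 : LevOK JF 4 3 9 := by decide +kernel

theorem cF4_0_0_ok : ChunkOK JF tF 4 3 0 0 20 cF4_0_0 :=
  chunk_ok_of_beq levF4 tF_ok (TLe.refl _) bsF4_ok cF4_0_0_eq

theorem cF4_1_0_ok : ChunkOK JF tF 4 3 1 0 20 cF4_1_0 :=
  chunk_ok_of_beq levF4 tF_ok (TLe.refl _) bsF4_ok cF4_1_0_eq

theorem cF4_2_0_ok : ChunkOK JF tF 4 3 2 0 20 cF4_2_0 :=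
  chunk_ok_of_beq levF4 tF_ok (TLe.refl _) bsF4_ok cF4_2_0_eq

theorem cF4_3_0_ok : ChunkOK JF tF 4 3 3 0 20 cF4_3_0 :=
  chunk_ok_of_beq levF4 tF_ok (TLe.refl _) bsF4_ok cF4_3_0_eq

theorem cF4_4_0_ok : ChunkOK JF tF 4 3 4 0 20 cF4_4_0 :=
  chunk_ok_of_beq levF4 tF_ok (TLe.refl _) bsF4_ok cF4_4_0_eq

theorem cF4_5_0_ok : ChunkOK JF tF 4 3 5 0 20 cF4_5_0 :=
  chunk_ok_of_beq levF4 tF_ok (TLe.refl _) bsF4_ok cF4_5_0_eq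

theorem cF4_6_0_ok : ChunkOK JF tF 4 3 6 0 20 cF4_6_0 :=
  chunk_ok_of_beq levF4 tF_ok (TLe.refl _) bsF4_ok cF4_6_0_eq

theorem cF4_7_0_ok : ChunkOK JF tF 4 3 7 0 20 cF4_7_0 :=
  chunk_ok_of_beq levF4 tF_ok (TLe.refl _) bsF4_ok cF4_7_0_eq

theorem cF4_8_0_ok : ChunkOK JF tF 4 3 8 0 20 cF4_8_0 :=
  chunk_ok_of_beq levF4 tF_ok (TLe.refl _) bsF4_ok cF4_8_0_eq

theorem cF4_9_0_ok : ChunkOK JF tF 4 3 9 0 20 cF4_9_0 :=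
  chunk_ok_of_beq levF4 tF_ok (TLe.refl _) bsF4_ok cF4_9_0_eq

theorem cF4_10_0_ok : ChunkOK JF tF 4 3 10 0 20 cF4_10_0 :=
  chunk_ok_of_beq levF4 tF_ok (TLe.refl _) bsF4_ok cF4_10_0_eq

theorem cF4_11_0_ok : ChunkOK JF tF 4 3 11 0 20 cF4_11_0 :=
  chunk_ok_of_beq levF4 tF_ok (TLe.refl _) bsF4_ok cF4_11_0_eq

theorem cF4_12_0_ok : ChunkOK JF tF 4 3 12 0 20 cF4_12_0 :=
  chunk_ok_of_beq levF4 tF_ok (TLe.refl _) bsF4_ok cF4_12_0_eq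

theorem cF4_13_0_ok : ChunkOK JF tF 4 3 13 0 20 cF4_13_0 :=
  chunk_ok_of_beq levF4 tF_ok (TLe.refl _) bsF4_ok cF4_13_0_eq

theorem cF4_14_0_ok : ChunkOK JF tF 4 3 14 0 20 cF4_14_0 :=
  chunk_ok_of_beq levF4 tF_ok (TLe.refl _) bsF4_ok cF4_14_0_eq

theorem tbF4_ok : TblOK JF tF 4 3 tbF4 := tblOK_of_from
  (tblFrom_cons tF_ok (Nat.le_refl 20) cF4_0_0_ok
  (tblFrom_cons tF_ok (Nat.le_refl 20) cF4_1_0_ok
  (tblFrom_cons tF_ok (Nat.le_refl 20) cF4_2_0_ok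
  (tblFrom_cons tF_ok (Nat.le_refl 20) cF4_3_0_ok
  (tblFrom_cons tF_ok (Nat.le_refl 20) cF4_4_0_ok
  (tblFrom_cons tF_ok (Nat.le_refl 20) cF4_5_0_ok
  (tblFrom_cons tF_ok (Nat.le_refl 20) cF4_6_0_ok
  (tblFrom_cons tF_ok (Nat.le_refl 20) cF4_7_0_ok
  (tblFrom_cons tF_ok (Nat.le_refl 20) cF4_8_0_ok
  (tblFrom_cons tF_ok (Nat.le_refl 20) cF4_9_0_ok
  (tblFrom_cons tF_ok (Nat.le_refl 20) cF4_10_0_ok
  (tblFrom_cons tF_ok (Nat.le_refl 20) cF4_11_0_ok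
  (tblFrom_cons tF_ok (Nat.le_refl 20) cF4_12_0_ok
  (tblFrom_cons tF_ok (Nat.le_refl 20) cF4_13_0_ok
  (tblFrom_cons tF_ok (Nat.le_refl 20) cF4_14_0_ok
  (tblFrom_nil tF_ok (Nat.le_refl 15)))))))))))))))))

theorem bsF5_ok : BoxesOK JF tF 5 17 bsF5 :=
  boxes_step tF_anti tbF4_ok boxF4_eq bsF4_ok rfl rfl

theorem levF5 : LevOK JF 5 5 17 := by decide +kernel

theorem cF5_0_0_ok : ChunkOK JF tF 5 5 0 0 20 cF5_0_0 :=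
  chunk_ok_of_beq levF5 tF_ok (TLe.refl _) bsF5_ok cF5_0_0_eq

theorem cF5_1_0_ok : ChunkOK JF tF 5 5 1 0 20 cF5_1_0 :=
  chunk_ok_of_beq levF5 tF_ok (TLe.refl _) bsF5_ok cF5_1_0_eq

theorem cF5_2_0_ok : ChunkOK JF tF 5 5 2 0 20 cF5_2_0 :=
  chunk_ok_of_beq levF5 tF_ok (TLe.refl _) bsF5_ok cF5_2_0_eq

theorem cF5_3_0_ok : ChunkOK JF tF 5 5 3 0 20 cF5_3_0 :=
  chunk_ok_of_beq levF5 tF_ok (TLe.refl _) bsF5_ok cF5_3_0_eq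

theorem cF5_4_0_ok : ChunkOK JF tF 5 5 4 0 20 cF5_4_0 :=
  chunk_ok_of_beq levF5 tF_ok (TLe.refl _) bsF5_ok cF5_4_0_eq

theorem cF5_5_0_ok : ChunkOK JF tF 5 5 5 0 20 cF5_5_0 :=
  chunk_ok_of_beq levF5 tF_ok (TLe.refl _) bsF5_ok cF5_5_0_eq

theorem cF5_6_0_ok : ChunkOK JF tF 5 5 6 0 20 cF5_6_0 :=
  chunk_ok_of_beq levF5 tF_ok (TLe.refl _) bsF5_ok cF5_6_0_eq

theorem cF5_7_0_ok : ChunkOK JF tF 5 5 7 0 20 cF5_7_0 :=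
  chunk_ok_of_beq levF5 tF_ok (TLe.refl _) bsF5_ok cF5_7_0_eq

theorem cF5_8_0_ok : ChunkOK JF tF 5 5 8 0 20 cF5_8_0 :=
  chunk_ok_of_beq levF5 tF_ok (TLe.refl _) bsF5_ok cF5_8_0_eq

theorem cF5_9_0_ok : ChunkOK JF tF 5 5 9 0 20 cF5_9_0 :=
  chunk_ok_of_beq levF5 tF_ok (TLe.refl _) bsF5_ok cF5_9_0_eq

theorem cF5_10_0_ok : ChunkOK JF tF 5 5 10 0 20 cF5_10_0 :=
  chunk_ok_of_beq levF5 tF_ok (TLe.refl _) bsF5_ok cF5_10_0_eq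

theorem cF5_11_0_ok : ChunkOK JF tF 5 5 11 0 20 cF5_11_0 :=
  chunk_ok_of_beq levF5 tF_ok (TLe.refl _) bsF5_ok cF5_11_0_eq

theorem cF5_12_0_ok : ChunkOK JF tF 5 5 12 0 20 cF5_12_0 :=
  chunk_ok_of_beq levF5 tF_ok (TLe.refl _) bsF5_ok cF5_12_0_eq

theorem cF5_13_0_ok : ChunkOK JF tF 5 5 13 0 20 cF5_13_0 :=
  chunk_ok_of_beq levF5 tF_ok (TLe.refl _) bsF5_ok cF5_13_0_eq

theorem cF5_14_0_ok : ChunkOK JF tF 5 5 14 0 20 cF5_14_0 :=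
  chunk_ok_of_beq levF5 tF_ok (TLe.refl _) bsF5_ok cF5_14_0_eq

theorem tbF5_ok : TblOK JF tF 5 5 tbF5 := tblOK_of_from
  (tblFrom_cons tF_ok (Nat.le_refl 20) cF5_0_0_ok
  (tblFrom_cons tF_ok (Nat.le_refl 20) cF5_1_0_ok
  (tblFrom_cons tF_ok (Nat.le_refl 20) cF5_2_0_ok
  (tblFrom_cons tF_ok (Nat.le_refl 20) cF5_3_0_ok
  (tblFrom_cons tF_ok (Nat.le_refl 20) cF5_4_0_ok
  (tblFrom_cons tF_ok (Nat.le_refl 20) cF5_5_0_ok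
  (tblFrom_cons tF_ok (Nat.le_refl 20) cF5_6_0_ok
  (tblFrom_cons tF_ok (Nat.le_refl 20) cF5_7_0_ok
  (tblFrom_cons tF_ok (Nat.le_refl 20) cF5_8_0_ok
  (tblFrom_cons tF_ok (Nat.le_refl 20) cF5_9_0_ok
  (tblFrom_cons tF_ok (Nat.le_refl 20) cF5_10_0_ok
  (tblFrom_cons tF_ok (Nat.le_refl 20) cF5_11_0_ok
  (tblFrom_cons tF_ok (Nat.le_refl 20) cF5_12_0_ok
  (tblFrom_cons tF_ok (Nat.le_refl 20) cF5_13_0_ok
  (tblFrom_cons tF_ok (Nat.le_refl 20) cF5_14_0_ok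
  (tblFrom_nil tF_ok (Nat.le_refl 15)))))))))))))))))

theorem bsF6_ok : BoxesOK JF tF 6 49 bsF6 :=
  boxes_step tF_anti tbF5_ok boxF5_eq bsF5_ok rfl rfl

theorem levF6 : LevOK JF 6 7 49 := by decide +kernel

theorem cF6_0_0_ok : ChunkOK JF tF 6 7 0 0 20 cF6_0_0 :=
  chunk_ok_of_beq levF6 tF_ok (TLe.refl _) bsF6_ok cF6_0_0_eq

theorem cF6_1_0_ok : ChunkOK JF tF 6 7 1 0 20 cF6_1_0 :=
  chunk_ok_of_beq levF6 tF_ok (TLe.refl _) bsF6_ok cF6_1_0_eq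

theorem cF6_2_0_ok : ChunkOK JF tF 6 7 2 0 20 cF6_2_0 :=
  chunk_ok_of_beq levF6 tF_ok (TLe.refl _) bsF6_ok cF6_2_0_eq

theorem cF6_3_0_ok : ChunkOK JF tF 6 7 3 0 20 cF6_3_0 :=
  chunk_ok_of_beq levF6 tF_ok (TLe.refl _) bsF6_ok cF6_3_0_eq

theorem cF6_4_0_ok : ChunkOK JF tF 6 7 4 0 20 cF6_4_0 :=
  chunk_ok_of_beq levF6 tF_ok (TLe.refl _) bsF6_ok cF6_4_0_eq

theorem cF6_5_0_ok : ChunkOK JF tF 6 7 5 0 20 cF6_5_0 :=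
  chunk_ok_of_beq levF6 tF_ok (TLe.refl _) bsF6_ok cF6_5_0_eq

theorem cF6_6_0_ok : ChunkOK JF tF 6 7 6 0 20 cF6_6_0 :=
  chunk_ok_of_beq levF6 tF_ok (TLe.refl _) bsF6_ok cF6_6_0_eq

theorem cF6_7_0_ok : ChunkOK JF tF 6 7 7 0 20 cF6_7_0 :=
  chunk_ok_of_beq levF6 tF_ok (TLe.refl _) bsF6_ok cF6_7_0_eq

theorem cF6_8_0_ok : ChunkOK JF tF 6 7 8 0 20 cF6_8_0 :=
  chunk_ok_of_beq levF6 tF_ok (TLe.refl _) bsF6_ok cF6_8_0_eq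

theorem cF6_9_0_ok : ChunkOK JF tF 6 7 9 0 20 cF6_9_0 :=
  chunk_ok_of_beq levF6 tF_ok (TLe.refl _) bsF6_ok cF6_9_0_eq

theorem cF6_10_0_ok : ChunkOK JF tF 6 7 10 0 20 cF6_10_0 :=
  chunk_ok_of_beq levF6 tF_ok (TLe.refl _) bsF6_ok cF6_10_0_eq

theorem cF6_11_0_ok : ChunkOK JF tF 6 7 11 0 20 cF6_11_0 :=
  chunk_ok_of_beq levF6 tF_ok (TLe.refl _) bsF6_ok cF6_11_0_eq

theorem cF6_12_0_ok : ChunkOK JF tF 6 7 12 0 20 cF6_12_0 :=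
  chunk_ok_of_beq levF6 tF_ok (TLe.refl _) bsF6_ok cF6_12_0_eq

theorem cF6_13_0_ok : ChunkOK JF tF 6 7 13 0 20 cF6_13_0 :=
  chunk_ok_of_beq levF6 tF_ok (TLe.refl _) bsF6_ok cF6_13_0_eq

theorem cF6_14_0_ok : ChunkOK JF tF 6 7 14 0 20 cF6_14_0 :=
  chunk_ok_of_beq levF6 tF_ok (TLe.refl _) bsF6_ok cF6_14_0_eq

theorem tbF6_ok : TblOK JF tF 6 7 tbF6 := tblOK_of_from
  (tblFrom_cons tF_ok (Nat.le_refl 20) cF6_0_0_ok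
  (tblFrom_cons tF_ok (Nat.le_refl 20) cF6_1_0_ok
  (tblFrom_cons tF_ok (Nat.le_refl 20) cF6_2_0_ok
  (tblFrom_cons tF_ok (Nat.le_refl 20) cF6_3_0_ok
  (tblFrom_cons tF_ok (Nat.le_refl 20) cF6_4_0_ok
  (tblFrom_cons tF_ok (Nat.le_refl 20) cF6_5_0_ok
  (tblFrom_cons tF_ok (Nat.le_refl 20) cF6_6_0_ok
  (tblFrom_cons tF_ok (Nat.le_refl 20) cF6_7_0_ok
  (tblFrom_cons tF_ok (Nat.le_refl 20) cF6_8_0_ok
  (tblFrom_cons tF_ok (Nat.le_refl 20) cF6_9_0_ok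
  (tblFrom_cons tF_ok (Nat.le_refl 20) cF6_10_0_ok
  (tblFrom_cons tF_ok (Nat.le_refl 20) cF6_11_0_ok
  (tblFrom_cons tF_ok (Nat.le_refl 20) cF6_12_0_ok
  (tblFrom_cons tF_ok (Nat.le_refl 20) cF6_13_0_ok
  (tblFrom_cons tF_ok (Nat.le_refl 20) cF6_14_0_ok
  (tblFrom_nil tF_ok (Nat.le_refl 15)))))))))))))))))

theorem bsF7_ok : BoxesOK JF tF 7 177 bsF7 :=
  boxes_step tF_anti tbF6_ok boxF6_eq bsF6_ok rfl rfl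

theorem levF7 : LevOK JF 7 11 177 := by decide +kernel

theorem cF7_0_0_ok : ChunkOK JF tF 7 11 0 0 20 cF7_0_0 :=
  chunk_ok_of_beq levF7 tF_ok (TLe.refl _) bsF7_ok cF7_0_0_eq

theorem cF7_1_0_ok : ChunkOK JF tF 7 11 1 0 20 cF7_1_0 :=
  chunk_ok_of_beq levF7 tF_ok (TLe.refl _) bsF7_ok cF7_1_0_eq

theorem cF7_2_0_ok : ChunkOK JF tF 7 11 2 0 20 cF7_2_0 :=
  chunk_ok_of_beq levF7 tF_ok (TLe.refl _) bsF7_ok cF7_2_0_eq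

theorem cF7_3_0_ok : ChunkOK JF tF 7 11 3 0 20 cF7_3_0 :=
  chunk_ok_of_beq levF7 tF_ok (TLe.refl _) bsF7_ok cF7_3_0_eq

theorem cF7_4_0_ok : ChunkOK JF tF 7 11 4 0 20 cF7_4_0 :=
  chunk_ok_of_beq levF7 tF_ok (TLe.refl _) bsF7_ok cF7_4_0_eq

theorem cF7_5_0_ok : ChunkOK JF tF 7 11 5 0 20 cF7_5_0 :=
  chunk_ok_of_beq levF7 tF_ok (TLe.refl _) bsF7_ok cF7_5_0_eq

theorem cF7_6_0_ok : ChunkOK JF tF 7 11 6 0 20 cF7_6_0 :=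
  chunk_ok_of_beq levF7 tF_ok (TLe.refl _) bsF7_ok cF7_6_0_eq

theorem cF7_7_0_ok : ChunkOK JF tF 7 11 7 0 20 cF7_7_0 :=
  chunk_ok_of_beq levF7 tF_ok (TLe.refl _) bsF7_ok cF7_7_0_eq

theorem cF7_8_0_ok : ChunkOK JF tF 7 11 8 0 20 cF7_8_0 :=
  chunk_ok_of_beq levF7 tF_ok (TLe.refl _) bsF7_ok cF7_8_0_eq

theorem cF7_9_0_ok : ChunkOK JF tF 7 11 9 0 20 cF7_9_0 :=
  chunk_ok_of_beq levF7 tF_ok (TLe.refl _) bsF7_ok cF7_9_0_eq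

theorem cF7_10_0_ok : ChunkOK JF tF 7 11 10 0 20 cF7_10_0 :=
  chunk_ok_of_beq levF7 tF_ok (TLe.refl _) bsF7_ok cF7_10_0_eq

theorem cF7_11_0_ok : ChunkOK JF tF 7 11 11 0 20 cF7_11_0 :=
  chunk_ok_of_beq levF7 tF_ok (TLe.refl _) bsF7_ok cF7_11_0_eq

theorem cF7_12_0_ok : ChunkOK JF tF 7 11 12 0 20 cF7_12_0 :=
  chunk_ok_of_beq levF7 tF_ok (TLe.refl _) bsF7_ok cF7_12_0_eq

theorem cF7_13_0_ok : ChunkOK JF tF 7 11 13 0 20 cF7_13_0 :=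
  chunk_ok_of_beq levF7 tF_ok (TLe.refl _) bsF7_ok cF7_13_0_eq

theorem cF7_14_0_ok : ChunkOK JF tF 7 11 14 0 20 cF7_14_0 :=
  chunk_ok_of_beq levF7 tF_ok (TLe.refl _) bsF7_ok cF7_14_0_eq

theorem tbF7_ok : TblOK JF tF 7 11 tbF7 := tblOK_of_from
  (tblFrom_cons tF_ok (Nat.le_refl 20) cF7_0_0_ok
  (tblFrom_cons tF_ok (Nat.le_refl 20) cF7_1_0_ok
  (tblFrom_cons tF_ok (Nat.le_refl 20) cF7_2_0_ok
  (tblFrom_cons tF_ok (Nat.le_refl 20) cF7_3_0_ok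
  (tblFrom_cons tF_ok (Nat.le_refl 20) cF7_4_0_ok
  (tblFrom_cons tF_ok (Nat.le_refl 20) cF7_5_0_ok
  (tblFrom_cons tF_ok (Nat.le_refl 20) cF7_6_0_ok
  (tblFrom_cons tF_ok (Nat.le_refl 20) cF7_7_0_ok
  (tblFrom_cons tF_ok (Nat.le_refl 20) cF7_8_0_ok
  (tblFrom_cons tF_ok (Nat.le_refl 20) cF7_9_0_ok
  (tblFrom_cons tF_ok (Nat.le_refl 20) cF7_10_0_ok
  (tblFrom_cons tF_ok (Nat.le_refl 20) cF7_11_0_ok
  (tblFrom_cons tF_ok (Nat.le_refl 20) cF7_12_0_ok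
  (tblFrom_cons tF_ok (Nat.le_refl 20) cF7_13_0_ok
  (tblFrom_cons tF_ok (Nat.le_refl 20) cF7_14_0_ok
  (tblFrom_nil tF_ok (Nat.le_refl 15)))))))))))))))))

theorem bsF8_ok : BoxesOK JF tF 8 2225 bsF8 :=
  boxes_step tF_anti tbF7_ok boxF7_eq bsF7_ok rfl rfl

theorem levF8 : LevOK JF 8 14 2225 := by decide +kernel

theorem cF8_0_0_ok : ChunkOK JF tF 8 14 0 0 20 cF8_0_0 :=
  chunk_ok_of_beq levF8 tF_ok (TLe.refl _) bsF8_ok cF8_0_0_eq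

theorem cF8_1_0_ok : ChunkOK JF tF 8 14 1 0 20 cF8_1_0 :=
  chunk_ok_of_beq levF8 tF_ok (TLe.refl _) bsF8_ok cF8_1_0_eq

theorem cF8_2_0_ok : ChunkOK JF tF 8 14 2 0 20 cF8_2_0 :=
  chunk_ok_of_beq levF8 tF_ok (TLe.refl _) bsF8_ok cF8_2_0_eq

theorem cF8_3_0_ok : ChunkOK JF tF 8 14 3 0 20 cF8_3_0 :=
  chunk_ok_of_beq levF8 tF_ok (TLe.refl _) bsF8_ok cF8_3_0_eq

theorem cF8_4_0_ok : ChunkOK JF tF 8 14 4 0 20 cF8_4_0 :=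
  chunk_ok_of_beq levF8 tF_ok (TLe.refl _) bsF8_ok cF8_4_0_eq

theorem cF8_5_0_ok : ChunkOK JF tF 8 14 5 0 20 cF8_5_0 :=
  chunk_ok_of_beq levF8 tF_ok (TLe.refl _) bsF8_ok cF8_5_0_eq

theorem cF8_6_0_ok : ChunkOK JF tF 8 14 6 0 20 cF8_6_0 :=
  chunk_ok_of_beq levF8 tF_ok (TLe.refl _) bsF8_ok cF8_6_0_eq

theorem cF8_7_0_ok : ChunkOK JF tF 8 14 7 0 20 cF8_7_0 :=
  chunk_ok_of_beq levF8 tF_ok (TLe.refl _) bsF8_ok cF8_7_0_eq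

theorem cF8_8_0_ok : ChunkOK JF tF 8 14 8 0 20 cF8_8_0 :=
  chunk_ok_of_beq levF8 tF_ok (TLe.refl _) bsF8_ok cF8_8_0_eq

theorem cF8_9_0_ok : ChunkOK JF tF 8 14 9 0 20 cF8_9_0 :=
  chunk_ok_of_beq levF8 tF_ok (TLe.refl _) bsF8_ok cF8_9_0_eq

theorem cF8_10_0_ok : ChunkOK JF tF 8 14 10 0 20 cF8_10_0 :=
  chunk_ok_of_beq levF8 tF_ok (TLe.refl _) bsF8_ok cF8_10_0_eq

theorem cF8_11_0_ok : ChunkOK JF tF 8 14 11 0 20 cF8_11_0 :=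
  chunk_ok_of_beq levF8 tF_ok (TLe.refl _) bsF8_ok cF8_11_0_eq

theorem cF8_12_0_ok : ChunkOK JF tF 8 14 12 0 20 cF8_12_0 :=
  chunk_ok_of_beq levF8 tF_ok (TLe.refl _) bsF8_ok cF8_12_0_eq

theorem cF8_13_0_ok : ChunkOK JF tF 8 14 13 0 20 cF8_13_0 :=
  chunk_ok_of_beq levF8 tF_ok (TLe.refl _) bsF8_ok cF8_13_0_eq

theorem cF8_14_0_ok : ChunkOK JF tF 8 14 14 0 20 cF8_14_0 :=
  chunk_ok_of_beq levF8 tF_ok (TLe.refl _) bsF8_ok cF8_14_0_eq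

theorem tbF8_ok : TblOK JF tF 8 14 tbF8 := tblOK_of_from
  (tblFrom_cons tF_ok (Nat.le_refl 20) cF8_0_0_ok
  (tblFrom_cons tF_ok (Nat.le_refl 20) cF8_1_0_ok
  (tblFrom_cons tF_ok (Nat.le_refl 20) cF8_2_0_ok
  (tblFrom_cons tF_ok (Nat.le_refl 20) cF8_3_0_ok
  (tblFrom_cons tF_ok (Nat.le_refl 20) cF8_4_0_ok
  (tblFrom_cons tF_ok (Nat.le_refl 20) cF8_5_0_ok
  (tblFrom_cons tF_ok (Nat.le_refl 20) cF8_6_0_ok
  (tblFrom_cons tF_ok (Nat.le_refl 20) cF8_7_0_ok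
  (tblFrom_cons tF_ok (Nat.le_refl 20) cF8_8_0_ok
  (tblFrom_cons tF_ok (Nat.le_refl 20) cF8_9_0_ok
  (tblFrom_cons tF_ok (Nat.le_refl 20) cF8_10_0_ok
  (tblFrom_cons tF_ok (Nat.le_refl 20) cF8_11_0_ok
  (tblFrom_cons tF_ok (Nat.le_refl 20) cF8_12_0_ok
  (tblFrom_cons tF_ok (Nat.le_refl 20) cF8_13_0_ok
  (tblFrom_cons tF_ok (Nat.le_refl 20) cF8_14_0_ok
  (tblFrom_nil tF_ok (Nat.le_refl 15)))))))))))))))))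

theorem bsF9_ok : BoxesOK JF tF 9 18609 bsF9 :=
  boxes_step tF_anti tbF8_ok boxF8_eq bsF8_ok rfl rfl

theorem levF9 : LevOK JF 9 18 18609 := by decide +kernel

theorem cF9_0_0_ok : ChunkOK JF tF 9 18 0 0 20 cF9_0_0 :=
  chunk_ok_of_beq levF9 tF_ok (TLe.refl _) bsF9_ok cF9_0_0_eq

theorem cF9_1_0_ok : ChunkOK JF tF 9 18 1 0 20 cF9_1_0 :=
  chunk_ok_of_beq levF9 tF_ok (TLe.refl _) bsF9_ok cF9_1_0_eq

theorem cF9_2_0_ok : ChunkOK JF tF 9 18 2 0 20 cF9_2_0 :=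
  chunk_ok_of_beq levF9 tF_ok (TLe.refl _) bsF9_ok cF9_2_0_eq

theorem cF9_3_0_ok : ChunkOK JF tF 9 18 3 0 20 cF9_3_0 :=
  chunk_ok_of_beq levF9 tF_ok (TLe.refl _) bsF9_ok cF9_3_0_eq

theorem cF9_4_0_ok : ChunkOK JF tF 9 18 4 0 20 cF9_4_0 :=
  chunk_ok_of_beq levF9 tF_ok (TLe.refl _) bsF9_ok cF9_4_0_eq

theorem cF9_5_0_ok : ChunkOK JF tF 9 18 5 0 20 cF9_5_0 :=
  chunk_ok_of_beq levF9 tF_ok (TLe.refl _) bsF9_ok cF9_5_0_eq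

theorem cF9_6_0_ok : ChunkOK JF tF 9 18 6 0 20 cF9_6_0 :=
  chunk_ok_of_beq levF9 tF_ok (TLe.refl _) bsF9_ok cF9_6_0_eq

theorem cF9_7_0_ok : ChunkOK JF tF 9 18 7 0 20 cF9_7_0 :=
  chunk_ok_of_beq levF9 tF_ok (TLe.refl _) bsF9_ok cF9_7_0_eq

theorem cF9_8_0_ok : ChunkOK JF tF 9 18 8 0 20 cF9_8_0 :=
  chunk_ok_of_beq levF9 tF_ok (TLe.refl _) bsF9_ok cF9_8_0_eq

theorem cF9_9_0_ok : ChunkOK JF tF 9 18 9 0 20 cF9_9_0 :=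
  chunk_ok_of_beq levF9 tF_ok (TLe.refl _) bsF9_ok cF9_9_0_eq

theorem cF9_10_0_ok : ChunkOK JF tF 9 18 10 0 20 cF9_10_0 :=
  chunk_ok_of_beq levF9 tF_ok (TLe.refl _) bsF9_ok cF9_10_0_eq

theorem cF9_11_0_ok : ChunkOK JF tF 9 18 11 0 20 cF9_11_0 :=
  chunk_ok_of_beq levF9 tF_ok (TLe.refl _) bsF9_ok cF9_11_0_eq

theorem cF9_12_0_ok : ChunkOK JF tF 9 18 12 0 20 cF9_12_0 :=
  chunk_ok_of_beq levF9 tF_ok (TLe.refl _) bsF9_ok cF9_12_0_eq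

theorem cF9_13_0_ok : ChunkOK JF tF 9 18 13 0 20 cF9_13_0 :=
  chunk_ok_of_beq levF9 tF_ok (TLe.refl _) bsF9_ok cF9_13_0_eq

theorem cF9_14_0_ok : ChunkOK JF tF 9 18 14 0 20 cF9_14_0 :=
  chunk_ok_of_beq levF9 tF_ok (TLe.refl _) bsF9_ok cF9_14_0_eq

theorem tbF9_ok : TblOK JF tF 9 18 tbF9 := tblOK_of_from
  (tblFrom_cons tF_ok (Nat.le_refl 20) cF9_0_0_ok
  (tblFrom_cons tF_ok (Nat.le_refl 20) cF9_1_0_ok
  (tblFrom_cons tF_ok (Nat.le_refl 20) cF9_2_0_ok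
  (tblFrom_cons tF_ok (Nat.le_refl 20) cF9_3_0_ok
  (tblFrom_cons tF_ok (Nat.le_refl 20) cF9_4_0_ok
  (tblFrom_cons tF_ok (Nat.le_refl 20) cF9_5_0_ok
  (tblFrom_cons tF_ok (Nat.le_refl 20) cF9_6_0_ok
  (tblFrom_cons tF_ok (Nat.le_refl 20) cF9_7_0_ok
  (tblFrom_cons tF_ok (Nat.le_refl 20) cF9_8_0_ok
  (tblFrom_cons tF_ok (Nat.le_refl 20) cF9_9_0_ok
  (tblFrom_cons tF_ok (Nat.le_refl 20) cF9_10_0_ok
  (tblFrom_cons tF_ok (Nat.le_refl 20) cF9_11_0_ok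
  (tblFrom_cons tF_ok (Nat.le_refl 20) cF9_12_0_ok
  (tblFrom_cons tF_ok (Nat.le_refl 20) cF9_13_0_ok
  (tblFrom_cons tF_ok (Nat.le_refl 20) cF9_14_0_ok
  (tblFrom_nil tF_ok (Nat.le_refl 15)))))))))))))))))

theorem bsF10_ok : BoxesOK JF tF 10 280753 bsF10 :=
  boxes_step tF_anti tbF9_ok boxF9_eq bsF9_ok rfl rfl

theorem levF10 : LevOK JF 10 22 280753 := by decide +kernel

theorem cF10_0_0_ok : ChunkOK JF tF 10 22 0 0 20 cF10_0_0 :=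
  chunk_ok_of_beq levF10 tF_ok (TLe.refl _) bsF10_ok cF10_0_0_eq

theorem cF10_1_0_ok : ChunkOK JF tF 10 22 1 0 20 cF10_1_0 :=
  chunk_ok_of_beq levF10 tF_ok (TLe.refl _) bsF10_ok cF10_1_0_eq

theorem cF10_2_0_ok : ChunkOK JF tF 10 22 2 0 20 cF10_2_0 :=
  chunk_ok_of_beq levF10 tF_ok (TLe.refl _) bsF10_ok cF10_2_0_eq

theorem cF10_3_0_ok : ChunkOK JF tF 10 22 3 0 20 cF10_3_0 :=
  chunk_ok_of_beq levF10 tF_ok (TLe.refl _) bsF10_ok cF10_3_0_eq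

theorem cF10_4_0_ok : ChunkOK JF tF 10 22 4 0 20 cF10_4_0 :=
  chunk_ok_of_beq levF10 tF_ok (TLe.refl _) bsF10_ok cF10_4_0_eq

theorem cF10_5_0_ok : ChunkOK JF tF 10 22 5 0 20 cF10_5_0 :=
  chunk_ok_of_beq levF10 tF_ok (TLe.refl _) bsF10_ok cF10_5_0_eq

theorem cF10_6_0_ok : ChunkOK JF tF 10 22 6 0 20 cF10_6_0 :=
  chunk_ok_of_beq levF10 tF_ok (TLe.refl _) bsF10_ok cF10_6_0_eq

theorem cF10_7_0_ok : ChunkOK JF tF 10 22 7 0 20 cF10_7_0 :=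
  chunk_ok_of_beq levF10 tF_ok (TLe.refl _) bsF10_ok cF10_7_0_eq

theorem cF10_8_0_ok : ChunkOK JF tF 10 22 8 0 20 cF10_8_0 :=
  chunk_ok_of_beq levF10 tF_ok (TLe.refl _) bsF10_ok cF10_8_0_eq

theorem cF10_9_0_ok : ChunkOK JF tF 10 22 9 0 20 cF10_9_0 :=
  chunk_ok_of_beq levF10 tF_ok (TLe.refl _) bsF10_ok cF10_9_0_eq

theorem cF10_10_0_ok : ChunkOK JF tF 10 22 10 0 20 cF10_10_0 :=
  chunk_ok_of_beq levF10 tF_ok (TLe.refl _) bsF10_ok cF10_10_0_eq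

theorem cF10_11_0_ok : ChunkOK JF tF 10 22 11 0 20 cF10_11_0 :=
  chunk_ok_of_beq levF10 tF_ok (TLe.refl _) bsF10_ok cF10_11_0_eq

theorem cF10_12_0_ok : ChunkOK JF tF 10 22 12 0 20 cF10_12_0 :=
  chunk_ok_of_beq levF10 tF_ok (TLe.refl _) bsF10_ok cF10_12_0_eq

theorem cF10_13_0_ok : ChunkOK JF tF 10 22 13 0 20 cF10_13_0 :=
  chunk_ok_of_beq levF10 tF_ok (TLe.refl _) bsF10_ok cF10_13_0_eq

theorem cF10_14_0_ok : ChunkOK JF tF 10 22 14 0 20 cF10_14_0 :=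
  chunk_ok_of_beq levF10 tF_ok (TLe.refl _) bsF10_ok cF10_14_0_eq

theorem tbF10_ok : TblOK JF tF 10 22 tbF10 := tblOK_of_from
  (tblFrom_cons tF_ok (Nat.le_refl 20) cF10_0_0_ok
  (tblFrom_cons tF_ok (Nat.le_refl 20) cF10_1_0_ok
  (tblFrom_cons tF_ok (Nat.le_refl 20) cF10_2_0_ok
  (tblFrom_cons tF_ok (Nat.le_refl 20) cF10_3_0_ok
  (tblFrom_cons tF_ok (Nat.le_refl 20) cF10_4_0_ok
  (tblFrom_cons tF_ok (Nat.le_refl 20) cF10_5_0_ok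
  (tblFrom_cons tF_ok (Nat.le_refl 20) cF10_6_0_ok
  (tblFrom_cons tF_ok (Nat.le_refl 20) cF10_7_0_ok
  (tblFrom_cons tF_ok (Nat.le_refl 20) cF10_8_0_ok
  (tblFrom_cons tF_ok (Nat.le_refl 20) cF10_9_0_ok
  (tblFrom_cons tF_ok (Nat.le_refl 20) cF10_10_0_ok
  (tblFrom_cons tF_ok (Nat.le_refl 20) cF10_11_0_ok
  (tblFrom_cons tF_ok (Nat.le_refl 20) cF10_12_0_ok
  (tblFrom_cons tF_ok (Nat.le_refl 20) cF10_13_0_ok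
  (tblFrom_cons tF_ok (Nat.le_refl 20) cF10_14_0_ok
  (tblFrom_nil tF_ok (Nat.le_refl 15)))))))))))))))))

theorem bsF11_ok : BoxesOK JF tF 11 4475057 bsF11 :=
  boxes_step tF_anti tbF10_ok boxF10_eq bsF10_ok rfl rfl

theorem levF11 : LevOK JF 11 27 4475057 := by decide +kernel

theorem cF11_0_0_ok : ChunkOK JF tF 11 27 0 0 20 cF11_0_0 :=
  chunk_ok_of_beq levF11 tF_ok (TLe.refl _) bsF11_ok cF11_0_0_eq

theorem cF11_1_0_ok : ChunkOK JF tF 11 27 1 0 20 cF11_1_0 :=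
  chunk_ok_of_beq levF11 tF_ok (TLe.refl _) bsF11_ok cF11_1_0_eq

theorem cF11_2_0_ok : ChunkOK JF tF 11 27 2 0 20 cF11_2_0 :=
  chunk_ok_of_beq levF11 tF_ok (TLe.refl _) bsF11_ok cF11_2_0_eq

theorem cF11_3_0_ok : ChunkOK JF tF 11 27 3 0 20 cF11_3_0 :=
  chunk_ok_of_beq levF11 tF_ok (TLe.refl _) bsF11_ok cF11_3_0_eq

theorem cF11_4_0_ok : ChunkOK JF tF 11 27 4 0 20 cF11_4_0 :=
  chunk_ok_of_beq levF11 tF_ok (TLe.refl _) bsF11_ok cF11_4_0_eq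

theorem cF11_5_0_ok : ChunkOK JF tF 11 27 5 0 20 cF11_5_0 :=
  chunk_ok_of_beq levF11 tF_ok (TLe.refl _) bsF11_ok cF11_5_0_eq

theorem cF11_6_0_ok : ChunkOK JF tF 11 27 6 0 20 cF11_6_0 :=
  chunk_ok_of_beq levF11 tF_ok (TLe.refl _) bsF11_ok cF11_6_0_eq

theorem cF11_7_0_ok : ChunkOK JF tF 11 27 7 0 20 cF11_7_0 :=
  chunk_ok_of_beq levF11 tF_ok (TLe.refl _) bsF11_ok cF11_7_0_eq

theorem cF11_8_0_ok : ChunkOK JF tF 11 27 8 0 20 cF11_8_0 :=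
  chunk_ok_of_beq levF11 tF_ok (TLe.refl _) bsF11_ok cF11_8_0_eq

theorem cF11_9_0_ok : ChunkOK JF tF 11 27 9 0 20 cF11_9_0 :=
  chunk_ok_of_beq levF11 tF_ok (TLe.refl _) bsF11_ok cF11_9_0_eq

theorem cF11_10_0_ok : ChunkOK JF tF 11 27 10 0 20 cF11_10_0 :=
  chunk_ok_of_beq levF11 tF_ok (TLe.refl _) bsF11_ok cF11_10_0_eq

theorem cF11_11_0_ok : ChunkOK JF tF 11 27 11 0 20 cF11_11_0 :=
  chunk_ok_of_beq levF11 tF_ok (TLe.refl _) bsF11_ok cF11_11_0_eq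

theorem cF11_12_0_ok : ChunkOK JF tF 11 27 12 0 20 cF11_12_0 :=
  chunk_ok_of_beq levF11 tF_ok (TLe.refl _) bsF11_ok cF11_12_0_eq

theorem cF11_13_0_ok : ChunkOK JF tF 11 27 13 0 20 cF11_13_0 :=
  chunk_ok_of_beq levF11 tF_ok (TLe.refl _) bsF11_ok cF11_13_0_eq

theorem cF11_14_0_ok : ChunkOK JF tF 11 27 14 0 20 cF11_14_0 :=
  chunk_ok_of_beq levF11 tF_ok (TLe.refl _) bsF11_ok cF11_14_0_eq

theorem tbF11_ok : TblOK JF tF 11 27 tbF11 := tblOK_of_from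
  (tblFrom_cons tF_ok (Nat.le_refl 20) cF11_0_0_ok
  (tblFrom_cons tF_ok (Nat.le_refl 20) cF11_1_0_ok
  (tblFrom_cons tF_ok (Nat.le_refl 20) cF11_2_0_ok
  (tblFrom_cons tF_ok (Nat.le_refl 20) cF11_3_0_ok
  (tblFrom_cons tF_ok (Nat.le_refl 20) cF11_4_0_ok
  (tblFrom_cons tF_ok (Nat.le_refl 20) cF11_5_0_ok
  (tblFrom_cons tF_ok (Nat.le_refl 20) cF11_6_0_ok
  (tblFrom_cons tF_ok (Nat.le_refl 20) cF11_7_0_ok
  (tblFrom_cons tF_ok (Nat.le_refl 20) cF11_8_0_ok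
  (tblFrom_cons tF_ok (Nat.le_refl 20) cF11_9_0_ok
  (tblFrom_cons tF_ok (Nat.le_refl 20) cF11_10_0_ok
  (tblFrom_cons tF_ok (Nat.le_refl 20) cF11_11_0_ok
  (tblFrom_cons tF_ok (Nat.le_refl 20) cF11_12_0_ok
  (tblFrom_cons tF_ok (Nat.le_refl 20) cF11_13_0_ok
  (tblFrom_cons tF_ok (Nat.le_refl 20) cF11_14_0_ok
  (tblFrom_nil tF_ok (Nat.le_refl 15)))))))))))))))))

theorem bsF12_ok : BoxesOK JF tF 12 138692785 bsF12 :=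
  boxes_step tF_anti tbF11_ok boxF11_eq bsF11_ok rfl rfl

theorem levF12 : LevOK JF 12 31 138692785 := by decide +kernel

theorem cF12_0_0_ok : ChunkOK JF tF 12 31 0 0 20 cF12_0_0 :=
  chunk_ok_of_beq levF12 tF_ok (TLe.refl _) bsF12_ok cF12_0_0_eq

theorem cF12_1_0_ok : ChunkOK JF tF 12 31 1 0 20 cF12_1_0 :=
  chunk_ok_of_beq levF12 tF_ok (TLe.refl _) bsF12_ok cF12_1_0_eq

theorem cF12_2_0_ok : ChunkOK JF tF 12 31 2 0 20 cF12_2_0 :=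
  chunk_ok_of_beq levF12 tF_ok (TLe.refl _) bsF12_ok cF12_2_0_eq

theorem cF12_3_0_ok : ChunkOK JF tF 12 31 3 0 20 cF12_3_0 :=
  chunk_ok_of_beq levF12 tF_ok (TLe.refl _) bsF12_ok cF12_3_0_eq

theorem cF12_4_0_ok : ChunkOK JF tF 12 31 4 0 20 cF12_4_0 :=
  chunk_ok_of_beq levF12 tF_ok (TLe.refl _) bsF12_ok cF12_4_0_eq

theorem cF12_5_0_ok : ChunkOK JF tF 12 31 5 0 20 cF12_5_0 :=
  chunk_ok_of_beq levF12 tF_ok (TLe.refl _) bsF12_ok cF12_5_0_eq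

theorem cF12_6_0_ok : ChunkOK JF tF 12 31 6 0 20 cF12_6_0 :=
  chunk_ok_of_beq levF12 tF_ok (TLe.refl _) bsF12_ok cF12_6_0_eq

theorem cF12_7_0_ok : ChunkOK JF tF 12 31 7 0 20 cF12_7_0 :=
  chunk_ok_of_beq levF12 tF_ok (TLe.refl _) bsF12_ok cF12_7_0_eq

theorem cF12_8_0_ok : ChunkOK JF tF 12 31 8 0 20 cF12_8_0 :=
  chunk_ok_of_beq levF12 tF_ok (TLe.refl _) bsF12_ok cF12_8_0_eq

theorem cF12_9_0_ok : ChunkOK JF tF 12 31 9 0 20 cF12_9_0 :=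
  chunk_ok_of_beq levF12 tF_ok (TLe.refl _) bsF12_ok cF12_9_0_eq

theorem cF12_10_0_ok : ChunkOK JF tF 12 31 10 0 20 cF12_10_0 :=
  chunk_ok_of_beq levF12 tF_ok (TLe.refl _) bsF12_ok cF12_10_0_eq

theorem cF12_11_0_ok : ChunkOK JF tF 12 31 11 0 20 cF12_11_0 :=
  chunk_ok_of_beq levF12 tF_ok (TLe.refl _) bsF12_ok cF12_11_0_eq

theorem cF12_12_0_ok : ChunkOK JF tF 12 31 12 0 20 cF12_12_0 :=
  chunk_ok_of_beq levF12 tF_ok (TLe.refl _) bsF12_ok cF12_12_0_eq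

theorem cF12_13_0_ok : ChunkOK JF tF 12 31 13 0 20 cF12_13_0 :=
  chunk_ok_of_beq levF12 tF_ok (TLe.refl _) bsF12_ok cF12_13_0_eq

theorem cF12_14_0_ok : ChunkOK JF tF 12 31 14 0 20 cF12_14_0 :=
  chunk_ok_of_beq levF12 tF_ok (TLe.refl _) bsF12_ok cF12_14_0_eq

theorem tbF12_ok : TblOK JF tF 12 31 tbF12 := tblOK_of_from
  (tblFrom_cons tF_ok (Nat.le_refl 20) cF12_0_0_ok
  (tblFrom_cons tF_ok (Nat.le_refl 20) cF12_1_0_ok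
  (tblFrom_cons tF_ok (Nat.le_refl 20) cF12_2_0_ok
  (tblFrom_cons tF_ok (Nat.le_refl 20) cF12_3_0_ok
  (tblFrom_cons tF_ok (Nat.le_refl 20) cF12_4_0_ok
  (tblFrom_cons tF_ok (Nat.le_refl 20) cF12_5_0_ok
  (tblFrom_cons tF_ok (Nat.le_refl 20) cF12_6_0_ok
  (tblFrom_cons tF_ok (Nat.le_refl 20) cF12_7_0_ok
  (tblFrom_cons tF_ok (Nat.le_refl 20) cF12_8_0_ok
  (tblFrom_cons tF_ok (Nat.le_refl 20) cF12_9_0_ok
  (tblFrom_cons tF_ok (Nat.le_refl 20) cF12_10_0_ok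
  (tblFrom_cons tF_ok (Nat.le_refl 20) cF12_11_0_ok
  (tblFrom_cons tF_ok (Nat.le_refl 20) cF12_12_0_ok
  (tblFrom_cons tF_ok (Nat.le_refl 20) cF12_13_0_ok
  (tblFrom_cons tF_ok (Nat.le_refl 20) cF12_14_0_ok
  (tblFrom_nil tF_ok (Nat.le_refl 15)))))))))))))))))

theorem bsF13_ok : BoxesOK JF tF 13 2286176433 bsF13 :=
  boxes_step tF_anti tbF12_ok boxF12_eq bsF12_ok rfl rfl

theorem levF13 : LevOK JF 13 35 2286176433 := by decide +kernel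

theorem cF13_0_0_ok : ChunkOK JF tF 13 35 0 0 20 cF13_0_0 :=
  chunk_ok_of_beq levF13 tF_ok (TLe.refl _) bsF13_ok cF13_0_0_eq

theorem cF13_1_0_ok : ChunkOK JF tF 13 35 1 0 20 cF13_1_0 :=
  chunk_ok_of_beq levF13 tF_ok (TLe.refl _) bsF13_ok cF13_1_0_eq

theorem cF13_2_0_ok : ChunkOK JF tF 13 35 2 0 20 cF13_2_0 :=
  chunk_ok_of_beq levF13 tF_ok (TLe.refl _) bsF13_ok cF13_2_0_eq

theorem cF13_3_0_ok : ChunkOK JF tF 13 35 3 0 20 cF13_3_0 :=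
  chunk_ok_of_beq levF13 tF_ok (TLe.refl _) bsF13_ok cF13_3_0_eq

theorem cF13_4_0_ok : ChunkOK JF tF 13 35 4 0 20 cF13_4_0 :=
  chunk_ok_of_beq levF13 tF_ok (TLe.refl _) bsF13_ok cF13_4_0_eq

theorem cF13_5_0_ok : ChunkOK JF tF 13 35 5 0 20 cF13_5_0 :=
  chunk_ok_of_beq levF13 tF_ok (TLe.refl _) bsF13_ok cF13_5_0_eq

theorem cF13_6_0_ok : ChunkOK JF tF 13 35 6 0 20 cF13_6_0 :=
  chunk_ok_of_beq levF13 tF_ok (TLe.refl _) bsF13_ok cF13_6_0_eq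

theorem cF13_7_0_ok : ChunkOK JF tF 13 35 7 0 20 cF13_7_0 :=
  chunk_ok_of_beq levF13 tF_ok (TLe.refl _) bsF13_ok cF13_7_0_eq

theorem cF13_8_0_ok : ChunkOK JF tF 13 35 8 0 20 cF13_8_0 :=
  chunk_ok_of_beq levF13 tF_ok (TLe.refl _) bsF13_ok cF13_8_0_eq

theorem cF13_9_0_ok : ChunkOK JF tF 13 35 9 0 20 cF13_9_0 :=
  chunk_ok_of_beq levF13 tF_ok (TLe.refl _) bsF13_ok cF13_9_0_eq

theorem cF13_10_0_ok : ChunkOK JF tF 13 35 10 0 20 cF13_10_0 :=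
  chunk_ok_of_beq levF13 tF_ok (TLe.refl _) bsF13_ok cF13_10_0_eq

theorem cF13_11_0_ok : ChunkOK JF tF 13 35 11 0 20 cF13_11_0 :=
  chunk_ok_of_beq levF13 tF_ok (TLe.refl _) bsF13_ok cF13_11_0_eq

theorem cF13_12_0_ok : ChunkOK JF tF 13 35 12 0 20 cF13_12_0 :=
  chunk_ok_of_beq levF13 tF_ok (TLe.refl _) bsF13_ok cF13_12_0_eq

theorem cF13_13_0_ok : ChunkOK JF tF 13 35 13 0 20 cF13_13_0 :=
  chunk_ok_of_beq levF13 tF_ok (TLe.refl _) bsF13_ok cF13_13_0_eq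

theorem cF13_14_0_ok : ChunkOK JF tF 13 35 14 0 20 cF13_14_0 :=
  chunk_ok_of_beq levF13 tF_ok (TLe.refl _) bsF13_ok cF13_14_0_eq

theorem tbF13_ok : TblOK JF tF 13 35 tbF13 := tblOK_of_from
  (tblFrom_cons tF_ok (Nat.le_refl 20) cF13_0_0_ok
  (tblFrom_cons tF_ok (Nat.le_refl 20) cF13_1_0_ok
  (tblFrom_cons tF_ok (Nat.le_refl 20) cF13_2_0_ok
  (tblFrom_cons tF_ok (Nat.le_refl 20) cF13_3_0_ok
  (tblFrom_cons tF_ok (Nat.le_refl 20) cF13_4_0_ok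
  (tblFrom_cons tF_ok (Nat.le_refl 20) cF13_5_0_ok
  (tblFrom_cons tF_ok (Nat.le_refl 20) cF13_6_0_ok
  (tblFrom_cons tF_ok (Nat.le_refl 20) cF13_7_0_ok
  (tblFrom_cons tF_ok (Nat.le_refl 20) cF13_8_0_ok
  (tblFrom_cons tF_ok (Nat.le_refl 20) cF13_9_0_ok
  (tblFrom_cons tF_ok (Nat.le_refl 20) cF13_10_0_ok
  (tblFrom_cons tF_ok (Nat.le_refl 20) cF13_11_0_ok
  (tblFrom_cons tF_ok (Nat.le_refl 20) cF13_12_0_ok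
  (tblFrom_cons tF_ok (Nat.le_refl 20) cF13_13_0_ok
  (tblFrom_cons tF_ok (Nat.le_refl 20) cF13_14_0_ok
  (tblFrom_nil tF_ok (Nat.le_refl 15)))))))))))))))))

theorem bsF14_ok : BoxesOK JF tF 14 36645914801 bsF14 :=
  boxes_step tF_anti tbF13_ok boxF13_eq bsF13_ok rfl rfl

theorem levF14 : LevOK JF 14 39 36645914801 := by decide +kernel

theorem cF14_0_0_ok : ChunkOK JF tF 14 39 0 0 20 cF14_0_0 :=
  chunk_ok_of_beq levF14 tF_ok (TLe.refl _) bsF14_ok cF14_0_0_eq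

theorem cF14_1_0_ok : ChunkOK JF tF 14 39 1 0 20 cF14_1_0 :=
  chunk_ok_of_beq levF14 tF_ok (TLe.refl _) bsF14_ok cF14_1_0_eq

theorem cF14_2_0_ok : ChunkOK JF tF 14 39 2 0 20 cF14_2_0 :=
  chunk_ok_of_beq levF14 tF_ok (TLe.refl _) bsF14_ok cF14_2_0_eq

theorem cF14_3_0_ok : ChunkOK JF tF 14 39 3 0 20 cF14_3_0 :=
  chunk_ok_of_beq levF14 tF_ok (TLe.refl _) bsF14_ok cF14_3_0_eq

theorem cF14_4_0_ok : ChunkOK JF tF 14 39 4 0 20 cF14_4_0 :=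
  chunk_ok_of_beq levF14 tF_ok (TLe.refl _) bsF14_ok cF14_4_0_eq

theorem cF14_5_0_ok : ChunkOK JF tF 14 39 5 0 20 cF14_5_0 :=
  chunk_ok_of_beq levF14 tF_ok (TLe.refl _) bsF14_ok cF14_5_0_eq

theorem cF14_6_0_ok : ChunkOK JF tF 14 39 6 0 20 cF14_6_0 :=
  chunk_ok_of_beq levF14 tF_ok (TLe.refl _) bsF14_ok cF14_6_0_eq

theorem cF14_7_0_ok : ChunkOK JF tF 14 39 7 0 20 cF14_7_0 :=
  chunk_ok_of_beq levF14 tF_ok (TLe.refl _) bsF14_ok cF14_7_0_eq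

theorem cF14_8_0_ok : ChunkOK JF tF 14 39 8 0 20 cF14_8_0 :=
  chunk_ok_of_beq levF14 tF_ok (TLe.refl _) bsF14_ok cF14_8_0_eq

theorem cF14_9_0_ok : ChunkOK JF tF 14 39 9 0 20 cF14_9_0 :=
  chunk_ok_of_beq levF14 tF_ok (TLe.refl _) bsF14_ok cF14_9_0_eq

theorem cF14_10_0_ok : ChunkOK JF tF 14 39 10 0 20 cF14_10_0 :=
  chunk_ok_of_beq levF14 tF_ok (TLe.refl _) bsF14_ok cF14_10_0_eq

theorem cF14_11_0_ok : ChunkOK JF tF 14 39 11 0 20 cF14_11_0 :=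
  chunk_ok_of_beq levF14 tF_ok (TLe.refl _) bsF14_ok cF14_11_0_eq

theorem cF14_12_0_ok : ChunkOK JF tF 14 39 12 0 20 cF14_12_0 :=
  chunk_ok_of_beq levF14 tF_ok (TLe.refl _) bsF14_ok cF14_12_0_eq

theorem cF14_13_0_ok : ChunkOK JF tF 14 39 13 0 20 cF14_13_0 :=
  chunk_ok_of_beq levF14 tF_ok (TLe.refl _) bsF14_ok cF14_13_0_eq

theorem cF14_14_0_ok : ChunkOK JF tF 14 39 14 0 20 cF14_14_0 :=
  chunk_ok_of_beq levF14 tF_ok (TLe.refl _) bsF14_ok cF14_14_0_eq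

theorem tbF14_ok : TblOK JF tF 14 39 tbF14 := tblOK_of_from
  (tblFrom_cons tF_ok (Nat.le_refl 20) cF14_0_0_ok
  (tblFrom_cons tF_ok (Nat.le_refl 20) cF14_1_0_ok
  (tblFrom_cons tF_ok (Nat.le_refl 20) cF14_2_0_ok
  (tblFrom_cons tF_ok (Nat.le_refl 20) cF14_3_0_ok
  (tblFrom_cons tF_ok (Nat.le_refl 20) cF14_4_0_ok
  (tblFrom_cons tF_ok (Nat.le_refl 20) cF14_5_0_ok
  (tblFrom_cons tF_ok (Nat.le_refl 20) cF14_6_0_ok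
  (tblFrom_cons tF_ok (Nat.le_refl 20) cF14_7_0_ok
  (tblFrom_cons tF_ok (Nat.le_refl 20) cF14_8_0_ok
  (tblFrom_cons tF_ok (Nat.le_refl 20) cF14_9_0_ok
  (tblFrom_cons tF_ok (Nat.le_refl 20) cF14_10_0_ok
  (tblFrom_cons tF_ok (Nat.le_refl 20) cF14_11_0_ok
  (tblFrom_cons tF_ok (Nat.le_refl 20) cF14_12_0_ok
  (tblFrom_cons tF_ok (Nat.le_refl 20) cF14_13_0_ok
  (tblFrom_cons tF_ok (Nat.le_refl 20) cF14_14_0_ok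
  (tblFrom_nil tF_ok (Nat.le_refl 15)))))))))))))))))

theorem bsF15_ok : BoxesOK JF tF 15 586401728689 bsF15 :=
  boxes_step tF_anti tbF14_ok boxF14_eq bsF14_ok rfl rfl

theorem levF15 : LevOK JF 15 42 586401728689 := by decide +kernel

theorem cF15_0_0_ok : ChunkOK JF tF15 15 42 0 0 20 cF15_0_0 :=
  chunk_ok_of_beq levF15 tF15_ok tF15_le bsF15_ok cF15_0_0_eq

theorem cF15_1_0_ok : ChunkOK JF tF15 15 42 1 0 20 cF15_1_0 :=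
  chunk_ok_of_beq levF15 tF15_ok tF15_le bsF15_ok cF15_1_0_eq

theorem cF15_2_0_ok : ChunkOK JF tF15 15 42 2 0 20 cF15_2_0 :=
  chunk_ok_of_beq levF15 tF15_ok tF15_le bsF15_ok cF15_2_0_eq

theorem cF15_3_0_ok : ChunkOK JF tF15 15 42 3 0 20 cF15_3_0 :=
  chunk_ok_of_beq levF15 tF15_ok tF15_le bsF15_ok cF15_3_0_eq

theorem cF15_4_0_ok : ChunkOK JF tF15 15 42 4 0 20 cF15_4_0 :=
  chunk_ok_of_beq levF15 tF15_ok tF15_le bsF15_ok cF15_4_0_eq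

theorem cF15_5_0_ok : ChunkOK JF tF15 15 42 5 0 20 cF15_5_0 :=
  chunk_ok_of_beq levF15 tF15_ok tF15_le bsF15_ok cF15_5_0_eq

theorem cF15_6_0_ok : ChunkOK JF tF15 15 42 6 0 20 cF15_6_0 :=
  chunk_ok_of_beq levF15 tF15_ok tF15_le bsF15_ok cF15_6_0_eq

theorem cF15_7_0_ok : ChunkOK JF tF15 15 42 7 0 20 cF15_7_0 :=
  chunk_ok_of_beq levF15 tF15_ok tF15_le bsF15_ok cF15_7_0_eq

theorem cF15_8_0_ok : ChunkOK JF tF15 15 42 8 0 20 cF15_8_0 :=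
  chunk_ok_of_beq levF15 tF15_ok tF15_le bsF15_ok cF15_8_0_eq

theorem cF15_9_0_ok : ChunkOK JF tF15 15 42 9 0 20 cF15_9_0 :=
  chunk_ok_of_beq levF15 tF15_ok tF15_le bsF15_ok cF15_9_0_eq

theorem cF15_10_0_ok : ChunkOK JF tF15 15 42 10 0 20 cF15_10_0 :=
  chunk_ok_of_beq levF15 tF15_ok tF15_le bsF15_ok cF15_10_0_eq

theorem cF15_11_0_ok : ChunkOK JF tF15 15 42 11 0 20 cF15_11_0 :=
  chunk_ok_of_beq levF15 tF15_ok tF15_le bsF15_ok cF15_11_0_eq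

theorem cF15_12_0_ok : ChunkOK JF tF15 15 42 12 0 20 cF15_12_0 :=
  chunk_ok_of_beq levF15 tF15_ok tF15_le bsF15_ok cF15_12_0_eq

theorem cF15_13_0_ok : ChunkOK JF tF15 15 42 13 0 20 cF15_13_0 :=
  chunk_ok_of_beq levF15 tF15_ok tF15_le bsF15_ok cF15_13_0_eq

theorem cF15_14_0_ok : ChunkOK JF tF15 15 42 14 0 20 cF15_14_0 :=
  chunk_ok_of_beq levF15 tF15_ok tF15_le bsF15_ok cF15_14_0_eq

theorem tbF15_ok : TblOK JF tF15 15 42 tbF15 := tblOK_of_from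
  (tblFrom_cons tF15_ok (Nat.le_refl 20) cF15_0_0_ok
  (tblFrom_cons tF15_ok (Nat.le_refl 20) cF15_1_0_ok
  (tblFrom_cons tF15_ok (Nat.le_refl 20) cF15_2_0_ok
  (tblFrom_cons tF15_ok (Nat.le_refl 20) cF15_3_0_ok
  (tblFrom_cons tF15_ok (Nat.le_refl 20) cF15_4_0_ok
  (tblFrom_cons tF15_ok (Nat.le_refl 20) cF15_5_0_ok
  (tblFrom_cons tF15_ok (Nat.le_refl 20) cF15_6_0_ok
  (tblFrom_cons tF15_ok (Nat.le_refl 20) cF15_7_0_ok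
  (tblFrom_cons tF15_ok (Nat.le_refl 20) cF15_8_0_ok
  (tblFrom_cons tF15_ok (Nat.le_refl 20) cF15_9_0_ok
  (tblFrom_cons tF15_ok (Nat.le_refl 20) cF15_10_0_ok
  (tblFrom_cons tF15_ok (Nat.le_refl 20) cF15_11_0_ok
  (tblFrom_cons tF15_ok (Nat.le_refl 20) cF15_12_0_ok
  (tblFrom_cons tF15_ok (Nat.le_refl 20) cF15_13_0_ok
  (tblFrom_cons tF15_ok (Nat.le_refl 20) cF15_14_0_ok
  (tblFrom_nil tF15_ok (Nat.le_refl 15)))))))))))))))))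

theorem srcF0_ok : SrcOK ⟨0, srcF0⟩ :=
  src_step (by decide +kernel) tF_ok tbF0_ok rfl rfl srcF0_eq

theorem srcF1_ok : SrcOK ⟨1, srcF1⟩ :=
  src_step (by decide +kernel) tF_ok tbF1_ok rfl rfl srcF1_eq

theorem srcF2_ok : SrcOK ⟨2, srcF2⟩ :=
  src_step (by decide +kernel) tF_ok tbF2_ok rfl rfl srcF2_eq

theorem srcF3_ok : SrcOK ⟨3, srcF3⟩ :=
  src_step (by decide +kernel) tF_ok tbF3_ok rfl rfl srcF3_eq

theorem srcF4_ok : SrcOK ⟨4, srcF4⟩ :=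
  src_step (by decide +kernel) tF_ok tbF4_ok rfl rfl srcF4_eq

theorem srcF5_ok : SrcOK ⟨5, srcF5⟩ :=
  src_step (by decide +kernel) tF_ok tbF5_ok rfl rfl srcF5_eq

theorem srcF6_ok : SrcOK ⟨6, srcF6⟩ :=
  src_step (by decide +kernel) tF_ok tbF6_ok rfl rfl srcF6_eq

theorem srcF7_ok : SrcOK ⟨7, srcF7⟩ :=
  src_step (by decide +kernel) tF_ok tbF7_ok rfl rfl srcF7_eq

theorem srcF8_ok : SrcOK ⟨8, srcF8⟩ :=
  src_step (by decide +kernel) tF_ok tbF8_ok rfl rfl srcF8_eq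

theorem srcF9_ok : SrcOK ⟨9, srcF9⟩ :=
  src_step (by decide +kernel) tF_ok tbF9_ok rfl rfl srcF9_eq

theorem srcF10_ok : SrcOK ⟨10, srcF10⟩ :=
  src_step (by decide +kernel) tF_ok tbF10_ok rfl rfl srcF10_eq

theorem srcF11_ok : SrcOK ⟨11, srcF11⟩ :=
  src_step (by decide +kernel) tF_ok tbF11_ok rfl rfl srcF11_eq

theorem srcF12_ok : SrcOK ⟨12, srcF12⟩ :=
  src_step (by decide +kernel) tF_ok tbF12_ok rfl rfl srcF12_eq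

theorem srcF13_ok : SrcOK ⟨13, srcF13⟩ :=
  src_step (by decide +kernel) tF_ok tbF13_ok rfl rfl srcF13_eq

theorem srcF14_ok : SrcOK ⟨14, srcF14⟩ :=
  src_step (by decide +kernel) tF_ok tbF14_ok rfl rfl srcF14_eq

theorem srcF15_ok : SrcOK ⟨15, srcF15⟩ :=
  src_step (by decide +kernel) tF15_ok tbF15_ok rfl rfl srcF15_eq


end Vale.Agent.P181.K
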