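import Vale.Agent.P181.Six.K3

set_option maxRecDepth 100000
set_option maxHeartbeats 0

namespace Vale.Agent.P181.K

noncomputable def sF0_2_1_0 : Sv := ut
 (T.l (nat_lit 0x1))

noncomputable def slF0_0 : Ls (Ls Sv) :=
 (Ls.cons Ls.nil
 (Ls.cons (Ls.cons sF0_2_1_0 (Ls.cons u0 (Ls.cons u0 (Ls.cons u0 (Ls.cons u0 (Ls.cons u0 (Ls.cons u0 (Ls.cons u0 (Ls.cons u0 (Ls.cons u0 (Ls.cons u0 (Ls.cons u0 (Ls.cons u0 (Ls.cons u0 (Ls.cons u0 (Ls.cons u0 (Ls.cons u0 (Ls.cons u0 (Ls.cons u0 (Ls.cons u0 (Ls.cons u0 (Ls.cons u0 (Ls.cons u0 Ls.nil)))))))))))))))))))))))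
 (Ls.cons (Ls.cons u0 (Ls.cons u0 (Ls.cons u0 (Ls.cons u0 (Ls.cons u0 (Ls.cons u0 (Ls.cons u0 (Ls.cons u0 (Ls.cons u0 (Ls.cons u0 (Ls.cons u0 (Ls.cons u0 (Ls.cons u0 (Ls.cons u0 (Ls.cons u0 (Ls.cons u0 (Ls.cons u0 (Ls.cons u0 (Ls.cons u0 (Ls.cons u0 (Ls.cons u0 (Ls.cons u0 Ls.nil))))))))))))))))))))))
 (Ls.cons (Ls.cons u0 (Ls.cons u0 (Ls.cons u0 (Ls.cons u0 (Ls.cons u0 (Ls.cons u0 (Ls.cons u0 (Ls.cons u0 (Ls.cons u0 (Ls.cons u0 (Ls.cons u0 (Ls.cons u0 (Ls.cons u0 (Ls.cons u0 (Ls.cons u0 (Ls.cons u0 (Ls.cons u0 (Ls.cons u0 (Ls.cons u0 (Ls.cons u0 (Ls.cons u0 Ls.nil)))))))))))))))))))))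
 (Ls.cons (Ls.cons u0 (Ls.cons u0 (Ls.cons u0 (Ls.cons u0 (Ls.cons u0 (Ls.cons u0 (Ls.cons u0 (Ls.cons u0 (Ls.cons u0 (Ls.cons u0 (Ls.cons u0 (Ls.cons u0 (Ls.cons u0 (Ls.cons u0 (Ls.cons u0 (Ls.cons u0 (Ls.cons u0 (Ls.cons u0 (Ls.cons u0 Ls.nil)))))))))))))))))))
 (Ls.cons (Ls.cons u0 (Ls.cons u0 (Ls.cons u0 (Ls.cons u0 (Ls.cons u0 (Ls.cons u0 (Ls.cons u0 (Ls.cons u0 (Ls.cons u0 (Ls.cons u0 (Ls.cons u0 (Ls.cons u0 (Ls.cons u0 (Ls.cons u0 (Ls.cons u0 (Ls.cons u0 (Ls.cons u0 (Ls.cons u0 Ls.nil))))))))))))))))))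
 (Ls.cons (Ls.cons u0 (Ls.cons u0 (Ls.cons u0 (Ls.cons u0 (Ls.cons u0 (Ls.cons u0 (Ls.cons u0 (Ls.cons u0 (Ls.cons u0 (Ls.cons u0 (Ls.cons u0 (Ls.cons u0 (Ls.cons u0 (Ls.cons u0 (Ls.cons u0 (Ls.cons u0 Ls.nil))))))))))))))))
 (Ls.cons (Ls.cons u0 (Ls.cons u0 (Ls.cons u0 (Ls.cons u0 (Ls.cons u0 (Ls.cons u0 (Ls.cons u0 (Ls.cons u0 (Ls.cons u0 (Ls.cons u0 (Ls.cons u0 (Ls.cons u0 (Ls.cons u0 (Ls.cons u0 (Ls.cons u0 Ls.nil)))))))))))))))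
 (Ls.cons (Ls.cons u0 (Ls.cons u0 (Ls.cons u0 (Ls.cons u0 (Ls.cons u0 (Ls.cons u0 (Ls.cons u0 (Ls.cons u0 (Ls.cons u0 (Ls.cons u0 (Ls.cons u0 (Ls.cons u0 (Ls.cons u0 (Ls.cons u0 Ls.nil))))))))))))))
 (Ls.cons (Ls.cons u0 (Ls.cons u0 (Ls.cons u0 (Ls.cons u0 (Ls.cons u0 (Ls.cons u0 (Ls.cons u0 (Ls.cons u0 (Ls.cons u0 (Ls.cons u0 (Ls.cons u0 (Ls.cons u0 (Ls.cons u0 Ls.nil)))))))))))))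
 (Ls.cons (Ls.cons u0 (Ls.cons u0 (Ls.cons u0 (Ls.cons u0 (Ls.cons u0 (Ls.cons u0 (Ls.cons u0 (Ls.cons u0 (Ls.cons u0 (Ls.cons u0 (Ls.cons u0 (Ls.cons u0 Ls.nil))))))))))))
 (Ls.cons (Ls.cons u0 (Ls.cons u0 (Ls.cons u0 (Ls.cons u0 (Ls.cons u0 (Ls.cons u0 (Ls.cons u0 (Ls.cons u0 (Ls.cons u0 (Ls.cons u0 (Ls.cons u0 Ls.nil)))))))))))
 (Ls.cons (Ls.cons u0 (Ls.cons u0 (Ls.cons u0 (Ls.cons u0 (Ls.cons u0 (Ls.cons u0 (Ls.cons u0 (Ls.cons u0 (Ls.cons u0 Ls.nil)))))))))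
 (Ls.cons (Ls.cons u0 (Ls.cons u0 (Ls.cons u0 (Ls.cons u0 (Ls.cons u0 (Ls.cons u0 (Ls.cons u0 (Ls.cons u0 Ls.nil))))))))
 (Ls.cons (Ls.cons u0 (Ls.cons u0 (Ls.cons u0 (Ls.cons u0 (Ls.cons u0 (Ls.cons u0 (Ls.cons u0 Ls.nil)))))))
 (Ls.cons (Ls.cons u0 (Ls.cons u0 (Ls.cons u0 (Ls.cons u0 (Ls.cons u0 (Ls.cons u0 Ls.nil))))))
 (Ls.cons (Ls.cons u0 (Ls.cons u0 (Ls.cons u0 (Ls.cons u0 Ls.nil))))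
 (Ls.cons (Ls.cons u0 (Ls.cons u0 (Ls.cons u0 Ls.nil)))
 (Ls.cons (Ls.cons u0 (Ls.cons u0 Ls.nil))
 (Ls.cons (Ls.cons u0 Ls.nil)
 Ls.nil))))))))))))))))))))

noncomputable def slF0_1 : Ls (Ls Sv) :=
 (Ls.cons Ls.nil
 (Ls.cons Ls.nil
 (Ls.cons (Ls.cons u0 (Ls.cons u0 (Ls.cons u0 (Ls.cons u0 (Ls.cons u0 (Ls.cons u0 (Ls.cons u0 (Ls.cons u0 (Ls.cons u0 (Ls.cons u0 (Ls.cons u0 (Ls.cons u0 (Ls.cons u0 (Ls.cons u0 (Ls.cons u0 (Ls.cons u0 (Ls.cons u0 (Ls.cons u0 (Ls.cons u0 (Ls.cons u0 (Ls.cons u0 (Ls.cons u0 Ls.nil))))))))))))))))))))))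
 (Ls.cons (Ls.cons u0 (Ls.cons u0 (Ls.cons u0 (Ls.cons u0 (Ls.cons u0 (Ls.cons u0 (Ls.cons u0 (Ls.cons u0 (Ls.cons u0 (Ls.cons u0 (Ls.cons u0 (Ls.cons u0 (Ls.cons u0 (Ls.cons u0 (Ls.cons u0 (Ls.cons u0 (Ls.cons u0 (Ls.cons u0 (Ls.cons u0 (Ls.cons u0 Ls.nil))))))))))))))))))))
 (Ls.cons (Ls.cons u0 (Ls.cons u0 (Ls.cons u0 (Ls.cons u0 (Ls.cons u0 (Ls.cons u0 (Ls.cons u0 (Ls.cons u0 (Ls.cons u0 (Ls.cons u0 (Ls.cons u0 (Ls.cons u0 (Ls.cons u0 (Ls.cons u0 (Ls.cons u0 (Ls.cons u0 (Ls.cons u0 (Ls.cons u0 (Ls.cons u0 Ls.nil)))))))))))))))))))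
 (Ls.cons (Ls.cons u0 (Ls.cons u0 (Ls.cons u0 (Ls.cons u0 (Ls.cons u0 (Ls.cons u0 (Ls.cons u0 (Ls.cons u0 (Ls.cons u0 (Ls.cons u0 (Ls.cons u0 (Ls.cons u0 (Ls.cons u0 (Ls.cons u0 (Ls.cons u0 (Ls.cons u0 Ls.nil))))))))))))))))
 (Ls.cons (Ls.cons u0 (Ls.cons u0 (Ls.cons u0 (Ls.cons u0 (Ls.cons u0 (Ls.cons u0 (Ls.cons u0 (Ls.cons u0 (Ls.cons u0 (Ls.cons u0 (Ls.cons u0 (Ls.cons u0 (Ls.cons u0 (Ls.cons u0 (Ls.cons u0 Ls.nil)))))))))))))))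
 (Ls.cons (Ls.cons u0 (Ls.cons u0 (Ls.cons u0 (Ls.cons u0 (Ls.cons u0 (Ls.cons u0 (Ls.cons u0 (Ls.cons u0 (Ls.cons u0 (Ls.cons u0 (Ls.cons u0 (Ls.cons u0 (Ls.cons u0 (Ls.cons u0 Ls.nil))))))))))))))
 (Ls.cons (Ls.cons u0 (Ls.cons u0 (Ls.cons u0 (Ls.cons u0 (Ls.cons u0 (Ls.cons u0 (Ls.cons u0 (Ls.cons u0 (Ls.cons u0 (Ls.cons u0 (Ls.cons u0 (Ls.cons u0 (Ls.cons u0 Ls.nil)))))))))))))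
 (Ls.cons (Ls.cons u0 (Ls.cons u0 (Ls.cons u0 (Ls.cons u0 (Ls.cons u0 (Ls.cons u0 (Ls.cons u0 (Ls.cons u0 (Ls.cons u0 (Ls.cons u0 (Ls.cons u0 Ls.nil)))))))))))
 (Ls.cons (Ls.cons u0 (Ls.cons u0 (Ls.cons u0 (Ls.cons u0 (Ls.cons u0 (Ls.cons u0 (Ls.cons u0 (Ls.cons u0 (Ls.cons u0 (Ls.cons u0 Ls.nil))))))))))
 (Ls.cons (Ls.cons u0 (Ls.cons u0 (Ls.cons u0 (Ls.cons u0 (Ls.cons u0 (Ls.cons u0 (Ls.cons u0 (Ls.cons u0 (Ls.cons u0 Ls.nil)))))))))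
 (Ls.cons (Ls.cons u0 (Ls.cons u0 (Ls.cons u0 (Ls.cons u0 (Ls.cons u0 (Ls.cons u0 (Ls.cons u0 (Ls.cons u0 Ls.nil))))))))
 (Ls.cons (Ls.cons u0 (Ls.cons u0 (Ls.cons u0 (Ls.cons u0 (Ls.cons u0 (Ls.cons u0 Ls.nil))))))
 (Ls.cons (Ls.cons u0 (Ls.cons u0 (Ls.cons u0 (Ls.cons u0 (Ls.cons u0 Ls.nil)))))
 (Ls.cons (Ls.cons u0 (Ls.cons u0 (Ls.cons u0 (Ls.cons u0 Ls.nil))))
 (Ls.cons (Ls.cons u0 (Ls.cons u0 (Ls.cons u0 Ls.nil)))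
 (Ls.cons (Ls.cons u0 Ls.nil)
 (Ls.cons Ls.nil
 (Ls.cons Ls.nil
 Ls.nil))))))))))))))))))))

noncomputable def slF0_2 : Ls (Ls Sv) :=
 (Ls.cons Ls.nil
 (Ls.cons Ls.nil
 (Ls.cons Ls.nil
 (Ls.cons (Ls.cons u0 (Ls.cons u0 (Ls.cons u0 (Ls.cons u0 (Ls.cons u0 (Ls.cons u0 (Ls.cons u0 (Ls.cons u0 (Ls.cons u0 (Ls.cons u0 (Ls.cons u0 (Ls.cons u0 (Ls.cons u0 (Ls.cons u0 (Ls.cons u0 (Ls.cons u0 (Ls.cons u0 (Ls.cons u0 (Ls.cons u0 Ls.nil)))))))))))))))))))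
 (Ls.cons (Ls.cons u0 (Ls.cons u0 (Ls.cons u0 (Ls.cons u0 (Ls.cons u0 (Ls.cons u0 (Ls.cons u0 (Ls.cons u0 (Ls.cons u0 (Ls.cons u0 (Ls.cons u0 (Ls.cons u0 (Ls.cons u0 (Ls.cons u0 (Ls.cons u0 (Ls.cons u0 (Ls.cons u0 Ls.nil)))))))))))))))))
 (Ls.cons (Ls.cons u0 (Ls.cons u0 (Ls.cons u0 (Ls.cons u0 (Ls.cons u0 (Ls.cons u0 (Ls.cons u0 (Ls.cons u0 (Ls.cons u0 (Ls.cons u0 (Ls.cons u0 (Ls.cons u0 (Ls.cons u0 (Ls.cons u0 (Ls.cons u0 (Ls.cons u0 Ls.nil))))))))))))))))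
 (Ls.cons (Ls.cons u0 (Ls.cons u0 (Ls.cons u0 (Ls.cons u0 (Ls.cons u0 (Ls.cons u0 (Ls.cons u0 (Ls.cons u0 (Ls.cons u0 (Ls.cons u0 (Ls.cons u0 (Ls.cons u0 (Ls.cons u0 (Ls.cons u0 (Ls.cons u0 Ls.nil)))))))))))))))
 (Ls.cons (Ls.cons u0 (Ls.cons u0 (Ls.cons u0 (Ls.cons u0 (Ls.cons u0 (Ls.cons u0 (Ls.cons u0 (Ls.cons u0 (Ls.cons u0 (Ls.cons u0 (Ls.cons u0 (Ls.cons u0 (Ls.cons u0 (Ls.cons u0 Ls.nil))))))))))))))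
 (Ls.cons (Ls.cons u0 (Ls.cons u0 (Ls.cons u0 (Ls.cons u0 (Ls.cons u0 (Ls.cons u0 (Ls.cons u0 (Ls.cons u0 (Ls.cons u0 (Ls.cons u0 (Ls.cons u0 (Ls.cons u0 Ls.nil))))))))))))
 (Ls.cons (Ls.cons u0 (Ls.cons u0 (Ls.cons u0 (Ls.cons u0 (Ls.cons u0 (Ls.cons u0 (Ls.cons u0 (Ls.cons u0 (Ls.cons u0 (Ls.cons u0 (Ls.cons u0 Ls.nil)))))))))))
 (Ls.cons (Ls.cons u0 (Ls.cons u0 (Ls.cons u0 (Ls.cons u0 (Ls.cons u0 (Ls.cons u0 (Ls.cons u0 (Ls.cons u0 (Ls.cons u0 (Ls.cons u0 Ls.nil))))))))))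
 (Ls.cons (Ls.cons u0 (Ls.cons u0 (Ls.cons u0 (Ls.cons u0 (Ls.cons u0 (Ls.cons u0 (Ls.cons u0 (Ls.cons u0 (Ls.cons u0 Ls.nil)))))))))
 (Ls.cons (Ls.cons u0 (Ls.cons u0 (Ls.cons u0 (Ls.cons u0 (Ls.cons u0 (Ls.cons u0 (Ls.cons u0 Ls.nil)))))))
 (Ls.cons (Ls.cons u0 (Ls.cons u0 (Ls.cons u0 (Ls.cons u0 (Ls.cons u0 (Ls.cons u0 Ls.nil))))))
 (Ls.cons (Ls.cons u0 (Ls.cons u0 (Ls.cons u0 (Ls.cons u0 (Ls.cons u0 Ls.nil)))))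
 (Ls.cons (Ls.cons u0 (Ls.cons u0 (Ls.cons u0 (Ls.cons u0 Ls.nil))))
 (Ls.cons (Ls.cons u0 (Ls.cons u0 Ls.nil))
 (Ls.cons (Ls.cons u0 Ls.nil)
 (Ls.cons Ls.nil
 (Ls.cons Ls.nil
 Ls.nil))))))))))))))))))))

noncomputable def slF0_3 : Ls (Ls Sv) :=
 (Ls.cons Ls.nil
 (Ls.cons Ls.nil
 (Ls.cons Ls.nil
 (Ls.cons Ls.nil
 (Ls.cons (Ls.cons u0 (Ls.cons u0 (Ls.cons u0 (Ls.cons u0 (Ls.cons u0 (Ls.cons u0 (Ls.cons u0 (Ls.cons u0 (Ls.cons u0 (Ls.cons u0 (Ls.cons u0 (Ls.cons u0 (Ls.cons u0 (Ls.cons u0 (Ls.cons u0 (Ls.cons u0 (Ls.cons u0 Ls.nil)))))))))))))))))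
 (Ls.cons (Ls.cons u0 (Ls.cons u0 (Ls.cons u0 (Ls.cons u0 (Ls.cons u0 (Ls.cons u0 (Ls.cons u0 (Ls.cons u0 (Ls.cons u0 (Ls.cons u0 (Ls.cons u0 (Ls.cons u0 (Ls.cons u0 (Ls.cons u0 (Ls.cons u0 (Ls.cons u0 Ls.nil))))))))))))))))
 (Ls.cons (Ls.cons u0 (Ls.cons u0 (Ls.cons u0 (Ls.cons u0 (Ls.cons u0 (Ls.cons u0 (Ls.cons u0 (Ls.cons u0 (Ls.cons u0 (Ls.cons u0 (Ls.cons u0 (Ls.cons u0 (Ls.cons u0 (Ls.cons u0 (Ls.cons u0 Ls.nil)))))))))))))))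
 (Ls.cons (Ls.cons u0 (Ls.cons u0 (Ls.cons u0 (Ls.cons u0 (Ls.cons u0 (Ls.cons u0 (Ls.cons u0 (Ls.cons u0 (Ls.cons u0 (Ls.cons u0 (Ls.cons u0 (Ls.cons u0 (Ls.cons u0 Ls.nil)))))))))))))
 (Ls.cons (Ls.cons u0 (Ls.cons u0 (Ls.cons u0 (Ls.cons u0 (Ls.cons u0 (Ls.cons u0 (Ls.cons u0 (Ls.cons u0 (Ls.cons u0 (Ls.cons u0 (Ls.cons u0 (Ls.cons u0 Ls.nil))))))))))))
 (Ls.cons (Ls.cons u0 (Ls.cons u0 (Ls.cons u0 (Ls.cons u0 (Ls.cons u0 (Ls.cons u0 (Ls.cons u0 (Ls.cons u0 (Ls.cons u0 (Ls.cons u0 (Ls.cons u0 Ls.nil)))))))))))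
 (Ls.cons (Ls.cons u0 (Ls.cons u0 (Ls.cons u0 (Ls.cons u0 (Ls.cons u0 (Ls.cons u0 (Ls.cons u0 (Ls.cons u0 (Ls.cons u0 (Ls.cons u0 Ls.nil))))))))))
 (Ls.cons (Ls.cons u0 (Ls.cons u0 (Ls.cons u0 (Ls.cons u0 (Ls.cons u0 (Ls.cons u0 (Ls.cons u0 (Ls.cons u0 Ls.nil))))))))
 (Ls.cons (Ls.cons u0 (Ls.cons u0 (Ls.cons u0 (Ls.cons u0 (Ls.cons u0 (Ls.cons u0 (Ls.cons u0 Ls.nil)))))))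
 (Ls.cons (Ls.cons u0 (Ls.cons u0 (Ls.cons u0 (Ls.cons u0 (Ls.cons u0 (Ls.cons u0 Ls.nil))))))
 (Ls.cons (Ls.cons u0 (Ls.cons u0 (Ls.cons u0 (Ls.cons u0 (Ls.cons u0 Ls.nil)))))
 (Ls.cons (Ls.cons u0 (Ls.cons u0 (Ls.cons u0 Ls.nil)))
 (Ls.cons (Ls.cons u0 (Ls.cons u0 Ls.nil))
 (Ls.cons (Ls.cons u0 Ls.nil)
 (Ls.cons Ls.nil
 (Ls.cons Ls.nil
 Ls.nil))))))))))))))))))))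

noncomputable def slF0_4 : Ls (Ls Sv) :=
 (Ls.cons Ls.nil
 (Ls.cons Ls.nil
 (Ls.cons Ls.nil
 (Ls.cons Ls.nil
 (Ls.cons Ls.nil
 (Ls.cons (Ls.cons u0 (Ls.cons u0 (Ls.cons u0 (Ls.cons u0 (Ls.cons u0 (Ls.cons u0 (Ls.cons u0 (Ls.cons u0 (Ls.cons u0 (Ls.cons u0 (Ls.cons u0 (Ls.cons u0 (Ls.cons u0 (Ls.cons u0 (Ls.cons u0 (Ls.cons u0 Ls.nil))))))))))))))))
 (Ls.cons (Ls.cons u0 (Ls.cons u0 (Ls.cons u0 (Ls.cons u0 (Ls.cons u0 (Ls.cons u0 (Ls.cons u0 (Ls.cons u0 (Ls.cons u0 (Ls.cons u0 (Ls.cons u0 (Ls.cons u0 (Ls.cons u0 (Ls.cons u0 Ls.nil))))))))))))))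
 (Ls.cons (Ls.cons u0 (Ls.cons u0 (Ls.cons u0 (Ls.cons u0 (Ls.cons u0 (Ls.cons u0 (Ls.cons u0 (Ls.cons u0 (Ls.cons u0 (Ls.cons u0 (Ls.cons u0 (Ls.cons u0 (Ls.cons u0 Ls.nil)))))))))))))
 (Ls.cons (Ls.cons u0 (Ls.cons u0 (Ls.cons u0 (Ls.cons u0 (Ls.cons u0 (Ls.cons u0 (Ls.cons u0 (Ls.cons u0 (Ls.cons u0 (Ls.cons u0 (Ls.cons u0 (Ls.cons u0 Ls.nil))))))))))))
 (Ls.cons (Ls.cons u0 (Ls.cons u0 (Ls.cons u0 (Ls.cons u0 (Ls.cons u0 (Ls.cons u0 (Ls.cons u0 (Ls.cons u0 (Ls.cons u0 (Ls.cons u0 (Ls.cons u0 Ls.nil)))))))))))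
 (Ls.cons (Ls.cons u0 (Ls.cons u0 (Ls.cons u0 (Ls.cons u0 (Ls.cons u0 (Ls.cons u0 (Ls.cons u0 (Ls.cons u0 (Ls.cons u0 Ls.nil)))))))))
 (Ls.cons (Ls.cons u0 (Ls.cons u0 (Ls.cons u0 (Ls.cons u0 (Ls.cons u0 (Ls.cons u0 (Ls.cons u0 (Ls.cons u0 Ls.nil))))))))
 (Ls.cons (Ls.cons u0 (Ls.cons u0 (Ls.cons u0 (Ls.cons u0 (Ls.cons u0 (Ls.cons u0 (Ls.cons u0 Ls.nil)))))))
 (Ls.cons (Ls.cons u0 (Ls.cons u0 (Ls.cons u0 (Ls.cons u0 (Ls.cons u0 (Ls.cons u0 Ls.nil))))))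
 (Ls.cons (Ls.cons u0 (Ls.cons u0 (Ls.cons u0 (Ls.cons u0 Ls.nil))))
 (Ls.cons (Ls.cons u0 (Ls.cons u0 (Ls.cons u0 Ls.nil)))
 (Ls.cons (Ls.cons u0 (Ls.cons u0 Ls.nil))
 (Ls.cons (Ls.cons u0 Ls.nil)
 (Ls.cons Ls.nil
 (Ls.cons Ls.nil
 Ls.nil))))))))))))))))))))

noncomputable def slF0_5 : Ls (Ls Sv) :=
 (Ls.cons Ls.nil
 (Ls.cons Ls.nil
 (Ls.cons Ls.nil
 (Ls.cons Ls.nil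
 (Ls.cons Ls.nil
 (Ls.cons Ls.nil
 (Ls.cons (Ls.cons u0 (Ls.cons u0 (Ls.cons u0 (Ls.cons u0 (Ls.cons u0 (Ls.cons u0 (Ls.cons u0 (Ls.cons u0 (Ls.cons u0 (Ls.cons u0 (Ls.cons u0 (Ls.cons u0 (Ls.cons u0 (Ls.cons u0 Ls.nil))))))))))))))
 (Ls.cons (Ls.cons u0 (Ls.cons u0 (Ls.cons u0 (Ls.cons u0 (Ls.cons u0 (Ls.cons u0 (Ls.cons u0 (Ls.cons u0 (Ls.cons u0 (Ls.cons u0 (Ls.cons u0 (Ls.cons u0 (Ls.cons u0 Ls.nil)))))))))))))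
 (Ls.cons (Ls.cons u0 (Ls.cons u0 (Ls.cons u0 (Ls.cons u0 (Ls.cons u0 (Ls.cons u0 (Ls.cons u0 (Ls.cons u0 (Ls.cons u0 (Ls.cons u0 (Ls.cons u0 (Ls.cons u0 Ls.nil))))))))))))
 (Ls.cons (Ls.cons u0 (Ls.cons u0 (Ls.cons u0 (Ls.cons u0 (Ls.cons u0 (Ls.cons u0 (Ls.cons u0 (Ls.cons u0 (Ls.cons u0 (Ls.cons u0 Ls.nil))))))))))
 (Ls.cons (Ls.cons u0 (Ls.cons u0 (Ls.cons u0 (Ls.cons u0 (Ls.cons u0 (Ls.cons u0 (Ls.cons u0 (Ls.cons u0 (Ls.cons u0 Ls.nil)))))))))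
 (Ls.cons (Ls.cons u0 (Ls.cons u0 (Ls.cons u0 (Ls.cons u0 (Ls.cons u0 (Ls.cons u0 (Ls.cons u0 (Ls.cons u0 Ls.nil))))))))
 (Ls.cons (Ls.cons u0 (Ls.cons u0 (Ls.cons u0 (Ls.cons u0 (Ls.cons u0 (Ls.cons u0 (Ls.cons u0 Ls.nil)))))))
 (Ls.cons (Ls.cons u0 (Ls.cons u0 (Ls.cons u0 (Ls.cons u0 (Ls.cons u0 Ls.nil)))))
 (Ls.cons (Ls.cons u0 (Ls.cons u0 (Ls.cons u0 (Ls.cons u0 Ls.nil))))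
 (Ls.cons (Ls.cons u0 (Ls.cons u0 (Ls.cons u0 Ls.nil)))
 (Ls.cons (Ls.cons u0 (Ls.cons u0 Ls.nil))
 (Ls.cons Ls.nil
 (Ls.cons Ls.nil
 (Ls.cons Ls.nil
 Ls.nil))))))))))))))))))))

noncomputable def slF0_6 : Ls (Ls Sv) :=
 (Ls.cons Ls.nil
 (Ls.cons Ls.nil
 (Ls.cons Ls.nil
 (Ls.cons Ls.nil
 (Ls.cons Ls.nil
 (Ls.cons Ls.nil
 (Ls.cons Ls.nil
 (Ls.cons (Ls.cons u0 (Ls.cons u0 (Ls.cons u0 (Ls.cons u0 (Ls.cons u0 (Ls.cons u0 (Ls.cons u0 (Ls.cons u0 (Ls.cons u0 (Ls.cons u0 (Ls.cons u0 (Ls.cons u0 (Ls.cons u0 Ls.nil)))))))))))))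
 (Ls.cons (Ls.cons u0 (Ls.cons u0 (Ls.cons u0 (Ls.cons u0 (Ls.cons u0 (Ls.cons u0 (Ls.cons u0 (Ls.cons u0 (Ls.cons u0 (Ls.cons u0 (Ls.cons u0 Ls.nil)))))))))))
 (Ls.cons (Ls.cons u0 (Ls.cons u0 (Ls.cons u0 (Ls.cons u0 (Ls.cons u0 (Ls.cons u0 (Ls.cons u0 (Ls.cons u0 (Ls.cons u0 (Ls.cons u0 Ls.nil))))))))))
 (Ls.cons (Ls.cons u0 (Ls.cons u0 (Ls.cons u0 (Ls.cons u0 (Ls.cons u0 (Ls.cons u0 (Ls.cons u0 (Ls.cons u0 (Ls.cons u0 Ls.nil)))))))))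
 (Ls.cons (Ls.cons u0 (Ls.cons u0 (Ls.cons u0 (Ls.cons u0 (Ls.cons u0 (Ls.cons u0 (Ls.cons u0 (Ls.cons u0 Ls.nil))))))))
 (Ls.cons (Ls.cons u0 (Ls.cons u0 (Ls.cons u0 (Ls.cons u0 (Ls.cons u0 (Ls.cons u0 Ls.nil))))))
 (Ls.cons (Ls.cons u0 (Ls.cons u0 (Ls.cons u0 (Ls.cons u0 (Ls.cons u0 Ls.nil)))))
 (Ls.cons (Ls.cons u0 (Ls.cons u0 (Ls.cons u0 (Ls.cons u0 Ls.nil))))
 (Ls.cons (Ls.cons u0 (Ls.cons u0 (Ls.cons u0 Ls.nil)))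
 (Ls.cons (Ls.cons u0 Ls.nil)
 (Ls.cons Ls.nil
 (Ls.cons Ls.nil
 (Ls.cons Ls.nil
 Ls.nil))))))))))))))))))))

noncomputable def slF0_7 : Ls (Ls Sv) :=
 (Ls.cons Ls.nil
 (Ls.cons Ls.nil
 (Ls.cons Ls.nil
 (Ls.cons Ls.nil
 (Ls.cons Ls.nil
 (Ls.cons Ls.nil
 (Ls.cons Ls.nil
 (Ls.cons Ls.nil
 (Ls.cons (Ls.cons u0 (Ls.cons u0 (Ls.cons u0 (Ls.cons u0 (Ls.cons u0 (Ls.cons u0 (Ls.cons u0 (Ls.cons u0 (Ls.cons u0 (Ls.cons u0 (Ls.cons u0 Ls.nil)))))))))))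
 (Ls.cons (Ls.cons u0 (Ls.cons u0 (Ls.cons u0 (Ls.cons u0 (Ls.cons u0 (Ls.cons u0 (Ls.cons u0 (Ls.cons u0 (Ls.cons u0 (Ls.cons u0 Ls.nil))))))))))
 (Ls.cons (Ls.cons u0 (Ls.cons u0 (Ls.cons u0 (Ls.cons u0 (Ls.cons u0 (Ls.cons u0 (Ls.cons u0 (Ls.cons u0 (Ls.cons u0 Ls.nil)))))))))
 (Ls.cons (Ls.cons u0 (Ls.cons u0 (Ls.cons u0 (Ls.cons u0 (Ls.cons u0 (Ls.cons u0 (Ls.cons u0 Ls.nil)))))))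
 (Ls.cons (Ls.cons u0 (Ls.cons u0 (Ls.cons u0 (Ls.cons u0 (Ls.cons u0 (Ls.cons u0 Ls.nil))))))
 (Ls.cons (Ls.cons u0 (Ls.cons u0 (Ls.cons u0 (Ls.cons u0 (Ls.cons u0 Ls.nil)))))
 (Ls.cons (Ls.cons u0 (Ls.cons u0 (Ls.cons u0 (Ls.cons u0 Ls.nil))))
 (Ls.cons (Ls.cons u0 (Ls.cons u0 Ls.nil))
 (Ls.cons (Ls.cons u0 Ls.nil)
 (Ls.cons Ls.nil
 (Ls.cons Ls.nil
 (Ls.cons Ls.nil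
 Ls.nil))))))))))))))))))))

noncomputable def slF0_8 : Ls (Ls Sv) :=
 (Ls.cons Ls.nil
 (Ls.cons Ls.nil
 (Ls.cons Ls.nil
 (Ls.cons Ls.nil
 (Ls.cons Ls.nil
 (Ls.cons Ls.nil
 (Ls.cons Ls.nil
 (Ls.cons Ls.nil
 (Ls.cons Ls.nil
 (Ls.cons (Ls.cons u0 (Ls.cons u0 (Ls.cons u0 (Ls.cons u0 (Ls.cons u0 (Ls.cons u0 (Ls.cons u0 (Ls.cons u0 (Ls.cons u0 (Ls.cons u0 Ls.nil))))))))))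
 (Ls.cons (Ls.cons u0 (Ls.cons u0 (Ls.cons u0 (Ls.cons u0 (Ls.cons u0 (Ls.cons u0 (Ls.cons u0 (Ls.cons u0 Ls.nil))))))))
 (Ls.cons (Ls.cons u0 (Ls.cons u0 (Ls.cons u0 (Ls.cons u0 (Ls.cons u0 (Ls.cons u0 (Ls.cons u0 Ls.nil)))))))
 (Ls.cons (Ls.cons u0 (Ls.cons u0 (Ls.cons u0 (Ls.cons u0 (Ls.cons u0 (Ls.cons u0 Ls.nil))))))
 (Ls.cons (Ls.cons u0 (Ls.cons u0 (Ls.cons u0 (Ls.cons u0 (Ls.cons u0 Ls.nil)))))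
 (Ls.cons (Ls.cons u0 (Ls.cons u0 (Ls.cons u0 Ls.nil)))
 (Ls.cons (Ls.cons u0 (Ls.cons u0 Ls.nil))
 (Ls.cons (Ls.cons u0 Ls.nil)
 (Ls.cons Ls.nil
 (Ls.cons Ls.nil
 (Ls.cons Ls.nil
 Ls.nil))))))))))))))))))))

noncomputable def slF0_9 : Ls (Ls Sv) :=
 (Ls.cons Ls.nil
 (Ls.cons Ls.nil
 (Ls.cons Ls.nil
 (Ls.cons Ls.nil
 (Ls.cons Ls.nil
 (Ls.cons Ls.nil
 (Ls.cons Ls.nil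
 (Ls.cons Ls.nil
 (Ls.cons Ls.nil
 (Ls.cons Ls.nil
 (Ls.cons (Ls.cons u0 (Ls.cons u0 (Ls.cons u0 (Ls.cons u0 (Ls.cons u0 (Ls.cons u0 (Ls.cons u0 (Ls.cons u0 Ls.nil))))))))
 (Ls.cons (Ls.cons u0 (Ls.cons u0 (Ls.cons u0 (Ls.cons u0 (Ls.cons u0 (Ls.cons u0 (Ls.cons u0 Ls.nil)))))))
 (Ls.cons (Ls.cons u0 (Ls.cons u0 (Ls.cons u0 (Ls.cons u0 (Ls.cons u0 (Ls.cons u0 Ls.nil))))))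
 (Ls.cons (Ls.cons u0 (Ls.cons u0 (Ls.cons u0 (Ls.cons u0 Ls.nil))))
 (Ls.cons (Ls.cons u0 (Ls.cons u0 (Ls.cons u0 Ls.nil)))
 (Ls.cons (Ls.cons u0 (Ls.cons u0 Ls.nil))
 (Ls.cons (Ls.cons u0 Ls.nil)
 (Ls.cons Ls.nil
 (Ls.cons Ls.nil
 (Ls.cons Ls.nil
 Ls.nil))))))))))))))))))))

noncomputable def slF0_10 : Ls (Ls Sv) :=
 (Ls.cons Ls.nil
 (Ls.cons Ls.nil
 (Ls.cons Ls.nil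
 (Ls.cons Ls.nil
 (Ls.cons Ls.nil
 (Ls.cons Ls.nil
 (Ls.cons Ls.nil
 (Ls.cons Ls.nil
 (Ls.cons Ls.nil
 (Ls.cons Ls.nil
 (Ls.cons Ls.nil
 (Ls.cons (Ls.cons u0 (Ls.cons u0 (Ls.cons u0 (Ls.cons u0 (Ls.cons u0 (Ls.cons u0 (Ls.cons u0 Ls.nil)))))))
 (Ls.cons (Ls.cons u0 (Ls.cons u0 (Ls.cons u0 (Ls.cons u0 (Ls.cons u0 Ls.nil)))))
 (Ls.cons (Ls.cons u0 (Ls.cons u0 (Ls.cons u0 (Ls.cons u0 Ls.nil))))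
 (Ls.cons (Ls.cons u0 (Ls.cons u0 (Ls.cons u0 Ls.nil)))
 (Ls.cons (Ls.cons u0 (Ls.cons u0 Ls.nil))
 (Ls.cons Ls.nil
 (Ls.cons Ls.nil
 (Ls.cons Ls.nil
 (Ls.cons Ls.nil
 Ls.nil))))))))))))))))))))

noncomputable def slF0_11 : Ls (Ls Sv) :=
 (Ls.cons Ls.nil
 (Ls.cons Ls.nil
 (Ls.cons Ls.nil
 (Ls.cons Ls.nil
 (Ls.cons Ls.nil
 (Ls.cons Ls.nil
 (Ls.cons Ls.nil
 (Ls.cons Ls.nil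
 (Ls.cons Ls.nil
 (Ls.cons Ls.nil
 (Ls.cons Ls.nil
 (Ls.cons Ls.nil
 (Ls.cons (Ls.cons u0 (Ls.cons u0 (Ls.cons u0 (Ls.cons u0 (Ls.cons u0 Ls.nil)))))
 (Ls.cons (Ls.cons u0 (Ls.cons u0 (Ls.cons u0 (Ls.cons u0 Ls.nil))))
 (Ls.cons (Ls.cons u0 (Ls.cons u0 (Ls.cons u0 Ls.nil)))
 (Ls.cons (Ls.cons u0 Ls.nil)
 (Ls.cons Ls.nil
 (Ls.cons Ls.nil
 (Ls.cons Ls.nil
 (Ls.cons Ls.nil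
 Ls.nil))))))))))))))))))))

noncomputable def slF0_12 : Ls (Ls Sv) :=
 (Ls.cons Ls.nil
 (Ls.cons Ls.nil
 (Ls.cons Ls.nil
 (Ls.cons Ls.nil
 (Ls.cons Ls.nil
 (Ls.cons Ls.nil
 (Ls.cons Ls.nil
 (Ls.cons Ls.nil
 (Ls.cons Ls.nil
 (Ls.cons Ls.nil
 (Ls.cons Ls.nil
 (Ls.cons Ls.nil
 (Ls.cons Ls.nil
 (Ls.cons (Ls.cons u0 (Ls.cons u0 (Ls.cons u0 (Ls.cons u0 Ls.nil))))
 (Ls.cons (Ls.cons u0 (Ls.cons u0 Ls.nil))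
 (Ls.cons (Ls.cons u0 Ls.nil)
 (Ls.cons Ls.nil
 (Ls.cons Ls.nil
 (Ls.cons Ls.nil
 (Ls.cons Ls.nil
 Ls.nil))))))))))))))))))))

noncomputable def slF0_13 : Ls (Ls Sv) :=
 (Ls.cons Ls.nil
 (Ls.cons Ls.nil
 (Ls.cons Ls.nil
 (Ls.cons Ls.nil
 (Ls.cons Ls.nil
 (Ls.cons Ls.nil
 (Ls.cons Ls.nil
 (Ls.cons Ls.nil
 (Ls.cons Ls.nil
 (Ls.cons Ls.nil
 (Ls.cons Ls.nil
 (Ls.cons Ls.nil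
 (Ls.cons Ls.nil
 (Ls.cons Ls.nil
 (Ls.cons (Ls.cons u0 (Ls.cons u0 Ls.nil))
 (Ls.cons (Ls.cons u0 Ls.nil)
 (Ls.cons Ls.nil
 (Ls.cons Ls.nil
 (Ls.cons Ls.nil
 (Ls.cons Ls.nil
 Ls.nil))))))))))))))))))))

noncomputable def slF0_14 : Ls (Ls Sv) :=
 (Ls.cons Ls.nil
 (Ls.cons Ls.nil
 (Ls.cons Ls.nil
 (Ls.cons Ls.nil
 (Ls.cons Ls.nil
 (Ls.cons Ls.nil
 (Ls.cons Ls.nil
 (Ls.cons Ls.nil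
 (Ls.cons Ls.nil
 (Ls.cons Ls.nil
 (Ls.cons Ls.nil
 (Ls.cons Ls.nil
 (Ls.cons Ls.nil
 (Ls.cons Ls.nil
 (Ls.cons Ls.nil
 (Ls.cons (Ls.cons u0 Ls.nil)
 (Ls.cons Ls.nil
 (Ls.cons Ls.nil
 (Ls.cons Ls.nil
 (Ls.cons Ls.nil
 Ls.nil))))))))))))))))))))

noncomputable def srcF0 : Ls (Ls (Ls Sv)) := (Ls.cons slF0_0 (Ls.cons slF0_1 (Ls.cons slF0_2 (Ls.cons slF0_3 (Ls.cons slF0_4 (Ls.cons slF0_5 (Ls.cons slF0_6 (Ls.cons slF0_7 (Ls.cons slF0_8 (Ls.cons slF0_9 (Ls.cons slF0_10 (Ls.cons slF0_11 (Ls.cons slF0_12 (Ls.cons slF0_13 (Ls.cons slF0_14 Ls.nil)))))))))))))))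

end Vale.Agent.P181.K
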