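import Vale.Agent.P181.Six.K3

set_option maxRecDepth 100000
set_option maxHeartbeats 0

namespace Vale.Agent.P181.K

noncomputable def sF1_2_1_0 : Sv := ut
 (T.l (nat_lit 0x1))

noncomputable def slF1_0 : Ls (Ls Sv) :=
 (Ls.cons Ls.nil
 (Ls.cons (Ls.cons sF1_2_1_0 (Ls.cons u0 (Ls.cons u0 (Ls.cons u0 (Ls.cons u0 (Ls.cons u0 (Ls.cons u0 (Ls.cons u0 (Ls.cons u0 (Ls.cons u0 (Ls.cons u0 (Ls.cons u0 (Ls.cons u0 (Ls.cons u0 (Ls.cons u0 (Ls.cons u0 (Ls.cons u0 (Ls.cons u0 (Ls.cons u0 (Ls.cons u0 (Ls.cons u0 (Ls.cons u0 (Ls.cons u0 Ls.nil)))))))))))))))))))))))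
 (Ls.cons (Ls.cons u0 (Ls.cons u0 (Ls.cons u0 (Ls.cons u0 (Ls.cons u0 (Ls.cons u0 (Ls.cons u0 (Ls.cons u0 (Ls.cons u0 (Ls.cons u0 (Ls.cons u0 (Ls.cons u0 (Ls.cons u0 (Ls.cons u0 (Ls.cons u0 (Ls.cons u0 (Ls.cons u0 (Ls.cons u0 (Ls.cons u0 (Ls.cons u0 (Ls.cons u0 (Ls.cons u0 Ls.nil))))))))))))))))))))))
 (Ls.cons (Ls.cons u0 (Ls.cons u0 (Ls.cons u0 (Ls.cons u0 (Ls.cons u0 (Ls.cons u0 (Ls.cons u0 (Ls.cons u0 (Ls.cons u0 (Ls.cons u0 (Ls.cons u0 (Ls.cons u0 (Ls.cons u0 (Ls.cons u0 (Ls.cons u0 (Ls.cons u0 (Ls.cons u0 (Ls.cons u0 (Ls.cons u0 (Ls.cons u0 (Ls.cons u0 Ls.nil)))))))))))))))))))))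
 (Ls.cons (Ls.cons u0 (Ls.cons u0 (Ls.cons u0 (Ls.cons u0 (Ls.cons u0 (Ls.cons u0 (Ls.cons u0 (Ls.cons u0 (Ls.cons u0 (Ls.cons u0 (Ls.cons u0 (Ls.cons u0 (Ls.cons u0 (Ls.cons u0 (Ls.cons u0 (Ls.cons u0 (Ls.cons u0 (Ls.cons u0 (Ls.cons u0 Ls.nil)))))))))))))))))))
 (Ls.cons (Ls.cons u0 (Ls.cons u0 (Ls.cons u0 (Ls.cons u0 (Ls.cons u0 (Ls.cons u0 (Ls.cons u0 (Ls.cons u0 (Ls.cons u0 (Ls.cons u0 (Ls.cons u0 (Ls.cons u0 (Ls.cons u0 (Ls.cons u0 (Ls.cons u0 (Ls.cons u0 (Ls.cons u0 (Ls.cons u0 Ls.nil))))))))))))))))))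
 (Ls.cons (Ls.cons u0 (Ls.cons u0 (Ls.cons u0 (Ls.cons u0 (Ls.cons u0 (Ls.cons u0 (Ls.cons u0 (Ls.cons u0 (Ls.cons u0 (Ls.cons u0 (Ls.cons u0 (Ls.cons u0 (Ls.cons u0 (Ls.cons u0 (Ls.cons u0 (Ls.cons u0 Ls.nil))))))))))))))))
 (Ls.cons (Ls.cons u0 (Ls.cons u0 (Ls.cons u0 (Ls.cons u0 (Ls.cons u0 (Ls.cons u0 (Ls.cons u0 (Ls.cons u0 (Ls.cons u0 (Ls.cons u0 (Ls.cons u0 (Ls.cons u0 (Ls.cons u0 (Ls.cons u0 (Ls.cons u0 Ls.nil)))))))))))))))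
 (Ls.cons (Ls.cons u0 (Ls.cons u0 (Ls.cons u0 (Ls.cons u0 (Ls.cons u0 (Ls.cons u0 (Ls.cons u0 (Ls.cons u0 (Ls.cons u0 (Ls.cons u0 (Ls.cons u0 (Ls.cons u0 (Ls.cons u0 (Ls.cons u0 Ls.nil))))))))))))))
 (Ls.cons (Ls.cons u0 (Ls.cons u0 (Ls.cons u0 (Ls.cons u0 (Ls.cons u0 (Ls.cons u0 (Ls.cons u0 (Ls.cons u0 (Ls.cons u0 (Ls.cons u0 (Ls.cons u0 (Ls.cons u0 (Ls.cons u0 Ls.nil)))))))))))))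
 (Ls.cons (Ls.cons u0 (Ls.cons u0 (Ls.cons u0 (Ls.cons u0 (Ls.cons u0 (Ls.cons u0 (Ls.cons u0 (Ls.cons u0 (Ls.cons u0 (Ls.cons u0 (Ls.cons u0 (Ls.cons u0 Ls.nil))))))))))))
 (Ls.cons (Ls.cons u0 (Ls.cons u0 (Ls.cons u0 (Ls.cons u0 (Ls.cons u0 (Ls.cons u0 (Ls.cons u0 (Ls.cons u0 (Ls.cons u0 (Ls.cons u0 (Ls.cons u0 Ls.nil)))))))))))
 (Ls.cons (Ls.cons u0 (Ls.cons u0 (Ls.cons u0 (Ls.cons u0 (Ls.cons u0 (Ls.cons u0 (Ls.cons u0 (Ls.cons u0 (Ls.cons u0 Ls.nil)))))))))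
 (Ls.cons (Ls.cons u0 (Ls.cons u0 (Ls.cons u0 (Ls.cons u0 (Ls.cons u0 (Ls.cons u0 (Ls.cons u0 (Ls.cons u0 Ls.nil))))))))
 (Ls.cons (Ls.cons u0 (Ls.cons u0 (Ls.cons u0 (Ls.cons u0 (Ls.cons u0 (Ls.cons u0 (Ls.cons u0 Ls.nil)))))))
 (Ls.cons (Ls.cons u0 (Ls.cons u0 (Ls.cons u0 (Ls.cons u0 (Ls.cons u0 (Ls.cons u0 Ls.nil))))))
 (Ls.cons (Ls.cons u0 (Ls.cons u0 (Ls.cons u0 (Ls.cons u0 Ls.nil))))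
 (Ls.cons (Ls.cons u0 (Ls.cons u0 (Ls.cons u0 Ls.nil)))
 (Ls.cons (Ls.cons u0 (Ls.cons u0 Ls.nil))
 (Ls.cons (Ls.cons u0 Ls.nil)
 Ls.nil))))))))))))))))))))

noncomputable def slF1_1 : Ls (Ls Sv) :=
 (Ls.cons Ls.nil
 (Ls.cons Ls.nil
 (Ls.cons (Ls.cons u0 (Ls.cons u0 (Ls.cons u0 (Ls.cons u0 (Ls.cons u0 (Ls.cons u0 (Ls.cons u0 (Ls.cons u0 (Ls.cons u0 (Ls.cons u0 (Ls.cons u0 (Ls.cons u0 (Ls.cons u0 (Ls.cons u0 (Ls.cons u0 (Ls.cons u0 (Ls.cons u0 (Ls.cons u0 (Ls.cons u0 (Ls.cons u0 (Ls.cons u0 (Ls.cons u0 Ls.nil))))))))))))))))))))))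
 (Ls.cons (Ls.cons u0 (Ls.cons u0 (Ls.cons u0 (Ls.cons u0 (Ls.cons u0 (Ls.cons u0 (Ls.cons u0 (Ls.cons u0 (Ls.cons u0 (Ls.cons u0 (Ls.cons u0 (Ls.cons u0 (Ls.cons u0 (Ls.cons u0 (Ls.cons u0 (Ls.cons u0 (Ls.cons u0 (Ls.cons u0 (Ls.cons u0 (Ls.cons u0 Ls.nil))))))))))))))))))))
 (Ls.cons (Ls.cons u0 (Ls.cons u0 (Ls.cons u0 (Ls.cons u0 (Ls.cons u0 (Ls.cons u0 (Ls.cons u0 (Ls.cons u0 (Ls.cons u0 (Ls.cons u0 (Ls.cons u0 (Ls.cons u0 (Ls.cons u0 (Ls.cons u0 (Ls.cons u0 (Ls.cons u0 (Ls.cons u0 (Ls.cons u0 (Ls.cons u0 Ls.nil)))))))))))))))))))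
 (Ls.cons (Ls.cons u0 (Ls.cons u0 (Ls.cons u0 (Ls.cons u0 (Ls.cons u0 (Ls.cons u0 (Ls.cons u0 (Ls.cons u0 (Ls.cons u0 (Ls.cons u0 (Ls.cons u0 (Ls.cons u0 (Ls.cons u0 (Ls.cons u0 (Ls.cons u0 (Ls.cons u0 Ls.nil))))))))))))))))
 (Ls.cons (Ls.cons u0 (Ls.cons u0 (Ls.cons u0 (Ls.cons u0 (Ls.cons u0 (Ls.cons u0 (Ls.cons u0 (Ls.cons u0 (Ls.cons u0 (Ls.cons u0 (Ls.cons u0 (Ls.cons u0 (Ls.cons u0 (Ls.cons u0 (Ls.cons u0 Ls.nil)))))))))))))))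
 (Ls.cons (Ls.cons u0 (Ls.cons u0 (Ls.cons u0 (Ls.cons u0 (Ls.cons u0 (Ls.cons u0 (Ls.cons u0 (Ls.cons u0 (Ls.cons u0 (Ls.cons u0 (Ls.cons u0 (Ls.cons u0 (Ls.cons u0 (Ls.cons u0 Ls.nil))))))))))))))
 (Ls.cons (Ls.cons u0 (Ls.cons u0 (Ls.cons u0 (Ls.cons u0 (Ls.cons u0 (Ls.cons u0 (Ls.cons u0 (Ls.cons u0 (Ls.cons u0 (Ls.cons u0 (Ls.cons u0 (Ls.cons u0 (Ls.cons u0 Ls.nil)))))))))))))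
 (Ls.cons (Ls.cons u0 (Ls.cons u0 (Ls.cons u0 (Ls.cons u0 (Ls.cons u0 (Ls.cons u0 (Ls.cons u0 (Ls.cons u0 (Ls.cons u0 (Ls.cons u0 (Ls.cons u0 Ls.nil)))))))))))
 (Ls.cons (Ls.cons u0 (Ls.cons u0 (Ls.cons u0 (Ls.cons u0 (Ls.cons u0 (Ls.cons u0 (Ls.cons u0 (Ls.cons u0 (Ls.cons u0 (Ls.cons u0 Ls.nil))))))))))
 (Ls.cons (Ls.cons u0 (Ls.cons u0 (Ls.cons u0 (Ls.cons u0 (Ls.cons u0 (Ls.cons u0 (Ls.cons u0 (Ls.cons u0 (Ls.cons u0 Ls.nil)))))))))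
 (Ls.cons (Ls.cons u0 (Ls.cons u0 (Ls.cons u0 (Ls.cons u0 (Ls.cons u0 (Ls.cons u0 (Ls.cons u0 (Ls.cons u0 Ls.nil))))))))
 (Ls.cons (Ls.cons u0 (Ls.cons u0 (Ls.cons u0 (Ls.cons u0 (Ls.cons u0 (Ls.cons u0 Ls.nil))))))
 (Ls.cons (Ls.cons u0 (Ls.cons u0 (Ls.cons u0 (Ls.cons u0 (Ls.cons u0 Ls.nil)))))
 (Ls.cons (Ls.cons u0 (Ls.cons u0 (Ls.cons u0 (Ls.cons u0 Ls.nil))))
 (Ls.cons (Ls.cons u0 (Ls.cons u0 (Ls.cons u0 Ls.nil)))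
 (Ls.cons (Ls.cons u0 Ls.nil)
 (Ls.cons Ls.nil
 (Ls.cons Ls.nil
 Ls.nil))))))))))))))))))))

noncomputable def slF1_2 : Ls (Ls Sv) :=
 (Ls.cons Ls.nil
 (Ls.cons Ls.nil
 (Ls.cons Ls.nil
 (Ls.cons (Ls.cons u0 (Ls.cons u0 (Ls.cons u0 (Ls.cons u0 (Ls.cons u0 (Ls.cons u0 (Ls.cons u0 (Ls.cons u0 (Ls.cons u0 (Ls.cons u0 (Ls.cons u0 (Ls.cons u0 (Ls.cons u0 (Ls.cons u0 (Ls.cons u0 (Ls.cons u0 (Ls.cons u0 (Ls.cons u0 (Ls.cons u0 Ls.nil)))))))))))))))))))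
 (Ls.cons (Ls.cons u0 (Ls.cons u0 (Ls.cons u0 (Ls.cons u0 (Ls.cons u0 (Ls.cons u0 (Ls.cons u0 (Ls.cons u0 (Ls.cons u0 (Ls.cons u0 (Ls.cons u0 (Ls.cons u0 (Ls.cons u0 (Ls.cons u0 (Ls.cons u0 (Ls.cons u0 (Ls.cons u0 Ls.nil)))))))))))))))))
 (Ls.cons (Ls.cons u0 (Ls.cons u0 (Ls.cons u0 (Ls.cons u0 (Ls.cons u0 (Ls.cons u0 (Ls.cons u0 (Ls.cons u0 (Ls.cons u0 (Ls.cons u0 (Ls.cons u0 (Ls.cons u0 (Ls.cons u0 (Ls.cons u0 (Ls.cons u0 (Ls.cons u0 Ls.nil))))))))))))))))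
 (Ls.cons (Ls.cons u0 (Ls.cons u0 (Ls.cons u0 (Ls.cons u0 (Ls.cons u0 (Ls.cons u0 (Ls.cons u0 (Ls.cons u0 (Ls.cons u0 (Ls.cons u0 (Ls.cons u0 (Ls.cons u0 (Ls.cons u0 (Ls.cons u0 (Ls.cons u0 Ls.nil)))))))))))))))
 (Ls.cons (Ls.cons u0 (Ls.cons u0 (Ls.cons u0 (Ls.cons u0 (Ls.cons u0 (Ls.cons u0 (Ls.cons u0 (Ls.cons u0 (Ls.cons u0 (Ls.cons u0 (Ls.cons u0 (Ls.cons u0 (Ls.cons u0 (Ls.cons u0 Ls.nil))))))))))))))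
 (Ls.cons (Ls.cons u0 (Ls.cons u0 (Ls.cons u0 (Ls.cons u0 (Ls.cons u0 (Ls.cons u0 (Ls.cons u0 (Ls.cons u0 (Ls.cons u0 (Ls.cons u0 (Ls.cons u0 (Ls.cons u0 Ls.nil))))))))))))
 (Ls.cons (Ls.cons u0 (Ls.cons u0 (Ls.cons u0 (Ls.cons u0 (Ls.cons u0 (Ls.cons u0 (Ls.cons u0 (Ls.cons u0 (Ls.cons u0 (Ls.cons u0 (Ls.cons u0 Ls.nil)))))))))))
 (Ls.cons (Ls.cons u0 (Ls.cons u0 (Ls.cons u0 (Ls.cons u0 (Ls.cons u0 (Ls.cons u0 (Ls.cons u0 (Ls.cons u0 (Ls.cons u0 (Ls.cons u0 Ls.nil))))))))))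
 (Ls.cons (Ls.cons u0 (Ls.cons u0 (Ls.cons u0 (Ls.cons u0 (Ls.cons u0 (Ls.cons u0 (Ls.cons u0 (Ls.cons u0 (Ls.cons u0 Ls.nil)))))))))
 (Ls.cons (Ls.cons u0 (Ls.cons u0 (Ls.cons u0 (Ls.cons u0 (Ls.cons u0 (Ls.cons u0 (Ls.cons u0 Ls.nil)))))))
 (Ls.cons (Ls.cons u0 (Ls.cons u0 (Ls.cons u0 (Ls.cons u0 (Ls.cons u0 (Ls.cons u0 Ls.nil))))))
 (Ls.cons (Ls.cons u0 (Ls.cons u0 (Ls.cons u0 (Ls.cons u0 (Ls.cons u0 Ls.nil)))))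
 (Ls.cons (Ls.cons u0 (Ls.cons u0 (Ls.cons u0 (Ls.cons u0 Ls.nil))))
 (Ls.cons (Ls.cons u0 (Ls.cons u0 Ls.nil))
 (Ls.cons (Ls.cons u0 Ls.nil)
 (Ls.cons Ls.nil
 (Ls.cons Ls.nil
 Ls.nil))))))))))))))))))))

noncomputable def slF1_3 : Ls (Ls Sv) :=
 (Ls.cons Ls.nil
 (Ls.cons Ls.nil
 (Ls.cons Ls.nil
 (Ls.cons Ls.nil
 (Ls.cons (Ls.cons u0 (Ls.cons u0 (Ls.cons u0 (Ls.cons u0 (Ls.cons u0 (Ls.cons u0 (Ls.cons u0 (Ls.cons u0 (Ls.cons u0 (Ls.cons u0 (Ls.cons u0 (Ls.cons u0 (Ls.cons u0 (Ls.cons u0 (Ls.cons u0 (Ls.cons u0 (Ls.cons u0 Ls.nil)))))))))))))))))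
 (Ls.cons (Ls.cons u0 (Ls.cons u0 (Ls.cons u0 (Ls.cons u0 (Ls.cons u0 (Ls.cons u0 (Ls.cons u0 (Ls.cons u0 (Ls.cons u0 (Ls.cons u0 (Ls.cons u0 (Ls.cons u0 (Ls.cons u0 (Ls.cons u0 (Ls.cons u0 (Ls.cons u0 Ls.nil))))))))))))))))
 (Ls.cons (Ls.cons u0 (Ls.cons u0 (Ls.cons u0 (Ls.cons u0 (Ls.cons u0 (Ls.cons u0 (Ls.cons u0 (Ls.cons u0 (Ls.cons u0 (Ls.cons u0 (Ls.cons u0 (Ls.cons u0 (Ls.cons u0 (Ls.cons u0 (Ls.cons u0 Ls.nil)))))))))))))))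
 (Ls.cons (Ls.cons u0 (Ls.cons u0 (Ls.cons u0 (Ls.cons u0 (Ls.cons u0 (Ls.cons u0 (Ls.cons u0 (Ls.cons u0 (Ls.cons u0 (Ls.cons u0 (Ls.cons u0 (Ls.cons u0 (Ls.cons u0 Ls.nil)))))))))))))
 (Ls.cons (Ls.cons u0 (Ls.cons u0 (Ls.cons u0 (Ls.cons u0 (Ls.cons u0 (Ls.cons u0 (Ls.cons u0 (Ls.cons u0 (Ls.cons u0 (Ls.cons u0 (Ls.cons u0 (Ls.cons u0 Ls.nil))))))))))))
 (Ls.cons (Ls.cons u0 (Ls.cons u0 (Ls.cons u0 (Ls.cons u0 (Ls.cons u0 (Ls.cons u0 (Ls.cons u0 (Ls.cons u0 (Ls.cons u0 (Ls.cons u0 (Ls.cons u0 Ls.nil)))))))))))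
 (Ls.cons (Ls.cons u0 (Ls.cons u0 (Ls.cons u0 (Ls.cons u0 (Ls.cons u0 (Ls.cons u0 (Ls.cons u0 (Ls.cons u0 (Ls.cons u0 (Ls.cons u0 Ls.nil))))))))))
 (Ls.cons (Ls.cons u0 (Ls.cons u0 (Ls.cons u0 (Ls.cons u0 (Ls.cons u0 (Ls.cons u0 (Ls.cons u0 (Ls.cons u0 Ls.nil))))))))
 (Ls.cons (Ls.cons u0 (Ls.cons u0 (Ls.cons u0 (Ls.cons u0 (Ls.cons u0 (Ls.cons u0 (Ls.cons u0 Ls.nil)))))))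
 (Ls.cons (Ls.cons u0 (Ls.cons u0 (Ls.cons u0 (Ls.cons u0 (Ls.cons u0 (Ls.cons u0 Ls.nil))))))
 (Ls.cons (Ls.cons u0 (Ls.cons u0 (Ls.cons u0 (Ls.cons u0 (Ls.cons u0 Ls.nil)))))
 (Ls.cons (Ls.cons u0 (Ls.cons u0 (Ls.cons u0 Ls.nil)))
 (Ls.cons (Ls.cons u0 (Ls.cons u0 Ls.nil))
 (Ls.cons (Ls.cons u0 Ls.nil)
 (Ls.cons Ls.nil
 (Ls.cons Ls.nil
 Ls.nil))))))))))))))))))))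

noncomputable def slF1_4 : Ls (Ls Sv) :=
 (Ls.cons Ls.nil
 (Ls.cons Ls.nil
 (Ls.cons Ls.nil
 (Ls.cons Ls.nil
 (Ls.cons Ls.nil
 (Ls.cons (Ls.cons u0 (Ls.cons u0 (Ls.cons u0 (Ls.cons u0 (Ls.cons u0 (Ls.cons u0 (Ls.cons u0 (Ls.cons u0 (Ls.cons u0 (Ls.cons u0 (Ls.cons u0 (Ls.cons u0 (Ls.cons u0 (Ls.cons u0 (Ls.cons u0 (Ls.cons u0 Ls.nil))))))))))))))))
 (Ls.cons (Ls.cons u0 (Ls.cons u0 (Ls.cons u0 (Ls.cons u0 (Ls.cons u0 (Ls.cons u0 (Ls.cons u0 (Ls.cons u0 (Ls.cons u0 (Ls.cons u0 (Ls.cons u0 (Ls.cons u0 (Ls.cons u0 (Ls.cons u0 Ls.nil))))))))))))))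
 (Ls.cons (Ls.cons u0 (Ls.cons u0 (Ls.cons u0 (Ls.cons u0 (Ls.cons u0 (Ls.cons u0 (Ls.cons u0 (Ls.cons u0 (Ls.cons u0 (Ls.cons u0 (Ls.cons u0 (Ls.cons u0 (Ls.cons u0 Ls.nil)))))))))))))
 (Ls.cons (Ls.cons u0 (Ls.cons u0 (Ls.cons u0 (Ls.cons u0 (Ls.cons u0 (Ls.cons u0 (Ls.cons u0 (Ls.cons u0 (Ls.cons u0 (Ls.cons u0 (Ls.cons u0 (Ls.cons u0 Ls.nil))))))))))))
 (Ls.cons (Ls.cons u0 (Ls.cons u0 (Ls.cons u0 (Ls.cons u0 (Ls.cons u0 (Ls.cons u0 (Ls.cons u0 (Ls.cons u0 (Ls.cons u0 (Ls.cons u0 (Ls.cons u0 Ls.nil)))))))))))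
 (Ls.cons (Ls.cons u0 (Ls.cons u0 (Ls.cons u0 (Ls.cons u0 (Ls.cons u0 (Ls.cons u0 (Ls.cons u0 (Ls.cons u0 (Ls.cons u0 Ls.nil)))))))))
 (Ls.cons (Ls.cons u0 (Ls.cons u0 (Ls.cons u0 (Ls.cons u0 (Ls.cons u0 (Ls.cons u0 (Ls.cons u0 (Ls.cons u0 Ls.nil))))))))
 (Ls.cons (Ls.cons u0 (Ls.cons u0 (Ls.cons u0 (Ls.cons u0 (Ls.cons u0 (Ls.cons u0 (Ls.cons u0 Ls.nil)))))))
 (Ls.cons (Ls.cons u0 (Ls.cons u0 (Ls.cons u0 (Ls.cons u0 (Ls.cons u0 (Ls.cons u0 Ls.nil))))))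
 (Ls.cons (Ls.cons u0 (Ls.cons u0 (Ls.cons u0 (Ls.cons u0 Ls.nil))))
 (Ls.cons (Ls.cons u0 (Ls.cons u0 (Ls.cons u0 Ls.nil)))
 (Ls.cons (Ls.cons u0 (Ls.cons u0 Ls.nil))
 (Ls.cons (Ls.cons u0 Ls.nil)
 (Ls.cons Ls.nil
 (Ls.cons Ls.nil
 Ls.nil))))))))))))))))))))

noncomputable def slF1_5 : Ls (Ls Sv) :=
 (Ls.cons Ls.nil
 (Ls.cons Ls.nil
 (Ls.cons Ls.nil
 (Ls.cons Ls.nil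
 (Ls.cons Ls.nil
 (Ls.cons Ls.nil
 (Ls.cons (Ls.cons u0 (Ls.cons u0 (Ls.cons u0 (Ls.cons u0 (Ls.cons u0 (Ls.cons u0 (Ls.cons u0 (Ls.cons u0 (Ls.cons u0 (Ls.cons u0 (Ls.cons u0 (Ls.cons u0 (Ls.cons u0 (Ls.cons u0 Ls.nil))))))))))))))
 (Ls.cons (Ls.cons u0 (Ls.cons u0 (Ls.cons u0 (Ls.cons u0 (Ls.cons u0 (Ls.cons u0 (Ls.cons u0 (Ls.cons u0 (Ls.cons u0 (Ls.cons u0 (Ls.cons u0 (Ls.cons u0 (Ls.cons u0 Ls.nil)))))))))))))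
 (Ls.cons (Ls.cons u0 (Ls.cons u0 (Ls.cons u0 (Ls.cons u0 (Ls.cons u0 (Ls.cons u0 (Ls.cons u0 (Ls.cons u0 (Ls.cons u0 (Ls.cons u0 (Ls.cons u0 (Ls.cons u0 Ls.nil))))))))))))
 (Ls.cons (Ls.cons u0 (Ls.cons u0 (Ls.cons u0 (Ls.cons u0 (Ls.cons u0 (Ls.cons u0 (Ls.cons u0 (Ls.cons u0 (Ls.cons u0 (Ls.cons u0 Ls.nil))))))))))
 (Ls.cons (Ls.cons u0 (Ls.cons u0 (Ls.cons u0 (Ls.cons u0 (Ls.cons u0 (Ls.cons u0 (Ls.cons u0 (Ls.cons u0 (Ls.cons u0 Ls.nil)))))))))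
 (Ls.cons (Ls.cons u0 (Ls.cons u0 (Ls.cons u0 (Ls.cons u0 (Ls.cons u0 (Ls.cons u0 (Ls.cons u0 (Ls.cons u0 Ls.nil))))))))
 (Ls.cons (Ls.cons u0 (Ls.cons u0 (Ls.cons u0 (Ls.cons u0 (Ls.cons u0 (Ls.cons u0 (Ls.cons u0 Ls.nil)))))))
 (Ls.cons (Ls.cons u0 (Ls.cons u0 (Ls.cons u0 (Ls.cons u0 (Ls.cons u0 Ls.nil)))))
 (Ls.cons (Ls.cons u0 (Ls.cons u0 (Ls.cons u0 (Ls.cons u0 Ls.nil))))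
 (Ls.cons (Ls.cons u0 (Ls.cons u0 (Ls.cons u0 Ls.nil)))
 (Ls.cons (Ls.cons u0 (Ls.cons u0 Ls.nil))
 (Ls.cons Ls.nil
 (Ls.cons Ls.nil
 (Ls.cons Ls.nil
 Ls.nil))))))))))))))))))))

noncomputable def slF1_6 : Ls (Ls Sv) :=
 (Ls.cons Ls.nil
 (Ls.cons Ls.nil
 (Ls.cons Ls.nil
 (Ls.cons Ls.nil
 (Ls.cons Ls.nil
 (Ls.cons Ls.nil
 (Ls.cons Ls.nil
 (Ls.cons (Ls.cons u0 (Ls.cons u0 (Ls.cons u0 (Ls.cons u0 (Ls.cons u0 (Ls.cons u0 (Ls.cons u0 (Ls.cons u0 (Ls.cons u0 (Ls.cons u0 (Ls.cons u0 (Ls.cons u0 (Ls.cons u0 Ls.nil)))))))))))))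
 (Ls.cons (Ls.cons u0 (Ls.cons u0 (Ls.cons u0 (Ls.cons u0 (Ls.cons u0 (Ls.cons u0 (Ls.cons u0 (Ls.cons u0 (Ls.cons u0 (Ls.cons u0 (Ls.cons u0 Ls.nil)))))))))))
 (Ls.cons (Ls.cons u0 (Ls.cons u0 (Ls.cons u0 (Ls.cons u0 (Ls.cons u0 (Ls.cons u0 (Ls.cons u0 (Ls.cons u0 (Ls.cons u0 (Ls.cons u0 Ls.nil))))))))))
 (Ls.cons (Ls.cons u0 (Ls.cons u0 (Ls.cons u0 (Ls.cons u0 (Ls.cons u0 (Ls.cons u0 (Ls.cons u0 (Ls.cons u0 (Ls.cons u0 Ls.nil)))))))))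
 (Ls.cons (Ls.cons u0 (Ls.cons u0 (Ls.cons u0 (Ls.cons u0 (Ls.cons u0 (Ls.cons u0 (Ls.cons u0 (Ls.cons u0 Ls.nil))))))))
 (Ls.cons (Ls.cons u0 (Ls.cons u0 (Ls.cons u0 (Ls.cons u0 (Ls.cons u0 (Ls.cons u0 Ls.nil))))))
 (Ls.cons (Ls.cons u0 (Ls.cons u0 (Ls.cons u0 (Ls.cons u0 (Ls.cons u0 Ls.nil)))))
 (Ls.cons (Ls.cons u0 (Ls.cons u0 (Ls.cons u0 (Ls.cons u0 Ls.nil))))
 (Ls.cons (Ls.cons u0 (Ls.cons u0 (Ls.cons u0 Ls.nil)))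
 (Ls.cons (Ls.cons u0 Ls.nil)
 (Ls.cons Ls.nil
 (Ls.cons Ls.nil
 (Ls.cons Ls.nil
 Ls.nil))))))))))))))))))))

noncomputable def slF1_7 : Ls (Ls Sv) :=
 (Ls.cons Ls.nil
 (Ls.cons Ls.nil
 (Ls.cons Ls.nil
 (Ls.cons Ls.nil
 (Ls.cons Ls.nil
 (Ls.cons Ls.nil
 (Ls.cons Ls.nil
 (Ls.cons Ls.nil
 (Ls.cons (Ls.cons u0 (Ls.cons u0 (Ls.cons u0 (Ls.cons u0 (Ls.cons u0 (Ls.cons u0 (Ls.cons u0 (Ls.cons u0 (Ls.cons u0 (Ls.cons u0 (Ls.cons u0 Ls.nil)))))))))))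
 (Ls.cons (Ls.cons u0 (Ls.cons u0 (Ls.cons u0 (Ls.cons u0 (Ls.cons u0 (Ls.cons u0 (Ls.cons u0 (Ls.cons u0 (Ls.cons u0 (Ls.cons u0 Ls.nil))))))))))
 (Ls.cons (Ls.cons u0 (Ls.cons u0 (Ls.cons u0 (Ls.cons u0 (Ls.cons u0 (Ls.cons u0 (Ls.cons u0 (Ls.cons u0 (Ls.cons u0 Ls.nil)))))))))
 (Ls.cons (Ls.cons u0 (Ls.cons u0 (Ls.cons u0 (Ls.cons u0 (Ls.cons u0 (Ls.cons u0 (Ls.cons u0 Ls.nil)))))))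
 (Ls.cons (Ls.cons u0 (Ls.cons u0 (Ls.cons u0 (Ls.cons u0 (Ls.cons u0 (Ls.cons u0 Ls.nil))))))
 (Ls.cons (Ls.cons u0 (Ls.cons u0 (Ls.cons u0 (Ls.cons u0 (Ls.cons u0 Ls.nil)))))
 (Ls.cons (Ls.cons u0 (Ls.cons u0 (Ls.cons u0 (Ls.cons u0 Ls.nil))))
 (Ls.cons (Ls.cons u0 (Ls.cons u0 Ls.nil))
 (Ls.cons (Ls.cons u0 Ls.nil)
 (Ls.cons Ls.nil
 (Ls.cons Ls.nil
 (Ls.cons Ls.nil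
 Ls.nil))))))))))))))))))))

noncomputable def slF1_8 : Ls (Ls Sv) :=
 (Ls.cons Ls.nil
 (Ls.cons Ls.nil
 (Ls.cons Ls.nil
 (Ls.cons Ls.nil
 (Ls.cons Ls.nil
 (Ls.cons Ls.nil
 (Ls.cons Ls.nil
 (Ls.cons Ls.nil
 (Ls.cons Ls.nil
 (Ls.cons (Ls.cons u0 (Ls.cons u0 (Ls.cons u0 (Ls.cons u0 (Ls.cons u0 (Ls.cons u0 (Ls.cons u0 (Ls.cons u0 (Ls.cons u0 (Ls.cons u0 Ls.nil))))))))))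
 (Ls.cons (Ls.cons u0 (Ls.cons u0 (Ls.cons u0 (Ls.cons u0 (Ls.cons u0 (Ls.cons u0 (Ls.cons u0 (Ls.cons u0 Ls.nil))))))))
 (Ls.cons (Ls.cons u0 (Ls.cons u0 (Ls.cons u0 (Ls.cons u0 (Ls.cons u0 (Ls.cons u0 (Ls.cons u0 Ls.nil)))))))
 (Ls.cons (Ls.cons u0 (Ls.cons u0 (Ls.cons u0 (Ls.cons u0 (Ls.cons u0 (Ls.cons u0 Ls.nil))))))
 (Ls.cons (Ls.cons u0 (Ls.cons u0 (Ls.cons u0 (Ls.cons u0 (Ls.cons u0 Ls.nil)))))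
 (Ls.cons (Ls.cons u0 (Ls.cons u0 (Ls.cons u0 Ls.nil)))
 (Ls.cons (Ls.cons u0 (Ls.cons u0 Ls.nil))
 (Ls.cons (Ls.cons u0 Ls.nil)
 (Ls.cons Ls.nil
 (Ls.cons Ls.nil
 (Ls.cons Ls.nil
 Ls.nil))))))))))))))))))))

noncomputable def slF1_9 : Ls (Ls Sv) :=
 (Ls.cons Ls.nil
 (Ls.cons Ls.nil
 (Ls.cons Ls.nil
 (Ls.cons Ls.nil
 (Ls.cons Ls.nil
 (Ls.cons Ls.nil
 (Ls.cons Ls.nil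
 (Ls.cons Ls.nil
 (Ls.cons Ls.nil
 (Ls.cons Ls.nil
 (Ls.cons (Ls.cons u0 (Ls.cons u0 (Ls.cons u0 (Ls.cons u0 (Ls.cons u0 (Ls.cons u0 (Ls.cons u0 (Ls.cons u0 Ls.nil))))))))
 (Ls.cons (Ls.cons u0 (Ls.cons u0 (Ls.cons u0 (Ls.cons u0 (Ls.cons u0 (Ls.cons u0 (Ls.cons u0 Ls.nil)))))))
 (Ls.cons (Ls.cons u0 (Ls.cons u0 (Ls.cons u0 (Ls.cons u0 (Ls.cons u0 (Ls.cons u0 Ls.nil))))))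
 (Ls.cons (Ls.cons u0 (Ls.cons u0 (Ls.cons u0 (Ls.cons u0 Ls.nil))))
 (Ls.cons (Ls.cons u0 (Ls.cons u0 (Ls.cons u0 Ls.nil)))
 (Ls.cons (Ls.cons u0 (Ls.cons u0 Ls.nil))
 (Ls.cons (Ls.cons u0 Ls.nil)
 (Ls.cons Ls.nil
 (Ls.cons Ls.nil
 (Ls.cons Ls.nil
 Ls.nil))))))))))))))))))))

noncomputable def slF1_10 : Ls (Ls Sv) :=
 (Ls.cons Ls.nil
 (Ls.cons Ls.nil
 (Ls.cons Ls.nil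
 (Ls.cons Ls.nil
 (Ls.cons Ls.nil
 (Ls.cons Ls.nil
 (Ls.cons Ls.nil
 (Ls.cons Ls.nil
 (Ls.cons Ls.nil
 (Ls.cons Ls.nil
 (Ls.cons Ls.nil
 (Ls.cons (Ls.cons u0 (Ls.cons u0 (Ls.cons u0 (Ls.cons u0 (Ls.cons u0 (Ls.cons u0 (Ls.cons u0 Ls.nil)))))))
 (Ls.cons (Ls.cons u0 (Ls.cons u0 (Ls.cons u0 (Ls.cons u0 (Ls.cons u0 Ls.nil)))))
 (Ls.cons (Ls.cons u0 (Ls.cons u0 (Ls.cons u0 (Ls.cons u0 Ls.nil))))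
 (Ls.cons (Ls.cons u0 (Ls.cons u0 (Ls.cons u0 Ls.nil)))
 (Ls.cons (Ls.cons u0 (Ls.cons u0 Ls.nil))
 (Ls.cons Ls.nil
 (Ls.cons Ls.nil
 (Ls.cons Ls.nil
 (Ls.cons Ls.nil
 Ls.nil))))))))))))))))))))

noncomputable def slF1_11 : Ls (Ls Sv) :=
 (Ls.cons Ls.nil
 (Ls.cons Ls.nil
 (Ls.cons Ls.nil
 (Ls.cons Ls.nil
 (Ls.cons Ls.nil
 (Ls.cons Ls.nil
 (Ls.cons Ls.nil
 (Ls.cons Ls.nil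
 (Ls.cons Ls.nil
 (Ls.cons Ls.nil
 (Ls.cons Ls.nil
 (Ls.cons Ls.nil
 (Ls.cons (Ls.cons u0 (Ls.cons u0 (Ls.cons u0 (Ls.cons u0 (Ls.cons u0 Ls.nil)))))
 (Ls.cons (Ls.cons u0 (Ls.cons u0 (Ls.cons u0 (Ls.cons u0 Ls.nil))))
 (Ls.cons (Ls.cons u0 (Ls.cons u0 (Ls.cons u0 Ls.nil)))
 (Ls.cons (Ls.cons u0 Ls.nil)
 (Ls.cons Ls.nil
 (Ls.cons Ls.nil
 (Ls.cons Ls.nil
 (Ls.cons Ls.nil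
 Ls.nil))))))))))))))))))))

noncomputable def slF1_12 : Ls (Ls Sv) :=
 (Ls.cons Ls.nil
 (Ls.cons Ls.nil
 (Ls.cons Ls.nil
 (Ls.cons Ls.nil
 (Ls.cons Ls.nil
 (Ls.cons Ls.nil
 (Ls.cons Ls.nil
 (Ls.cons Ls.nil
 (Ls.cons Ls.nil
 (Ls.cons Ls.nil
 (Ls.cons Ls.nil
 (Ls.cons Ls.nil
 (Ls.cons Ls.nil
 (Ls.cons (Ls.cons u0 (Ls.cons u0 (Ls.cons u0 (Ls.cons u0 Ls.nil))))
 (Ls.cons (Ls.cons u0 (Ls.cons u0 Ls.nil))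
 (Ls.cons (Ls.cons u0 Ls.nil)
 (Ls.cons Ls.nil
 (Ls.cons Ls.nil
 (Ls.cons Ls.nil
 (Ls.cons Ls.nil
 Ls.nil))))))))))))))))))))

noncomputable def slF1_13 : Ls (Ls Sv) :=
 (Ls.cons Ls.nil
 (Ls.cons Ls.nil
 (Ls.cons Ls.nil
 (Ls.cons Ls.nil
 (Ls.cons Ls.nil
 (Ls.cons Ls.nil
 (Ls.cons Ls.nil
 (Ls.cons Ls.nil
 (Ls.cons Ls.nil
 (Ls.cons Ls.nil
 (Ls.cons Ls.nil
 (Ls.cons Ls.nil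
 (Ls.cons Ls.nil
 (Ls.cons Ls.nil
 (Ls.cons (Ls.cons u0 (Ls.cons u0 Ls.nil))
 (Ls.cons (Ls.cons u0 Ls.nil)
 (Ls.cons Ls.nil
 (Ls.cons Ls.nil
 (Ls.cons Ls.nil
 (Ls.cons Ls.nil
 Ls.nil))))))))))))))))))))

noncomputable def slF1_14 : Ls (Ls Sv) :=
 (Ls.cons Ls.nil
 (Ls.cons Ls.nil
 (Ls.cons Ls.nil
 (Ls.cons Ls.nil
 (Ls.cons Ls.nil
 (Ls.cons Ls.nil
 (Ls.cons Ls.nil
 (Ls.cons Ls.nil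
 (Ls.cons Ls.nil
 (Ls.cons Ls.nil
 (Ls.cons Ls.nil
 (Ls.cons Ls.nil
 (Ls.cons Ls.nil
 (Ls.cons Ls.nil
 (Ls.cons Ls.nil
 (Ls.cons (Ls.cons u0 Ls.nil)
 (Ls.cons Ls.nil
 (Ls.cons Ls.nil
 (Ls.cons Ls.nil
 (Ls.cons Ls.nil
 Ls.nil))))))))))))))))))))

noncomputable def srcF1 : Ls (Ls (Ls Sv)) := (Ls.cons slF1_0 (Ls.cons slF1_1 (Ls.cons slF1_2 (Ls.cons slF1_3 (Ls.cons slF1_4 (Ls.cons slF1_5 (Ls.cons slF1_6 (Ls.cons slF1_7 (Ls.cons slF1_8 (Ls.cons slF1_9 (Ls.cons slF1_10 (Ls.cons slF1_11 (Ls.cons slF1_12 (Ls.cons slF1_13 (Ls.cons slF1_14 Ls.nil)))))))))))))))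

end Vale.Agent.P181.K
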