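import Vale.Agent.P181.Six.K3

set_option maxRecDepth 100000
set_option maxHeartbeats 0

namespace Vale.Agent.P181.K

noncomputable def sF2_2_1_0 : Sv := ut
 (T.l (nat_lit 0x1000000000000000000000000100000000000000000000000010000000000000000000000001))

noncomputable def slF2_0 : Ls (Ls Sv) :=
 (Ls.cons Ls.nil
 (Ls.cons (Ls.cons sF2_2_1_0 (Ls.cons u0 (Ls.cons u0 (Ls.cons u0 (Ls.cons u0 (Ls.cons u0 (Ls.cons u0 (Ls.cons u0 (Ls.cons u0 (Ls.cons u0 (Ls.cons u0 (Ls.cons u0 (Ls.cons u0 (Ls.cons u0 (Ls.cons u0 (Ls.cons u0 (Ls.cons u0 (Ls.cons u0 (Ls.cons u0 (Ls.cons u0 (Ls.cons u0 (Ls.cons u0 (Ls.cons u0 Ls.nil)))))))))))))))))))))))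
 (Ls.cons (Ls.cons u0 (Ls.cons u0 (Ls.cons u0 (Ls.cons u0 (Ls.cons u0 (Ls.cons u0 (Ls.cons u0 (Ls.cons u0 (Ls.cons u0 (Ls.cons u0 (Ls.cons u0 (Ls.cons u0 (Ls.cons u0 (Ls.cons u0 (Ls.cons u0 (Ls.cons u0 (Ls.cons u0 (Ls.cons u0 (Ls.cons u0 (Ls.cons u0 (Ls.cons u0 (Ls.cons u0 Ls.nil))))))))))))))))))))))
 (Ls.cons (Ls.cons u0 (Ls.cons u0 (Ls.cons u0 (Ls.cons u0 (Ls.cons u0 (Ls.cons u0 (Ls.cons u0 (Ls.cons u0 (Ls.cons u0 (Ls.cons u0 (Ls.cons u0 (Ls.cons u0 (Ls.cons u0 (Ls.cons u0 (Ls.cons u0 (Ls.cons u0 (Ls.cons u0 (Ls.cons u0 (Ls.cons u0 (Ls.cons u0 (Ls.cons u0 Ls.nil)))))))))))))))))))))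
 (Ls.cons (Ls.cons u0 (Ls.cons u0 (Ls.cons u0 (Ls.cons u0 (Ls.cons u0 (Ls.cons u0 (Ls.cons u0 (Ls.cons u0 (Ls.cons u0 (Ls.cons u0 (Ls.cons u0 (Ls.cons u0 (Ls.cons u0 (Ls.cons u0 (Ls.cons u0 (Ls.cons u0 (Ls.cons u0 (Ls.cons u0 (Ls.cons u0 Ls.nil)))))))))))))))))))
 (Ls.cons (Ls.cons u0 (Ls.cons u0 (Ls.cons u0 (Ls.cons u0 (Ls.cons u0 (Ls.cons u0 (Ls.cons u0 (Ls.cons u0 (Ls.cons u0 (Ls.cons u0 (Ls.cons u0 (Ls.cons u0 (Ls.cons u0 (Ls.cons u0 (Ls.cons u0 (Ls.cons u0 (Ls.cons u0 (Ls.cons u0 Ls.nil))))))))))))))))))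
 (Ls.cons (Ls.cons u0 (Ls.cons u0 (Ls.cons u0 (Ls.cons u0 (Ls.cons u0 (Ls.cons u0 (Ls.cons u0 (Ls.cons u0 (Ls.cons u0 (Ls.cons u0 (Ls.cons u0 (Ls.cons u0 (Ls.cons u0 (Ls.cons u0 (Ls.cons u0 (Ls.cons u0 Ls.nil))))))))))))))))
 (Ls.cons (Ls.cons u0 (Ls.cons u0 (Ls.cons u0 (Ls.cons u0 (Ls.cons u0 (Ls.cons u0 (Ls.cons u0 (Ls.cons u0 (Ls.cons u0 (Ls.cons u0 (Ls.cons u0 (Ls.cons u0 (Ls.cons u0 (Ls.cons u0 (Ls.cons u0 Ls.nil)))))))))))))))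
 (Ls.cons (Ls.cons u0 (Ls.cons u0 (Ls.cons u0 (Ls.cons u0 (Ls.cons u0 (Ls.cons u0 (Ls.cons u0 (Ls.cons u0 (Ls.cons u0 (Ls.cons u0 (Ls.cons u0 (Ls.cons u0 (Ls.cons u0 (Ls.cons u0 Ls.nil))))))))))))))
 (Ls.cons (Ls.cons u0 (Ls.cons u0 (Ls.cons u0 (Ls.cons u0 (Ls.cons u0 (Ls.cons u0 (Ls.cons u0 (Ls.cons u0 (Ls.cons u0 (Ls.cons u0 (Ls.cons u0 (Ls.cons u0 (Ls.cons u0 Ls.nil)))))))))))))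
 (Ls.cons (Ls.cons u0 (Ls.cons u0 (Ls.cons u0 (Ls.cons u0 (Ls.cons u0 (Ls.cons u0 (Ls.cons u0 (Ls.cons u0 (Ls.cons u0 (Ls.cons u0 (Ls.cons u0 (Ls.cons u0 Ls.nil))))))))))))
 (Ls.cons (Ls.cons u0 (Ls.cons u0 (Ls.cons u0 (Ls.cons u0 (Ls.cons u0 (Ls.cons u0 (Ls.cons u0 (Ls.cons u0 (Ls.cons u0 (Ls.cons u0 (Ls.cons u0 Ls.nil)))))))))))
 (Ls.cons (Ls.cons u0 (Ls.cons u0 (Ls.cons u0 (Ls.cons u0 (Ls.cons u0 (Ls.cons u0 (Ls.cons u0 (Ls.cons u0 (Ls.cons u0 Ls.nil)))))))))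
 (Ls.cons (Ls.cons u0 (Ls.cons u0 (Ls.cons u0 (Ls.cons u0 (Ls.cons u0 (Ls.cons u0 (Ls.cons u0 (Ls.cons u0 Ls.nil))))))))
 (Ls.cons (Ls.cons u0 (Ls.cons u0 (Ls.cons u0 (Ls.cons u0 (Ls.cons u0 (Ls.cons u0 (Ls.cons u0 Ls.nil)))))))
 (Ls.cons (Ls.cons u0 (Ls.cons u0 (Ls.cons u0 (Ls.cons u0 (Ls.cons u0 (Ls.cons u0 Ls.nil))))))
 (Ls.cons (Ls.cons u0 (Ls.cons u0 (Ls.cons u0 (Ls.cons u0 Ls.nil))))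
 (Ls.cons (Ls.cons u0 (Ls.cons u0 (Ls.cons u0 Ls.nil)))
 (Ls.cons (Ls.cons u0 (Ls.cons u0 Ls.nil))
 (Ls.cons (Ls.cons u0 Ls.nil)
 Ls.nil))))))))))))))))))))

noncomputable def slF2_1 : Ls (Ls Sv) :=
 (Ls.cons Ls.nil
 (Ls.cons Ls.nil
 (Ls.cons (Ls.cons u0 (Ls.cons u0 (Ls.cons u0 (Ls.cons u0 (Ls.cons u0 (Ls.cons u0 (Ls.cons u0 (Ls.cons u0 (Ls.cons u0 (Ls.cons u0 (Ls.cons u0 (Ls.cons u0 (Ls.cons u0 (Ls.cons u0 (Ls.cons u0 (Ls.cons u0 (Ls.cons u0 (Ls.cons u0 (Ls.cons u0 (Ls.cons u0 (Ls.cons u0 (Ls.cons u0 Ls.nil))))))))))))))))))))))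
 (Ls.cons (Ls.cons u0 (Ls.cons u0 (Ls.cons u0 (Ls.cons u0 (Ls.cons u0 (Ls.cons u0 (Ls.cons u0 (Ls.cons u0 (Ls.cons u0 (Ls.cons u0 (Ls.cons u0 (Ls.cons u0 (Ls.cons u0 (Ls.cons u0 (Ls.cons u0 (Ls.cons u0 (Ls.cons u0 (Ls.cons u0 (Ls.cons u0 (Ls.cons u0 Ls.nil))))))))))))))))))))
 (Ls.cons (Ls.cons u0 (Ls.cons u0 (Ls.cons u0 (Ls.cons u0 (Ls.cons u0 (Ls.cons u0 (Ls.cons u0 (Ls.cons u0 (Ls.cons u0 (Ls.cons u0 (Ls.cons u0 (Ls.cons u0 (Ls.cons u0 (Ls.cons u0 (Ls.cons u0 (Ls.cons u0 (Ls.cons u0 (Ls.cons u0 (Ls.cons u0 Ls.nil)))))))))))))))))))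
 (Ls.cons (Ls.cons u0 (Ls.cons u0 (Ls.cons u0 (Ls.cons u0 (Ls.cons u0 (Ls.cons u0 (Ls.cons u0 (Ls.cons u0 (Ls.cons u0 (Ls.cons u0 (Ls.cons u0 (Ls.cons u0 (Ls.cons u0 (Ls.cons u0 (Ls.cons u0 (Ls.cons u0 Ls.nil))))))))))))))))
 (Ls.cons (Ls.cons u0 (Ls.cons u0 (Ls.cons u0 (Ls.cons u0 (Ls.cons u0 (Ls.cons u0 (Ls.cons u0 (Ls.cons u0 (Ls.cons u0 (Ls.cons u0 (Ls.cons u0 (Ls.cons u0 (Ls.cons u0 (Ls.cons u0 (Ls.cons u0 Ls.nil)))))))))))))))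
 (Ls.cons (Ls.cons u0 (Ls.cons u0 (Ls.cons u0 (Ls.cons u0 (Ls.cons u0 (Ls.cons u0 (Ls.cons u0 (Ls.cons u0 (Ls.cons u0 (Ls.cons u0 (Ls.cons u0 (Ls.cons u0 (Ls.cons u0 (Ls.cons u0 Ls.nil))))))))))))))
 (Ls.cons (Ls.cons u0 (Ls.cons u0 (Ls.cons u0 (Ls.cons u0 (Ls.cons u0 (Ls.cons u0 (Ls.cons u0 (Ls.cons u0 (Ls.cons u0 (Ls.cons u0 (Ls.cons u0 (Ls.cons u0 (Ls.cons u0 Ls.nil)))))))))))))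
 (Ls.cons (Ls.cons u0 (Ls.cons u0 (Ls.cons u0 (Ls.cons u0 (Ls.cons u0 (Ls.cons u0 (Ls.cons u0 (Ls.cons u0 (Ls.cons u0 (Ls.cons u0 (Ls.cons u0 Ls.nil)))))))))))
 (Ls.cons (Ls.cons u0 (Ls.cons u0 (Ls.cons u0 (Ls.cons u0 (Ls.cons u0 (Ls.cons u0 (Ls.cons u0 (Ls.cons u0 (Ls.cons u0 (Ls.cons u0 Ls.nil))))))))))
 (Ls.cons (Ls.cons u0 (Ls.cons u0 (Ls.cons u0 (Ls.cons u0 (Ls.cons u0 (Ls.cons u0 (Ls.cons u0 (Ls.cons u0 (Ls.cons u0 Ls.nil)))))))))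
 (Ls.cons (Ls.cons u0 (Ls.cons u0 (Ls.cons u0 (Ls.cons u0 (Ls.cons u0 (Ls.cons u0 (Ls.cons u0 (Ls.cons u0 Ls.nil))))))))
 (Ls.cons (Ls.cons u0 (Ls.cons u0 (Ls.cons u0 (Ls.cons u0 (Ls.cons u0 (Ls.cons u0 Ls.nil))))))
 (Ls.cons (Ls.cons u0 (Ls.cons u0 (Ls.cons u0 (Ls.cons u0 (Ls.cons u0 Ls.nil)))))
 (Ls.cons (Ls.cons u0 (Ls.cons u0 (Ls.cons u0 (Ls.cons u0 Ls.nil))))
 (Ls.cons (Ls.cons u0 (Ls.cons u0 (Ls.cons u0 Ls.nil)))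
 (Ls.cons (Ls.cons u0 Ls.nil)
 (Ls.cons Ls.nil
 (Ls.cons Ls.nil
 Ls.nil))))))))))))))))))))

noncomputable def slF2_2 : Ls (Ls Sv) :=
 (Ls.cons Ls.nil
 (Ls.cons Ls.nil
 (Ls.cons Ls.nil
 (Ls.cons (Ls.cons u0 (Ls.cons u0 (Ls.cons u0 (Ls.cons u0 (Ls.cons u0 (Ls.cons u0 (Ls.cons u0 (Ls.cons u0 (Ls.cons u0 (Ls.cons u0 (Ls.cons u0 (Ls.cons u0 (Ls.cons u0 (Ls.cons u0 (Ls.cons u0 (Ls.cons u0 (Ls.cons u0 (Ls.cons u0 (Ls.cons u0 Ls.nil)))))))))))))))))))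
 (Ls.cons (Ls.cons u0 (Ls.cons u0 (Ls.cons u0 (Ls.cons u0 (Ls.cons u0 (Ls.cons u0 (Ls.cons u0 (Ls.cons u0 (Ls.cons u0 (Ls.cons u0 (Ls.cons u0 (Ls.cons u0 (Ls.cons u0 (Ls.cons u0 (Ls.cons u0 (Ls.cons u0 (Ls.cons u0 Ls.nil)))))))))))))))))
 (Ls.cons (Ls.cons u0 (Ls.cons u0 (Ls.cons u0 (Ls.cons u0 (Ls.cons u0 (Ls.cons u0 (Ls.cons u0 (Ls.cons u0 (Ls.cons u0 (Ls.cons u0 (Ls.cons u0 (Ls.cons u0 (Ls.cons u0 (Ls.cons u0 (Ls.cons u0 (Ls.cons u0 Ls.nil))))))))))))))))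
 (Ls.cons (Ls.cons u0 (Ls.cons u0 (Ls.cons u0 (Ls.cons u0 (Ls.cons u0 (Ls.cons u0 (Ls.cons u0 (Ls.cons u0 (Ls.cons u0 (Ls.cons u0 (Ls.cons u0 (Ls.cons u0 (Ls.cons u0 (Ls.cons u0 (Ls.cons u0 Ls.nil)))))))))))))))
 (Ls.cons (Ls.cons u0 (Ls.cons u0 (Ls.cons u0 (Ls.cons u0 (Ls.cons u0 (Ls.cons u0 (Ls.cons u0 (Ls.cons u0 (Ls.cons u0 (Ls.cons u0 (Ls.cons u0 (Ls.cons u0 (Ls.cons u0 (Ls.cons u0 Ls.nil))))))))))))))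
 (Ls.cons (Ls.cons u0 (Ls.cons u0 (Ls.cons u0 (Ls.cons u0 (Ls.cons u0 (Ls.cons u0 (Ls.cons u0 (Ls.cons u0 (Ls.cons u0 (Ls.cons u0 (Ls.cons u0 (Ls.cons u0 Ls.nil))))))))))))
 (Ls.cons (Ls.cons u0 (Ls.cons u0 (Ls.cons u0 (Ls.cons u0 (Ls.cons u0 (Ls.cons u0 (Ls.cons u0 (Ls.cons u0 (Ls.cons u0 (Ls.cons u0 (Ls.cons u0 Ls.nil)))))))))))
 (Ls.cons (Ls.cons u0 (Ls.cons u0 (Ls.cons u0 (Ls.cons u0 (Ls.cons u0 (Ls.cons u0 (Ls.cons u0 (Ls.cons u0 (Ls.cons u0 (Ls.cons u0 Ls.nil))))))))))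
 (Ls.cons (Ls.cons u0 (Ls.cons u0 (Ls.cons u0 (Ls.cons u0 (Ls.cons u0 (Ls.cons u0 (Ls.cons u0 (Ls.cons u0 (Ls.cons u0 Ls.nil)))))))))
 (Ls.cons (Ls.cons u0 (Ls.cons u0 (Ls.cons u0 (Ls.cons u0 (Ls.cons u0 (Ls.cons u0 (Ls.cons u0 Ls.nil)))))))
 (Ls.cons (Ls.cons u0 (Ls.cons u0 (Ls.cons u0 (Ls.cons u0 (Ls.cons u0 (Ls.cons u0 Ls.nil))))))
 (Ls.cons (Ls.cons u0 (Ls.cons u0 (Ls.cons u0 (Ls.cons u0 (Ls.cons u0 Ls.nil)))))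
 (Ls.cons (Ls.cons u0 (Ls.cons u0 (Ls.cons u0 (Ls.cons u0 Ls.nil))))
 (Ls.cons (Ls.cons u0 (Ls.cons u0 Ls.nil))
 (Ls.cons (Ls.cons u0 Ls.nil)
 (Ls.cons Ls.nil
 (Ls.cons Ls.nil
 Ls.nil))))))))))))))))))))

noncomputable def slF2_3 : Ls (Ls Sv) :=
 (Ls.cons Ls.nil
 (Ls.cons Ls.nil
 (Ls.cons Ls.nil
 (Ls.cons Ls.nil
 (Ls.cons (Ls.cons u0 (Ls.cons u0 (Ls.cons u0 (Ls.cons u0 (Ls.cons u0 (Ls.cons u0 (Ls.cons u0 (Ls.cons u0 (Ls.cons u0 (Ls.cons u0 (Ls.cons u0 (Ls.cons u0 (Ls.cons u0 (Ls.cons u0 (Ls.cons u0 (Ls.cons u0 (Ls.cons u0 Ls.nil)))))))))))))))))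
 (Ls.cons (Ls.cons u0 (Ls.cons u0 (Ls.cons u0 (Ls.cons u0 (Ls.cons u0 (Ls.cons u0 (Ls.cons u0 (Ls.cons u0 (Ls.cons u0 (Ls.cons u0 (Ls.cons u0 (Ls.cons u0 (Ls.cons u0 (Ls.cons u0 (Ls.cons u0 (Ls.cons u0 Ls.nil))))))))))))))))
 (Ls.cons (Ls.cons u0 (Ls.cons u0 (Ls.cons u0 (Ls.cons u0 (Ls.cons u0 (Ls.cons u0 (Ls.cons u0 (Ls.cons u0 (Ls.cons u0 (Ls.cons u0 (Ls.cons u0 (Ls.cons u0 (Ls.cons u0 (Ls.cons u0 (Ls.cons u0 Ls.nil)))))))))))))))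
 (Ls.cons (Ls.cons u0 (Ls.cons u0 (Ls.cons u0 (Ls.cons u0 (Ls.cons u0 (Ls.cons u0 (Ls.cons u0 (Ls.cons u0 (Ls.cons u0 (Ls.cons u0 (Ls.cons u0 (Ls.cons u0 (Ls.cons u0 Ls.nil)))))))))))))
 (Ls.cons (Ls.cons u0 (Ls.cons u0 (Ls.cons u0 (Ls.cons u0 (Ls.cons u0 (Ls.cons u0 (Ls.cons u0 (Ls.cons u0 (Ls.cons u0 (Ls.cons u0 (Ls.cons u0 (Ls.cons u0 Ls.nil))))))))))))
 (Ls.cons (Ls.cons u0 (Ls.cons u0 (Ls.cons u0 (Ls.cons u0 (Ls.cons u0 (Ls.cons u0 (Ls.cons u0 (Ls.cons u0 (Ls.cons u0 (Ls.cons u0 (Ls.cons u0 Ls.nil)))))))))))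
 (Ls.cons (Ls.cons u0 (Ls.cons u0 (Ls.cons u0 (Ls.cons u0 (Ls.cons u0 (Ls.cons u0 (Ls.cons u0 (Ls.cons u0 (Ls.cons u0 (Ls.cons u0 Ls.nil))))))))))
 (Ls.cons (Ls.cons u0 (Ls.cons u0 (Ls.cons u0 (Ls.cons u0 (Ls.cons u0 (Ls.cons u0 (Ls.cons u0 (Ls.cons u0 Ls.nil))))))))
 (Ls.cons (Ls.cons u0 (Ls.cons u0 (Ls.cons u0 (Ls.cons u0 (Ls.cons u0 (Ls.cons u0 (Ls.cons u0 Ls.nil)))))))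
 (Ls.cons (Ls.cons u0 (Ls.cons u0 (Ls.cons u0 (Ls.cons u0 (Ls.cons u0 (Ls.cons u0 Ls.nil))))))
 (Ls.cons (Ls.cons u0 (Ls.cons u0 (Ls.cons u0 (Ls.cons u0 (Ls.cons u0 Ls.nil)))))
 (Ls.cons (Ls.cons u0 (Ls.cons u0 (Ls.cons u0 Ls.nil)))
 (Ls.cons (Ls.cons u0 (Ls.cons u0 Ls.nil))
 (Ls.cons (Ls.cons u0 Ls.nil)
 (Ls.cons Ls.nil
 (Ls.cons Ls.nil
 Ls.nil))))))))))))))))))))

noncomputable def slF2_4 : Ls (Ls Sv) :=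
 (Ls.cons Ls.nil
 (Ls.cons Ls.nil
 (Ls.cons Ls.nil
 (Ls.cons Ls.nil
 (Ls.cons Ls.nil
 (Ls.cons (Ls.cons u0 (Ls.cons u0 (Ls.cons u0 (Ls.cons u0 (Ls.cons u0 (Ls.cons u0 (Ls.cons u0 (Ls.cons u0 (Ls.cons u0 (Ls.cons u0 (Ls.cons u0 (Ls.cons u0 (Ls.cons u0 (Ls.cons u0 (Ls.cons u0 (Ls.cons u0 Ls.nil))))))))))))))))
 (Ls.cons (Ls.cons u0 (Ls.cons u0 (Ls.cons u0 (Ls.cons u0 (Ls.cons u0 (Ls.cons u0 (Ls.cons u0 (Ls.cons u0 (Ls.cons u0 (Ls.cons u0 (Ls.cons u0 (Ls.cons u0 (Ls.cons u0 (Ls.cons u0 Ls.nil))))))))))))))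
 (Ls.cons (Ls.cons u0 (Ls.cons u0 (Ls.cons u0 (Ls.cons u0 (Ls.cons u0 (Ls.cons u0 (Ls.cons u0 (Ls.cons u0 (Ls.cons u0 (Ls.cons u0 (Ls.cons u0 (Ls.cons u0 (Ls.cons u0 Ls.nil)))))))))))))
 (Ls.cons (Ls.cons u0 (Ls.cons u0 (Ls.cons u0 (Ls.cons u0 (Ls.cons u0 (Ls.cons u0 (Ls.cons u0 (Ls.cons u0 (Ls.cons u0 (Ls.cons u0 (Ls.cons u0 (Ls.cons u0 Ls.nil))))))))))))
 (Ls.cons (Ls.cons u0 (Ls.cons u0 (Ls.cons u0 (Ls.cons u0 (Ls.cons u0 (Ls.cons u0 (Ls.cons u0 (Ls.cons u0 (Ls.cons u0 (Ls.cons u0 (Ls.cons u0 Ls.nil)))))))))))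
 (Ls.cons (Ls.cons u0 (Ls.cons u0 (Ls.cons u0 (Ls.cons u0 (Ls.cons u0 (Ls.cons u0 (Ls.cons u0 (Ls.cons u0 (Ls.cons u0 Ls.nil)))))))))
 (Ls.cons (Ls.cons u0 (Ls.cons u0 (Ls.cons u0 (Ls.cons u0 (Ls.cons u0 (Ls.cons u0 (Ls.cons u0 (Ls.cons u0 Ls.nil))))))))
 (Ls.cons (Ls.cons u0 (Ls.cons u0 (Ls.cons u0 (Ls.cons u0 (Ls.cons u0 (Ls.cons u0 (Ls.cons u0 Ls.nil)))))))
 (Ls.cons (Ls.cons u0 (Ls.cons u0 (Ls.cons u0 (Ls.cons u0 (Ls.cons u0 (Ls.cons u0 Ls.nil))))))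
 (Ls.cons (Ls.cons u0 (Ls.cons u0 (Ls.cons u0 (Ls.cons u0 Ls.nil))))
 (Ls.cons (Ls.cons u0 (Ls.cons u0 (Ls.cons u0 Ls.nil)))
 (Ls.cons (Ls.cons u0 (Ls.cons u0 Ls.nil))
 (Ls.cons (Ls.cons u0 Ls.nil)
 (Ls.cons Ls.nil
 (Ls.cons Ls.nil
 Ls.nil))))))))))))))))))))

noncomputable def slF2_5 : Ls (Ls Sv) :=
 (Ls.cons Ls.nil
 (Ls.cons Ls.nil
 (Ls.cons Ls.nil
 (Ls.cons Ls.nil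
 (Ls.cons Ls.nil
 (Ls.cons Ls.nil
 (Ls.cons (Ls.cons u0 (Ls.cons u0 (Ls.cons u0 (Ls.cons u0 (Ls.cons u0 (Ls.cons u0 (Ls.cons u0 (Ls.cons u0 (Ls.cons u0 (Ls.cons u0 (Ls.cons u0 (Ls.cons u0 (Ls.cons u0 (Ls.cons u0 Ls.nil))))))))))))))
 (Ls.cons (Ls.cons u0 (Ls.cons u0 (Ls.cons u0 (Ls.cons u0 (Ls.cons u0 (Ls.cons u0 (Ls.cons u0 (Ls.cons u0 (Ls.cons u0 (Ls.cons u0 (Ls.cons u0 (Ls.cons u0 (Ls.cons u0 Ls.nil)))))))))))))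
 (Ls.cons (Ls.cons u0 (Ls.cons u0 (Ls.cons u0 (Ls.cons u0 (Ls.cons u0 (Ls.cons u0 (Ls.cons u0 (Ls.cons u0 (Ls.cons u0 (Ls.cons u0 (Ls.cons u0 (Ls.cons u0 Ls.nil))))))))))))
 (Ls.cons (Ls.cons u0 (Ls.cons u0 (Ls.cons u0 (Ls.cons u0 (Ls.cons u0 (Ls.cons u0 (Ls.cons u0 (Ls.cons u0 (Ls.cons u0 (Ls.cons u0 Ls.nil))))))))))
 (Ls.cons (Ls.cons u0 (Ls.cons u0 (Ls.cons u0 (Ls.cons u0 (Ls.cons u0 (Ls.cons u0 (Ls.cons u0 (Ls.cons u0 (Ls.cons u0 Ls.nil)))))))))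
 (Ls.cons (Ls.cons u0 (Ls.cons u0 (Ls.cons u0 (Ls.cons u0 (Ls.cons u0 (Ls.cons u0 (Ls.cons u0 (Ls.cons u0 Ls.nil))))))))
 (Ls.cons (Ls.cons u0 (Ls.cons u0 (Ls.cons u0 (Ls.cons u0 (Ls.cons u0 (Ls.cons u0 (Ls.cons u0 Ls.nil)))))))
 (Ls.cons (Ls.cons u0 (Ls.cons u0 (Ls.cons u0 (Ls.cons u0 (Ls.cons u0 Ls.nil)))))
 (Ls.cons (Ls.cons u0 (Ls.cons u0 (Ls.cons u0 (Ls.cons u0 Ls.nil))))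
 (Ls.cons (Ls.cons u0 (Ls.cons u0 (Ls.cons u0 Ls.nil)))
 (Ls.cons (Ls.cons u0 (Ls.cons u0 Ls.nil))
 (Ls.cons Ls.nil
 (Ls.cons Ls.nil
 (Ls.cons Ls.nil
 Ls.nil))))))))))))))))))))

noncomputable def slF2_6 : Ls (Ls Sv) :=
 (Ls.cons Ls.nil
 (Ls.cons Ls.nil
 (Ls.cons Ls.nil
 (Ls.cons Ls.nil
 (Ls.cons Ls.nil
 (Ls.cons Ls.nil
 (Ls.cons Ls.nil
 (Ls.cons (Ls.cons u0 (Ls.cons u0 (Ls.cons u0 (Ls.cons u0 (Ls.cons u0 (Ls.cons u0 (Ls.cons u0 (Ls.cons u0 (Ls.cons u0 (Ls.cons u0 (Ls.cons u0 (Ls.cons u0 (Ls.cons u0 Ls.nil)))))))))))))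
 (Ls.cons (Ls.cons u0 (Ls.cons u0 (Ls.cons u0 (Ls.cons u0 (Ls.cons u0 (Ls.cons u0 (Ls.cons u0 (Ls.cons u0 (Ls.cons u0 (Ls.cons u0 (Ls.cons u0 Ls.nil)))))))))))
 (Ls.cons (Ls.cons u0 (Ls.cons u0 (Ls.cons u0 (Ls.cons u0 (Ls.cons u0 (Ls.cons u0 (Ls.cons u0 (Ls.cons u0 (Ls.cons u0 (Ls.cons u0 Ls.nil))))))))))
 (Ls.cons (Ls.cons u0 (Ls.cons u0 (Ls.cons u0 (Ls.cons u0 (Ls.cons u0 (Ls.cons u0 (Ls.cons u0 (Ls.cons u0 (Ls.cons u0 Ls.nil)))))))))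
 (Ls.cons (Ls.cons u0 (Ls.cons u0 (Ls.cons u0 (Ls.cons u0 (Ls.cons u0 (Ls.cons u0 (Ls.cons u0 (Ls.cons u0 Ls.nil))))))))
 (Ls.cons (Ls.cons u0 (Ls.cons u0 (Ls.cons u0 (Ls.cons u0 (Ls.cons u0 (Ls.cons u0 Ls.nil))))))
 (Ls.cons (Ls.cons u0 (Ls.cons u0 (Ls.cons u0 (Ls.cons u0 (Ls.cons u0 Ls.nil)))))
 (Ls.cons (Ls.cons u0 (Ls.cons u0 (Ls.cons u0 (Ls.cons u0 Ls.nil))))
 (Ls.cons (Ls.cons u0 (Ls.cons u0 (Ls.cons u0 Ls.nil)))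
 (Ls.cons (Ls.cons u0 Ls.nil)
 (Ls.cons Ls.nil
 (Ls.cons Ls.nil
 (Ls.cons Ls.nil
 Ls.nil))))))))))))))))))))

noncomputable def slF2_7 : Ls (Ls Sv) :=
 (Ls.cons Ls.nil
 (Ls.cons Ls.nil
 (Ls.cons Ls.nil
 (Ls.cons Ls.nil
 (Ls.cons Ls.nil
 (Ls.cons Ls.nil
 (Ls.cons Ls.nil
 (Ls.cons Ls.nil
 (Ls.cons (Ls.cons u0 (Ls.cons u0 (Ls.cons u0 (Ls.cons u0 (Ls.cons u0 (Ls.cons u0 (Ls.cons u0 (Ls.cons u0 (Ls.cons u0 (Ls.cons u0 (Ls.cons u0 Ls.nil)))))))))))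
 (Ls.cons (Ls.cons u0 (Ls.cons u0 (Ls.cons u0 (Ls.cons u0 (Ls.cons u0 (Ls.cons u0 (Ls.cons u0 (Ls.cons u0 (Ls.cons u0 (Ls.cons u0 Ls.nil))))))))))
 (Ls.cons (Ls.cons u0 (Ls.cons u0 (Ls.cons u0 (Ls.cons u0 (Ls.cons u0 (Ls.cons u0 (Ls.cons u0 (Ls.cons u0 (Ls.cons u0 Ls.nil)))))))))
 (Ls.cons (Ls.cons u0 (Ls.cons u0 (Ls.cons u0 (Ls.cons u0 (Ls.cons u0 (Ls.cons u0 (Ls.cons u0 Ls.nil)))))))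
 (Ls.cons (Ls.cons u0 (Ls.cons u0 (Ls.cons u0 (Ls.cons u0 (Ls.cons u0 (Ls.cons u0 Ls.nil))))))
 (Ls.cons (Ls.cons u0 (Ls.cons u0 (Ls.cons u0 (Ls.cons u0 (Ls.cons u0 Ls.nil)))))
 (Ls.cons (Ls.cons u0 (Ls.cons u0 (Ls.cons u0 (Ls.cons u0 Ls.nil))))
 (Ls.cons (Ls.cons u0 (Ls.cons u0 Ls.nil))
 (Ls.cons (Ls.cons u0 Ls.nil)
 (Ls.cons Ls.nil
 (Ls.cons Ls.nil
 (Ls.cons Ls.nil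
 Ls.nil))))))))))))))))))))

noncomputable def slF2_8 : Ls (Ls Sv) :=
 (Ls.cons Ls.nil
 (Ls.cons Ls.nil
 (Ls.cons Ls.nil
 (Ls.cons Ls.nil
 (Ls.cons Ls.nil
 (Ls.cons Ls.nil
 (Ls.cons Ls.nil
 (Ls.cons Ls.nil
 (Ls.cons Ls.nil
 (Ls.cons (Ls.cons u0 (Ls.cons u0 (Ls.cons u0 (Ls.cons u0 (Ls.cons u0 (Ls.cons u0 (Ls.cons u0 (Ls.cons u0 (Ls.cons u0 (Ls.cons u0 Ls.nil))))))))))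
 (Ls.cons (Ls.cons u0 (Ls.cons u0 (Ls.cons u0 (Ls.cons u0 (Ls.cons u0 (Ls.cons u0 (Ls.cons u0 (Ls.cons u0 Ls.nil))))))))
 (Ls.cons (Ls.cons u0 (Ls.cons u0 (Ls.cons u0 (Ls.cons u0 (Ls.cons u0 (Ls.cons u0 (Ls.cons u0 Ls.nil)))))))
 (Ls.cons (Ls.cons u0 (Ls.cons u0 (Ls.cons u0 (Ls.cons u0 (Ls.cons u0 (Ls.cons u0 Ls.nil))))))
 (Ls.cons (Ls.cons u0 (Ls.cons u0 (Ls.cons u0 (Ls.cons u0 (Ls.cons u0 Ls.nil)))))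
 (Ls.cons (Ls.cons u0 (Ls.cons u0 (Ls.cons u0 Ls.nil)))
 (Ls.cons (Ls.cons u0 (Ls.cons u0 Ls.nil))
 (Ls.cons (Ls.cons u0 Ls.nil)
 (Ls.cons Ls.nil
 (Ls.cons Ls.nil
 (Ls.cons Ls.nil
 Ls.nil))))))))))))))))))))

noncomputable def slF2_9 : Ls (Ls Sv) :=
 (Ls.cons Ls.nil
 (Ls.cons Ls.nil
 (Ls.cons Ls.nil
 (Ls.cons Ls.nil
 (Ls.cons Ls.nil
 (Ls.cons Ls.nil
 (Ls.cons Ls.nil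
 (Ls.cons Ls.nil
 (Ls.cons Ls.nil
 (Ls.cons Ls.nil
 (Ls.cons (Ls.cons u0 (Ls.cons u0 (Ls.cons u0 (Ls.cons u0 (Ls.cons u0 (Ls.cons u0 (Ls.cons u0 (Ls.cons u0 Ls.nil))))))))
 (Ls.cons (Ls.cons u0 (Ls.cons u0 (Ls.cons u0 (Ls.cons u0 (Ls.cons u0 (Ls.cons u0 (Ls.cons u0 Ls.nil)))))))
 (Ls.cons (Ls.cons u0 (Ls.cons u0 (Ls.cons u0 (Ls.cons u0 (Ls.cons u0 (Ls.cons u0 Ls.nil))))))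
 (Ls.cons (Ls.cons u0 (Ls.cons u0 (Ls.cons u0 (Ls.cons u0 Ls.nil))))
 (Ls.cons (Ls.cons u0 (Ls.cons u0 (Ls.cons u0 Ls.nil)))
 (Ls.cons (Ls.cons u0 (Ls.cons u0 Ls.nil))
 (Ls.cons (Ls.cons u0 Ls.nil)
 (Ls.cons Ls.nil
 (Ls.cons Ls.nil
 (Ls.cons Ls.nil
 Ls.nil))))))))))))))))))))

noncomputable def slF2_10 : Ls (Ls Sv) :=
 (Ls.cons Ls.nil
 (Ls.cons Ls.nil
 (Ls.cons Ls.nil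
 (Ls.cons Ls.nil
 (Ls.cons Ls.nil
 (Ls.cons Ls.nil
 (Ls.cons Ls.nil
 (Ls.cons Ls.nil
 (Ls.cons Ls.nil
 (Ls.cons Ls.nil
 (Ls.cons Ls.nil
 (Ls.cons (Ls.cons u0 (Ls.cons u0 (Ls.cons u0 (Ls.cons u0 (Ls.cons u0 (Ls.cons u0 (Ls.cons u0 Ls.nil)))))))
 (Ls.cons (Ls.cons u0 (Ls.cons u0 (Ls.cons u0 (Ls.cons u0 (Ls.cons u0 Ls.nil)))))
 (Ls.cons (Ls.cons u0 (Ls.cons u0 (Ls.cons u0 (Ls.cons u0 Ls.nil))))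
 (Ls.cons (Ls.cons u0 (Ls.cons u0 (Ls.cons u0 Ls.nil)))
 (Ls.cons (Ls.cons u0 (Ls.cons u0 Ls.nil))
 (Ls.cons Ls.nil
 (Ls.cons Ls.nil
 (Ls.cons Ls.nil
 (Ls.cons Ls.nil
 Ls.nil))))))))))))))))))))

noncomputable def slF2_11 : Ls (Ls Sv) :=
 (Ls.cons Ls.nil
 (Ls.cons Ls.nil
 (Ls.cons Ls.nil
 (Ls.cons Ls.nil
 (Ls.cons Ls.nil
 (Ls.cons Ls.nil
 (Ls.cons Ls.nil
 (Ls.cons Ls.nil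
 (Ls.cons Ls.nil
 (Ls.cons Ls.nil
 (Ls.cons Ls.nil
 (Ls.cons Ls.nil
 (Ls.cons (Ls.cons u0 (Ls.cons u0 (Ls.cons u0 (Ls.cons u0 (Ls.cons u0 Ls.nil)))))
 (Ls.cons (Ls.cons u0 (Ls.cons u0 (Ls.cons u0 (Ls.cons u0 Ls.nil))))
 (Ls.cons (Ls.cons u0 (Ls.cons u0 (Ls.cons u0 Ls.nil)))
 (Ls.cons (Ls.cons u0 Ls.nil)
 (Ls.cons Ls.nil
 (Ls.cons Ls.nil
 (Ls.cons Ls.nil
 (Ls.cons Ls.nil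
 Ls.nil))))))))))))))))))))

noncomputable def slF2_12 : Ls (Ls Sv) :=
 (Ls.cons Ls.nil
 (Ls.cons Ls.nil
 (Ls.cons Ls.nil
 (Ls.cons Ls.nil
 (Ls.cons Ls.nil
 (Ls.cons Ls.nil
 (Ls.cons Ls.nil
 (Ls.cons Ls.nil
 (Ls.cons Ls.nil
 (Ls.cons Ls.nil
 (Ls.cons Ls.nil
 (Ls.cons Ls.nil
 (Ls.cons Ls.nil
 (Ls.cons (Ls.cons u0 (Ls.cons u0 (Ls.cons u0 (Ls.cons u0 Ls.nil))))
 (Ls.cons (Ls.cons u0 (Ls.cons u0 Ls.nil))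
 (Ls.cons (Ls.cons u0 Ls.nil)
 (Ls.cons Ls.nil
 (Ls.cons Ls.nil
 (Ls.cons Ls.nil
 (Ls.cons Ls.nil
 Ls.nil))))))))))))))))))))

noncomputable def slF2_13 : Ls (Ls Sv) :=
 (Ls.cons Ls.nil
 (Ls.cons Ls.nil
 (Ls.cons Ls.nil
 (Ls.cons Ls.nil
 (Ls.cons Ls.nil
 (Ls.cons Ls.nil
 (Ls.cons Ls.nil
 (Ls.cons Ls.nil
 (Ls.cons Ls.nil
 (Ls.cons Ls.nil
 (Ls.cons Ls.nil
 (Ls.cons Ls.nil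
 (Ls.cons Ls.nil
 (Ls.cons Ls.nil
 (Ls.cons (Ls.cons u0 (Ls.cons u0 Ls.nil))
 (Ls.cons (Ls.cons u0 Ls.nil)
 (Ls.cons Ls.nil
 (Ls.cons Ls.nil
 (Ls.cons Ls.nil
 (Ls.cons Ls.nil
 Ls.nil))))))))))))))))))))

noncomputable def slF2_14 : Ls (Ls Sv) :=
 (Ls.cons Ls.nil
 (Ls.cons Ls.nil
 (Ls.cons Ls.nil
 (Ls.cons Ls.nil
 (Ls.cons Ls.nil
 (Ls.cons Ls.nil
 (Ls.cons Ls.nil
 (Ls.cons Ls.nil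
 (Ls.cons Ls.nil
 (Ls.cons Ls.nil
 (Ls.cons Ls.nil
 (Ls.cons Ls.nil
 (Ls.cons Ls.nil
 (Ls.cons Ls.nil
 (Ls.cons Ls.nil
 (Ls.cons (Ls.cons u0 Ls.nil)
 (Ls.cons Ls.nil
 (Ls.cons Ls.nil
 (Ls.cons Ls.nil
 (Ls.cons Ls.nil
 Ls.nil))))))))))))))))))))

noncomputable def srcF2 : Ls (Ls (Ls Sv)) := (Ls.cons slF2_0 (Ls.cons slF2_1 (Ls.cons slF2_2 (Ls.cons slF2_3 (Ls.cons slF2_4 (Ls.cons slF2_5 (Ls.cons slF2_6 (Ls.cons slF2_7 (Ls.cons slF2_8 (Ls.cons slF2_9 (Ls.cons slF2_10 (Ls.cons slF2_11 (Ls.cons slF2_12 (Ls.cons slF2_13 (Ls.cons slF2_14 Ls.nil)))))))))))))))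

end Vale.Agent.P181.K
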