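import Vale.Agent.P181.Six.K3

set_option maxRecDepth 100000
set_option maxHeartbeats 0

namespace Vale.Agent.P181.K

noncomputable def sF3_2_1_0 : Sv := ut
 (T.a (nat_lit 2) (nat_lit 4050) (T.a (nat_lit 4) (nat_lit 8100) (T.a (nat_lit 8) (nat_lit 16200) (T.l (nat_lit 0x10000000000000000000000016000000000001400000000001100000000001540000000001110000000000000000000001111)))))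

noncomputable def slF3_0 : Ls (Ls Sv) :=
 (Ls.cons Ls.nil
 (Ls.cons (Ls.cons sF3_2_1_0 (Ls.cons u0 (Ls.cons u0 (Ls.cons u0 (Ls.cons u0 (Ls.cons u0 (Ls.cons u0 (Ls.cons u0 (Ls.cons u0 (Ls.cons u0 (Ls.cons u0 (Ls.cons u0 (Ls.cons u0 (Ls.cons u0 (Ls.cons u0 (Ls.cons u0 (Ls.cons u0 (Ls.cons u0 (Ls.cons u0 (Ls.cons u0 (Ls.cons u0 (Ls.cons u0 (Ls.cons u0 Ls.nil)))))))))))))))))))))))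
 (Ls.cons (Ls.cons u0 (Ls.cons u0 (Ls.cons u0 (Ls.cons u0 (Ls.cons u0 (Ls.cons u0 (Ls.cons u0 (Ls.cons u0 (Ls.cons u0 (Ls.cons u0 (Ls.cons u0 (Ls.cons u0 (Ls.cons u0 (Ls.cons u0 (Ls.cons u0 (Ls.cons u0 (Ls.cons u0 (Ls.cons u0 (Ls.cons u0 (Ls.cons u0 (Ls.cons u0 (Ls.cons u0 Ls.nil))))))))))))))))))))))
 (Ls.cons (Ls.cons u0 (Ls.cons u0 (Ls.cons u0 (Ls.cons u0 (Ls.cons u0 (Ls.cons u0 (Ls.cons u0 (Ls.cons u0 (Ls.cons u0 (Ls.cons u0 (Ls.cons u0 (Ls.cons u0 (Ls.cons u0 (Ls.cons u0 (Ls.cons u0 (Ls.cons u0 (Ls.cons u0 (Ls.cons u0 (Ls.cons u0 (Ls.cons u0 (Ls.cons u0 Ls.nil)))))))))))))))))))))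
 (Ls.cons (Ls.cons u0 (Ls.cons u0 (Ls.cons u0 (Ls.cons u0 (Ls.cons u0 (Ls.cons u0 (Ls.cons u0 (Ls.cons u0 (Ls.cons u0 (Ls.cons u0 (Ls.cons u0 (Ls.cons u0 (Ls.cons u0 (Ls.cons u0 (Ls.cons u0 (Ls.cons u0 (Ls.cons u0 (Ls.cons u0 (Ls.cons u0 Ls.nil)))))))))))))))))))
 (Ls.cons (Ls.cons u0 (Ls.cons u0 (Ls.cons u0 (Ls.cons u0 (Ls.cons u0 (Ls.cons u0 (Ls.cons u0 (Ls.cons u0 (Ls.cons u0 (Ls.cons u0 (Ls.cons u0 (Ls.cons u0 (Ls.cons u0 (Ls.cons u0 (Ls.cons u0 (Ls.cons u0 (Ls.cons u0 (Ls.cons u0 Ls.nil))))))))))))))))))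
 (Ls.cons (Ls.cons u0 (Ls.cons u0 (Ls.cons u0 (Ls.cons u0 (Ls.cons u0 (Ls.cons u0 (Ls.cons u0 (Ls.cons u0 (Ls.cons u0 (Ls.cons u0 (Ls.cons u0 (Ls.cons u0 (Ls.cons u0 (Ls.cons u0 (Ls.cons u0 (Ls.cons u0 Ls.nil))))))))))))))))
 (Ls.cons (Ls.cons u0 (Ls.cons u0 (Ls.cons u0 (Ls.cons u0 (Ls.cons u0 (Ls.cons u0 (Ls.cons u0 (Ls.cons u0 (Ls.cons u0 (Ls.cons u0 (Ls.cons u0 (Ls.cons u0 (Ls.cons u0 (Ls.cons u0 (Ls.cons u0 Ls.nil)))))))))))))))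
 (Ls.cons (Ls.cons u0 (Ls.cons u0 (Ls.cons u0 (Ls.cons u0 (Ls.cons u0 (Ls.cons u0 (Ls.cons u0 (Ls.cons u0 (Ls.cons u0 (Ls.cons u0 (Ls.cons u0 (Ls.cons u0 (Ls.cons u0 (Ls.cons u0 Ls.nil))))))))))))))
 (Ls.cons (Ls.cons u0 (Ls.cons u0 (Ls.cons u0 (Ls.cons u0 (Ls.cons u0 (Ls.cons u0 (Ls.cons u0 (Ls.cons u0 (Ls.cons u0 (Ls.cons u0 (Ls.cons u0 (Ls.cons u0 (Ls.cons u0 Ls.nil)))))))))))))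
 (Ls.cons (Ls.cons u0 (Ls.cons u0 (Ls.cons u0 (Ls.cons u0 (Ls.cons u0 (Ls.cons u0 (Ls.cons u0 (Ls.cons u0 (Ls.cons u0 (Ls.cons u0 (Ls.cons u0 (Ls.cons u0 Ls.nil))))))))))))
 (Ls.cons (Ls.cons u0 (Ls.cons u0 (Ls.cons u0 (Ls.cons u0 (Ls.cons u0 (Ls.cons u0 (Ls.cons u0 (Ls.cons u0 (Ls.cons u0 (Ls.cons u0 (Ls.cons u0 Ls.nil)))))))))))
 (Ls.cons (Ls.cons u0 (Ls.cons u0 (Ls.cons u0 (Ls.cons u0 (Ls.cons u0 (Ls.cons u0 (Ls.cons u0 (Ls.cons u0 (Ls.cons u0 Ls.nil)))))))))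
 (Ls.cons (Ls.cons u0 (Ls.cons u0 (Ls.cons u0 (Ls.cons u0 (Ls.cons u0 (Ls.cons u0 (Ls.cons u0 (Ls.cons u0 Ls.nil))))))))
 (Ls.cons (Ls.cons u0 (Ls.cons u0 (Ls.cons u0 (Ls.cons u0 (Ls.cons u0 (Ls.cons u0 (Ls.cons u0 Ls.nil)))))))
 (Ls.cons (Ls.cons u0 (Ls.cons u0 (Ls.cons u0 (Ls.cons u0 (Ls.cons u0 (Ls.cons u0 Ls.nil))))))
 (Ls.cons (Ls.cons u0 (Ls.cons u0 (Ls.cons u0 (Ls.cons u0 Ls.nil))))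
 (Ls.cons (Ls.cons u0 (Ls.cons u0 (Ls.cons u0 Ls.nil)))
 (Ls.cons (Ls.cons u0 (Ls.cons u0 Ls.nil))
 (Ls.cons (Ls.cons u0 Ls.nil)
 Ls.nil))))))))))))))))))))

noncomputable def slF3_1 : Ls (Ls Sv) :=
 (Ls.cons Ls.nil
 (Ls.cons Ls.nil
 (Ls.cons (Ls.cons u0 (Ls.cons u0 (Ls.cons u0 (Ls.cons u0 (Ls.cons u0 (Ls.cons u0 (Ls.cons u0 (Ls.cons u0 (Ls.cons u0 (Ls.cons u0 (Ls.cons u0 (Ls.cons u0 (Ls.cons u0 (Ls.cons u0 (Ls.cons u0 (Ls.cons u0 (Ls.cons u0 (Ls.cons u0 (Ls.cons u0 (Ls.cons u0 (Ls.cons u0 (Ls.cons u0 Ls.nil))))))))))))))))))))))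
 (Ls.cons (Ls.cons u0 (Ls.cons u0 (Ls.cons u0 (Ls.cons u0 (Ls.cons u0 (Ls.cons u0 (Ls.cons u0 (Ls.cons u0 (Ls.cons u0 (Ls.cons u0 (Ls.cons u0 (Ls.cons u0 (Ls.cons u0 (Ls.cons u0 (Ls.cons u0 (Ls.cons u0 (Ls.cons u0 (Ls.cons u0 (Ls.cons u0 (Ls.cons u0 Ls.nil))))))))))))))))))))
 (Ls.cons (Ls.cons u0 (Ls.cons u0 (Ls.cons u0 (Ls.cons u0 (Ls.cons u0 (Ls.cons u0 (Ls.cons u0 (Ls.cons u0 (Ls.cons u0 (Ls.cons u0 (Ls.cons u0 (Ls.cons u0 (Ls.cons u0 (Ls.cons u0 (Ls.cons u0 (Ls.cons u0 (Ls.cons u0 (Ls.cons u0 (Ls.cons u0 Ls.nil)))))))))))))))))))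
 (Ls.cons (Ls.cons u0 (Ls.cons u0 (Ls.cons u0 (Ls.cons u0 (Ls.cons u0 (Ls.cons u0 (Ls.cons u0 (Ls.cons u0 (Ls.cons u0 (Ls.cons u0 (Ls.cons u0 (Ls.cons u0 (Ls.cons u0 (Ls.cons u0 (Ls.cons u0 (Ls.cons u0 Ls.nil))))))))))))))))
 (Ls.cons (Ls.cons u0 (Ls.cons u0 (Ls.cons u0 (Ls.cons u0 (Ls.cons u0 (Ls.cons u0 (Ls.cons u0 (Ls.cons u0 (Ls.cons u0 (Ls.cons u0 (Ls.cons u0 (Ls.cons u0 (Ls.cons u0 (Ls.cons u0 (Ls.cons u0 Ls.nil)))))))))))))))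
 (Ls.cons (Ls.cons u0 (Ls.cons u0 (Ls.cons u0 (Ls.cons u0 (Ls.cons u0 (Ls.cons u0 (Ls.cons u0 (Ls.cons u0 (Ls.cons u0 (Ls.cons u0 (Ls.cons u0 (Ls.cons u0 (Ls.cons u0 (Ls.cons u0 Ls.nil))))))))))))))
 (Ls.cons (Ls.cons u0 (Ls.cons u0 (Ls.cons u0 (Ls.cons u0 (Ls.cons u0 (Ls.cons u0 (Ls.cons u0 (Ls.cons u0 (Ls.cons u0 (Ls.cons u0 (Ls.cons u0 (Ls.cons u0 (Ls.cons u0 Ls.nil)))))))))))))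
 (Ls.cons (Ls.cons u0 (Ls.cons u0 (Ls.cons u0 (Ls.cons u0 (Ls.cons u0 (Ls.cons u0 (Ls.cons u0 (Ls.cons u0 (Ls.cons u0 (Ls.cons u0 (Ls.cons u0 Ls.nil)))))))))))
 (Ls.cons (Ls.cons u0 (Ls.cons u0 (Ls.cons u0 (Ls.cons u0 (Ls.cons u0 (Ls.cons u0 (Ls.cons u0 (Ls.cons u0 (Ls.cons u0 (Ls.cons u0 Ls.nil))))))))))
 (Ls.cons (Ls.cons u0 (Ls.cons u0 (Ls.cons u0 (Ls.cons u0 (Ls.cons u0 (Ls.cons u0 (Ls.cons u0 (Ls.cons u0 (Ls.cons u0 Ls.nil)))))))))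
 (Ls.cons (Ls.cons u0 (Ls.cons u0 (Ls.cons u0 (Ls.cons u0 (Ls.cons u0 (Ls.cons u0 (Ls.cons u0 (Ls.cons u0 Ls.nil))))))))
 (Ls.cons (Ls.cons u0 (Ls.cons u0 (Ls.cons u0 (Ls.cons u0 (Ls.cons u0 (Ls.cons u0 Ls.nil))))))
 (Ls.cons (Ls.cons u0 (Ls.cons u0 (Ls.cons u0 (Ls.cons u0 (Ls.cons u0 Ls.nil)))))
 (Ls.cons (Ls.cons u0 (Ls.cons u0 (Ls.cons u0 (Ls.cons u0 Ls.nil))))
 (Ls.cons (Ls.cons u0 (Ls.cons u0 (Ls.cons u0 Ls.nil)))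
 (Ls.cons (Ls.cons u0 Ls.nil)
 (Ls.cons Ls.nil
 (Ls.cons Ls.nil
 Ls.nil))))))))))))))))))))

noncomputable def slF3_2 : Ls (Ls Sv) :=
 (Ls.cons Ls.nil
 (Ls.cons Ls.nil
 (Ls.cons Ls.nil
 (Ls.cons (Ls.cons u0 (Ls.cons u0 (Ls.cons u0 (Ls.cons u0 (Ls.cons u0 (Ls.cons u0 (Ls.cons u0 (Ls.cons u0 (Ls.cons u0 (Ls.cons u0 (Ls.cons u0 (Ls.cons u0 (Ls.cons u0 (Ls.cons u0 (Ls.cons u0 (Ls.cons u0 (Ls.cons u0 (Ls.cons u0 (Ls.cons u0 Ls.nil)))))))))))))))))))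
 (Ls.cons (Ls.cons u0 (Ls.cons u0 (Ls.cons u0 (Ls.cons u0 (Ls.cons u0 (Ls.cons u0 (Ls.cons u0 (Ls.cons u0 (Ls.cons u0 (Ls.cons u0 (Ls.cons u0 (Ls.cons u0 (Ls.cons u0 (Ls.cons u0 (Ls.cons u0 (Ls.cons u0 (Ls.cons u0 Ls.nil)))))))))))))))))
 (Ls.cons (Ls.cons u0 (Ls.cons u0 (Ls.cons u0 (Ls.cons u0 (Ls.cons u0 (Ls.cons u0 (Ls.cons u0 (Ls.cons u0 (Ls.cons u0 (Ls.cons u0 (Ls.cons u0 (Ls.cons u0 (Ls.cons u0 (Ls.cons u0 (Ls.cons u0 (Ls.cons u0 Ls.nil))))))))))))))))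
 (Ls.cons (Ls.cons u0 (Ls.cons u0 (Ls.cons u0 (Ls.cons u0 (Ls.cons u0 (Ls.cons u0 (Ls.cons u0 (Ls.cons u0 (Ls.cons u0 (Ls.cons u0 (Ls.cons u0 (Ls.cons u0 (Ls.cons u0 (Ls.cons u0 (Ls.cons u0 Ls.nil)))))))))))))))
 (Ls.cons (Ls.cons u0 (Ls.cons u0 (Ls.cons u0 (Ls.cons u0 (Ls.cons u0 (Ls.cons u0 (Ls.cons u0 (Ls.cons u0 (Ls.cons u0 (Ls.cons u0 (Ls.cons u0 (Ls.cons u0 (Ls.cons u0 (Ls.cons u0 Ls.nil))))))))))))))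
 (Ls.cons (Ls.cons u0 (Ls.cons u0 (Ls.cons u0 (Ls.cons u0 (Ls.cons u0 (Ls.cons u0 (Ls.cons u0 (Ls.cons u0 (Ls.cons u0 (Ls.cons u0 (Ls.cons u0 (Ls.cons u0 Ls.nil))))))))))))
 (Ls.cons (Ls.cons u0 (Ls.cons u0 (Ls.cons u0 (Ls.cons u0 (Ls.cons u0 (Ls.cons u0 (Ls.cons u0 (Ls.cons u0 (Ls.cons u0 (Ls.cons u0 (Ls.cons u0 Ls.nil)))))))))))
 (Ls.cons (Ls.cons u0 (Ls.cons u0 (Ls.cons u0 (Ls.cons u0 (Ls.cons u0 (Ls.cons u0 (Ls.cons u0 (Ls.cons u0 (Ls.cons u0 (Ls.cons u0 Ls.nil))))))))))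
 (Ls.cons (Ls.cons u0 (Ls.cons u0 (Ls.cons u0 (Ls.cons u0 (Ls.cons u0 (Ls.cons u0 (Ls.cons u0 (Ls.cons u0 (Ls.cons u0 Ls.nil)))))))))
 (Ls.cons (Ls.cons u0 (Ls.cons u0 (Ls.cons u0 (Ls.cons u0 (Ls.cons u0 (Ls.cons u0 (Ls.cons u0 Ls.nil)))))))
 (Ls.cons (Ls.cons u0 (Ls.cons u0 (Ls.cons u0 (Ls.cons u0 (Ls.cons u0 (Ls.cons u0 Ls.nil))))))
 (Ls.cons (Ls.cons u0 (Ls.cons u0 (Ls.cons u0 (Ls.cons u0 (Ls.cons u0 Ls.nil)))))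
 (Ls.cons (Ls.cons u0 (Ls.cons u0 (Ls.cons u0 (Ls.cons u0 Ls.nil))))
 (Ls.cons (Ls.cons u0 (Ls.cons u0 Ls.nil))
 (Ls.cons (Ls.cons u0 Ls.nil)
 (Ls.cons Ls.nil
 (Ls.cons Ls.nil
 Ls.nil))))))))))))))))))))

noncomputable def slF3_3 : Ls (Ls Sv) :=
 (Ls.cons Ls.nil
 (Ls.cons Ls.nil
 (Ls.cons Ls.nil
 (Ls.cons Ls.nil
 (Ls.cons (Ls.cons u0 (Ls.cons u0 (Ls.cons u0 (Ls.cons u0 (Ls.cons u0 (Ls.cons u0 (Ls.cons u0 (Ls.cons u0 (Ls.cons u0 (Ls.cons u0 (Ls.cons u0 (Ls.cons u0 (Ls.cons u0 (Ls.cons u0 (Ls.cons u0 (Ls.cons u0 (Ls.cons u0 Ls.nil)))))))))))))))))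
 (Ls.cons (Ls.cons u0 (Ls.cons u0 (Ls.cons u0 (Ls.cons u0 (Ls.cons u0 (Ls.cons u0 (Ls.cons u0 (Ls.cons u0 (Ls.cons u0 (Ls.cons u0 (Ls.cons u0 (Ls.cons u0 (Ls.cons u0 (Ls.cons u0 (Ls.cons u0 (Ls.cons u0 Ls.nil))))))))))))))))
 (Ls.cons (Ls.cons u0 (Ls.cons u0 (Ls.cons u0 (Ls.cons u0 (Ls.cons u0 (Ls.cons u0 (Ls.cons u0 (Ls.cons u0 (Ls.cons u0 (Ls.cons u0 (Ls.cons u0 (Ls.cons u0 (Ls.cons u0 (Ls.cons u0 (Ls.cons u0 Ls.nil)))))))))))))))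
 (Ls.cons (Ls.cons u0 (Ls.cons u0 (Ls.cons u0 (Ls.cons u0 (Ls.cons u0 (Ls.cons u0 (Ls.cons u0 (Ls.cons u0 (Ls.cons u0 (Ls.cons u0 (Ls.cons u0 (Ls.cons u0 (Ls.cons u0 Ls.nil)))))))))))))
 (Ls.cons (Ls.cons u0 (Ls.cons u0 (Ls.cons u0 (Ls.cons u0 (Ls.cons u0 (Ls.cons u0 (Ls.cons u0 (Ls.cons u0 (Ls.cons u0 (Ls.cons u0 (Ls.cons u0 (Ls.cons u0 Ls.nil))))))))))))
 (Ls.cons (Ls.cons u0 (Ls.cons u0 (Ls.cons u0 (Ls.cons u0 (Ls.cons u0 (Ls.cons u0 (Ls.cons u0 (Ls.cons u0 (Ls.cons u0 (Ls.cons u0 (Ls.cons u0 Ls.nil)))))))))))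
 (Ls.cons (Ls.cons u0 (Ls.cons u0 (Ls.cons u0 (Ls.cons u0 (Ls.cons u0 (Ls.cons u0 (Ls.cons u0 (Ls.cons u0 (Ls.cons u0 (Ls.cons u0 Ls.nil))))))))))
 (Ls.cons (Ls.cons u0 (Ls.cons u0 (Ls.cons u0 (Ls.cons u0 (Ls.cons u0 (Ls.cons u0 (Ls.cons u0 (Ls.cons u0 Ls.nil))))))))
 (Ls.cons (Ls.cons u0 (Ls.cons u0 (Ls.cons u0 (Ls.cons u0 (Ls.cons u0 (Ls.cons u0 (Ls.cons u0 Ls.nil)))))))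
 (Ls.cons (Ls.cons u0 (Ls.cons u0 (Ls.cons u0 (Ls.cons u0 (Ls.cons u0 (Ls.cons u0 Ls.nil))))))
 (Ls.cons (Ls.cons u0 (Ls.cons u0 (Ls.cons u0 (Ls.cons u0 (Ls.cons u0 Ls.nil)))))
 (Ls.cons (Ls.cons u0 (Ls.cons u0 (Ls.cons u0 Ls.nil)))
 (Ls.cons (Ls.cons u0 (Ls.cons u0 Ls.nil))
 (Ls.cons (Ls.cons u0 Ls.nil)
 (Ls.cons Ls.nil
 (Ls.cons Ls.nil
 Ls.nil))))))))))))))))))))

noncomputable def slF3_4 : Ls (Ls Sv) :=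
 (Ls.cons Ls.nil
 (Ls.cons Ls.nil
 (Ls.cons Ls.nil
 (Ls.cons Ls.nil
 (Ls.cons Ls.nil
 (Ls.cons (Ls.cons u0 (Ls.cons u0 (Ls.cons u0 (Ls.cons u0 (Ls.cons u0 (Ls.cons u0 (Ls.cons u0 (Ls.cons u0 (Ls.cons u0 (Ls.cons u0 (Ls.cons u0 (Ls.cons u0 (Ls.cons u0 (Ls.cons u0 (Ls.cons u0 (Ls.cons u0 Ls.nil))))))))))))))))
 (Ls.cons (Ls.cons u0 (Ls.cons u0 (Ls.cons u0 (Ls.cons u0 (Ls.cons u0 (Ls.cons u0 (Ls.cons u0 (Ls.cons u0 (Ls.cons u0 (Ls.cons u0 (Ls.cons u0 (Ls.cons u0 (Ls.cons u0 (Ls.cons u0 Ls.nil))))))))))))))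
 (Ls.cons (Ls.cons u0 (Ls.cons u0 (Ls.cons u0 (Ls.cons u0 (Ls.cons u0 (Ls.cons u0 (Ls.cons u0 (Ls.cons u0 (Ls.cons u0 (Ls.cons u0 (Ls.cons u0 (Ls.cons u0 (Ls.cons u0 Ls.nil)))))))))))))
 (Ls.cons (Ls.cons u0 (Ls.cons u0 (Ls.cons u0 (Ls.cons u0 (Ls.cons u0 (Ls.cons u0 (Ls.cons u0 (Ls.cons u0 (Ls.cons u0 (Ls.cons u0 (Ls.cons u0 (Ls.cons u0 Ls.nil))))))))))))
 (Ls.cons (Ls.cons u0 (Ls.cons u0 (Ls.cons u0 (Ls.cons u0 (Ls.cons u0 (Ls.cons u0 (Ls.cons u0 (Ls.cons u0 (Ls.cons u0 (Ls.cons u0 (Ls.cons u0 Ls.nil)))))))))))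
 (Ls.cons (Ls.cons u0 (Ls.cons u0 (Ls.cons u0 (Ls.cons u0 (Ls.cons u0 (Ls.cons u0 (Ls.cons u0 (Ls.cons u0 (Ls.cons u0 Ls.nil)))))))))
 (Ls.cons (Ls.cons u0 (Ls.cons u0 (Ls.cons u0 (Ls.cons u0 (Ls.cons u0 (Ls.cons u0 (Ls.cons u0 (Ls.cons u0 Ls.nil))))))))
 (Ls.cons (Ls.cons u0 (Ls.cons u0 (Ls.cons u0 (Ls.cons u0 (Ls.cons u0 (Ls.cons u0 (Ls.cons u0 Ls.nil)))))))
 (Ls.cons (Ls.cons u0 (Ls.cons u0 (Ls.cons u0 (Ls.cons u0 (Ls.cons u0 (Ls.cons u0 Ls.nil))))))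
 (Ls.cons (Ls.cons u0 (Ls.cons u0 (Ls.cons u0 (Ls.cons u0 Ls.nil))))
 (Ls.cons (Ls.cons u0 (Ls.cons u0 (Ls.cons u0 Ls.nil)))
 (Ls.cons (Ls.cons u0 (Ls.cons u0 Ls.nil))
 (Ls.cons (Ls.cons u0 Ls.nil)
 (Ls.cons Ls.nil
 (Ls.cons Ls.nil
 Ls.nil))))))))))))))))))))

noncomputable def slF3_5 : Ls (Ls Sv) :=
 (Ls.cons Ls.nil
 (Ls.cons Ls.nil
 (Ls.cons Ls.nil
 (Ls.cons Ls.nil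
 (Ls.cons Ls.nil
 (Ls.cons Ls.nil
 (Ls.cons (Ls.cons u0 (Ls.cons u0 (Ls.cons u0 (Ls.cons u0 (Ls.cons u0 (Ls.cons u0 (Ls.cons u0 (Ls.cons u0 (Ls.cons u0 (Ls.cons u0 (Ls.cons u0 (Ls.cons u0 (Ls.cons u0 (Ls.cons u0 Ls.nil))))))))))))))
 (Ls.cons (Ls.cons u0 (Ls.cons u0 (Ls.cons u0 (Ls.cons u0 (Ls.cons u0 (Ls.cons u0 (Ls.cons u0 (Ls.cons u0 (Ls.cons u0 (Ls.cons u0 (Ls.cons u0 (Ls.cons u0 (Ls.cons u0 Ls.nil)))))))))))))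
 (Ls.cons (Ls.cons u0 (Ls.cons u0 (Ls.cons u0 (Ls.cons u0 (Ls.cons u0 (Ls.cons u0 (Ls.cons u0 (Ls.cons u0 (Ls.cons u0 (Ls.cons u0 (Ls.cons u0 (Ls.cons u0 Ls.nil))))))))))))
 (Ls.cons (Ls.cons u0 (Ls.cons u0 (Ls.cons u0 (Ls.cons u0 (Ls.cons u0 (Ls.cons u0 (Ls.cons u0 (Ls.cons u0 (Ls.cons u0 (Ls.cons u0 Ls.nil))))))))))
 (Ls.cons (Ls.cons u0 (Ls.cons u0 (Ls.cons u0 (Ls.cons u0 (Ls.cons u0 (Ls.cons u0 (Ls.cons u0 (Ls.cons u0 (Ls.cons u0 Ls.nil)))))))))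
 (Ls.cons (Ls.cons u0 (Ls.cons u0 (Ls.cons u0 (Ls.cons u0 (Ls.cons u0 (Ls.cons u0 (Ls.cons u0 (Ls.cons u0 Ls.nil))))))))
 (Ls.cons (Ls.cons u0 (Ls.cons u0 (Ls.cons u0 (Ls.cons u0 (Ls.cons u0 (Ls.cons u0 (Ls.cons u0 Ls.nil)))))))
 (Ls.cons (Ls.cons u0 (Ls.cons u0 (Ls.cons u0 (Ls.cons u0 (Ls.cons u0 Ls.nil)))))
 (Ls.cons (Ls.cons u0 (Ls.cons u0 (Ls.cons u0 (Ls.cons u0 Ls.nil))))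
 (Ls.cons (Ls.cons u0 (Ls.cons u0 (Ls.cons u0 Ls.nil)))
 (Ls.cons (Ls.cons u0 (Ls.cons u0 Ls.nil))
 (Ls.cons Ls.nil
 (Ls.cons Ls.nil
 (Ls.cons Ls.nil
 Ls.nil))))))))))))))))))))

noncomputable def slF3_6 : Ls (Ls Sv) :=
 (Ls.cons Ls.nil
 (Ls.cons Ls.nil
 (Ls.cons Ls.nil
 (Ls.cons Ls.nil
 (Ls.cons Ls.nil
 (Ls.cons Ls.nil
 (Ls.cons Ls.nil
 (Ls.cons (Ls.cons u0 (Ls.cons u0 (Ls.cons u0 (Ls.cons u0 (Ls.cons u0 (Ls.cons u0 (Ls.cons u0 (Ls.cons u0 (Ls.cons u0 (Ls.cons u0 (Ls.cons u0 (Ls.cons u0 (Ls.cons u0 Ls.nil)))))))))))))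
 (Ls.cons (Ls.cons u0 (Ls.cons u0 (Ls.cons u0 (Ls.cons u0 (Ls.cons u0 (Ls.cons u0 (Ls.cons u0 (Ls.cons u0 (Ls.cons u0 (Ls.cons u0 (Ls.cons u0 Ls.nil)))))))))))
 (Ls.cons (Ls.cons u0 (Ls.cons u0 (Ls.cons u0 (Ls.cons u0 (Ls.cons u0 (Ls.cons u0 (Ls.cons u0 (Ls.cons u0 (Ls.cons u0 (Ls.cons u0 Ls.nil))))))))))
 (Ls.cons (Ls.cons u0 (Ls.cons u0 (Ls.cons u0 (Ls.cons u0 (Ls.cons u0 (Ls.cons u0 (Ls.cons u0 (Ls.cons u0 (Ls.cons u0 Ls.nil)))))))))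
 (Ls.cons (Ls.cons u0 (Ls.cons u0 (Ls.cons u0 (Ls.cons u0 (Ls.cons u0 (Ls.cons u0 (Ls.cons u0 (Ls.cons u0 Ls.nil))))))))
 (Ls.cons (Ls.cons u0 (Ls.cons u0 (Ls.cons u0 (Ls.cons u0 (Ls.cons u0 (Ls.cons u0 Ls.nil))))))
 (Ls.cons (Ls.cons u0 (Ls.cons u0 (Ls.cons u0 (Ls.cons u0 (Ls.cons u0 Ls.nil)))))
 (Ls.cons (Ls.cons u0 (Ls.cons u0 (Ls.cons u0 (Ls.cons u0 Ls.nil))))
 (Ls.cons (Ls.cons u0 (Ls.cons u0 (Ls.cons u0 Ls.nil)))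
 (Ls.cons (Ls.cons u0 Ls.nil)
 (Ls.cons Ls.nil
 (Ls.cons Ls.nil
 (Ls.cons Ls.nil
 Ls.nil))))))))))))))))))))

noncomputable def slF3_7 : Ls (Ls Sv) :=
 (Ls.cons Ls.nil
 (Ls.cons Ls.nil
 (Ls.cons Ls.nil
 (Ls.cons Ls.nil
 (Ls.cons Ls.nil
 (Ls.cons Ls.nil
 (Ls.cons Ls.nil
 (Ls.cons Ls.nil
 (Ls.cons (Ls.cons u0 (Ls.cons u0 (Ls.cons u0 (Ls.cons u0 (Ls.cons u0 (Ls.cons u0 (Ls.cons u0 (Ls.cons u0 (Ls.cons u0 (Ls.cons u0 (Ls.cons u0 Ls.nil)))))))))))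
 (Ls.cons (Ls.cons u0 (Ls.cons u0 (Ls.cons u0 (Ls.cons u0 (Ls.cons u0 (Ls.cons u0 (Ls.cons u0 (Ls.cons u0 (Ls.cons u0 (Ls.cons u0 Ls.nil))))))))))
 (Ls.cons (Ls.cons u0 (Ls.cons u0 (Ls.cons u0 (Ls.cons u0 (Ls.cons u0 (Ls.cons u0 (Ls.cons u0 (Ls.cons u0 (Ls.cons u0 Ls.nil)))))))))
 (Ls.cons (Ls.cons u0 (Ls.cons u0 (Ls.cons u0 (Ls.cons u0 (Ls.cons u0 (Ls.cons u0 (Ls.cons u0 Ls.nil)))))))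
 (Ls.cons (Ls.cons u0 (Ls.cons u0 (Ls.cons u0 (Ls.cons u0 (Ls.cons u0 (Ls.cons u0 Ls.nil))))))
 (Ls.cons (Ls.cons u0 (Ls.cons u0 (Ls.cons u0 (Ls.cons u0 (Ls.cons u0 Ls.nil)))))
 (Ls.cons (Ls.cons u0 (Ls.cons u0 (Ls.cons u0 (Ls.cons u0 Ls.nil))))
 (Ls.cons (Ls.cons u0 (Ls.cons u0 Ls.nil))
 (Ls.cons (Ls.cons u0 Ls.nil)
 (Ls.cons Ls.nil
 (Ls.cons Ls.nil
 (Ls.cons Ls.nil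
 Ls.nil))))))))))))))))))))

noncomputable def slF3_8 : Ls (Ls Sv) :=
 (Ls.cons Ls.nil
 (Ls.cons Ls.nil
 (Ls.cons Ls.nil
 (Ls.cons Ls.nil
 (Ls.cons Ls.nil
 (Ls.cons Ls.nil
 (Ls.cons Ls.nil
 (Ls.cons Ls.nil
 (Ls.cons Ls.nil
 (Ls.cons (Ls.cons u0 (Ls.cons u0 (Ls.cons u0 (Ls.cons u0 (Ls.cons u0 (Ls.cons u0 (Ls.cons u0 (Ls.cons u0 (Ls.cons u0 (Ls.cons u0 Ls.nil))))))))))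
 (Ls.cons (Ls.cons u0 (Ls.cons u0 (Ls.cons u0 (Ls.cons u0 (Ls.cons u0 (Ls.cons u0 (Ls.cons u0 (Ls.cons u0 Ls.nil))))))))
 (Ls.cons (Ls.cons u0 (Ls.cons u0 (Ls.cons u0 (Ls.cons u0 (Ls.cons u0 (Ls.cons u0 (Ls.cons u0 Ls.nil)))))))
 (Ls.cons (Ls.cons u0 (Ls.cons u0 (Ls.cons u0 (Ls.cons u0 (Ls.cons u0 (Ls.cons u0 Ls.nil))))))
 (Ls.cons (Ls.cons u0 (Ls.cons u0 (Ls.cons u0 (Ls.cons u0 (Ls.cons u0 Ls.nil)))))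
 (Ls.cons (Ls.cons u0 (Ls.cons u0 (Ls.cons u0 Ls.nil)))
 (Ls.cons (Ls.cons u0 (Ls.cons u0 Ls.nil))
 (Ls.cons (Ls.cons u0 Ls.nil)
 (Ls.cons Ls.nil
 (Ls.cons Ls.nil
 (Ls.cons Ls.nil
 Ls.nil))))))))))))))))))))

noncomputable def slF3_9 : Ls (Ls Sv) :=
 (Ls.cons Ls.nil
 (Ls.cons Ls.nil
 (Ls.cons Ls.nil
 (Ls.cons Ls.nil
 (Ls.cons Ls.nil
 (Ls.cons Ls.nil
 (Ls.cons Ls.nil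
 (Ls.cons Ls.nil
 (Ls.cons Ls.nil
 (Ls.cons Ls.nil
 (Ls.cons (Ls.cons u0 (Ls.cons u0 (Ls.cons u0 (Ls.cons u0 (Ls.cons u0 (Ls.cons u0 (Ls.cons u0 (Ls.cons u0 Ls.nil))))))))
 (Ls.cons (Ls.cons u0 (Ls.cons u0 (Ls.cons u0 (Ls.cons u0 (Ls.cons u0 (Ls.cons u0 (Ls.cons u0 Ls.nil)))))))
 (Ls.cons (Ls.cons u0 (Ls.cons u0 (Ls.cons u0 (Ls.cons u0 (Ls.cons u0 (Ls.cons u0 Ls.nil))))))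
 (Ls.cons (Ls.cons u0 (Ls.cons u0 (Ls.cons u0 (Ls.cons u0 Ls.nil))))
 (Ls.cons (Ls.cons u0 (Ls.cons u0 (Ls.cons u0 Ls.nil)))
 (Ls.cons (Ls.cons u0 (Ls.cons u0 Ls.nil))
 (Ls.cons (Ls.cons u0 Ls.nil)
 (Ls.cons Ls.nil
 (Ls.cons Ls.nil
 (Ls.cons Ls.nil
 Ls.nil))))))))))))))))))))

noncomputable def slF3_10 : Ls (Ls Sv) :=
 (Ls.cons Ls.nil
 (Ls.cons Ls.nil
 (Ls.cons Ls.nil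
 (Ls.cons Ls.nil
 (Ls.cons Ls.nil
 (Ls.cons Ls.nil
 (Ls.cons Ls.nil
 (Ls.cons Ls.nil
 (Ls.cons Ls.nil
 (Ls.cons Ls.nil
 (Ls.cons Ls.nil
 (Ls.cons (Ls.cons u0 (Ls.cons u0 (Ls.cons u0 (Ls.cons u0 (Ls.cons u0 (Ls.cons u0 (Ls.cons u0 Ls.nil)))))))
 (Ls.cons (Ls.cons u0 (Ls.cons u0 (Ls.cons u0 (Ls.cons u0 (Ls.cons u0 Ls.nil)))))
 (Ls.cons (Ls.cons u0 (Ls.cons u0 (Ls.cons u0 (Ls.cons u0 Ls.nil))))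
 (Ls.cons (Ls.cons u0 (Ls.cons u0 (Ls.cons u0 Ls.nil)))
 (Ls.cons (Ls.cons u0 (Ls.cons u0 Ls.nil))
 (Ls.cons Ls.nil
 (Ls.cons Ls.nil
 (Ls.cons Ls.nil
 (Ls.cons Ls.nil
 Ls.nil))))))))))))))))))))

noncomputable def slF3_11 : Ls (Ls Sv) :=
 (Ls.cons Ls.nil
 (Ls.cons Ls.nil
 (Ls.cons Ls.nil
 (Ls.cons Ls.nil
 (Ls.cons Ls.nil
 (Ls.cons Ls.nil
 (Ls.cons Ls.nil
 (Ls.cons Ls.nil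
 (Ls.cons Ls.nil
 (Ls.cons Ls.nil
 (Ls.cons Ls.nil
 (Ls.cons Ls.nil
 (Ls.cons (Ls.cons u0 (Ls.cons u0 (Ls.cons u0 (Ls.cons u0 (Ls.cons u0 Ls.nil)))))
 (Ls.cons (Ls.cons u0 (Ls.cons u0 (Ls.cons u0 (Ls.cons u0 Ls.nil))))
 (Ls.cons (Ls.cons u0 (Ls.cons u0 (Ls.cons u0 Ls.nil)))
 (Ls.cons (Ls.cons u0 Ls.nil)
 (Ls.cons Ls.nil
 (Ls.cons Ls.nil
 (Ls.cons Ls.nil
 (Ls.cons Ls.nil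
 Ls.nil))))))))))))))))))))

noncomputable def slF3_12 : Ls (Ls Sv) :=
 (Ls.cons Ls.nil
 (Ls.cons Ls.nil
 (Ls.cons Ls.nil
 (Ls.cons Ls.nil
 (Ls.cons Ls.nil
 (Ls.cons Ls.nil
 (Ls.cons Ls.nil
 (Ls.cons Ls.nil
 (Ls.cons Ls.nil
 (Ls.cons Ls.nil
 (Ls.cons Ls.nil
 (Ls.cons Ls.nil
 (Ls.cons Ls.nil
 (Ls.cons (Ls.cons u0 (Ls.cons u0 (Ls.cons u0 (Ls.cons u0 Ls.nil))))
 (Ls.cons (Ls.cons u0 (Ls.cons u0 Ls.nil))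
 (Ls.cons (Ls.cons u0 Ls.nil)
 (Ls.cons Ls.nil
 (Ls.cons Ls.nil
 (Ls.cons Ls.nil
 (Ls.cons Ls.nil
 Ls.nil))))))))))))))))))))

noncomputable def slF3_13 : Ls (Ls Sv) :=
 (Ls.cons Ls.nil
 (Ls.cons Ls.nil
 (Ls.cons Ls.nil
 (Ls.cons Ls.nil
 (Ls.cons Ls.nil
 (Ls.cons Ls.nil
 (Ls.cons Ls.nil
 (Ls.cons Ls.nil
 (Ls.cons Ls.nil
 (Ls.cons Ls.nil
 (Ls.cons Ls.nil
 (Ls.cons Ls.nil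
 (Ls.cons Ls.nil
 (Ls.cons Ls.nil
 (Ls.cons (Ls.cons u0 (Ls.cons u0 Ls.nil))
 (Ls.cons (Ls.cons u0 Ls.nil)
 (Ls.cons Ls.nil
 (Ls.cons Ls.nil
 (Ls.cons Ls.nil
 (Ls.cons Ls.nil
 Ls.nil))))))))))))))))))))

noncomputable def slF3_14 : Ls (Ls Sv) :=
 (Ls.cons Ls.nil
 (Ls.cons Ls.nil
 (Ls.cons Ls.nil
 (Ls.cons Ls.nil
 (Ls.cons Ls.nil
 (Ls.cons Ls.nil
 (Ls.cons Ls.nil
 (Ls.cons Ls.nil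
 (Ls.cons Ls.nil
 (Ls.cons Ls.nil
 (Ls.cons Ls.nil
 (Ls.cons Ls.nil
 (Ls.cons Ls.nil
 (Ls.cons Ls.nil
 (Ls.cons Ls.nil
 (Ls.cons (Ls.cons u0 Ls.nil)
 (Ls.cons Ls.nil
 (Ls.cons Ls.nil
 (Ls.cons Ls.nil
 (Ls.cons Ls.nil
 Ls.nil))))))))))))))))))))

noncomputable def srcF3 : Ls (Ls (Ls Sv)) := (Ls.cons slF3_0 (Ls.cons slF3_1 (Ls.cons slF3_2 (Ls.cons slF3_3 (Ls.cons slF3_4 (Ls.cons slF3_5 (Ls.cons slF3_6 (Ls.cons slF3_7 (Ls.cons slF3_8 (Ls.cons slF3_9 (Ls.cons slF3_10 (Ls.cons slF3_11 (Ls.cons slF3_12 (Ls.cons slF3_13 (Ls.cons slF3_14 Ls.nil)))))))))))))))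

end Vale.Agent.P181.K
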