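import Vale.Agent.P181.Six.K3

set_option maxRecDepth 100000
set_option maxHeartbeats 0

namespace Vale.Agent.P181.K

noncomputable def sF4_2_1_0 : Sv := ut
 (T.a (nat_lit 3) (nat_lit 8100) (T.a (nat_lit 6) (nat_lit 16200) (T.a (nat_lit 12) (nat_lit 32400) (T.n (nat_lit 4100) (T.l (nat_lit 0x20000000000000000000000002000000000000400000000001b00000000000440000000000a3000000000016400000000012200000000003440000000005110000000000920000000001689))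
 (T.l (nat_lit 0x2000000000000800000000000a000000000004800000000001a00000000001440000000000990000000000120000000000088))))))

noncomputable def sF4_3_1_0 : Sv := ut
 (T.a (nat_lit 2) (nat_lit 4050) (T.a (nat_lit 4) (nat_lit 8100) (T.a (nat_lit 8) (nat_lit 16200) (T.l (nat_lit 0x10000000000000000000000005000000000001000000000002900000000001600000000000a400000000006500000000006940000000001500000000000440)))))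

noncomputable def sF4_4_1_0 : Sv := ut
 (T.a (nat_lit 2) (nat_lit 4050) (T.a (nat_lit 4) (nat_lit 8100) (T.a (nat_lit 8) (nat_lit 16200) (T.l (nat_lit 0x10000000000000000000000002000000000001000000000002600000000001540000000001210000000000140000000000211)))))

noncomputable def sF4_5_1_0 : Sv := ut
 (T.n (nat_lit 8200) (T.n (nat_lit 4150) (T.s (nat_lit 300) (T.l (nat_lit 0x1)))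
 (T.l (nat_lit 0x4000000000001)))
 (T.n (nat_lit 3950) (T.l (nat_lit 0x1))
 (T.l (nat_lit 0x1))))

noncomputable def sF4_6_1_0 : Sv := ut
 (T.n (nat_lit 8100) (T.l (nat_lit 0x100000000000000000000000010000000000000000000000001))
 (T.l (nat_lit 0x1)))

noncomputable def sF4_8_1_0 : Sv := ut
 (T.l (nat_lit 0x1))

noncomputable def slF4_0 : Ls (Ls Sv) :=
 (Ls.cons Ls.nil
 (Ls.cons (Ls.cons sF4_2_1_0 (Ls.cons sF4_3_1_0 (Ls.cons sF4_4_1_0 (Ls.cons sF4_5_1_0 (Ls.cons sF4_6_1_0 (Ls.cons u0 (Ls.cons sF4_8_1_0 (Ls.cons u0 (Ls.cons u0 (Ls.cons u0 (Ls.cons u0 (Ls.cons u0 (Ls.cons u0 (Ls.cons u0 (Ls.cons u0 (Ls.cons u0 (Ls.cons u0 (Ls.cons u0 (Ls.cons u0 (Ls.cons u0 (Ls.cons u0 (Ls.cons u0 (Ls.cons u0 Ls.nil)))))))))))))))))))))))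
 (Ls.cons (Ls.cons u0 (Ls.cons u0 (Ls.cons u0 (Ls.cons u0 (Ls.cons u0 (Ls.cons u0 (Ls.cons u0 (Ls.cons u0 (Ls.cons u0 (Ls.cons u0 (Ls.cons u0 (Ls.cons u0 (Ls.cons u0 (Ls.cons u0 (Ls.cons u0 (Ls.cons u0 (Ls.cons u0 (Ls.cons u0 (Ls.cons u0 (Ls.cons u0 (Ls.cons u0 (Ls.cons u0 Ls.nil))))))))))))))))))))))
 (Ls.cons (Ls.cons u0 (Ls.cons u0 (Ls.cons u0 (Ls.cons u0 (Ls.cons u0 (Ls.cons u0 (Ls.cons u0 (Ls.cons u0 (Ls.cons u0 (Ls.cons u0 (Ls.cons u0 (Ls.cons u0 (Ls.cons u0 (Ls.cons u0 (Ls.cons u0 (Ls.cons u0 (Ls.cons u0 (Ls.cons u0 (Ls.cons u0 (Ls.cons u0 (Ls.cons u0 Ls.nil)))))))))))))))))))))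
 (Ls.cons (Ls.cons u0 (Ls.cons u0 (Ls.cons u0 (Ls.cons u0 (Ls.cons u0 (Ls.cons u0 (Ls.cons u0 (Ls.cons u0 (Ls.cons u0 (Ls.cons u0 (Ls.cons u0 (Ls.cons u0 (Ls.cons u0 (Ls.cons u0 (Ls.cons u0 (Ls.cons u0 (Ls.cons u0 (Ls.cons u0 (Ls.cons u0 Ls.nil)))))))))))))))))))
 (Ls.cons (Ls.cons u0 (Ls.cons u0 (Ls.cons u0 (Ls.cons u0 (Ls.cons u0 (Ls.cons u0 (Ls.cons u0 (Ls.cons u0 (Ls.cons u0 (Ls.cons u0 (Ls.cons u0 (Ls.cons u0 (Ls.cons u0 (Ls.cons u0 (Ls.cons u0 (Ls.cons u0 (Ls.cons u0 (Ls.cons u0 Ls.nil))))))))))))))))))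
 (Ls.cons (Ls.cons u0 (Ls.cons u0 (Ls.cons u0 (Ls.cons u0 (Ls.cons u0 (Ls.cons u0 (Ls.cons u0 (Ls.cons u0 (Ls.cons u0 (Ls.cons u0 (Ls.cons u0 (Ls.cons u0 (Ls.cons u0 (Ls.cons u0 (Ls.cons u0 (Ls.cons u0 Ls.nil))))))))))))))))
 (Ls.cons (Ls.cons u0 (Ls.cons u0 (Ls.cons u0 (Ls.cons u0 (Ls.cons u0 (Ls.cons u0 (Ls.cons u0 (Ls.cons u0 (Ls.cons u0 (Ls.cons u0 (Ls.cons u0 (Ls.cons u0 (Ls.cons u0 (Ls.cons u0 (Ls.cons u0 Ls.nil)))))))))))))))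
 (Ls.cons (Ls.cons u0 (Ls.cons u0 (Ls.cons u0 (Ls.cons u0 (Ls.cons u0 (Ls.cons u0 (Ls.cons u0 (Ls.cons u0 (Ls.cons u0 (Ls.cons u0 (Ls.cons u0 (Ls.cons u0 (Ls.cons u0 (Ls.cons u0 Ls.nil))))))))))))))
 (Ls.cons (Ls.cons u0 (Ls.cons u0 (Ls.cons u0 (Ls.cons u0 (Ls.cons u0 (Ls.cons u0 (Ls.cons u0 (Ls.cons u0 (Ls.cons u0 (Ls.cons u0 (Ls.cons u0 (Ls.cons u0 (Ls.cons u0 Ls.nil)))))))))))))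
 (Ls.cons (Ls.cons u0 (Ls.cons u0 (Ls.cons u0 (Ls.cons u0 (Ls.cons u0 (Ls.cons u0 (Ls.cons u0 (Ls.cons u0 (Ls.cons u0 (Ls.cons u0 (Ls.cons u0 (Ls.cons u0 Ls.nil))))))))))))
 (Ls.cons (Ls.cons u0 (Ls.cons u0 (Ls.cons u0 (Ls.cons u0 (Ls.cons u0 (Ls.cons u0 (Ls.cons u0 (Ls.cons u0 (Ls.cons u0 (Ls.cons u0 (Ls.cons u0 Ls.nil)))))))))))
 (Ls.cons (Ls.cons u0 (Ls.cons u0 (Ls.cons u0 (Ls.cons u0 (Ls.cons u0 (Ls.cons u0 (Ls.cons u0 (Ls.cons u0 (Ls.cons u0 Ls.nil)))))))))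
 (Ls.cons (Ls.cons u0 (Ls.cons u0 (Ls.cons u0 (Ls.cons u0 (Ls.cons u0 (Ls.cons u0 (Ls.cons u0 (Ls.cons u0 Ls.nil))))))))
 (Ls.cons (Ls.cons u0 (Ls.cons u0 (Ls.cons u0 (Ls.cons u0 (Ls.cons u0 (Ls.cons u0 (Ls.cons u0 Ls.nil)))))))
 (Ls.cons (Ls.cons u0 (Ls.cons u0 (Ls.cons u0 (Ls.cons u0 (Ls.cons u0 (Ls.cons u0 Ls.nil))))))
 (Ls.cons (Ls.cons u0 (Ls.cons u0 (Ls.cons u0 (Ls.cons u0 Ls.nil))))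
 (Ls.cons (Ls.cons u0 (Ls.cons u0 (Ls.cons u0 Ls.nil)))
 (Ls.cons (Ls.cons u0 (Ls.cons u0 Ls.nil))
 (Ls.cons (Ls.cons u0 Ls.nil)
 Ls.nil))))))))))))))))))))

noncomputable def slF4_1 : Ls (Ls Sv) :=
 (Ls.cons Ls.nil
 (Ls.cons Ls.nil
 (Ls.cons (Ls.cons u0 (Ls.cons u0 (Ls.cons u0 (Ls.cons u0 (Ls.cons u0 (Ls.cons u0 (Ls.cons u0 (Ls.cons u0 (Ls.cons u0 (Ls.cons u0 (Ls.cons u0 (Ls.cons u0 (Ls.cons u0 (Ls.cons u0 (Ls.cons u0 (Ls.cons u0 (Ls.cons u0 (Ls.cons u0 (Ls.cons u0 (Ls.cons u0 (Ls.cons u0 (Ls.cons u0 Ls.nil))))))))))))))))))))))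
 (Ls.cons (Ls.cons u0 (Ls.cons u0 (Ls.cons u0 (Ls.cons u0 (Ls.cons u0 (Ls.cons u0 (Ls.cons u0 (Ls.cons u0 (Ls.cons u0 (Ls.cons u0 (Ls.cons u0 (Ls.cons u0 (Ls.cons u0 (Ls.cons u0 (Ls.cons u0 (Ls.cons u0 (Ls.cons u0 (Ls.cons u0 (Ls.cons u0 (Ls.cons u0 Ls.nil))))))))))))))))))))
 (Ls.cons (Ls.cons u0 (Ls.cons u0 (Ls.cons u0 (Ls.cons u0 (Ls.cons u0 (Ls.cons u0 (Ls.cons u0 (Ls.cons u0 (Ls.cons u0 (Ls.cons u0 (Ls.cons u0 (Ls.cons u0 (Ls.cons u0 (Ls.cons u0 (Ls.cons u0 (Ls.cons u0 (Ls.cons u0 (Ls.cons u0 (Ls.cons u0 Ls.nil)))))))))))))))))))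
 (Ls.cons (Ls.cons u0 (Ls.cons u0 (Ls.cons u0 (Ls.cons u0 (Ls.cons u0 (Ls.cons u0 (Ls.cons u0 (Ls.cons u0 (Ls.cons u0 (Ls.cons u0 (Ls.cons u0 (Ls.cons u0 (Ls.cons u0 (Ls.cons u0 (Ls.cons u0 (Ls.cons u0 Ls.nil))))))))))))))))
 (Ls.cons (Ls.cons u0 (Ls.cons u0 (Ls.cons u0 (Ls.cons u0 (Ls.cons u0 (Ls.cons u0 (Ls.cons u0 (Ls.cons u0 (Ls.cons u0 (Ls.cons u0 (Ls.cons u0 (Ls.cons u0 (Ls.cons u0 (Ls.cons u0 (Ls.cons u0 Ls.nil)))))))))))))))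
 (Ls.cons (Ls.cons u0 (Ls.cons u0 (Ls.cons u0 (Ls.cons u0 (Ls.cons u0 (Ls.cons u0 (Ls.cons u0 (Ls.cons u0 (Ls.cons u0 (Ls.cons u0 (Ls.cons u0 (Ls.cons u0 (Ls.cons u0 (Ls.cons u0 Ls.nil))))))))))))))
 (Ls.cons (Ls.cons u0 (Ls.cons u0 (Ls.cons u0 (Ls.cons u0 (Ls.cons u0 (Ls.cons u0 (Ls.cons u0 (Ls.cons u0 (Ls.cons u0 (Ls.cons u0 (Ls.cons u0 (Ls.cons u0 (Ls.cons u0 Ls.nil)))))))))))))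
 (Ls.cons (Ls.cons u0 (Ls.cons u0 (Ls.cons u0 (Ls.cons u0 (Ls.cons u0 (Ls.cons u0 (Ls.cons u0 (Ls.cons u0 (Ls.cons u0 (Ls.cons u0 (Ls.cons u0 Ls.nil)))))))))))
 (Ls.cons (Ls.cons u0 (Ls.cons u0 (Ls.cons u0 (Ls.cons u0 (Ls.cons u0 (Ls.cons u0 (Ls.cons u0 (Ls.cons u0 (Ls.cons u0 (Ls.cons u0 Ls.nil))))))))))
 (Ls.cons (Ls.cons u0 (Ls.cons u0 (Ls.cons u0 (Ls.cons u0 (Ls.cons u0 (Ls.cons u0 (Ls.cons u0 (Ls.cons u0 (Ls.cons u0 Ls.nil)))))))))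
 (Ls.cons (Ls.cons u0 (Ls.cons u0 (Ls.cons u0 (Ls.cons u0 (Ls.cons u0 (Ls.cons u0 (Ls.cons u0 (Ls.cons u0 Ls.nil))))))))
 (Ls.cons (Ls.cons u0 (Ls.cons u0 (Ls.cons u0 (Ls.cons u0 (Ls.cons u0 (Ls.cons u0 Ls.nil))))))
 (Ls.cons (Ls.cons u0 (Ls.cons u0 (Ls.cons u0 (Ls.cons u0 (Ls.cons u0 Ls.nil)))))
 (Ls.cons (Ls.cons u0 (Ls.cons u0 (Ls.cons u0 (Ls.cons u0 Ls.nil))))
 (Ls.cons (Ls.cons u0 (Ls.cons u0 (Ls.cons u0 Ls.nil)))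
 (Ls.cons (Ls.cons u0 Ls.nil)
 (Ls.cons Ls.nil
 (Ls.cons Ls.nil
 Ls.nil))))))))))))))))))))

noncomputable def slF4_2 : Ls (Ls Sv) :=
 (Ls.cons Ls.nil
 (Ls.cons Ls.nil
 (Ls.cons Ls.nil
 (Ls.cons (Ls.cons u0 (Ls.cons u0 (Ls.cons u0 (Ls.cons u0 (Ls.cons u0 (Ls.cons u0 (Ls.cons u0 (Ls.cons u0 (Ls.cons u0 (Ls.cons u0 (Ls.cons u0 (Ls.cons u0 (Ls.cons u0 (Ls.cons u0 (Ls.cons u0 (Ls.cons u0 (Ls.cons u0 (Ls.cons u0 (Ls.cons u0 Ls.nil)))))))))))))))))))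
 (Ls.cons (Ls.cons u0 (Ls.cons u0 (Ls.cons u0 (Ls.cons u0 (Ls.cons u0 (Ls.cons u0 (Ls.cons u0 (Ls.cons u0 (Ls.cons u0 (Ls.cons u0 (Ls.cons u0 (Ls.cons u0 (Ls.cons u0 (Ls.cons u0 (Ls.cons u0 (Ls.cons u0 (Ls.cons u0 Ls.nil)))))))))))))))))
 (Ls.cons (Ls.cons u0 (Ls.cons u0 (Ls.cons u0 (Ls.cons u0 (Ls.cons u0 (Ls.cons u0 (Ls.cons u0 (Ls.cons u0 (Ls.cons u0 (Ls.cons u0 (Ls.cons u0 (Ls.cons u0 (Ls.cons u0 (Ls.cons u0 (Ls.cons u0 (Ls.cons u0 Ls.nil))))))))))))))))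
 (Ls.cons (Ls.cons u0 (Ls.cons u0 (Ls.cons u0 (Ls.cons u0 (Ls.cons u0 (Ls.cons u0 (Ls.cons u0 (Ls.cons u0 (Ls.cons u0 (Ls.cons u0 (Ls.cons u0 (Ls.cons u0 (Ls.cons u0 (Ls.cons u0 (Ls.cons u0 Ls.nil)))))))))))))))
 (Ls.cons (Ls.cons u0 (Ls.cons u0 (Ls.cons u0 (Ls.cons u0 (Ls.cons u0 (Ls.cons u0 (Ls.cons u0 (Ls.cons u0 (Ls.cons u0 (Ls.cons u0 (Ls.cons u0 (Ls.cons u0 (Ls.cons u0 (Ls.cons u0 Ls.nil))))))))))))))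
 (Ls.cons (Ls.cons u0 (Ls.cons u0 (Ls.cons u0 (Ls.cons u0 (Ls.cons u0 (Ls.cons u0 (Ls.cons u0 (Ls.cons u0 (Ls.cons u0 (Ls.cons u0 (Ls.cons u0 (Ls.cons u0 Ls.nil))))))))))))
 (Ls.cons (Ls.cons u0 (Ls.cons u0 (Ls.cons u0 (Ls.cons u0 (Ls.cons u0 (Ls.cons u0 (Ls.cons u0 (Ls.cons u0 (Ls.cons u0 (Ls.cons u0 (Ls.cons u0 Ls.nil)))))))))))
 (Ls.cons (Ls.cons u0 (Ls.cons u0 (Ls.cons u0 (Ls.cons u0 (Ls.cons u0 (Ls.cons u0 (Ls.cons u0 (Ls.cons u0 (Ls.cons u0 (Ls.cons u0 Ls.nil))))))))))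
 (Ls.cons (Ls.cons u0 (Ls.cons u0 (Ls.cons u0 (Ls.cons u0 (Ls.cons u0 (Ls.cons u0 (Ls.cons u0 (Ls.cons u0 (Ls.cons u0 Ls.nil)))))))))
 (Ls.cons (Ls.cons u0 (Ls.cons u0 (Ls.cons u0 (Ls.cons u0 (Ls.cons u0 (Ls.cons u0 (Ls.cons u0 Ls.nil)))))))
 (Ls.cons (Ls.cons u0 (Ls.cons u0 (Ls.cons u0 (Ls.cons u0 (Ls.cons u0 (Ls.cons u0 Ls.nil))))))
 (Ls.cons (Ls.cons u0 (Ls.cons u0 (Ls.cons u0 (Ls.cons u0 (Ls.cons u0 Ls.nil)))))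
 (Ls.cons (Ls.cons u0 (Ls.cons u0 (Ls.cons u0 (Ls.cons u0 Ls.nil))))
 (Ls.cons (Ls.cons u0 (Ls.cons u0 Ls.nil))
 (Ls.cons (Ls.cons u0 Ls.nil)
 (Ls.cons Ls.nil
 (Ls.cons Ls.nil
 Ls.nil))))))))))))))))))))

noncomputable def slF4_3 : Ls (Ls Sv) :=
 (Ls.cons Ls.nil
 (Ls.cons Ls.nil
 (Ls.cons Ls.nil
 (Ls.cons Ls.nil
 (Ls.cons (Ls.cons u0 (Ls.cons u0 (Ls.cons u0 (Ls.cons u0 (Ls.cons u0 (Ls.cons u0 (Ls.cons u0 (Ls.cons u0 (Ls.cons u0 (Ls.cons u0 (Ls.cons u0 (Ls.cons u0 (Ls.cons u0 (Ls.cons u0 (Ls.cons u0 (Ls.cons u0 (Ls.cons u0 Ls.nil)))))))))))))))))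
 (Ls.cons (Ls.cons u0 (Ls.cons u0 (Ls.cons u0 (Ls.cons u0 (Ls.cons u0 (Ls.cons u0 (Ls.cons u0 (Ls.cons u0 (Ls.cons u0 (Ls.cons u0 (Ls.cons u0 (Ls.cons u0 (Ls.cons u0 (Ls.cons u0 (Ls.cons u0 (Ls.cons u0 Ls.nil))))))))))))))))
 (Ls.cons (Ls.cons u0 (Ls.cons u0 (Ls.cons u0 (Ls.cons u0 (Ls.cons u0 (Ls.cons u0 (Ls.cons u0 (Ls.cons u0 (Ls.cons u0 (Ls.cons u0 (Ls.cons u0 (Ls.cons u0 (Ls.cons u0 (Ls.cons u0 (Ls.cons u0 Ls.nil)))))))))))))))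
 (Ls.cons (Ls.cons u0 (Ls.cons u0 (Ls.cons u0 (Ls.cons u0 (Ls.cons u0 (Ls.cons u0 (Ls.cons u0 (Ls.cons u0 (Ls.cons u0 (Ls.cons u0 (Ls.cons u0 (Ls.cons u0 (Ls.cons u0 Ls.nil)))))))))))))
 (Ls.cons (Ls.cons u0 (Ls.cons u0 (Ls.cons u0 (Ls.cons u0 (Ls.cons u0 (Ls.cons u0 (Ls.cons u0 (Ls.cons u0 (Ls.cons u0 (Ls.cons u0 (Ls.cons u0 (Ls.cons u0 Ls.nil))))))))))))
 (Ls.cons (Ls.cons u0 (Ls.cons u0 (Ls.cons u0 (Ls.cons u0 (Ls.cons u0 (Ls.cons u0 (Ls.cons u0 (Ls.cons u0 (Ls.cons u0 (Ls.cons u0 (Ls.cons u0 Ls.nil)))))))))))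
 (Ls.cons (Ls.cons u0 (Ls.cons u0 (Ls.cons u0 (Ls.cons u0 (Ls.cons u0 (Ls.cons u0 (Ls.cons u0 (Ls.cons u0 (Ls.cons u0 (Ls.cons u0 Ls.nil))))))))))
 (Ls.cons (Ls.cons u0 (Ls.cons u0 (Ls.cons u0 (Ls.cons u0 (Ls.cons u0 (Ls.cons u0 (Ls.cons u0 (Ls.cons u0 Ls.nil))))))))
 (Ls.cons (Ls.cons u0 (Ls.cons u0 (Ls.cons u0 (Ls.cons u0 (Ls.cons u0 (Ls.cons u0 (Ls.cons u0 Ls.nil)))))))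
 (Ls.cons (Ls.cons u0 (Ls.cons u0 (Ls.cons u0 (Ls.cons u0 (Ls.cons u0 (Ls.cons u0 Ls.nil))))))
 (Ls.cons (Ls.cons u0 (Ls.cons u0 (Ls.cons u0 (Ls.cons u0 (Ls.cons u0 Ls.nil)))))
 (Ls.cons (Ls.cons u0 (Ls.cons u0 (Ls.cons u0 Ls.nil)))
 (Ls.cons (Ls.cons u0 (Ls.cons u0 Ls.nil))
 (Ls.cons (Ls.cons u0 Ls.nil)
 (Ls.cons Ls.nil
 (Ls.cons Ls.nil
 Ls.nil))))))))))))))))))))

noncomputable def slF4_4 : Ls (Ls Sv) :=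
 (Ls.cons Ls.nil
 (Ls.cons Ls.nil
 (Ls.cons Ls.nil
 (Ls.cons Ls.nil
 (Ls.cons Ls.nil
 (Ls.cons (Ls.cons u0 (Ls.cons u0 (Ls.cons u0 (Ls.cons u0 (Ls.cons u0 (Ls.cons u0 (Ls.cons u0 (Ls.cons u0 (Ls.cons u0 (Ls.cons u0 (Ls.cons u0 (Ls.cons u0 (Ls.cons u0 (Ls.cons u0 (Ls.cons u0 (Ls.cons u0 Ls.nil))))))))))))))))
 (Ls.cons (Ls.cons u0 (Ls.cons u0 (Ls.cons u0 (Ls.cons u0 (Ls.cons u0 (Ls.cons u0 (Ls.cons u0 (Ls.cons u0 (Ls.cons u0 (Ls.cons u0 (Ls.cons u0 (Ls.cons u0 (Ls.cons u0 (Ls.cons u0 Ls.nil))))))))))))))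
 (Ls.cons (Ls.cons u0 (Ls.cons u0 (Ls.cons u0 (Ls.cons u0 (Ls.cons u0 (Ls.cons u0 (Ls.cons u0 (Ls.cons u0 (Ls.cons u0 (Ls.cons u0 (Ls.cons u0 (Ls.cons u0 (Ls.cons u0 Ls.nil)))))))))))))
 (Ls.cons (Ls.cons u0 (Ls.cons u0 (Ls.cons u0 (Ls.cons u0 (Ls.cons u0 (Ls.cons u0 (Ls.cons u0 (Ls.cons u0 (Ls.cons u0 (Ls.cons u0 (Ls.cons u0 (Ls.cons u0 Ls.nil))))))))))))
 (Ls.cons (Ls.cons u0 (Ls.cons u0 (Ls.cons u0 (Ls.cons u0 (Ls.cons u0 (Ls.cons u0 (Ls.cons u0 (Ls.cons u0 (Ls.cons u0 (Ls.cons u0 (Ls.cons u0 Ls.nil)))))))))))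
 (Ls.cons (Ls.cons u0 (Ls.cons u0 (Ls.cons u0 (Ls.cons u0 (Ls.cons u0 (Ls.cons u0 (Ls.cons u0 (Ls.cons u0 (Ls.cons u0 Ls.nil)))))))))
 (Ls.cons (Ls.cons u0 (Ls.cons u0 (Ls.cons u0 (Ls.cons u0 (Ls.cons u0 (Ls.cons u0 (Ls.cons u0 (Ls.cons u0 Ls.nil))))))))
 (Ls.cons (Ls.cons u0 (Ls.cons u0 (Ls.cons u0 (Ls.cons u0 (Ls.cons u0 (Ls.cons u0 (Ls.cons u0 Ls.nil)))))))
 (Ls.cons (Ls.cons u0 (Ls.cons u0 (Ls.cons u0 (Ls.cons u0 (Ls.cons u0 (Ls.cons u0 Ls.nil))))))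
 (Ls.cons (Ls.cons u0 (Ls.cons u0 (Ls.cons u0 (Ls.cons u0 Ls.nil))))
 (Ls.cons (Ls.cons u0 (Ls.cons u0 (Ls.cons u0 Ls.nil)))
 (Ls.cons (Ls.cons u0 (Ls.cons u0 Ls.nil))
 (Ls.cons (Ls.cons u0 Ls.nil)
 (Ls.cons Ls.nil
 (Ls.cons Ls.nil
 Ls.nil))))))))))))))))))))

noncomputable def slF4_5 : Ls (Ls Sv) :=
 (Ls.cons Ls.nil
 (Ls.cons Ls.nil
 (Ls.cons Ls.nil
 (Ls.cons Ls.nil
 (Ls.cons Ls.nil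
 (Ls.cons Ls.nil
 (Ls.cons (Ls.cons u0 (Ls.cons u0 (Ls.cons u0 (Ls.cons u0 (Ls.cons u0 (Ls.cons u0 (Ls.cons u0 (Ls.cons u0 (Ls.cons u0 (Ls.cons u0 (Ls.cons u0 (Ls.cons u0 (Ls.cons u0 (Ls.cons u0 Ls.nil))))))))))))))
 (Ls.cons (Ls.cons u0 (Ls.cons u0 (Ls.cons u0 (Ls.cons u0 (Ls.cons u0 (Ls.cons u0 (Ls.cons u0 (Ls.cons u0 (Ls.cons u0 (Ls.cons u0 (Ls.cons u0 (Ls.cons u0 (Ls.cons u0 Ls.nil)))))))))))))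
 (Ls.cons (Ls.cons u0 (Ls.cons u0 (Ls.cons u0 (Ls.cons u0 (Ls.cons u0 (Ls.cons u0 (Ls.cons u0 (Ls.cons u0 (Ls.cons u0 (Ls.cons u0 (Ls.cons u0 (Ls.cons u0 Ls.nil))))))))))))
 (Ls.cons (Ls.cons u0 (Ls.cons u0 (Ls.cons u0 (Ls.cons u0 (Ls.cons u0 (Ls.cons u0 (Ls.cons u0 (Ls.cons u0 (Ls.cons u0 (Ls.cons u0 Ls.nil))))))))))
 (Ls.cons (Ls.cons u0 (Ls.cons u0 (Ls.cons u0 (Ls.cons u0 (Ls.cons u0 (Ls.cons u0 (Ls.cons u0 (Ls.cons u0 (Ls.cons u0 Ls.nil)))))))))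
 (Ls.cons (Ls.cons u0 (Ls.cons u0 (Ls.cons u0 (Ls.cons u0 (Ls.cons u0 (Ls.cons u0 (Ls.cons u0 (Ls.cons u0 Ls.nil))))))))
 (Ls.cons (Ls.cons u0 (Ls.cons u0 (Ls.cons u0 (Ls.cons u0 (Ls.cons u0 (Ls.cons u0 (Ls.cons u0 Ls.nil)))))))
 (Ls.cons (Ls.cons u0 (Ls.cons u0 (Ls.cons u0 (Ls.cons u0 (Ls.cons u0 Ls.nil)))))
 (Ls.cons (Ls.cons u0 (Ls.cons u0 (Ls.cons u0 (Ls.cons u0 Ls.nil))))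
 (Ls.cons (Ls.cons u0 (Ls.cons u0 (Ls.cons u0 Ls.nil)))
 (Ls.cons (Ls.cons u0 (Ls.cons u0 Ls.nil))
 (Ls.cons Ls.nil
 (Ls.cons Ls.nil
 (Ls.cons Ls.nil
 Ls.nil))))))))))))))))))))

noncomputable def slF4_6 : Ls (Ls Sv) :=
 (Ls.cons Ls.nil
 (Ls.cons Ls.nil
 (Ls.cons Ls.nil
 (Ls.cons Ls.nil
 (Ls.cons Ls.nil
 (Ls.cons Ls.nil
 (Ls.cons Ls.nil
 (Ls.cons (Ls.cons u0 (Ls.cons u0 (Ls.cons u0 (Ls.cons u0 (Ls.cons u0 (Ls.cons u0 (Ls.cons u0 (Ls.cons u0 (Ls.cons u0 (Ls.cons u0 (Ls.cons u0 (Ls.cons u0 (Ls.cons u0 Ls.nil)))))))))))))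
 (Ls.cons (Ls.cons u0 (Ls.cons u0 (Ls.cons u0 (Ls.cons u0 (Ls.cons u0 (Ls.cons u0 (Ls.cons u0 (Ls.cons u0 (Ls.cons u0 (Ls.cons u0 (Ls.cons u0 Ls.nil)))))))))))
 (Ls.cons (Ls.cons u0 (Ls.cons u0 (Ls.cons u0 (Ls.cons u0 (Ls.cons u0 (Ls.cons u0 (Ls.cons u0 (Ls.cons u0 (Ls.cons u0 (Ls.cons u0 Ls.nil))))))))))
 (Ls.cons (Ls.cons u0 (Ls.cons u0 (Ls.cons u0 (Ls.cons u0 (Ls.cons u0 (Ls.cons u0 (Ls.cons u0 (Ls.cons u0 (Ls.cons u0 Ls.nil)))))))))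
 (Ls.cons (Ls.cons u0 (Ls.cons u0 (Ls.cons u0 (Ls.cons u0 (Ls.cons u0 (Ls.cons u0 (Ls.cons u0 (Ls.cons u0 Ls.nil))))))))
 (Ls.cons (Ls.cons u0 (Ls.cons u0 (Ls.cons u0 (Ls.cons u0 (Ls.cons u0 (Ls.cons u0 Ls.nil))))))
 (Ls.cons (Ls.cons u0 (Ls.cons u0 (Ls.cons u0 (Ls.cons u0 (Ls.cons u0 Ls.nil)))))
 (Ls.cons (Ls.cons u0 (Ls.cons u0 (Ls.cons u0 (Ls.cons u0 Ls.nil))))
 (Ls.cons (Ls.cons u0 (Ls.cons u0 (Ls.cons u0 Ls.nil)))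
 (Ls.cons (Ls.cons u0 Ls.nil)
 (Ls.cons Ls.nil
 (Ls.cons Ls.nil
 (Ls.cons Ls.nil
 Ls.nil))))))))))))))))))))

noncomputable def slF4_7 : Ls (Ls Sv) :=
 (Ls.cons Ls.nil
 (Ls.cons Ls.nil
 (Ls.cons Ls.nil
 (Ls.cons Ls.nil
 (Ls.cons Ls.nil
 (Ls.cons Ls.nil
 (Ls.cons Ls.nil
 (Ls.cons Ls.nil
 (Ls.cons (Ls.cons u0 (Ls.cons u0 (Ls.cons u0 (Ls.cons u0 (Ls.cons u0 (Ls.cons u0 (Ls.cons u0 (Ls.cons u0 (Ls.cons u0 (Ls.cons u0 (Ls.cons u0 Ls.nil)))))))))))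
 (Ls.cons (Ls.cons u0 (Ls.cons u0 (Ls.cons u0 (Ls.cons u0 (Ls.cons u0 (Ls.cons u0 (Ls.cons u0 (Ls.cons u0 (Ls.cons u0 (Ls.cons u0 Ls.nil))))))))))
 (Ls.cons (Ls.cons u0 (Ls.cons u0 (Ls.cons u0 (Ls.cons u0 (Ls.cons u0 (Ls.cons u0 (Ls.cons u0 (Ls.cons u0 (Ls.cons u0 Ls.nil)))))))))
 (Ls.cons (Ls.cons u0 (Ls.cons u0 (Ls.cons u0 (Ls.cons u0 (Ls.cons u0 (Ls.cons u0 (Ls.cons u0 Ls.nil)))))))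
 (Ls.cons (Ls.cons u0 (Ls.cons u0 (Ls.cons u0 (Ls.cons u0 (Ls.cons u0 (Ls.cons u0 Ls.nil))))))
 (Ls.cons (Ls.cons u0 (Ls.cons u0 (Ls.cons u0 (Ls.cons u0 (Ls.cons u0 Ls.nil)))))
 (Ls.cons (Ls.cons u0 (Ls.cons u0 (Ls.cons u0 (Ls.cons u0 Ls.nil))))
 (Ls.cons (Ls.cons u0 (Ls.cons u0 Ls.nil))
 (Ls.cons (Ls.cons u0 Ls.nil)
 (Ls.cons Ls.nil
 (Ls.cons Ls.nil
 (Ls.cons Ls.nil
 Ls.nil))))))))))))))))))))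

noncomputable def slF4_8 : Ls (Ls Sv) :=
 (Ls.cons Ls.nil
 (Ls.cons Ls.nil
 (Ls.cons Ls.nil
 (Ls.cons Ls.nil
 (Ls.cons Ls.nil
 (Ls.cons Ls.nil
 (Ls.cons Ls.nil
 (Ls.cons Ls.nil
 (Ls.cons Ls.nil
 (Ls.cons (Ls.cons u0 (Ls.cons u0 (Ls.cons u0 (Ls.cons u0 (Ls.cons u0 (Ls.cons u0 (Ls.cons u0 (Ls.cons u0 (Ls.cons u0 (Ls.cons u0 Ls.nil))))))))))
 (Ls.cons (Ls.cons u0 (Ls.cons u0 (Ls.cons u0 (Ls.cons u0 (Ls.cons u0 (Ls.cons u0 (Ls.cons u0 (Ls.cons u0 Ls.nil))))))))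
 (Ls.cons (Ls.cons u0 (Ls.cons u0 (Ls.cons u0 (Ls.cons u0 (Ls.cons u0 (Ls.cons u0 (Ls.cons u0 Ls.nil)))))))
 (Ls.cons (Ls.cons u0 (Ls.cons u0 (Ls.cons u0 (Ls.cons u0 (Ls.cons u0 (Ls.cons u0 Ls.nil))))))
 (Ls.cons (Ls.cons u0 (Ls.cons u0 (Ls.cons u0 (Ls.cons u0 (Ls.cons u0 Ls.nil)))))
 (Ls.cons (Ls.cons u0 (Ls.cons u0 (Ls.cons u0 Ls.nil)))
 (Ls.cons (Ls.cons u0 (Ls.cons u0 Ls.nil))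
 (Ls.cons (Ls.cons u0 Ls.nil)
 (Ls.cons Ls.nil
 (Ls.cons Ls.nil
 (Ls.cons Ls.nil
 Ls.nil))))))))))))))))))))

noncomputable def slF4_9 : Ls (Ls Sv) :=
 (Ls.cons Ls.nil
 (Ls.cons Ls.nil
 (Ls.cons Ls.nil
 (Ls.cons Ls.nil
 (Ls.cons Ls.nil
 (Ls.cons Ls.nil
 (Ls.cons Ls.nil
 (Ls.cons Ls.nil
 (Ls.cons Ls.nil
 (Ls.cons Ls.nil
 (Ls.cons (Ls.cons u0 (Ls.cons u0 (Ls.cons u0 (Ls.cons u0 (Ls.cons u0 (Ls.cons u0 (Ls.cons u0 (Ls.cons u0 Ls.nil))))))))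
 (Ls.cons (Ls.cons u0 (Ls.cons u0 (Ls.cons u0 (Ls.cons u0 (Ls.cons u0 (Ls.cons u0 (Ls.cons u0 Ls.nil)))))))
 (Ls.cons (Ls.cons u0 (Ls.cons u0 (Ls.cons u0 (Ls.cons u0 (Ls.cons u0 (Ls.cons u0 Ls.nil))))))
 (Ls.cons (Ls.cons u0 (Ls.cons u0 (Ls.cons u0 (Ls.cons u0 Ls.nil))))
 (Ls.cons (Ls.cons u0 (Ls.cons u0 (Ls.cons u0 Ls.nil)))
 (Ls.cons (Ls.cons u0 (Ls.cons u0 Ls.nil))
 (Ls.cons (Ls.cons u0 Ls.nil)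
 (Ls.cons Ls.nil
 (Ls.cons Ls.nil
 (Ls.cons Ls.nil
 Ls.nil))))))))))))))))))))

noncomputable def slF4_10 : Ls (Ls Sv) :=
 (Ls.cons Ls.nil
 (Ls.cons Ls.nil
 (Ls.cons Ls.nil
 (Ls.cons Ls.nil
 (Ls.cons Ls.nil
 (Ls.cons Ls.nil
 (Ls.cons Ls.nil
 (Ls.cons Ls.nil
 (Ls.cons Ls.nil
 (Ls.cons Ls.nil
 (Ls.cons Ls.nil
 (Ls.cons (Ls.cons u0 (Ls.cons u0 (Ls.cons u0 (Ls.cons u0 (Ls.cons u0 (Ls.cons u0 (Ls.cons u0 Ls.nil)))))))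
 (Ls.cons (Ls.cons u0 (Ls.cons u0 (Ls.cons u0 (Ls.cons u0 (Ls.cons u0 Ls.nil)))))
 (Ls.cons (Ls.cons u0 (Ls.cons u0 (Ls.cons u0 (Ls.cons u0 Ls.nil))))
 (Ls.cons (Ls.cons u0 (Ls.cons u0 (Ls.cons u0 Ls.nil)))
 (Ls.cons (Ls.cons u0 (Ls.cons u0 Ls.nil))
 (Ls.cons Ls.nil
 (Ls.cons Ls.nil
 (Ls.cons Ls.nil
 (Ls.cons Ls.nil
 Ls.nil))))))))))))))))))))

noncomputable def slF4_11 : Ls (Ls Sv) :=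
 (Ls.cons Ls.nil
 (Ls.cons Ls.nil
 (Ls.cons Ls.nil
 (Ls.cons Ls.nil
 (Ls.cons Ls.nil
 (Ls.cons Ls.nil
 (Ls.cons Ls.nil
 (Ls.cons Ls.nil
 (Ls.cons Ls.nil
 (Ls.cons Ls.nil
 (Ls.cons Ls.nil
 (Ls.cons Ls.nil
 (Ls.cons (Ls.cons u0 (Ls.cons u0 (Ls.cons u0 (Ls.cons u0 (Ls.cons u0 Ls.nil)))))
 (Ls.cons (Ls.cons u0 (Ls.cons u0 (Ls.cons u0 (Ls.cons u0 Ls.nil))))
 (Ls.cons (Ls.cons u0 (Ls.cons u0 (Ls.cons u0 Ls.nil)))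
 (Ls.cons (Ls.cons u0 Ls.nil)
 (Ls.cons Ls.nil
 (Ls.cons Ls.nil
 (Ls.cons Ls.nil
 (Ls.cons Ls.nil
 Ls.nil))))))))))))))))))))

noncomputable def slF4_12 : Ls (Ls Sv) :=
 (Ls.cons Ls.nil
 (Ls.cons Ls.nil
 (Ls.cons Ls.nil
 (Ls.cons Ls.nil
 (Ls.cons Ls.nil
 (Ls.cons Ls.nil
 (Ls.cons Ls.nil
 (Ls.cons Ls.nil
 (Ls.cons Ls.nil
 (Ls.cons Ls.nil
 (Ls.cons Ls.nil
 (Ls.cons Ls.nil
 (Ls.cons Ls.nil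
 (Ls.cons (Ls.cons u0 (Ls.cons u0 (Ls.cons u0 (Ls.cons u0 Ls.nil))))
 (Ls.cons (Ls.cons u0 (Ls.cons u0 Ls.nil))
 (Ls.cons (Ls.cons u0 Ls.nil)
 (Ls.cons Ls.nil
 (Ls.cons Ls.nil
 (Ls.cons Ls.nil
 (Ls.cons Ls.nil
 Ls.nil))))))))))))))))))))

noncomputable def slF4_13 : Ls (Ls Sv) :=
 (Ls.cons Ls.nil
 (Ls.cons Ls.nil
 (Ls.cons Ls.nil
 (Ls.cons Ls.nil
 (Ls.cons Ls.nil
 (Ls.cons Ls.nil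
 (Ls.cons Ls.nil
 (Ls.cons Ls.nil
 (Ls.cons Ls.nil
 (Ls.cons Ls.nil
 (Ls.cons Ls.nil
 (Ls.cons Ls.nil
 (Ls.cons Ls.nil
 (Ls.cons Ls.nil
 (Ls.cons (Ls.cons u0 (Ls.cons u0 Ls.nil))
 (Ls.cons (Ls.cons u0 Ls.nil)
 (Ls.cons Ls.nil
 (Ls.cons Ls.nil
 (Ls.cons Ls.nil
 (Ls.cons Ls.nil
 Ls.nil))))))))))))))))))))

noncomputable def slF4_14 : Ls (Ls Sv) :=
 (Ls.cons Ls.nil
 (Ls.cons Ls.nil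
 (Ls.cons Ls.nil
 (Ls.cons Ls.nil
 (Ls.cons Ls.nil
 (Ls.cons Ls.nil
 (Ls.cons Ls.nil
 (Ls.cons Ls.nil
 (Ls.cons Ls.nil
 (Ls.cons Ls.nil
 (Ls.cons Ls.nil
 (Ls.cons Ls.nil
 (Ls.cons Ls.nil
 (Ls.cons Ls.nil
 (Ls.cons Ls.nil
 (Ls.cons (Ls.cons u0 Ls.nil)
 (Ls.cons Ls.nil
 (Ls.cons Ls.nil
 (Ls.cons Ls.nil
 (Ls.cons Ls.nil
 Ls.nil))))))))))))))))))))

noncomputable def srcF4 : Ls (Ls (Ls Sv)) := (Ls.cons slF4_0 (Ls.cons slF4_1 (Ls.cons slF4_2 (Ls.cons slF4_3 (Ls.cons slF4_4 (Ls.cons slF4_5 (Ls.cons slF4_6 (Ls.cons slF4_7 (Ls.cons slF4_8 (Ls.cons slF4_9 (Ls.cons slF4_10 (Ls.cons slF4_11 (Ls.cons slF4_12 (Ls.cons slF4_13 (Ls.cons slF4_14 Ls.nil)))))))))))))))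

end Vale.Agent.P181.K
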