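import Vale.Agent.P181.Six.K3

set_option maxRecDepth 100000
set_option maxHeartbeats 0

namespace Vale.Agent.P181.K

noncomputable def sF6_2_1_0 : Sv := ut
 (T.a (nat_lit 6) (nat_lit 8100) (T.a (nat_lit 12) (nat_lit 16200) (T.a (nat_lit 24) (nat_lit 32400) (T.n (nat_lit 4050) (T.l (nat_lit 0x30000000000000000000000004000000000010c0000000002860000000000a0c00000000a487000000003501000000001c50600000005751100000006a64850000001d7cd0800000cba3344000003e76480800001fa971c20000271f384040003206cc0c10000848d101000043502c4041))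
 (T.l (nat_lit 0x20000000000014000000000006000000000071c0000000003c9000000000142400000000c5870000000065a200000000205c60000000d956140000006a3484000000228cf0c0000087da241000004a25880400000f58b0c00000241020200000046101000))))))

noncomputable def sF6_3_1_0 : Sv := ut
 (T.a (nat_lit 7) (nat_lit 8100) (T.a (nat_lit 14) (nat_lit 16200) (T.a (nat_lit 28) (nat_lit 32400) (T.n (nat_lit 4050) (T.l (nat_lit 0x20000000000004000000000005000000000080c000000000986000000000300c000000035105000000022400c0000000d910300000073c3804000005500c01000001d3a20000000a84b8600000069fa10c00000216054180000280f8a0200002101a08000))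
 (T.l (nat_lit 0x700000000000300000000000110000000002650000000001214000000000604c000000075b110000000366a3400000011588a000000d494e1c000005b18f04000001ab728080000c68a46010000452170a000000f282c180))))))

noncomputable def sF6_4_1_0 : Sv := ut
 (T.a (nat_lit 7) (nat_lit 8100) (T.a (nat_lit 14) (nat_lit 16200) (T.a (nat_lit 28) (nat_lit 32400) (T.n (nat_lit 4050) (T.l (nat_lit 0x70000000000020000000000015000000000124800000000161a0000000006e540000000725970000000388c400000001824100000007626e240000075a578800000215038100000c9d08a03000041a221004000174a50281))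
 (T.l (nat_lit 0xf000000000007000000000002400000000046a8000000001f29000000000a6980000000a2b9e000000049a86000000015a10f000000cd96828000004b08e840000014b0220800002243c180))))))

noncomputable def sF6_5_1_0 : Sv := ut
 (T.a (nat_lit 7) (nat_lit 8100) (T.a (nat_lit 14) (nat_lit 16200) (T.a (nat_lit 28) (nat_lit 32400) (T.n (nat_lit 4050) (T.l (nat_lit 0x800000000000200000000000140000000001c48000000001917000000000844000000006681100000003b942400000014e0070000006d85a0c000004324e010000013301a00000023050100))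
 (T.l (nat_lit 0x1600000000000a800000000003600000000056e40000000027b8000000000c0b80000000971a300000003fa85c00000011df8e0000005b74614000002084903))))))

noncomputable def sF6_6_1_0 : Sv := ut
 (T.a (nat_lit 7) (nat_lit 4050) (T.a (nat_lit 14) (nat_lit 8100) (T.a (nat_lit 28) (nat_lit 16200) (T.l (nat_lit 0xe000000000004c000000000ea900000000f6494000000105eae00000144d8284000188581aa00000ae84c5448009448308b8e033ec58a218143c8262050084)))))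

noncomputable def sF6_7_1_0 : Sv := ut
 (T.a (nat_lit 6) (nat_lit 4050) (T.a (nat_lit 12) (nat_lit 8100) (T.a (nat_lit 24) (nat_lit 16200) (T.l (nat_lit 0xa00000000000340000000006dc000000002ee5c000000028dd800000018c72380000089efa09000004648160800014d60d2c0)))))

noncomputable def sF6_8_1_0 : Sv := ut
 (T.a (nat_lit 6) (nat_lit 4050) (T.a (nat_lit 12) (nat_lit 8100) (T.a (nat_lit 24) (nat_lit 16200) (T.l (nat_lit 0xe00000000000400000000003e10000000015c6800000001965c000000075143000000415418b)))))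

noncomputable def sF6_9_1_0 : Sv := ut
 (T.a (nat_lit 4) (nat_lit 4050) (T.a (nat_lit 8) (nat_lit 8100) (T.l (nat_lit 0x5000000000001000000000006800000000005cc000000000362))))

noncomputable def sF6_10_1_0 : Sv := ut
 (T.l (nat_lit 0x30000000000004000000000005))

noncomputable def sF6_3_2_0 : Sv := ut
 (T.a (nat_lit 6) (nat_lit 8100) (T.a (nat_lit 12) (nat_lit 16200) (T.a (nat_lit 24) (nat_lit 32400) (T.n (nat_lit 4050) (T.l (nat_lit 0x100000000000040000000001c10000000000c04000000000401000000004100000000001e4400000000090d000000005682800000002388600000000b9c100000003294810000001788c040000005151000000010e302000))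
 (T.l (nat_lit 0x1000000000001400000000000600000000008200000000003c70000000001a1c0000000086c50000000079e100000000255c20000000cb940400000056730000000023848000000027540c00000029930200000006242000))))))

noncomputable def sF6_4_2_0 : Sv := ut
 (T.a (nat_lit 7) (nat_lit 8100) (T.a (nat_lit 14) (nat_lit 16200) (T.a (nat_lit 28) (nat_lit 32400) (T.n (nat_lit 4050) (T.l (nat_lit 0x1800000000000b000000000003c000000000c910000000005a40000000001d0f00000002a7c30000000121d0900000005a601800000476d204000001d4b2e080000080dc68100003199f0c000000d3830100))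
 (T.l (nat_lit 0x6000000000004c00000000001d00000000022840000000018220000000008c7c0000000527980000000399848000000141f8c0000005d25c18000003f10e0300000122f1c04000012a4c200))))))

noncomputable def sF6_5_2_0 : Sv := ut
 (T.a (nat_lit 7) (nat_lit 8100) (T.a (nat_lit 14) (nat_lit 16200) (T.n (nat_lit 4050) (T.l (nat_lit 0x2000000000000f00000000000480000000012140000000007e4400000000280e00000002e9c2400000014a18600000005b6008000003544f010000011b71a00000003464200))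
 (T.l (nat_lit 0xb000000000008c00000000002f00000000034e40000000020b4000000000beb400000004b120000000038ae54000000109f0a0000003bb481400000147c681)))))

noncomputable def sF6_6_2_0 : Sv := ut
 (T.a (nat_lit 7) (nat_lit 4050) (T.a (nat_lit 14) (nat_lit 8100) (T.a (nat_lit 28) (nat_lit 16200) (T.l (nat_lit 0x480000000008a20000000005ea40000000be12b000000c528e98000008385f9e00009aad9604c0063d9f14e8c0036e5d271c141caa43044182)))))

noncomputable def sF6_7_2_0 : Sv := ut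
 (T.a (nat_lit 6) (nat_lit 4050) (T.a (nat_lit 12) (nat_lit 8100) (T.a (nat_lit 24) (nat_lit 16200) (T.l (nat_lit 0x3c0000000003db0000000002d78000000023f1c0000000fd7a500000008f7b8c000003a8a9b1000008d652280)))))

noncomputable def sF6_8_2_0 : Sv := ut
 (T.a (nat_lit 6) (nat_lit 4050) (T.a (nat_lit 12) (nat_lit 8100) (T.l (nat_lit 0x440000000002de0000000001b800000000117dc000000045da40000000192288))))

noncomputable def sF6_9_2_0 : Sv := ut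
 (T.a (nat_lit 4) (nat_lit 4050) (T.a (nat_lit 8) (nat_lit 8100) (T.l (nat_lit 0x140000000000370000000000218000000000162))))

noncomputable def sF6_10_2_0 : Sv := ut
 (T.l (nat_lit 0x8000000000002))

noncomputable def sF6_4_3_0 : Sv := ut
 (T.a (nat_lit 6) (nat_lit 8100) (T.a (nat_lit 12) (nat_lit 16200) (T.a (nat_lit 24) (nat_lit 32400) (T.n (nat_lit 4050) (T.l (nat_lit 0x4000000000008000000000001c0000000002cd000000000132c00000000090d0000000022428000000028a4a00000000be0180000003fb74600000018bd10c0000009ea3420000005d5450400000960e0c1))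
 (T.l (nat_lit 0x2000000000000e000000000004c0000000004d40000000002550000000000b10000000005ef380000000259c800000000b61180000002a44820000001074c040000001c7080))))))

noncomputable def sF6_5_3_0 : Sv := ut
 (T.a (nat_lit 7) (nat_lit 8100) (T.a (nat_lit 14) (nat_lit 16200) (T.n (nat_lit 4050) (T.l (nat_lit 0x4000000000008000000000002400000000078c0000000004624000000001a090000000116a140000000b990300000003b48040000010e0b000000009281400000002040100))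
 (T.l (nat_lit 0x4400000000001e00000000000940000000011a6000000000788400000000239900000001b84400000000ad9890000000293a0c000000a68701)))))

noncomputable def sF6_6_3_0 : Sv := ut
 (T.a (nat_lit 7) (nat_lit 4050) (T.a (nat_lit 14) (nat_lit 8100) (T.a (nat_lit 28) (nat_lit 16200) (T.l (nat_lit 0x1400000000001a0000000003678000000065728000000034708000000474199e000031e4954480002c7704c0d001ca58241a14105a32050103)))))

noncomputable def sF6_7_3_0 : Sv := ut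
 (T.a (nat_lit 6) (nat_lit 4050) (T.a (nat_lit 12) (nat_lit 8100) (T.a (nat_lit 24) (nat_lit 16200) (T.l (nat_lit 0x100000000000130000000001b4c00000000fb57000000008713c00000056aa890000011d8580c0000085cd300)))))

noncomputable def sF6_8_3_0 : Sv := ut
 (T.a (nat_lit 5) (nat_lit 4050) (T.a (nat_lit 10) (nat_lit 8100) (T.l (nat_lit 0x1400000000001b0000000000868000000002ade000000000eac00000000148cc))))

noncomputable def sF6_9_3_0 : Sv := ut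
 (T.a (nat_lit 3) (nat_lit 4050) (T.a (nat_lit 6) (nat_lit 8100) (T.l (nat_lit 0x5000000000008c000000000069))))

noncomputable def sF6_10_3_0 : Sv := ut
 (T.l (nat_lit 0x3))

noncomputable def sF6_5_4_0 : Sv := ut
 (T.a (nat_lit 5) (nat_lit 4050) (T.a (nat_lit 10) (nat_lit 8100) (T.a (nat_lit 20) (nat_lit 16200) (T.l (nat_lit 0x100000000002080000000000c2000000000958400000002c54200000002b2500000000db48a00000045b6b2000000179820200000583d6200000024ca18400)))))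

noncomputable def sF6_6_4_0 : Sv := ut
 (T.a (nat_lit 6) (nat_lit 4050) (T.a (nat_lit 12) (nat_lit 8100) (T.a (nat_lit 24) (nat_lit 16200) (T.l (nat_lit 0x9000000000073c000000000553000000005dd440000002e770f0000001da97280000108a43860000455c5860800019034a041)))))

noncomputable def sF6_7_4_0 : Sv := ut
 (T.a (nat_lit 5) (nat_lit 4050) (T.a (nat_lit 10) (nat_lit 8100) (T.a (nat_lit 20) (nat_lit 16200) (T.l (nat_lit 0x7000000000052c0000000002cd0000000010f2400000002e72600000001f580400000045acc0)))))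

noncomputable def sF6_8_4_0 : Sv := ut
 (T.a (nat_lit 5) (nat_lit 4050) (T.a (nat_lit 10) (nat_lit 8100) (T.l (nat_lit 0xb00000000003480000000001b300000000076b000000000a4c8))))

noncomputable def sF6_9_4_0 : Sv := ut
 (T.a (nat_lit 2) (nat_lit 4050) (T.l (nat_lit 0x20000000000018000000000009)))

noncomputable def sF6_10_4_0 : Sv := ut
 (T.l (nat_lit 0x1))

noncomputable def sF6_6_5_0 : Sv := ut
 (T.a (nat_lit 5) (nat_lit 4050) (T.a (nat_lit 10) (nat_lit 8100) (T.a (nat_lit 20) (nat_lit 16200) (T.l (nat_lit 0x500000000000140000000000cb000000000362400000000498b000000013161800000065d4c600000019ab208000000b1a002)))))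

noncomputable def sF6_7_5_0 : Sv := ut
 (T.a (nat_lit 4) (nat_lit 4050) (T.a (nat_lit 8) (nat_lit 8100) (T.l (nat_lit 0x3000000000000c0000000000950000000000f4c000000000ae20000000016a40000000006440))))

noncomputable def sF6_8_5_0 : Sv := ut
 (T.a (nat_lit 4) (nat_lit 4050) (T.a (nat_lit 8) (nat_lit 8100) (T.l (nat_lit 0x6000000000002000000000004e00000000005e0000000000627))))

noncomputable def sF6_9_5_0 : Sv := ut
 (T.n (nat_lit 4050) (T.s (nat_lit 100) (T.l (nat_lit 0x1)))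
 (T.l (nat_lit 0x1)))

noncomputable def sF6_10_5_0 : Sv := ut
 (T.l (nat_lit 0x1))

noncomputable def sF6_7_6_0 : Sv := ut
 (T.a (nat_lit 2) (nat_lit 4050) (T.a (nat_lit 4) (nat_lit 8100) (T.l (nat_lit 0x1000000000003000000000002800000000002a0000000000020))))

noncomputable def sF6_8_6_0 : Sv := ut
 (T.a (nat_lit 3) (nat_lit 4050) (T.a (nat_lit 6) (nat_lit 8100) (T.l (nat_lit 0xc00000000000d000000000004c00000000004b))))

noncomputable def sF6_8_7_0 : Sv := ut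
 (T.n (nat_lit 8100) (T.l (nat_lit 0x30000000000004000000000004))
 (T.l (nat_lit 0x1)))

noncomputable def sF6_3_2_1 : Sv := ut
 (T.a (nat_lit 4) (nat_lit 8100) (T.a (nat_lit 8) (nat_lit 16200) (T.a (nat_lit 16) (nat_lit 32400) (T.n (nat_lit 4050) (T.l (nat_lit 0x4000000000000000000000000000000000000000000000000c00000000000200000000000d0000000000052000000000020800000000039100000000021c4000000000950000000000a900000000005820000000000d4000000000143100))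
 (T.l (nat_lit 0x100000000000040000000000210000000000144000000000050000000000114000000000084000000000028c00000000037100000000021c400000000073000000000054400000000022000))))))

noncomputable def sF6_4_2_1 : Sv := ut
 (T.a (nat_lit 5) (nat_lit 8100) (T.a (nat_lit 10) (nat_lit 16200) (T.a (nat_lit 20) (nat_lit 32400) (T.n (nat_lit 4050) (T.l (nat_lit 0x800000000000100000000000100000000000420000000000590000000000182000000000880c0000000039a1000000001960400000001d4e000000001f52800000000730400000000dc8080000000130400))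
 (T.l (nat_lit 0x100000000000060000000000020000000000149000000000089c0000000002a6000000000ba10000000005642000000001660400000003d501000000010d180000000041c40))))))

noncomputable def sF6_5_2_1 : Sv := ut
 (T.a (nat_lit 5) (nat_lit 4050) (T.a (nat_lit 10) (nat_lit 8100) (T.a (nat_lit 20) (nat_lit 16200) (T.l (nat_lit 0xc000000000002000000000039c00000000118400000000117980000000755c3000000233860c0000014dcd010000066b2f28400012388a040000088c5440800011d2810800)))))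

noncomputable def sF6_6_2_1 : Sv := ut
 (T.a (nat_lit 5) (nat_lit 4050) (T.a (nat_lit 10) (nat_lit 8100) (T.a (nat_lit 20) (nat_lit 16200) (T.l (nat_lit 0x18000000000005000000000053400000000166a0000000018ab000000007e2860000002b1d798000000cd4942000002c64c204000010858c40)))))

noncomputable def sF6_7_2_1 : Sv := ut
 (T.a (nat_lit 5) (nat_lit 4050) (T.a (nat_lit 10) (nat_lit 8100) (T.a (nat_lit 20) (nat_lit 16200) (T.l (nat_lit 0x1400000000000600000000005ac000000001608000000000f9240000000441c4000000056f408000000341841)))))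

noncomputable def sF6_8_2_1 : Sv := ut
 (T.a (nat_lit 4) (nat_lit 4050) (T.a (nat_lit 8) (nat_lit 8100) (T.l (nat_lit 0x1800000000000500000000001b00000000001a60000000001e18000000002351))))

noncomputable def sF6_9_2_1 : Sv := ut
 (T.n (nat_lit 4050) (T.s (nat_lit 50) (T.l (nat_lit 0x20000000000004000000000003)))
 (T.l (nat_lit 0x4000000000002)))

noncomputable def sF6_10_2_1 : Sv := ut
 (T.s (nat_lit 50) (T.l (nat_lit 0x1)))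

noncomputable def sF6_4_3_1 : Sv := ut
 (T.a (nat_lit 5) (nat_lit 8100) (T.a (nat_lit 10) (nat_lit 16200) (T.a (nat_lit 20) (nat_lit 32400) (T.n (nat_lit 4050) (T.l (nat_lit 0x1000000000000c000000000004000000000031000000000016500000000007100000000029e3000000001168c00000000556200000000f33840000000640a10000000169100000000141420))
 (T.l (nat_lit 0x40000000000050000000000018000000000088000000000059c00000000020700000000059140000000032040000000010688000000013d0100000000ab280000000019020))))))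

noncomputable def sF6_5_3_1 : Sv := ut
 (T.a (nat_lit 5) (nat_lit 4050) (T.a (nat_lit 10) (nat_lit 8100) (T.a (nat_lit 20) (nat_lit 16200) (T.l (nat_lit 0x2000000000018c000000000144000000000b71000000003c9c30000000295688000000edd141000002d34f30000001d6aa4600000584585080000154628400)))))

noncomputable def sF6_6_3_1 : Sv := ut
 (T.a (nat_lit 5) (nat_lit 4050) (T.a (nat_lit 10) (nat_lit 8100) (T.a (nat_lit 20) (nat_lit 16200) (T.l (nat_lit 0x7000000000033000000000020f0000000011b380000000476cc00000002bf920000000bc6d65000001c290308000008d42021)))))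

noncomputable def sF6_7_3_1 : Sv := ut
 (T.a (nat_lit 5) (nat_lit 4050) (T.a (nat_lit 10) (nat_lit 8100) (T.a (nat_lit 20) (nat_lit 16200) (T.l (nat_lit 0x50000000000320000000000209000000000aa1c000000024244000000014e5880000002494a0)))))

noncomputable def sF6_8_3_1 : Sv := ut
 (T.a (nat_lit 4) (nat_lit 4050) (T.a (nat_lit 8) (nat_lit 8100) (T.l (nat_lit 0x800000000000ec00000000008c0000000001660000000000634))))

noncomputable def sF6_9_3_1 : Sv := ut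
 (T.n (nat_lit 4050) (T.s (nat_lit 50) (T.l (nat_lit 0x4000000000001)))
 (T.l (nat_lit 0x4000000000002)))

noncomputable def sF6_5_4_1 : Sv := ut
 (T.a (nat_lit 4) (nat_lit 4050) (T.a (nat_lit 8) (nat_lit 8100) (T.a (nat_lit 16) (nat_lit 16200) (T.l (nat_lit 0x40000000000200000000000d04000000000540000000001a10000000003a720000000022d4400000004a730000000059d4400000003341000)))))

noncomputable def sF6_6_4_1 : Sv := ut
 (T.a (nat_lit 5) (nat_lit 4050) (T.a (nat_lit 10) (nat_lit 8100) (T.a (nat_lit 20) (nat_lit 16200) (T.l (nat_lit 0x1000000000001c00000000010700000000076240000000039a6000000015459400000037c0e200000025ab184000004639020)))))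

noncomputable def sF6_7_4_1 : Sv := ut
 (T.a (nat_lit 4) (nat_lit 4050) (T.a (nat_lit 8) (nat_lit 8100) (T.a (nat_lit 16) (nat_lit 16200) (T.l (nat_lit 0x1000000000001400000000008500000000013540000000009c20000000016a04000000015530)))))

noncomputable def sF6_8_4_1 : Sv := ut
 (T.a (nat_lit 4) (nat_lit 4050) (T.a (nat_lit 8) (nat_lit 8100) (T.l (nat_lit 0x20000000000024000000000058000000000099c000000000233))))

noncomputable def sF6_9_4_1 : Sv := ut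
 (T.n (nat_lit 4050) (T.s (nat_lit 50) (T.l (nat_lit 0x1)))
 (T.l (nat_lit 0x1)))

noncomputable def sF6_6_5_1 : Sv := ut
 (T.a (nat_lit 4) (nat_lit 4050) (T.a (nat_lit 8) (nat_lit 8100) (T.a (nat_lit 16) (nat_lit 16200) (T.l (nat_lit 0x80000000000250000000000154000000000665000000000e590000000005a430000000099884000000043401)))))

noncomputable def sF6_7_5_1 : Sv := ut
 (T.a (nat_lit 3) (nat_lit 4050) (T.a (nat_lit 6) (nat_lit 8100) (T.l (nat_lit 0x400000000001200000000000c80000000000f90000000000d80000000000690))))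

noncomputable def sF6_8_5_1 : Sv := ut
 (T.a (nat_lit 3) (nat_lit 4050) (T.a (nat_lit 6) (nat_lit 8100) (T.l (nat_lit 0x1000000000000e000000000007400000000008c))))

noncomputable def sF6_7_6_1 : Sv := ut
 (T.n (nat_lit 8150) (T.s (nat_lit 4100) (T.l (nat_lit 0x10000000000004000000000001)))
 (T.l (nat_lit 0x4000000000001)))

noncomputable def sF6_8_6_1 : Sv := ut
 (T.n (nat_lit 4100) (T.l (nat_lit 0x4000000000002000000000000c000000000001))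
 (T.l (nat_lit 0x1)))

noncomputable def sF6_8_7_1 : Sv := ut
 (T.l (nat_lit 0x10000000000004000000000002))

noncomputable def sF6_4_3_2 : Sv := ut
 (T.a (nat_lit 3) (nat_lit 8100) (T.a (nat_lit 6) (nat_lit 16200) (T.a (nat_lit 12) (nat_lit 32400) (T.n (nat_lit 4100) (T.l (nat_lit 0x200000000000000000000000020000000000004000000000023000000000006400000000013300000000002840000000001ea00000000005640000000009d90000000001220000000002b09))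
 (T.l (nat_lit 0x20000000000008000000000012000000000008800000000002a000000000028400000000012900000000002400000000000d0))))))

noncomputable def sF6_5_3_2 : Sv := ut
 (T.a (nat_lit 4) (nat_lit 4050) (T.a (nat_lit 8) (nat_lit 8100) (T.a (nat_lit 16) (nat_lit 16200) (T.l (nat_lit 0x1000000000000000000000002100000000004c0000000000541000000001110000000001763000000001210800000003673100000001110400000001313000)))))

noncomputable def sF6_6_3_2 : Sv := ut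
 (T.a (nat_lit 4) (nat_lit 4050) (T.a (nat_lit 8) (nat_lit 8100) (T.a (nat_lit 16) (nat_lit 16200) (T.l (nat_lit 0x300000000000080000000000370000000000590000000000a66000000001218c000000045b3300000000d9484000000061501)))))

noncomputable def sF6_7_3_2 : Sv := ut
 (T.a (nat_lit 3) (nat_lit 4050) (T.a (nat_lit 6) (nat_lit 8100) (T.a (nat_lit 12) (nat_lit 16200) (T.l (nat_lit 0x2000000000000000000000001b00000000001c40000000001310000000001360000000001658)))))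

noncomputable def sF6_8_3_2 : Sv := ut
 (T.a (nat_lit 3) (nat_lit 4050) (T.a (nat_lit 6) (nat_lit 8100) (T.l (nat_lit 0x4000000000000800000000000e00000000000480000000000c4))))

noncomputable def sF6_9_3_2 : Sv := ut
 (T.s (nat_lit 100) (T.l (nat_lit 0x1)))

noncomputable def sF6_10_3_2 : Sv := ut
 (T.l (nat_lit 0x1))

noncomputable def sF6_5_4_2 : Sv := ut
 (T.a (nat_lit 3) (nat_lit 4050) (T.a (nat_lit 6) (nat_lit 8100) (T.a (nat_lit 12) (nat_lit 16200) (T.l (nat_lit 0x2000000000004800000000012200000000004c0000000000a1000000000044400000000049000000000082000)))))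

noncomputable def sF6_6_4_2 : Sv := ut
 (T.a (nat_lit 3) (nat_lit 4050) (T.a (nat_lit 6) (nat_lit 8100) (T.a (nat_lit 12) (nat_lit 16200) (T.l (nat_lit 0x800000000000b000000000008c00000000016b0000000001788000000000bd9000000000ad20000000002480)))))

noncomputable def sF6_7_4_2 : Sv := ut
 (T.a (nat_lit 3) (nat_lit 4050) (T.a (nat_lit 6) (nat_lit 8100) (T.l (nat_lit 0x400000000000a00000000000a40000000001210000000000b80000000000288))))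

noncomputable def sF6_8_4_2 : Sv := ut
 (T.a (nat_lit 3) (nat_lit 4050) (T.a (nat_lit 6) (nat_lit 8100) (T.l (nat_lit 0x800000000000c000000000004c00000000004a))))

noncomputable def sF6_6_5_2 : Sv := ut
 (T.a (nat_lit 3) (nat_lit 4050) (T.a (nat_lit 6) (nat_lit 8100) (T.a (nat_lit 12) (nat_lit 16200) (T.l (nat_lit 0x300000000000480000000000d4000000000026800000000038a0000000001b240000000030c1)))))

noncomputable def sF6_7_5_2 : Sv := ut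
 (T.a (nat_lit 2) (nat_lit 4050) (T.a (nat_lit 4) (nat_lit 8100) (T.l (nat_lit 0x1000000000002000000000001c0000000000060000000000054))))

noncomputable def sF6_8_5_2 : Sv := ut
 (T.n (nat_lit 4100) (T.l (nat_lit 0x40000000000008000000000003))
 (T.n (nat_lit 4000) (T.l (nat_lit 0x1))
 (T.l (nat_lit 0x1))))

noncomputable def sF6_7_6_2 : Sv := ut
 (T.n (nat_lit 8100) (T.s (nat_lit 4200) (T.l (nat_lit 0x1)))
 (T.l (nat_lit 0x1)))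

noncomputable def sF6_8_6_2 : Sv := ut
 (T.l (nat_lit 0x10000000000004000000000001))

noncomputable def sF6_8_7_2 : Sv := ut
 (T.l (nat_lit 0x10000000000000000000000002))

noncomputable def sF6_5_4_3 : Sv := ut
 (T.n (nat_lit 12300) (T.s (nat_lit 8350) (T.l (nat_lit 0x1)))
 (T.n (nat_lit 3900) (T.l (nat_lit 0x1))
 (T.l (nat_lit 0x40000000000010000000000000000000000001))))

noncomputable def sF6_6_4_3 : Sv := ut
 (T.a (nat_lit 2) (nat_lit 4050) (T.a (nat_lit 4) (nat_lit 8100) (T.a (nat_lit 8) (nat_lit 16200) (T.l (nat_lit 0x4000000000000000000000001400000000000400000000000900000000000540000000000540000000000080)))))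

noncomputable def sF6_7_4_3 : Sv := ut
 (T.n (nat_lit 4100) (T.s (nat_lit 150) (T.l (nat_lit 0x10000000000000000000000001)))
 (T.n (nat_lit 4000) (T.l (nat_lit 0x10000000000004000000000001))
 (T.l (nat_lit 0x4000000000001))))

noncomputable def sF6_8_4_3 : Sv := ut
 (T.n (nat_lit 4050) (T.s (nat_lit 50) (T.l (nat_lit 0x20000000000000000000000001)))
 (T.l (nat_lit 0x1)))

noncomputable def sF6_6_5_3 : Sv := ut
 (T.a (nat_lit 2) (nat_lit 4050) (T.a (nat_lit 4) (nat_lit 8100) (T.l (nat_lit 0x400000000000500000000000540000000000250000000000140000000000010))))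

noncomputable def sF6_7_5_3 : Sv := ut
 (T.n (nat_lit 8150) (T.s (nat_lit 4100) (T.l (nat_lit 0x4000000000001)))
 (T.l (nat_lit 0x1)))

noncomputable def sF6_8_5_3 : Sv := ut
 (T.l (nat_lit 0x10000000000004000000000001))

noncomputable def sF6_8_6_3 : Sv := ut
 (T.s (nat_lit 50) (T.l (nat_lit 0x1)))

noncomputable def sF6_8_7_3 : Sv := ut
 (T.l (nat_lit 0x1))

noncomputable def sF6_6_5_4 : Sv := ut
 (T.a (nat_lit 1) (nat_lit 8100) (T.a (nat_lit 2) (nat_lit 16200) (T.l (nat_lit 0x1000000000000000000000000100000000000000000000000030000000000000000000000007))))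

noncomputable def sF6_8_5_4 : Sv := ut
 (T.l (nat_lit 0x10000000000000000000000001))

noncomputable def sF6_8_7_4 : Sv := ut
 (T.l (nat_lit 0x1))

noncomputable def sF6_8_7_6 : Sv := ut
 (T.l (nat_lit 0x1))

noncomputable def slF6_0 : Ls (Ls Sv) :=
 (Ls.cons Ls.nil
 (Ls.cons (Ls.cons sF6_2_1_0 (Ls.cons sF6_3_1_0 (Ls.cons sF6_4_1_0 (Ls.cons sF6_5_1_0 (Ls.cons sF6_6_1_0 (Ls.cons sF6_7_1_0 (Ls.cons sF6_8_1_0 (Ls.cons sF6_9_1_0 (Ls.cons sF6_10_1_0 (Ls.cons u0 (Ls.cons u0 (Ls.cons u0 (Ls.cons u0 (Ls.cons u0 (Ls.cons u0 (Ls.cons u0 (Ls.cons u0 (Ls.cons u0 (Ls.cons u0 (Ls.cons u0 (Ls.cons u0 (Ls.cons u0 (Ls.cons u0 Ls.nil)))))))))))))))))))))))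
 (Ls.cons (Ls.cons sF6_3_2_0 (Ls.cons sF6_4_2_0 (Ls.cons sF6_5_2_0 (Ls.cons sF6_6_2_0 (Ls.cons sF6_7_2_0 (Ls.cons sF6_8_2_0 (Ls.cons sF6_9_2_0 (Ls.cons sF6_10_2_0 (Ls.cons u0 (Ls.cons u0 (Ls.cons u0 (Ls.cons u0 (Ls.cons u0 (Ls.cons u0 (Ls.cons u0 (Ls.cons u0 (Ls.cons u0 (Ls.cons u0 (Ls.cons u0 (Ls.cons u0 (Ls.cons u0 (Ls.cons u0 Ls.nil))))))))))))))))))))))
 (Ls.cons (Ls.cons sF6_4_3_0 (Ls.cons sF6_5_3_0 (Ls.cons sF6_6_3_0 (Ls.cons sF6_7_3_0 (Ls.cons sF6_8_3_0 (Ls.cons sF6_9_3_0 (Ls.cons sF6_10_3_0 (Ls.cons u0 (Ls.cons u0 (Ls.cons u0 (Ls.cons u0 (Ls.cons u0 (Ls.cons u0 (Ls.cons u0 (Ls.cons u0 (Ls.cons u0 (Ls.cons u0 (Ls.cons u0 (Ls.cons u0 (Ls.cons u0 (Ls.cons u0 Ls.nil)))))))))))))))))))))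
 (Ls.cons (Ls.cons sF6_5_4_0 (Ls.cons sF6_6_4_0 (Ls.cons sF6_7_4_0 (Ls.cons sF6_8_4_0 (Ls.cons sF6_9_4_0 (Ls.cons sF6_10_4_0 (Ls.cons u0 (Ls.cons u0 (Ls.cons u0 (Ls.cons u0 (Ls.cons u0 (Ls.cons u0 (Ls.cons u0 (Ls.cons u0 (Ls.cons u0 (Ls.cons u0 (Ls.cons u0 (Ls.cons u0 (Ls.cons u0 Ls.nil)))))))))))))))))))
 (Ls.cons (Ls.cons sF6_6_5_0 (Ls.cons sF6_7_5_0 (Ls.cons sF6_8_5_0 (Ls.cons sF6_9_5_0 (Ls.cons sF6_10_5_0 (Ls.cons u0 (Ls.cons u0 (Ls.cons u0 (Ls.cons u0 (Ls.cons u0 (Ls.cons u0 (Ls.cons u0 (Ls.cons u0 (Ls.cons u0 (Ls.cons u0 (Ls.cons u0 (Ls.cons u0 (Ls.cons u0 Ls.nil))))))))))))))))))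
 (Ls.cons (Ls.cons sF6_7_6_0 (Ls.cons sF6_8_6_0 (Ls.cons u0 (Ls.cons u0 (Ls.cons u0 (Ls.cons u0 (Ls.cons u0 (Ls.cons u0 (Ls.cons u0 (Ls.cons u0 (Ls.cons u0 (Ls.cons u0 (Ls.cons u0 (Ls.cons u0 (Ls.cons u0 (Ls.cons u0 Ls.nil))))))))))))))))
 (Ls.cons (Ls.cons sF6_8_7_0 (Ls.cons u0 (Ls.cons u0 (Ls.cons u0 (Ls.cons u0 (Ls.cons u0 (Ls.cons u0 (Ls.cons u0 (Ls.cons u0 (Ls.cons u0 (Ls.cons u0 (Ls.cons u0 (Ls.cons u0 (Ls.cons u0 (Ls.cons u0 Ls.nil)))))))))))))))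
 (Ls.cons (Ls.cons u0 (Ls.cons u0 (Ls.cons u0 (Ls.cons u0 (Ls.cons u0 (Ls.cons u0 (Ls.cons u0 (Ls.cons u0 (Ls.cons u0 (Ls.cons u0 (Ls.cons u0 (Ls.cons u0 (Ls.cons u0 (Ls.cons u0 Ls.nil))))))))))))))
 (Ls.cons (Ls.cons u0 (Ls.cons u0 (Ls.cons u0 (Ls.cons u0 (Ls.cons u0 (Ls.cons u0 (Ls.cons u0 (Ls.cons u0 (Ls.cons u0 (Ls.cons u0 (Ls.cons u0 (Ls.cons u0 (Ls.cons u0 Ls.nil)))))))))))))
 (Ls.cons (Ls.cons u0 (Ls.cons u0 (Ls.cons u0 (Ls.cons u0 (Ls.cons u0 (Ls.cons u0 (Ls.cons u0 (Ls.cons u0 (Ls.cons u0 (Ls.cons u0 (Ls.cons u0 (Ls.cons u0 Ls.nil))))))))))))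
 (Ls.cons (Ls.cons u0 (Ls.cons u0 (Ls.cons u0 (Ls.cons u0 (Ls.cons u0 (Ls.cons u0 (Ls.cons u0 (Ls.cons u0 (Ls.cons u0 (Ls.cons u0 (Ls.cons u0 Ls.nil)))))))))))
 (Ls.cons (Ls.cons u0 (Ls.cons u0 (Ls.cons u0 (Ls.cons u0 (Ls.cons u0 (Ls.cons u0 (Ls.cons u0 (Ls.cons u0 (Ls.cons u0 Ls.nil)))))))))
 (Ls.cons (Ls.cons u0 (Ls.cons u0 (Ls.cons u0 (Ls.cons u0 (Ls.cons u0 (Ls.cons u0 (Ls.cons u0 (Ls.cons u0 Ls.nil))))))))
 (Ls.cons (Ls.cons u0 (Ls.cons u0 (Ls.cons u0 (Ls.cons u0 (Ls.cons u0 (Ls.cons u0 (Ls.cons u0 Ls.nil)))))))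
 (Ls.cons (Ls.cons u0 (Ls.cons u0 (Ls.cons u0 (Ls.cons u0 (Ls.cons u0 (Ls.cons u0 Ls.nil))))))
 (Ls.cons (Ls.cons u0 (Ls.cons u0 (Ls.cons u0 (Ls.cons u0 Ls.nil))))
 (Ls.cons (Ls.cons u0 (Ls.cons u0 (Ls.cons u0 Ls.nil)))
 (Ls.cons (Ls.cons u0 (Ls.cons u0 Ls.nil))
 (Ls.cons (Ls.cons u0 Ls.nil)
 Ls.nil))))))))))))))))))))

noncomputable def slF6_1 : Ls (Ls Sv) :=
 (Ls.cons Ls.nil
 (Ls.cons Ls.nil
 (Ls.cons (Ls.cons sF6_3_2_1 (Ls.cons sF6_4_2_1 (Ls.cons sF6_5_2_1 (Ls.cons sF6_6_2_1 (Ls.cons sF6_7_2_1 (Ls.cons sF6_8_2_1 (Ls.cons sF6_9_2_1 (Ls.cons sF6_10_2_1 (Ls.cons u0 (Ls.cons u0 (Ls.cons u0 (Ls.cons u0 (Ls.cons u0 (Ls.cons u0 (Ls.cons u0 (Ls.cons u0 (Ls.cons u0 (Ls.cons u0 (Ls.cons u0 (Ls.cons u0 (Ls.cons u0 (Ls.cons u0 Ls.nil))))))))))))))))))))))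
 (Ls.cons (Ls.cons sF6_4_3_1 (Ls.cons sF6_5_3_1 (Ls.cons sF6_6_3_1 (Ls.cons sF6_7_3_1 (Ls.cons sF6_8_3_1 (Ls.cons sF6_9_3_1 (Ls.cons u0 (Ls.cons u0 (Ls.cons u0 (Ls.cons u0 (Ls.cons u0 (Ls.cons u0 (Ls.cons u0 (Ls.cons u0 (Ls.cons u0 (Ls.cons u0 (Ls.cons u0 (Ls.cons u0 (Ls.cons u0 (Ls.cons u0 Ls.nil))))))))))))))))))))
 (Ls.cons (Ls.cons sF6_5_4_1 (Ls.cons sF6_6_4_1 (Ls.cons sF6_7_4_1 (Ls.cons sF6_8_4_1 (Ls.cons sF6_9_4_1 (Ls.cons u0 (Ls.cons u0 (Ls.cons u0 (Ls.cons u0 (Ls.cons u0 (Ls.cons u0 (Ls.cons u0 (Ls.cons u0 (Ls.cons u0 (Ls.cons u0 (Ls.cons u0 (Ls.cons u0 (Ls.cons u0 (Ls.cons u0 Ls.nil)))))))))))))))))))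
 (Ls.cons (Ls.cons sF6_6_5_1 (Ls.cons sF6_7_5_1 (Ls.cons sF6_8_5_1 (Ls.cons u0 (Ls.cons u0 (Ls.cons u0 (Ls.cons u0 (Ls.cons u0 (Ls.cons u0 (Ls.cons u0 (Ls.cons u0 (Ls.cons u0 (Ls.cons u0 (Ls.cons u0 (Ls.cons u0 (Ls.cons u0 Ls.nil))))))))))))))))
 (Ls.cons (Ls.cons sF6_7_6_1 (Ls.cons sF6_8_6_1 (Ls.cons u0 (Ls.cons u0 (Ls.cons u0 (Ls.cons u0 (Ls.cons u0 (Ls.cons u0 (Ls.cons u0 (Ls.cons u0 (Ls.cons u0 (Ls.cons u0 (Ls.cons u0 (Ls.cons u0 (Ls.cons u0 Ls.nil)))))))))))))))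
 (Ls.cons (Ls.cons sF6_8_7_1 (Ls.cons u0 (Ls.cons u0 (Ls.cons u0 (Ls.cons u0 (Ls.cons u0 (Ls.cons u0 (Ls.cons u0 (Ls.cons u0 (Ls.cons u0 (Ls.cons u0 (Ls.cons u0 (Ls.cons u0 (Ls.cons u0 Ls.nil))))))))))))))
 (Ls.cons (Ls.cons u0 (Ls.cons u0 (Ls.cons u0 (Ls.cons u0 (Ls.cons u0 (Ls.cons u0 (Ls.cons u0 (Ls.cons u0 (Ls.cons u0 (Ls.cons u0 (Ls.cons u0 (Ls.cons u0 (Ls.cons u0 Ls.nil)))))))))))))
 (Ls.cons (Ls.cons u0 (Ls.cons u0 (Ls.cons u0 (Ls.cons u0 (Ls.cons u0 (Ls.cons u0 (Ls.cons u0 (Ls.cons u0 (Ls.cons u0 (Ls.cons u0 (Ls.cons u0 Ls.nil)))))))))))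
 (Ls.cons (Ls.cons u0 (Ls.cons u0 (Ls.cons u0 (Ls.cons u0 (Ls.cons u0 (Ls.cons u0 (Ls.cons u0 (Ls.cons u0 (Ls.cons u0 (Ls.cons u0 Ls.nil))))))))))
 (Ls.cons (Ls.cons u0 (Ls.cons u0 (Ls.cons u0 (Ls.cons u0 (Ls.cons u0 (Ls.cons u0 (Ls.cons u0 (Ls.cons u0 (Ls.cons u0 Ls.nil)))))))))
 (Ls.cons (Ls.cons u0 (Ls.cons u0 (Ls.cons u0 (Ls.cons u0 (Ls.cons u0 (Ls.cons u0 (Ls.cons u0 (Ls.cons u0 Ls.nil))))))))
 (Ls.cons (Ls.cons u0 (Ls.cons u0 (Ls.cons u0 (Ls.cons u0 (Ls.cons u0 (Ls.cons u0 Ls.nil))))))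
 (Ls.cons (Ls.cons u0 (Ls.cons u0 (Ls.cons u0 (Ls.cons u0 (Ls.cons u0 Ls.nil)))))
 (Ls.cons (Ls.cons u0 (Ls.cons u0 (Ls.cons u0 (Ls.cons u0 Ls.nil))))
 (Ls.cons (Ls.cons u0 (Ls.cons u0 (Ls.cons u0 Ls.nil)))
 (Ls.cons (Ls.cons u0 Ls.nil)
 (Ls.cons Ls.nil
 (Ls.cons Ls.nil
 Ls.nil))))))))))))))))))))

noncomputable def slF6_2 : Ls (Ls Sv) :=
 (Ls.cons Ls.nil
 (Ls.cons Ls.nil
 (Ls.cons Ls.nil
 (Ls.cons (Ls.cons sF6_4_3_2 (Ls.cons sF6_5_3_2 (Ls.cons sF6_6_3_2 (Ls.cons sF6_7_3_2 (Ls.cons sF6_8_3_2 (Ls.cons sF6_9_3_2 (Ls.cons sF6_10_3_2 (Ls.cons u0 (Ls.cons u0 (Ls.cons u0 (Ls.cons u0 (Ls.cons u0 (Ls.cons u0 (Ls.cons u0 (Ls.cons u0 (Ls.cons u0 (Ls.cons u0 (Ls.cons u0 (Ls.cons u0 Ls.nil)))))))))))))))))))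
 (Ls.cons (Ls.cons sF6_5_4_2 (Ls.cons sF6_6_4_2 (Ls.cons sF6_7_4_2 (Ls.cons sF6_8_4_2 (Ls.cons u0 (Ls.cons u0 (Ls.cons u0 (Ls.cons u0 (Ls.cons u0 (Ls.cons u0 (Ls.cons u0 (Ls.cons u0 (Ls.cons u0 (Ls.cons u0 (Ls.cons u0 (Ls.cons u0 (Ls.cons u0 Ls.nil)))))))))))))))))
 (Ls.cons (Ls.cons sF6_6_5_2 (Ls.cons sF6_7_5_2 (Ls.cons sF6_8_5_2 (Ls.cons u0 (Ls.cons u0 (Ls.cons u0 (Ls.cons u0 (Ls.cons u0 (Ls.cons u0 (Ls.cons u0 (Ls.cons u0 (Ls.cons u0 (Ls.cons u0 (Ls.cons u0 (Ls.cons u0 (Ls.cons u0 Ls.nil))))))))))))))))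
 (Ls.cons (Ls.cons sF6_7_6_2 (Ls.cons sF6_8_6_2 (Ls.cons u0 (Ls.cons u0 (Ls.cons u0 (Ls.cons u0 (Ls.cons u0 (Ls.cons u0 (Ls.cons u0 (Ls.cons u0 (Ls.cons u0 (Ls.cons u0 (Ls.cons u0 (Ls.cons u0 (Ls.cons u0 Ls.nil)))))))))))))))
 (Ls.cons (Ls.cons sF6_8_7_2 (Ls.cons u0 (Ls.cons u0 (Ls.cons u0 (Ls.cons u0 (Ls.cons u0 (Ls.cons u0 (Ls.cons u0 (Ls.cons u0 (Ls.cons u0 (Ls.cons u0 (Ls.cons u0 (Ls.cons u0 (Ls.cons u0 Ls.nil))))))))))))))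
 (Ls.cons (Ls.cons u0 (Ls.cons u0 (Ls.cons u0 (Ls.cons u0 (Ls.cons u0 (Ls.cons u0 (Ls.cons u0 (Ls.cons u0 (Ls.cons u0 (Ls.cons u0 (Ls.cons u0 (Ls.cons u0 Ls.nil))))))))))))
 (Ls.cons (Ls.cons u0 (Ls.cons u0 (Ls.cons u0 (Ls.cons u0 (Ls.cons u0 (Ls.cons u0 (Ls.cons u0 (Ls.cons u0 (Ls.cons u0 (Ls.cons u0 (Ls.cons u0 Ls.nil)))))))))))
 (Ls.cons (Ls.cons u0 (Ls.cons u0 (Ls.cons u0 (Ls.cons u0 (Ls.cons u0 (Ls.cons u0 (Ls.cons u0 (Ls.cons u0 (Ls.cons u0 (Ls.cons u0 Ls.nil))))))))))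
 (Ls.cons (Ls.cons u0 (Ls.cons u0 (Ls.cons u0 (Ls.cons u0 (Ls.cons u0 (Ls.cons u0 (Ls.cons u0 (Ls.cons u0 (Ls.cons u0 Ls.nil)))))))))
 (Ls.cons (Ls.cons u0 (Ls.cons u0 (Ls.cons u0 (Ls.cons u0 (Ls.cons u0 (Ls.cons u0 (Ls.cons u0 Ls.nil)))))))
 (Ls.cons (Ls.cons u0 (Ls.cons u0 (Ls.cons u0 (Ls.cons u0 (Ls.cons u0 (Ls.cons u0 Ls.nil))))))
 (Ls.cons (Ls.cons u0 (Ls.cons u0 (Ls.cons u0 (Ls.cons u0 (Ls.cons u0 Ls.nil)))))
 (Ls.cons (Ls.cons u0 (Ls.cons u0 (Ls.cons u0 (Ls.cons u0 Ls.nil))))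
 (Ls.cons (Ls.cons u0 (Ls.cons u0 Ls.nil))
 (Ls.cons (Ls.cons u0 Ls.nil)
 (Ls.cons Ls.nil
 (Ls.cons Ls.nil
 Ls.nil))))))))))))))))))))

noncomputable def slF6_3 : Ls (Ls Sv) :=
 (Ls.cons Ls.nil
 (Ls.cons Ls.nil
 (Ls.cons Ls.nil
 (Ls.cons Ls.nil
 (Ls.cons (Ls.cons sF6_5_4_3 (Ls.cons sF6_6_4_3 (Ls.cons sF6_7_4_3 (Ls.cons sF6_8_4_3 (Ls.cons u0 (Ls.cons u0 (Ls.cons u0 (Ls.cons u0 (Ls.cons u0 (Ls.cons u0 (Ls.cons u0 (Ls.cons u0 (Ls.cons u0 (Ls.cons u0 (Ls.cons u0 (Ls.cons u0 (Ls.cons u0 Ls.nil)))))))))))))))))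
 (Ls.cons (Ls.cons sF6_6_5_3 (Ls.cons sF6_7_5_3 (Ls.cons sF6_8_5_3 (Ls.cons u0 (Ls.cons u0 (Ls.cons u0 (Ls.cons u0 (Ls.cons u0 (Ls.cons u0 (Ls.cons u0 (Ls.cons u0 (Ls.cons u0 (Ls.cons u0 (Ls.cons u0 (Ls.cons u0 (Ls.cons u0 Ls.nil))))))))))))))))
 (Ls.cons (Ls.cons u0 (Ls.cons sF6_8_6_3 (Ls.cons u0 (Ls.cons u0 (Ls.cons u0 (Ls.cons u0 (Ls.cons u0 (Ls.cons u0 (Ls.cons u0 (Ls.cons u0 (Ls.cons u0 (Ls.cons u0 (Ls.cons u0 (Ls.cons u0 (Ls.cons u0 Ls.nil)))))))))))))))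
 (Ls.cons (Ls.cons sF6_8_7_3 (Ls.cons u0 (Ls.cons u0 (Ls.cons u0 (Ls.cons u0 (Ls.cons u0 (Ls.cons u0 (Ls.cons u0 (Ls.cons u0 (Ls.cons u0 (Ls.cons u0 (Ls.cons u0 (Ls.cons u0 Ls.nil)))))))))))))
 (Ls.cons (Ls.cons u0 (Ls.cons u0 (Ls.cons u0 (Ls.cons u0 (Ls.cons u0 (Ls.cons u0 (Ls.cons u0 (Ls.cons u0 (Ls.cons u0 (Ls.cons u0 (Ls.cons u0 (Ls.cons u0 Ls.nil))))))))))))
 (Ls.cons (Ls.cons u0 (Ls.cons u0 (Ls.cons u0 (Ls.cons u0 (Ls.cons u0 (Ls.cons u0 (Ls.cons u0 (Ls.cons u0 (Ls.cons u0 (Ls.cons u0 (Ls.cons u0 Ls.nil)))))))))))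
 (Ls.cons (Ls.cons u0 (Ls.cons u0 (Ls.cons u0 (Ls.cons u0 (Ls.cons u0 (Ls.cons u0 (Ls.cons u0 (Ls.cons u0 (Ls.cons u0 (Ls.cons u0 Ls.nil))))))))))
 (Ls.cons (Ls.cons u0 (Ls.cons u0 (Ls.cons u0 (Ls.cons u0 (Ls.cons u0 (Ls.cons u0 (Ls.cons u0 (Ls.cons u0 Ls.nil))))))))
 (Ls.cons (Ls.cons u0 (Ls.cons u0 (Ls.cons u0 (Ls.cons u0 (Ls.cons u0 (Ls.cons u0 (Ls.cons u0 Ls.nil)))))))
 (Ls.cons (Ls.cons u0 (Ls.cons u0 (Ls.cons u0 (Ls.cons u0 (Ls.cons u0 (Ls.cons u0 Ls.nil))))))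
 (Ls.cons (Ls.cons u0 (Ls.cons u0 (Ls.cons u0 (Ls.cons u0 (Ls.cons u0 Ls.nil)))))
 (Ls.cons (Ls.cons u0 (Ls.cons u0 (Ls.cons u0 Ls.nil)))
 (Ls.cons (Ls.cons u0 (Ls.cons u0 Ls.nil))
 (Ls.cons (Ls.cons u0 Ls.nil)
 (Ls.cons Ls.nil
 (Ls.cons Ls.nil
 Ls.nil))))))))))))))))))))

noncomputable def slF6_4 : Ls (Ls Sv) :=
 (Ls.cons Ls.nil
 (Ls.cons Ls.nil
 (Ls.cons Ls.nil
 (Ls.cons Ls.nil
 (Ls.cons Ls.nil
 (Ls.cons (Ls.cons sF6_6_5_4 (Ls.cons u0 (Ls.cons sF6_8_5_4 (Ls.cons u0 (Ls.cons u0 (Ls.cons u0 (Ls.cons u0 (Ls.cons u0 (Ls.cons u0 (Ls.cons u0 (Ls.cons u0 (Ls.cons u0 (Ls.cons u0 (Ls.cons u0 (Ls.cons u0 (Ls.cons u0 Ls.nil))))))))))))))))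
 (Ls.cons (Ls.cons u0 (Ls.cons u0 (Ls.cons u0 (Ls.cons u0 (Ls.cons u0 (Ls.cons u0 (Ls.cons u0 (Ls.cons u0 (Ls.cons u0 (Ls.cons u0 (Ls.cons u0 (Ls.cons u0 (Ls.cons u0 (Ls.cons u0 Ls.nil))))))))))))))
 (Ls.cons (Ls.cons sF6_8_7_4 (Ls.cons u0 (Ls.cons u0 (Ls.cons u0 (Ls.cons u0 (Ls.cons u0 (Ls.cons u0 (Ls.cons u0 (Ls.cons u0 (Ls.cons u0 (Ls.cons u0 (Ls.cons u0 (Ls.cons u0 Ls.nil)))))))))))))
 (Ls.cons (Ls.cons u0 (Ls.cons u0 (Ls.cons u0 (Ls.cons u0 (Ls.cons u0 (Ls.cons u0 (Ls.cons u0 (Ls.cons u0 (Ls.cons u0 (Ls.cons u0 (Ls.cons u0 (Ls.cons u0 Ls.nil))))))))))))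
 (Ls.cons (Ls.cons u0 (Ls.cons u0 (Ls.cons u0 (Ls.cons u0 (Ls.cons u0 (Ls.cons u0 (Ls.cons u0 (Ls.cons u0 (Ls.cons u0 (Ls.cons u0 (Ls.cons u0 Ls.nil)))))))))))
 (Ls.cons (Ls.cons u0 (Ls.cons u0 (Ls.cons u0 (Ls.cons u0 (Ls.cons u0 (Ls.cons u0 (Ls.cons u0 (Ls.cons u0 (Ls.cons u0 Ls.nil)))))))))
 (Ls.cons (Ls.cons u0 (Ls.cons u0 (Ls.cons u0 (Ls.cons u0 (Ls.cons u0 (Ls.cons u0 (Ls.cons u0 (Ls.cons u0 Ls.nil))))))))
 (Ls.cons (Ls.cons u0 (Ls.cons u0 (Ls.cons u0 (Ls.cons u0 (Ls.cons u0 (Ls.cons u0 (Ls.cons u0 Ls.nil)))))))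
 (Ls.cons (Ls.cons u0 (Ls.cons u0 (Ls.cons u0 (Ls.cons u0 (Ls.cons u0 (Ls.cons u0 Ls.nil))))))
 (Ls.cons (Ls.cons u0 (Ls.cons u0 (Ls.cons u0 (Ls.cons u0 Ls.nil))))
 (Ls.cons (Ls.cons u0 (Ls.cons u0 (Ls.cons u0 Ls.nil)))
 (Ls.cons (Ls.cons u0 (Ls.cons u0 Ls.nil))
 (Ls.cons (Ls.cons u0 Ls.nil)
 (Ls.cons Ls.nil
 (Ls.cons Ls.nil
 Ls.nil))))))))))))))))))))

noncomputable def slF6_5 : Ls (Ls Sv) :=
 (Ls.cons Ls.nil
 (Ls.cons Ls.nil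
 (Ls.cons Ls.nil
 (Ls.cons Ls.nil
 (Ls.cons Ls.nil
 (Ls.cons Ls.nil
 (Ls.cons (Ls.cons u0 (Ls.cons u0 (Ls.cons u0 (Ls.cons u0 (Ls.cons u0 (Ls.cons u0 (Ls.cons u0 (Ls.cons u0 (Ls.cons u0 (Ls.cons u0 (Ls.cons u0 (Ls.cons u0 (Ls.cons u0 (Ls.cons u0 Ls.nil))))))))))))))
 (Ls.cons (Ls.cons u0 (Ls.cons u0 (Ls.cons u0 (Ls.cons u0 (Ls.cons u0 (Ls.cons u0 (Ls.cons u0 (Ls.cons u0 (Ls.cons u0 (Ls.cons u0 (Ls.cons u0 (Ls.cons u0 (Ls.cons u0 Ls.nil)))))))))))))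
 (Ls.cons (Ls.cons u0 (Ls.cons u0 (Ls.cons u0 (Ls.cons u0 (Ls.cons u0 (Ls.cons u0 (Ls.cons u0 (Ls.cons u0 (Ls.cons u0 (Ls.cons u0 (Ls.cons u0 (Ls.cons u0 Ls.nil))))))))))))
 (Ls.cons (Ls.cons u0 (Ls.cons u0 (Ls.cons u0 (Ls.cons u0 (Ls.cons u0 (Ls.cons u0 (Ls.cons u0 (Ls.cons u0 (Ls.cons u0 (Ls.cons u0 Ls.nil))))))))))
 (Ls.cons (Ls.cons u0 (Ls.cons u0 (Ls.cons u0 (Ls.cons u0 (Ls.cons u0 (Ls.cons u0 (Ls.cons u0 (Ls.cons u0 (Ls.cons u0 Ls.nil)))))))))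
 (Ls.cons (Ls.cons u0 (Ls.cons u0 (Ls.cons u0 (Ls.cons u0 (Ls.cons u0 (Ls.cons u0 (Ls.cons u0 (Ls.cons u0 Ls.nil))))))))
 (Ls.cons (Ls.cons u0 (Ls.cons u0 (Ls.cons u0 (Ls.cons u0 (Ls.cons u0 (Ls.cons u0 (Ls.cons u0 Ls.nil)))))))
 (Ls.cons (Ls.cons u0 (Ls.cons u0 (Ls.cons u0 (Ls.cons u0 (Ls.cons u0 Ls.nil)))))
 (Ls.cons (Ls.cons u0 (Ls.cons u0 (Ls.cons u0 (Ls.cons u0 Ls.nil))))
 (Ls.cons (Ls.cons u0 (Ls.cons u0 (Ls.cons u0 Ls.nil)))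
 (Ls.cons (Ls.cons u0 (Ls.cons u0 Ls.nil))
 (Ls.cons Ls.nil
 (Ls.cons Ls.nil
 (Ls.cons Ls.nil
 Ls.nil))))))))))))))))))))

noncomputable def slF6_6 : Ls (Ls Sv) :=
 (Ls.cons Ls.nil
 (Ls.cons Ls.nil
 (Ls.cons Ls.nil
 (Ls.cons Ls.nil
 (Ls.cons Ls.nil
 (Ls.cons Ls.nil
 (Ls.cons Ls.nil
 (Ls.cons (Ls.cons sF6_8_7_6 (Ls.cons u0 (Ls.cons u0 (Ls.cons u0 (Ls.cons u0 (Ls.cons u0 (Ls.cons u0 (Ls.cons u0 (Ls.cons u0 (Ls.cons u0 (Ls.cons u0 (Ls.cons u0 (Ls.cons u0 Ls.nil)))))))))))))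
 (Ls.cons (Ls.cons u0 (Ls.cons u0 (Ls.cons u0 (Ls.cons u0 (Ls.cons u0 (Ls.cons u0 (Ls.cons u0 (Ls.cons u0 (Ls.cons u0 (Ls.cons u0 (Ls.cons u0 Ls.nil)))))))))))
 (Ls.cons (Ls.cons u0 (Ls.cons u0 (Ls.cons u0 (Ls.cons u0 (Ls.cons u0 (Ls.cons u0 (Ls.cons u0 (Ls.cons u0 (Ls.cons u0 (Ls.cons u0 Ls.nil))))))))))
 (Ls.cons (Ls.cons u0 (Ls.cons u0 (Ls.cons u0 (Ls.cons u0 (Ls.cons u0 (Ls.cons u0 (Ls.cons u0 (Ls.cons u0 (Ls.cons u0 Ls.nil)))))))))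
 (Ls.cons (Ls.cons u0 (Ls.cons u0 (Ls.cons u0 (Ls.cons u0 (Ls.cons u0 (Ls.cons u0 (Ls.cons u0 (Ls.cons u0 Ls.nil))))))))
 (Ls.cons (Ls.cons u0 (Ls.cons u0 (Ls.cons u0 (Ls.cons u0 (Ls.cons u0 (Ls.cons u0 Ls.nil))))))
 (Ls.cons (Ls.cons u0 (Ls.cons u0 (Ls.cons u0 (Ls.cons u0 (Ls.cons u0 Ls.nil)))))
 (Ls.cons (Ls.cons u0 (Ls.cons u0 (Ls.cons u0 (Ls.cons u0 Ls.nil))))
 (Ls.cons (Ls.cons u0 (Ls.cons u0 (Ls.cons u0 Ls.nil)))
 (Ls.cons (Ls.cons u0 Ls.nil)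
 (Ls.cons Ls.nil
 (Ls.cons Ls.nil
 (Ls.cons Ls.nil
 Ls.nil))))))))))))))))))))

noncomputable def slF6_7 : Ls (Ls Sv) :=
 (Ls.cons Ls.nil
 (Ls.cons Ls.nil
 (Ls.cons Ls.nil
 (Ls.cons Ls.nil
 (Ls.cons Ls.nil
 (Ls.cons Ls.nil
 (Ls.cons Ls.nil
 (Ls.cons Ls.nil
 (Ls.cons (Ls.cons u0 (Ls.cons u0 (Ls.cons u0 (Ls.cons u0 (Ls.cons u0 (Ls.cons u0 (Ls.cons u0 (Ls.cons u0 (Ls.cons u0 (Ls.cons u0 (Ls.cons u0 Ls.nil)))))))))))
 (Ls.cons (Ls.cons u0 (Ls.cons u0 (Ls.cons u0 (Ls.cons u0 (Ls.cons u0 (Ls.cons u0 (Ls.cons u0 (Ls.cons u0 (Ls.cons u0 (Ls.cons u0 Ls.nil))))))))))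
 (Ls.cons (Ls.cons u0 (Ls.cons u0 (Ls.cons u0 (Ls.cons u0 (Ls.cons u0 (Ls.cons u0 (Ls.cons u0 (Ls.cons u0 (Ls.cons u0 Ls.nil)))))))))
 (Ls.cons (Ls.cons u0 (Ls.cons u0 (Ls.cons u0 (Ls.cons u0 (Ls.cons u0 (Ls.cons u0 (Ls.cons u0 Ls.nil)))))))
 (Ls.cons (Ls.cons u0 (Ls.cons u0 (Ls.cons u0 (Ls.cons u0 (Ls.cons u0 (Ls.cons u0 Ls.nil))))))
 (Ls.cons (Ls.cons u0 (Ls.cons u0 (Ls.cons u0 (Ls.cons u0 (Ls.cons u0 Ls.nil)))))
 (Ls.cons (Ls.cons u0 (Ls.cons u0 (Ls.cons u0 (Ls.cons u0 Ls.nil))))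
 (Ls.cons (Ls.cons u0 (Ls.cons u0 Ls.nil))
 (Ls.cons (Ls.cons u0 Ls.nil)
 (Ls.cons Ls.nil
 (Ls.cons Ls.nil
 (Ls.cons Ls.nil
 Ls.nil))))))))))))))))))))

noncomputable def slF6_8 : Ls (Ls Sv) :=
 (Ls.cons Ls.nil
 (Ls.cons Ls.nil
 (Ls.cons Ls.nil
 (Ls.cons Ls.nil
 (Ls.cons Ls.nil
 (Ls.cons Ls.nil
 (Ls.cons Ls.nil
 (Ls.cons Ls.nil
 (Ls.cons Ls.nil
 (Ls.cons (Ls.cons u0 (Ls.cons u0 (Ls.cons u0 (Ls.cons u0 (Ls.cons u0 (Ls.cons u0 (Ls.cons u0 (Ls.cons u0 (Ls.cons u0 (Ls.cons u0 Ls.nil))))))))))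
 (Ls.cons (Ls.cons u0 (Ls.cons u0 (Ls.cons u0 (Ls.cons u0 (Ls.cons u0 (Ls.cons u0 (Ls.cons u0 (Ls.cons u0 Ls.nil))))))))
 (Ls.cons (Ls.cons u0 (Ls.cons u0 (Ls.cons u0 (Ls.cons u0 (Ls.cons u0 (Ls.cons u0 (Ls.cons u0 Ls.nil)))))))
 (Ls.cons (Ls.cons u0 (Ls.cons u0 (Ls.cons u0 (Ls.cons u0 (Ls.cons u0 (Ls.cons u0 Ls.nil))))))
 (Ls.cons (Ls.cons u0 (Ls.cons u0 (Ls.cons u0 (Ls.cons u0 (Ls.cons u0 Ls.nil)))))
 (Ls.cons (Ls.cons u0 (Ls.cons u0 (Ls.cons u0 Ls.nil)))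
 (Ls.cons (Ls.cons u0 (Ls.cons u0 Ls.nil))
 (Ls.cons (Ls.cons u0 Ls.nil)
 (Ls.cons Ls.nil
 (Ls.cons Ls.nil
 (Ls.cons Ls.nil
 Ls.nil))))))))))))))))))))

noncomputable def slF6_9 : Ls (Ls Sv) :=
 (Ls.cons Ls.nil
 (Ls.cons Ls.nil
 (Ls.cons Ls.nil
 (Ls.cons Ls.nil
 (Ls.cons Ls.nil
 (Ls.cons Ls.nil
 (Ls.cons Ls.nil
 (Ls.cons Ls.nil
 (Ls.cons Ls.nil
 (Ls.cons Ls.nil
 (Ls.cons (Ls.cons u0 (Ls.cons u0 (Ls.cons u0 (Ls.cons u0 (Ls.cons u0 (Ls.cons u0 (Ls.cons u0 (Ls.cons u0 Ls.nil))))))))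
 (Ls.cons (Ls.cons u0 (Ls.cons u0 (Ls.cons u0 (Ls.cons u0 (Ls.cons u0 (Ls.cons u0 (Ls.cons u0 Ls.nil)))))))
 (Ls.cons (Ls.cons u0 (Ls.cons u0 (Ls.cons u0 (Ls.cons u0 (Ls.cons u0 (Ls.cons u0 Ls.nil))))))
 (Ls.cons (Ls.cons u0 (Ls.cons u0 (Ls.cons u0 (Ls.cons u0 Ls.nil))))
 (Ls.cons (Ls.cons u0 (Ls.cons u0 (Ls.cons u0 Ls.nil)))
 (Ls.cons (Ls.cons u0 (Ls.cons u0 Ls.nil))
 (Ls.cons (Ls.cons u0 Ls.nil)
 (Ls.cons Ls.nil
 (Ls.cons Ls.nil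
 (Ls.cons Ls.nil
 Ls.nil))))))))))))))))))))

noncomputable def slF6_10 : Ls (Ls Sv) :=
 (Ls.cons Ls.nil
 (Ls.cons Ls.nil
 (Ls.cons Ls.nil
 (Ls.cons Ls.nil
 (Ls.cons Ls.nil
 (Ls.cons Ls.nil
 (Ls.cons Ls.nil
 (Ls.cons Ls.nil
 (Ls.cons Ls.nil
 (Ls.cons Ls.nil
 (Ls.cons Ls.nil
 (Ls.cons (Ls.cons u0 (Ls.cons u0 (Ls.cons u0 (Ls.cons u0 (Ls.cons u0 (Ls.cons u0 (Ls.cons u0 Ls.nil)))))))
 (Ls.cons (Ls.cons u0 (Ls.cons u0 (Ls.cons u0 (Ls.cons u0 (Ls.cons u0 Ls.nil)))))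
 (Ls.cons (Ls.cons u0 (Ls.cons u0 (Ls.cons u0 (Ls.cons u0 Ls.nil))))
 (Ls.cons (Ls.cons u0 (Ls.cons u0 (Ls.cons u0 Ls.nil)))
 (Ls.cons (Ls.cons u0 (Ls.cons u0 Ls.nil))
 (Ls.cons Ls.nil
 (Ls.cons Ls.nil
 (Ls.cons Ls.nil
 (Ls.cons Ls.nil
 Ls.nil))))))))))))))))))))

noncomputable def slF6_11 : Ls (Ls Sv) :=
 (Ls.cons Ls.nil
 (Ls.cons Ls.nil
 (Ls.cons Ls.nil
 (Ls.cons Ls.nil
 (Ls.cons Ls.nil
 (Ls.cons Ls.nil
 (Ls.cons Ls.nil
 (Ls.cons Ls.nil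
 (Ls.cons Ls.nil
 (Ls.cons Ls.nil
 (Ls.cons Ls.nil
 (Ls.cons Ls.nil
 (Ls.cons (Ls.cons u0 (Ls.cons u0 (Ls.cons u0 (Ls.cons u0 (Ls.cons u0 Ls.nil)))))
 (Ls.cons (Ls.cons u0 (Ls.cons u0 (Ls.cons u0 (Ls.cons u0 Ls.nil))))
 (Ls.cons (Ls.cons u0 (Ls.cons u0 (Ls.cons u0 Ls.nil)))
 (Ls.cons (Ls.cons u0 Ls.nil)
 (Ls.cons Ls.nil
 (Ls.cons Ls.nil
 (Ls.cons Ls.nil
 (Ls.cons Ls.nil
 Ls.nil))))))))))))))))))))

noncomputable def slF6_12 : Ls (Ls Sv) :=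
 (Ls.cons Ls.nil
 (Ls.cons Ls.nil
 (Ls.cons Ls.nil
 (Ls.cons Ls.nil
 (Ls.cons Ls.nil
 (Ls.cons Ls.nil
 (Ls.cons Ls.nil
 (Ls.cons Ls.nil
 (Ls.cons Ls.nil
 (Ls.cons Ls.nil
 (Ls.cons Ls.nil
 (Ls.cons Ls.nil
 (Ls.cons Ls.nil
 (Ls.cons (Ls.cons u0 (Ls.cons u0 (Ls.cons u0 (Ls.cons u0 Ls.nil))))
 (Ls.cons (Ls.cons u0 (Ls.cons u0 Ls.nil))
 (Ls.cons (Ls.cons u0 Ls.nil)
 (Ls.cons Ls.nil
 (Ls.cons Ls.nil
 (Ls.cons Ls.nil
 (Ls.cons Ls.nil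
 Ls.nil))))))))))))))))))))

noncomputable def slF6_13 : Ls (Ls Sv) :=
 (Ls.cons Ls.nil
 (Ls.cons Ls.nil
 (Ls.cons Ls.nil
 (Ls.cons Ls.nil
 (Ls.cons Ls.nil
 (Ls.cons Ls.nil
 (Ls.cons Ls.nil
 (Ls.cons Ls.nil
 (Ls.cons Ls.nil
 (Ls.cons Ls.nil
 (Ls.cons Ls.nil
 (Ls.cons Ls.nil
 (Ls.cons Ls.nil
 (Ls.cons Ls.nil
 (Ls.cons (Ls.cons u0 (Ls.cons u0 Ls.nil))
 (Ls.cons (Ls.cons u0 Ls.nil)
 (Ls.cons Ls.nil
 (Ls.cons Ls.nil
 (Ls.cons Ls.nil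
 (Ls.cons Ls.nil
 Ls.nil))))))))))))))))))))

noncomputable def slF6_14 : Ls (Ls Sv) :=
 (Ls.cons Ls.nil
 (Ls.cons Ls.nil
 (Ls.cons Ls.nil
 (Ls.cons Ls.nil
 (Ls.cons Ls.nil
 (Ls.cons Ls.nil
 (Ls.cons Ls.nil
 (Ls.cons Ls.nil
 (Ls.cons Ls.nil
 (Ls.cons Ls.nil
 (Ls.cons Ls.nil
 (Ls.cons Ls.nil
 (Ls.cons Ls.nil
 (Ls.cons Ls.nil
 (Ls.cons Ls.nil
 (Ls.cons (Ls.cons u0 Ls.nil)
 (Ls.cons Ls.nil
 (Ls.cons Ls.nil
 (Ls.cons Ls.nil
 (Ls.cons Ls.nil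
 Ls.nil))))))))))))))))))))

noncomputable def srcF6 : Ls (Ls (Ls Sv)) := (Ls.cons slF6_0 (Ls.cons slF6_1 (Ls.cons slF6_2 (Ls.cons slF6_3 (Ls.cons slF6_4 (Ls.cons slF6_5 (Ls.cons slF6_6 (Ls.cons slF6_7 (Ls.cons slF6_8 (Ls.cons slF6_9 (Ls.cons slF6_10 (Ls.cons slF6_11 (Ls.cons slF6_12 (Ls.cons slF6_13 (Ls.cons slF6_14 Ls.nil)))))))))))))))

end Vale.Agent.P181.K
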