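import Vale.Agent.P181.Six.K3

set_option maxRecDepth 100000
set_option maxHeartbeats 0

namespace Vale.Agent.P181.K

noncomputable def sF7_2_1_0 : Sv := ut
 (T.a (nat_lit 7) (nat_lit 12150) (T.a (nat_lit 14) (nat_lit 24300) (T.a (nat_lit 28) (nat_lit 48600) (T.n (nat_lit 4050) (T.l (nat_lit 0x400000000000080000000000070000000000014000000000688000000000381c0000000012890000000005c1800000007190900000003268180000001758070000000685e140000001fd305000001474420c0000093e0c0400000315d260800000c74c58200001723712040001d8ea8181000061b1304000001e2438001))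
 (T.n (nat_lit 4050) (T.l (nat_lit 0xc000000000007000000000002800000000000b0000000000e3800000000130e0000000005e3800000000240e00000000090340000000a298a000000050962800000019e60700000007976180000035e5b840000016f54c0c00000a36cf810000027cd240400000aab8700000019a9d0a0000005501c200))
 (T.l (nat_lit 0x7000000000002800000000001700000000000600000000000210000000003c7c000000001ba40000000009c7c000000002d20000000010c664000000126f1800000005cb4440000001fe48f0000000787e24000002ff55880000016df4010000005d448030000016ac1604000052270081)))))))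

noncomputable def sF7_3_1_0 : Sv := ut
 (T.a (nat_lit 9) (nat_lit 12150) (T.a (nat_lit 18) (nat_lit 24300) (T.a (nat_lit 36) (nat_lit 48600) (T.n (nat_lit 4050) (T.l (nat_lit 0x500000000000140000000000090000000000020000000005e0a000000002c02000000000f2090000000046818000000d52c060000009749010000003950803000001133780400000484b2010000b10d200000004f38c580000017caf0d8000005c9c41e00002514400300000e2785c0600))
 (T.n (nat_lit 4050) (T.l (nat_lit 0x34000000000017000000000008400000000002800000000100a800000000c62b000000004b0a40000000174230000000065078000001c19618000000cb5a84400000431340c000001223c8200000fc54a8040000b0e61b808000392b43e010000d265070000001e0bc0600))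
 (T.l (nat_lit 0xf000000000009000000000003c0000000000120000000000054000000002d14c000000015452000000007191800000002083c00000036840b800000251ec22000000db67858000003e1480e000000ee3881c000132fc92030000708412804000178e02000)))))))

noncomputable def sF7_4_1_0 : Sv := ut
 (T.a (nat_lit 9) (nat_lit 12150) (T.a (nat_lit 18) (nat_lit 24300) (T.n (nat_lit 4050) (T.l (nat_lit 0x1000000000001c000000000008c00000000003300000000000cc00000000e83c000000006c8cc00000002423400000000a78a4000001ca9e24000001139e864000006d61415000001e16a830000007c926090000cf9b320140004fd146603000156bb0d8040002f1840a01))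
 (T.n (nat_lit 4050) (T.l (nat_lit 0x9c000000000049000000000019400000000007500000000239f400000001e87700000000ac1b8000000036e5b00000000de924000002cf703400000148b68940000063658150000019b6503400013d2d1205000086ed20808000271784000))
 (T.l (nat_lit 0x2e00000000001ac0000000000b600000000003500000000000f5000000005d3a400000002a6e100000000e12e000000003cc9a00000043ee9b000000393224f000001219e8b400000501921c000000ee3b82c00005a544806))))))

noncomputable def sF7_5_1_0 : Sv := ut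
 (T.a (nat_lit 10) (nat_lit 12150) (T.a (nat_lit 20) (nat_lit 24300) (T.n (nat_lit 4050) (T.l (nat_lit 0x2800000000002b00000000000d800000000004e000000000012c000000031050000000016d11000000007843c000000020f0a800000788202100000531c204800001d15a00b000007e4fb01400001b327c01000384d44e000001208a08800))
 (T.n (nat_lit 4050) (T.l (nat_lit 0x13400000000009400000000003140000000000e1000000007839c0000000558d800000001f42dc000000093c94000000024b1a800000bc8084700000509930a8000016e42417000004ac9302000020b30cc04))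
 (T.l (nat_lit 0x4700000000002f4000000000127000000000057400000000017600000000fd574000000073d2f00000002443b00000000974a70000010a131a400000a166838000002f8f6064000007d1cc04))))))

noncomputable def sF7_6_1_0 : Sv := ut
 (T.a (nat_lit 10) (nat_lit 8100) (T.a (nat_lit 20) (nat_lit 16200) (T.a (nat_lit 40) (nat_lit 32400) (T.n (nat_lit 4050) (T.l (nat_lit 0x5c000000000064000000000020800000001e8b100000001262b8000000075cb50000020a1025000001aa8bc8300000901e3168001e69a65c440010e93d14098005ede52e4180593f4785602441354910a006))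
 (T.l (nat_lit 0x20c0000000000ec00000000004f0000000040d5b00000001dc5500000000961280000040a7e3c400001b98e0a500000845ce1b4001cdd74ac37000af58cae064001d0950d803))))))

noncomputable def sF7_7_1_0 : Sv := ut
 (T.a (nat_lit 10) (nat_lit 8100) (T.a (nat_lit 20) (nat_lit 16200) (T.n (nat_lit 4050) (T.l (nat_lit 0x7000000000006f000000000025400000001e0b9000000013f2b80000000758a4000001e2051e400001437ac57000006c58a0c4000c9a742017000785089101c00194930bc00))
 (T.l (nat_lit 0x298000000000130000000000060c000000040d9e00000001c45e8000000089d37000002be11364000011c6b88900000451090fc0007cb51f81a)))))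

noncomputable def sF7_8_1_0 : Sv := ut
 (T.a (nat_lit 9) (nat_lit 8100) (T.a (nat_lit 18) (nat_lit 16200) (T.n (nat_lit 4050) (T.l (nat_lit 0xa400000000009d000000000031800000000f2fe00000000893800000000332cc0000003ec8a3000000306c862000000c36b0a80000926ce217))
 (T.l (nat_lit 0x28c000000000124000000000059c00000001615a00000000984a80000000274c30000003d811bc000000f0e21f)))))

noncomputable def sF7_9_1_0 : Sv := ut
 (T.a (nat_lit 8) (nat_lit 4050) (T.a (nat_lit 16) (nat_lit 8100) (T.a (nat_lit 32) (nat_lit 16200) (T.l (nat_lit 0x7000000000006b000000001d6000000003cc49200000024b71cc00004fb7c25000041be65e09000205748390b)))))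

noncomputable def sF7_10_1_0 : Sv := ut
 (T.a (nat_lit 7) (nat_lit 4050) (T.a (nat_lit 14) (nat_lit 8100) (T.l (nat_lit 0x4000000000004f0000000006b4c0000000766da00000002c94cc0000010ccea1))))

noncomputable def sF7_11_1_0 : Sv := ut
 (T.a (nat_lit 5) (nat_lit 4050) (T.a (nat_lit 10) (nat_lit 8100) (T.l (nat_lit 0x1400000000001400000000005bc000000000de9))))

noncomputable def sF7_12_1_0 : Sv := ut
 (T.l (nat_lit 0x6))

noncomputable def sF7_3_2_0 : Sv := ut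
 (T.a (nat_lit 9) (nat_lit 12150) (T.a (nat_lit 18) (nat_lit 24300) (T.a (nat_lit 36) (nat_lit 48600) (T.n (nat_lit 4050) (T.l (nat_lit 0x100000000000080000000000020000000000008000000001e03000000001d008000000009c02000000003400400000000ce010000006434800000002e8ae00000000ee25800000004186600000064f21280000038b48280000015097060000004f194080000010a340100000c1e8600000))
 (T.n (nat_lit 4050) (T.l (nat_lit 0x1400000000000900000000000440000000000120000000000058000000007613000000003684c00000001260e0000000051030000000bd4807000000a24781400000364f402000001072b804000003c07a00000076d51100000032a3c28000000c05903000000230780600))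
 (T.l (nat_lit 0x4800000000002300000000000b800000000003600000000180d400000000e033000000005c0a4000000019c23000000007005c000001a18610000000b65582000000394f005000000dd2a0040000630058010000567a0b8000000e0f40800)))))))

noncomputable def sF7_4_2_0 : Sv := ut
 (T.a (nat_lit 10) (nat_lit 12150) (T.a (nat_lit 20) (nat_lit 24300) (T.n (nat_lit 4050) (T.l (nat_lit 0x11000000000008000000000002c00000000000c800000001383500000000e00c800000005402d000000019509000000006941d000004498b05000001ef53c0e000009b103020000027f2cc05000478bc71008002c1a40f001000d13f01a000002306f01c00))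
 (T.n (nat_lit 4050) (T.l (nat_lit 0x5c000000000043000000000019c00000000007d000000000021c000000036484000000018c1d40000000820610000000238128000007f88c33000005a5d708400001f85bc130000086cfa02400001d3264040003e5144a0040011c9206800))
 (T.l (nat_lit 0x1840000000000b500000000003c4000000000112000000008544c00000005ccfd000000022735000000009eca500000002781d000000cc8984c00000561a60ac000018445016000005089a0240001cb50dc03))))))

noncomputable def sF7_5_2_0 : Sv := ut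
 (T.a (nat_lit 10) (nat_lit 8100) (T.a (nat_lit 20) (nat_lit 16200) (T.a (nat_lit 40) (nat_lit 32400) (T.n (nat_lit 4050) (T.l (nat_lit 0x25000000000011000000000005c00000000cb19400000005dc6700000001e716800001778644d00000a96010dc000035b700270016bded58058009eb273c80d002e29c893010acaada413c023e1e43941f000c33a45702400))
 (T.l (nat_lit 0xf40000000000a100000000003ec00000002592700000001bd4e80000000a11210000034efa3ec0000235bc0bf00000cd2a12240023f77824550018acd56c0c4007be6c35c160a5c36046a024443f8a108402))))))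

noncomputable def sF7_6_2_0 : Sv := ut
 (T.a (nat_lit 11) (nat_lit 12150) (T.a (nat_lit 22) (nat_lit 24300) (T.n (nat_lit 4050) (T.l (nat_lit 0x6100000000002cc0000000000ed000000000040c000000071101000000050237c0000001ca0b600000008042080000001e0058000013c6100c400007f50501b00001f424a02800004e433004))
 (T.n (nat_lit 4050) (T.l (nat_lit 0x1b8000000000135000000000073000000000021900000000008740000000f01e100000006966000000001fd90e00000007a82a8000016d8885800000de3d409400002fc6e808))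
 (T.l (nat_lit 0x5800000000002830000000000cc000000000036100000001c2c54000000129281000000064470000000018891500000004a021000000d08c830))))))

noncomputable def sF7_7_2_0 : Sv := ut
 (T.a (nat_lit 10) (nat_lit 8100) (T.a (nat_lit 20) (nat_lit 16200) (T.n (nat_lit 4050) (T.l (nat_lit 0x8100000000003a000000000012900000001924d00000000b251d000000036237c000018ad6c9d00000a2ac317000002c57982e000858b50d038002651517c02))
 (T.l (nat_lit 0x25800000000019f00000000009740000000396a20000000279a140000000d7a10000002537f5d80000174b80e1000006adda1a8000411934021)))))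

noncomputable def sF7_8_2_0 : Sv := ut
 (T.a (nat_lit 10) (nat_lit 8100) (T.a (nat_lit 20) (nat_lit 16200) (T.n (nat_lit 4050) (T.l (nat_lit 0xb000000000004dc0000000001830000000161604000000096d4f00000002a83c000000cf95c98000004a18811400000df2d81a))
 (T.l (nat_lit 0x2700000000001a3000000000092c000000027a6800000001a8858000000082172000000c9bd344000005737c43)))))

noncomputable def sF7_9_2_0 : Sv := ut
 (T.a (nat_lit 9) (nat_lit 4050) (T.a (nat_lit 18) (nat_lit 8100) (T.a (nat_lit 36) (nat_lit 16200) (T.l (nat_lit 0x830000000035b78000000023102000000b6b5b8800020c769c9e00012905709500253fa24c819)))))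

noncomputable def sF7_10_2_0 : Sv := ut
 (T.a (nat_lit 8) (nat_lit 4050) (T.a (nat_lit 16) (nat_lit 8100) (T.l (nat_lit 0x52000000000ba04000000006f850000000d1dd6c0000073b3e2a))))

noncomputable def sF7_11_2_0 : Sv := ut
 (T.a (nat_lit 5) (nat_lit 4050) (T.l (nat_lit 0x1600000000004ec00000000022d)))

noncomputable def sF7_12_2_0 : Sv := ut
 (T.l (nat_lit 0x3))

noncomputable def sF7_4_3_0 : Sv := ut
 (T.a (nat_lit 9) (nat_lit 12150) (T.a (nat_lit 18) (nat_lit 24300) (T.n (nat_lit 4050) (T.l (nat_lit 0xc0000000000048000000000024000000000009c000000000031000000003d8ac00000001c42e0000000096890000000028c210000005fa385c000005063013000001a87282c000007d53e09000001b636010000285ac6c03000100d70e804000291c40a01))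
 (T.n (nat_lit 4050) (T.l (nat_lit 0x24000000000011400000000005b00000000001a800000000cc69000000007799400000003065400000000d6114000000039230000000bcc388c000004fa9613000001826f83000000555300400001d0123008000189a84400))
 (T.l (nat_lit 0x8000000000007b000000000029c0000000000db0000000000368000000018edd00000000b7adc00000003929c00000000f59b00000016b644f000000bfb08ac00000455c81b000000e5440280000026c4e05))))))

noncomputable def sF7_5_3_0 : Sv := ut
 (T.a (nat_lit 10) (nat_lit 8100) (T.a (nat_lit 20) (nat_lit 16200) (T.a (nat_lit 40) (nat_lit 32400) (T.n (nat_lit 4050) (T.l (nat_lit 0x1400000000000ac000000000049000000006114000000004805900000001a213800000bc7c04500000821ee0c400002f26f024000b0d1d5e0500076f153e80b0027f9ec9b010499d1b0144012c1d83c422000973905401c00))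
 (T.l (nat_lit 0x6d000000000031c000000000106000000012c484000000088d1900000002b83d80000183b88c400000aa2a323000003388905b000fac65820cc0064e7d3bc190018c64473024293e0b60ac03))))))

noncomputable def sF7_6_3_0 : Sv := ut
 (T.a (nat_lit 11) (nat_lit 12150) (T.a (nat_lit 22) (nat_lit 24300) (T.n (nat_lit 4050) (T.l (nat_lit 0x4000000000002440000000000ef000000000042000000000011e00000003c83e00000001aa0d8000000083a26000000020406d00000956d40f000006bd2a02300001d02b2034000054038006))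
 (T.n (nat_lit 4050) (T.l (nat_lit 0xe800000000006a800000000021d000000000090c00000008f212000000058e6dc0000001ff938000000080a3280000001bd06600000924640b800002588a008))
 (T.l (nat_lit 0x2e00000000002410000000000c800000000003a80000000000da40000000d82ef00000005b683c00000018515700000004f2284000007496042))))))

noncomputable def sF7_7_3_0 : Sv := ut
 (T.a (nat_lit 10) (nat_lit 8100) (T.a (nat_lit 20) (nat_lit 16200) (T.n (nat_lit 4050) (T.l (nat_lit 0x52000000000030c00000000012d00000000e45100000000a0d3f00000003743ec00000d9ebcb9000008db2a1ac00002c18fc340004196543044001cd371b001))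
 (T.l (nat_lit 0x14d000000000093c0000000002dc00000001edb740000000d327600000003bc7200000110d351d0000061a32214000012542030)))))

noncomputable def sF7_8_3_0 : Sv := ut
 (T.a (nat_lit 10) (nat_lit 8100) (T.a (nat_lit 20) (nat_lit 16200) (T.n (nat_lit 4050) (T.l (nat_lit 0x7c000000000046c0000000001b300000000bf6ec00000008f5a600000002c64b8000007aaf0ce000003d1d417400000eb3c028))
 (T.l (nat_lit 0x15300000000009300000000002a400000001459c400000007c5bd00000001de41000000343d84e)))))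

noncomputable def sF7_9_3_0 : Sv := ut
 (T.a (nat_lit 9) (nat_lit 4050) (T.a (nat_lit 18) (nat_lit 8100) (T.a (nat_lit 36) (nat_lit 16200) (T.l (nat_lit 0x55000000000030000000001bf0f00000060b43d0000003e6e6ba0000d3068417c00f3aa5cfe1a)))))

noncomputable def sF7_10_3_0 : Sv := ut
 (T.a (nat_lit 8) (nat_lit 4050) (T.a (nat_lit 16) (nat_lit 8100) (T.l (nat_lit 0x3b00000000001c0000000005099000000055c1a0000000373d3c))))

noncomputable def sF7_11_3_0 : Sv := ut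
 (T.n (nat_lit 4050) (T.l (nat_lit 0xe000000000004800000000000e))
 (T.l (nat_lit 0xa)))

noncomputable def sF7_12_3_0 : Sv := ut
 (T.l (nat_lit 0x3))

noncomputable def sF7_5_4_0 : Sv := ut
 (T.a (nat_lit 9) (nat_lit 8100) (T.a (nat_lit 18) (nat_lit 16200) (T.a (nat_lit 36) (nat_lit 32400) (T.n (nat_lit 4050) (T.l (nat_lit 0x24000000000014000000000005c00000000be1a000000005485c00000001b614000000bd700300000055da20a000001995080c00058e68ec020002454d21000000a1bb84a0000e5ee7c0580004b460d40800))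
 (T.l (nat_lit 0x13000000000011c00000000005d000000002c9d8000000019e6d00000000a099800000172ac4b00000125a90e0000005da0c1e00009397620480004b4f4d606000176d71b808005369441c00))))))

noncomputable def sF7_6_4_0 : Sv := ut
 (T.a (nat_lit 10) (nat_lit 8100) (T.a (nat_lit 20) (nat_lit 16200) (T.n (nat_lit 4050) (T.l (nat_lit 0x11800000000008100000000002900000000468b200000001f529000000009b48c000005c66f19400002758684600000b2d8809c003167a3dc150011b69c7701c00354c50ac03))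
 (T.l (nat_lit 0x5200000000003a800000000015400000000b85f800000007d16f00000002bb4d0000009eb8cde0000069287234000020872c490002e709070740014ceb17806)))))

noncomputable def sF7_7_4_0 : Sv := ut
 (T.a (nat_lit 10) (nat_lit 8100) (T.a (nat_lit 20) (nat_lit 16200) (T.n (nat_lit 4050) (T.l (nat_lit 0x1b40000000000c400000000003ac00000005b8f000000002703140000000b6c92000004da9715000001ec7ac2a000007311502c000e90819802))
 (T.l (nat_lit 0x8400000000005f800000000020c00000000d08f00000000855f400000002c55e80000060a44e5000003b5d21b800000c434821)))))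

noncomputable def sF7_8_4_0 : Sv := ut
 (T.a (nat_lit 10) (nat_lit 8100) (T.a (nat_lit 20) (nat_lit 16200) (T.n (nat_lit 4050) (T.l (nat_lit 0x2c000000000013b00000000005bc000000051d60000000021444000000008b8b40000021598150000009932c22))
 (T.l (nat_lit 0x960000000000660000000000219000000008b85400000005319200000001703b000000133644f)))))

noncomputable def sF7_9_4_0 : Sv := ut
 (T.a (nat_lit 9) (nat_lit 4050) (T.a (nat_lit 18) (nat_lit 8100) (T.l (nat_lit 0x1e800000000bacc000000007bb540000023a44a7000050c170970000231fcd81d))))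

noncomputable def sF7_10_4_0 : Sv := ut
 (T.a (nat_lit 7) (nat_lit 4050) (T.a (nat_lit 14) (nat_lit 8100) (T.l (nat_lit 0x118000000001069000000000935c0000000619af))))

noncomputable def sF7_11_4_0 : Sv := ut
 (T.n (nat_lit 4050) (T.l (nat_lit 0x2c00000000000a))
 (T.l (nat_lit 0x4)))

noncomputable def sF7_6_5_0 : Sv := ut
 (T.a (nat_lit 9) (nat_lit 8100) (T.a (nat_lit 18) (nat_lit 16200) (T.n (nat_lit 4050) (T.l (nat_lit 0x3400000000003d000000000012400000000b664000000006495c000000027656000000539f0f40000045a6c310000014c6f0680001dd653c120000cce42401800037a044404))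
 (T.l (nat_lit 0x15400000000009500000000002f40000000166bc000000009eaa800000002d27b00000090ac15400000361ea29000000d94c850000091a45a02)))))

noncomputable def sF7_7_5_0 : Sv := ut
 (T.a (nat_lit 9) (nat_lit 8100) (T.a (nat_lit 18) (nat_lit 16200) (T.n (nat_lit 4050) (T.l (nat_lit 0x7000000000006000000000001e400000000f28b000000009d9cc000000035a590000005dd00c8000003ba8218000001065e81800006a6c8200))
 (T.l (nat_lit 0x2a8000000000125000000000056c00000001e14900000000c3bf00000000336a30000005f98134000001a9301a)))))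

noncomputable def sF7_8_5_0 : Sv := ut
 (T.a (nat_lit 9) (nat_lit 4050) (T.a (nat_lit 18) (nat_lit 8100) (T.a (nat_lit 36) (nat_lit 16200) (T.l (nat_lit 0xdc0000000000c40000000064bbc0000020e950b00000122b63300004b5ee3e97008db11e5a91405741a946e20)))))

noncomputable def sF7_9_5_0 : Sv := ut
 (T.a (nat_lit 8) (nat_lit 4050) (T.a (nat_lit 16) (nat_lit 8100) (T.l (nat_lit 0x90000000000077000000001e20800000031b57500000019270fc00001e4d5412))))

noncomputable def sF7_10_5_0 : Sv := ut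
 (T.a (nat_lit 7) (nat_lit 4050) (T.a (nat_lit 14) (nat_lit 8100) (T.l (nat_lit 0x4800000000004500000000042e4000000028ca9))))

noncomputable def sF7_11_5_0 : Sv := ut
 (T.l (nat_lit 0x4000000000005))

noncomputable def sF7_7_6_0 : Sv := ut
 (T.a (nat_lit 8) (nat_lit 4050) (T.a (nat_lit 16) (nat_lit 8100) (T.a (nat_lit 32) (nat_lit 16200) (T.l (nat_lit 0x100000000008c7000000000482300000013db86c00002489631700001de355828003f7e78300504d45c1106400153f2e1d0400)))))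

noncomputable def sF7_8_6_0 : Sv := ut
 (T.a (nat_lit 8) (nat_lit 4050) (T.a (nat_lit 16) (nat_lit 8100) (T.a (nat_lit 32) (nat_lit 16200) (T.l (nat_lit 0x41000000000d1b000000000877d0000001a6ada8000024a1934d0000152397c94001840502010)))))

noncomputable def sF7_9_6_0 : Sv := ut
 (T.a (nat_lit 7) (nat_lit 4050) (T.a (nat_lit 14) (nat_lit 8100) (T.l (nat_lit 0x2b00000000044f80000000024bc0000000239c8c000000a9548c))))

noncomputable def sF7_10_6_0 : Sv := ut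
 (T.a (nat_lit 5) (nat_lit 4050) (T.l (nat_lit 0x170000000000474000000000194)))

noncomputable def sF7_11_6_0 : Sv := ut
 (T.l (nat_lit 0x1))

noncomputable def sF7_8_7_0 : Sv := ut
 (T.a (nat_lit 6) (nat_lit 4050) (T.a (nat_lit 12) (nat_lit 8100) (T.a (nat_lit 24) (nat_lit 16200) (T.l (nat_lit 0x160000000000078000000000876000000003b9ac000000039ca900000013be5440000083e824e)))))

noncomputable def sF7_9_7_0 : Sv := ut
 (T.a (nat_lit 5) (nat_lit 4050) (T.a (nat_lit 10) (nat_lit 8100) (T.l (nat_lit 0xb00000000000400000000002d60000000005dac000000002e44))))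

noncomputable def sF7_10_7_0 : Sv := ut
 (T.n (nat_lit 4050) (T.l (nat_lit 0x9000000000002400000000000d))
 (T.l (nat_lit 0x2)))

noncomputable def sF7_11_7_0 : Sv := ut
 (T.l (nat_lit 0x1))

noncomputable def sF7_9_8_0 : Sv := ut
 (T.a (nat_lit 3) (nat_lit 4050) (T.a (nat_lit 6) (nat_lit 8100) (T.l (nat_lit 0x400000000000300000000000a4000000000089))))

noncomputable def sF7_10_8_0 : Sv := ut
 (T.l (nat_lit 0x8000000000002))

noncomputable def sF7_10_9_0 : Sv := ut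
 (T.l (nat_lit 0x2))

noncomputable def sF7_3_2_1 : Sv := ut
 (T.a (nat_lit 7) (nat_lit 8100) (T.a (nat_lit 14) (nat_lit 16200) (T.a (nat_lit 28) (nat_lit 32400) (T.n (nat_lit 4050) (T.l (nat_lit 0x8040000000004000000000001c0000000003078000000002420000000000cc680000000cbc16000000080ec380000002eb4080000019d2a410000010b21b02000005ca644000001d7dd090000011d24a100000050c890100000cf9a0e04000))
 (T.l (nat_lit 0x2000000000000c0000000000040000000001a10000000000c84000000000400c00000008908200000003f4004000000138d00000001852260000000ab286000000034bc0e0000024cc9c180000102c19020000043742c0000016e110400000061a1600000))))))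

noncomputable def sF7_4_2_1 : Sv := ut
 (T.a (nat_lit 9) (nat_lit 12150) (T.a (nat_lit 18) (nat_lit 24300) (T.n (nat_lit 4050) (T.l (nat_lit 0x2000000000002c00000000000d0000000000048000000000011000000002784400000001240d000000005d82c000000019607000000505e8140000033142020000012b3b804000004e8a40000000122178000002134032000000ba8204800000270c00800))
 (T.n (nat_lit 4050) (T.l (nat_lit 0x16000000000009c00000000003400000000000e4000000006a3700000000528c000000001d227000000008906c000000020a120000008773028000003ad50050000010d39808000003ec7a01000020aa0e8000000b15c0c00))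
 (T.l (nat_lit 0x68000000000041000000000019800000000007400000000001e800000001186b000000007d16800000002764000000000a00b0000000ca3e18000000936b034000002c12005000000a4250080000014c3c00))))))

noncomputable def sF7_5_2_1 : Sv := ut
 (T.a (nat_lit 9) (nat_lit 8100) (T.a (nat_lit 18) (nat_lit 16200) (T.a (nat_lit 36) (nat_lit 32400) (T.n (nat_lit 4050) (T.l (nat_lit 0x80000000000080000000000029000000001f0d4000000014c32000000007c0c0000001be32250000013b8c070000006f9e4110000d9ed5d02c00091f20fe05000305642600802fbf3bc4e0101b6268007800066458c40c00))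
 (T.l (nat_lit 0x3d00000000001c0000000000090000000005726c00000002709100000000c51ec0000039b285b00000194b60f8000007762c24000131cb5f04c00077d74d4070001e0db1880c0164415c1600))))))

noncomputable def sF7_6_2_1 : Sv := ut
 (T.a (nat_lit 10) (nat_lit 8100) (T.a (nat_lit 20) (nat_lit 16200) (T.a (nat_lit 40) (nat_lit 32400) (T.n (nat_lit 4050) (T.l (nat_lit 0x17000000000014800000000006d000000007422000000004987f00000001b61d4000008c768570000066dc8100000021d59424000638f1000540037dc323c080010d4a44500c082807604400))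
 (T.l (nat_lit 0x8100000000003a0000000000127000000010f4c8000000078d18000000024437000000fc8f89d00000679d017800001c95143200054570ae04c001a8bc11407))))))

noncomputable def sF7_7_2_1 : Sv := ut
 (T.a (nat_lit 10) (nat_lit 8100) (T.a (nat_lit 20) (nat_lit 16200) (T.n (nat_lit 4050) (T.l (nat_lit 0x2600000000001ec0000000000a700000000873080000000590b200000001f4250000007a82c6700000501be10400001924e82000025530af03000124b510404))
 (T.l (nat_lit 0xb400000000004fc000000000183000000011160800000007313d000000020d38c00000956f483000003712a0f000000971f80e)))))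

noncomputable def sF7_8_2_1 : Sv := ut
 (T.a (nat_lit 9) (nat_lit 8100) (T.a (nat_lit 18) (nat_lit 16200) (T.n (nat_lit 4050) (T.l (nat_lit 0x3000000000002780000000000cb000000003c3900000000240bc00000000c423c000000d2b64e0000008e7c094000001a4ca07))
 (T.l (nat_lit 0xbd00000000005040000000001780000000059d340000000240f60000000081a1c000000a13433)))))

noncomputable def sF7_9_2_1 : Sv := ut
 (T.a (nat_lit 8) (nat_lit 4050) (T.a (nat_lit 16) (nat_lit 8100) (T.a (nat_lit 32) (nat_lit 16200) (T.l (nat_lit 0x2700000000001f00000000079990000000eb1e640000008dc66e00000ee523d04000a3c593e14)))))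

noncomputable def sF7_10_2_1 : Sv := ut
 (T.a (nat_lit 7) (nat_lit 4050) (T.a (nat_lit 14) (nat_lit 8100) (T.l (nat_lit 0x1200000000001080000000018c100000001178d800000004d592))))

noncomputable def sF7_11_2_1 : Sv := ut
 (T.n (nat_lit 4050) (T.l (nat_lit 0x50000000000038000000000008))
 (T.l (nat_lit 0x5)))

noncomputable def sF7_4_3_1 : Sv := ut
 (T.a (nat_lit 9) (nat_lit 12150) (T.a (nat_lit 18) (nat_lit 24300) (T.n (nat_lit 4050) (T.l (nat_lit 0x24000000000013000000000006400000000001c0000000018078000000010e1c000000006386000000001d614000000007683c0000027da80a000001185601c00000550f60400000147278080000ec20560100008ca70a0000001e9300a00))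
 (T.n (nat_lit 4050) (T.l (nat_lit 0xe000000000009800000000003b000000000011800000000004b000000004191800000001de3d00000000980c0000000028623000000489405c00000301e40e000001045581c000003fcd603000000c11a804000089742800))
 (T.l (nat_lit 0x3a00000000001ac00000000008d000000000026c000000009e98000000006e21800000002786c00000000b1138000000029a3400000064870780000028d7010000000a034018000001904a02))))))

noncomputable def sF7_5_3_1 : Sv := ut
 (T.a (nat_lit 10) (nat_lit 8100) (T.a (nat_lit 20) (nat_lit 16200) (T.a (nat_lit 40) (nat_lit 32400) (T.n (nat_lit 4050) (T.l (nat_lit 0x6400000000002d00000000000ec000000027440000000011d0f000000005a833000004957d09c00002025701a000009d1180400040e6c31c08001ae7f87c00c0074d6210001161703181b000622ec4601c00))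
 (T.l (nat_lit 0x2a00000000001e40000000000b4000000007a3400000000560d100000001f02e8000009d8ac92000006b20f1a0000024d6c0420005d97d3208c003c5f52e81000114518590180b2c89007401))))))

noncomputable def sF7_6_3_1 : Sv := ut
 (T.a (nat_lit 10) (nat_lit 8100) (T.a (nat_lit 20) (nat_lit 16200) (T.n (nat_lit 4050) (T.l (nat_lit 0x15400000000009b0000000000318000000050cd3000000023e3100000000b10a20000067ac61dc00002c597c4e00000c95bb0b000372c244c160013d77085020003a0da0b802))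
 (T.l (nat_lit 0x64000000000045800000000019200000000cf71c00000008ddb300000003165ac00000b2d15090000075ad52a0000024a81458000347d126098001850a1a409)))))

noncomputable def sF7_7_3_1 : Sv := ut
 (T.a (nat_lit 10) (nat_lit 8100) (T.a (nat_lit 20) (nat_lit 16200) (T.n (nat_lit 4050) (T.l (nat_lit 0x1e40000000000da000000000042c00000005e90a000000028d38c0000000bd4a600000506b019800001f77e4330000075d2104c000ed0a19403))
 (T.l (nat_lit 0x91000000000063c00000000022f00000000d295c00000008c61200000002da6280000069ab4f4000003c9e11cc00000cc37c25)))))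

noncomputable def sF7_8_3_1 : Sv := ut
 (T.a (nat_lit 10) (nat_lit 8100) (T.a (nat_lit 20) (nat_lit 16200) (T.n (nat_lit 4050) (T.l (nat_lit 0x2c400000000013100000000005a4000000050d54000000020c410000000087ca6000002199213c000008e30419))
 (T.l (nat_lit 0x9300000000006480000000002180000000085820000000052d8d00000001683a0000001335c4e)))))

noncomputable def sF7_9_3_1 : Sv := ut
 (T.a (nat_lit 9) (nat_lit 4050) (T.a (nat_lit 18) (nat_lit 8100) (T.l (nat_lit 0x1e400000000bec700000000783400000022a34a300004cb96f170000211e8d819))))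

noncomputable def sF7_10_3_1 : Sv := ut
 (T.a (nat_lit 7) (nat_lit 4050) (T.a (nat_lit 14) (nat_lit 8100) (T.l (nat_lit 0x1080000000010640000000008b500000000559a9))))

noncomputable def sF7_11_3_1 : Sv := ut
 (T.n (nat_lit 4050) (T.l (nat_lit 0x2c000000000008))
 (T.l (nat_lit 0x2)))

noncomputable def sF7_5_4_1 : Sv := ut
 (T.a (nat_lit 9) (nat_lit 8100) (T.a (nat_lit 18) (nat_lit 16200) (T.a (nat_lit 36) (nat_lit 32400) (T.n (nat_lit 4050) (T.l (nat_lit 0x1800000000000b0000000000048000000005213000000003b84c00000001500e000000585e02c000003b55e06000001494680c00026d64c60100018f251d0000007d3403a000059a2710500002b3a8ac0600))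
 (T.l (nat_lit 0x9c000000000046000000000016000000001085a0000000076144000000023a3e000000ad8d8ac0000048dd2180000014b538300002dc68be0400010abe168040002e1381600))))))

noncomputable def sF7_6_4_1 : Sv := ut
 (T.a (nat_lit 10) (nat_lit 8100) (T.a (nat_lit 20) (nat_lit 16200) (T.n (nat_lit 4050) (T.l (nat_lit 0x8c00000000005800000000002140000000208920000000174240000000080476000002be2c16400001c679c38000009656f080001422e3800e000c36306e01400280b208801))
 (T.l (nat_lit 0x25c00000000010b000000000052400000005154c000000022f4680000000a30d1000004125120c000019b6e04400000604fb06c000c4e017c07)))))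

noncomputable def sF7_7_4_1 : Sv := ut
 (T.a (nat_lit 10) (nat_lit 8100) (T.a (nat_lit 20) (nat_lit 16200) (T.n (nat_lit 4050) (T.l (nat_lit 0xe0000000000091000000000034000000002bcdb00000001dc30800000009d88f0000023a6816400001637642b000006011403c00054f019403))
 (T.l (nat_lit 0x3e80000000001af00000000007f00000000571d6000000023a5a80000000928df00000229b61a800000923301f)))))

noncomputable def sF7_8_4_1 : Sv := ut
 (T.a (nat_lit 9) (nat_lit 4050) (T.a (nat_lit 18) (nat_lit 8100) (T.a (nat_lit 36) (nat_lit 16200) (T.l (nat_lit 0x1700000000000e90000000087d0c0000025b894000000191f2c180006a75f16a600e6457e7614805e652e0ac19)))))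

noncomputable def sF7_9_4_1 : Sv := ut
 (T.a (nat_lit 8) (nat_lit 4050) (T.a (nat_lit 16) (nat_lit 8100) (T.l (nat_lit 0xfc0000000000990000000027afc0000003ee99f00000022331800000256b671d))))

noncomputable def sF7_10_4_1 : Sv := ut
 (T.a (nat_lit 7) (nat_lit 4050) (T.a (nat_lit 14) (nat_lit 8100) (T.l (nat_lit 0x8800000000004700000000055280000000195a4))))

noncomputable def sF7_11_4_1 : Sv := ut
 (T.l (nat_lit 0x10000000000006))

noncomputable def sF7_6_5_1 : Sv := ut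
 (T.a (nat_lit 9) (nat_lit 8100) (T.a (nat_lit 18) (nat_lit 16200) (T.n (nat_lit 4050) (T.l (nat_lit 0x24000000000010c000000000054000000004a158000000020a4f000000009a0f4000002ca4e2b0000012373868000004d1320e000084e526014000269d43a02))
 (T.l (nat_lit 0xac00000000007900000000002a800000000beb9000000007e2a400000002a28200000046a895c000002b2082e000000bf4f050000051cc7404)))))

noncomputable def sF7_7_5_1 : Sv := ut
 (T.a (nat_lit 9) (nat_lit 8100) (T.a (nat_lit 18) (nat_lit 16200) (T.n (nat_lit 4050) (T.l (nat_lit 0x4100000000001c000000000008400000000709e800000002ee5e00000000ca8ec0000027a941c000000d965024000002509001))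
 (T.l (nat_lit 0x15c0000000000ee000000000050800000000f143000000009b41400000002e8aa000000299614400000125341a)))))

noncomputable def sF7_8_5_1 : Sv := ut
 (T.a (nat_lit 9) (nat_lit 4050) (T.a (nat_lit 18) (nat_lit 8100) (T.a (nat_lit 36) (nat_lit 16200) (T.l (nat_lit 0x830000000034b740000000224f9000000cfab35800024cea5694000149185f92802c40268881b)))))

noncomputable def sF7_9_5_1 : Sv := ut
 (T.a (nat_lit 8) (nat_lit 4050) (T.a (nat_lit 16) (nat_lit 8100) (T.l (nat_lit 0x4f000000000ede4000000008c710000000fe391c00000b3f5215))))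

noncomputable def sF7_10_5_1 : Sv := ut
 (T.a (nat_lit 6) (nat_lit 4050) (T.l (nat_lit 0x270000000000dc8000000000560)))

noncomputable def sF7_11_5_1 : Sv := ut
 (T.l (nat_lit 0x2))

noncomputable def sF7_7_6_1 : Sv := ut
 (T.a (nat_lit 8) (nat_lit 4050) (T.a (nat_lit 16) (nat_lit 8100) (T.a (nat_lit 32) (nat_lit 16200) (T.l (nat_lit 0x9000000000006000000000381e0000000ad7c780000006d6617000013e195c34001d75763706000f5ad2868040f34361b0600)))))

noncomputable def sF7_8_6_1 : Sv := ut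
 (T.a (nat_lit 8) (nat_lit 4050) (T.a (nat_lit 16) (nat_lit 8100) (T.a (nat_lit 32) (nat_lit 16200) (T.l (nat_lit 0x2100000000001780000000065780000000da69c000000080985000000de259ca80007394e250e)))))

noncomputable def sF7_9_6_1 : Sv := ut
 (T.a (nat_lit 7) (nat_lit 4050) (T.a (nat_lit 14) (nat_lit 8100) (T.l (nat_lit 0x1400000000000cc0000000019b700000000e889800000006950a))))

noncomputable def sF7_10_6_1 : Sv := ut
 (T.n (nat_lit 4050) (T.l (nat_lit 0xa000000000005c00000000000f))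
 (T.l (nat_lit 0x8)))

noncomputable def sF7_8_7_1 : Sv := ut
 (T.a (nat_lit 6) (nat_lit 4050) (T.a (nat_lit 12) (nat_lit 8100) (T.l (nat_lit 0x7000000000053000000000031c4000000023de80000000aba95c0000003e03cb))))

noncomputable def sF7_9_7_1 : Sv := ut
 (T.a (nat_lit 5) (nat_lit 4050) (T.a (nat_lit 10) (nat_lit 8100) (T.l (nat_lit 0x340000000001520000000000b34000000001a23))))

noncomputable def sF7_10_7_1 : Sv := ut
 (T.n (nat_lit 4050) (T.l (nat_lit 0x1c000000000008))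
 (T.l (nat_lit 0x1)))

noncomputable def sF7_9_8_1 : Sv := ut
 (T.n (nat_lit 4050) (T.s (nat_lit 50) (T.l (nat_lit 0x10000000000004000000000001)))
 (T.n (nat_lit 4050) (T.l (nat_lit 0x8000000000002))
 (T.l (nat_lit 0x1))))

noncomputable def sF7_10_8_1 : Sv := ut
 (T.l (nat_lit 0x4000000000002))

noncomputable def sF7_4_3_2 : Sv := ut
 (T.a (nat_lit 8) (nat_lit 8100) (T.a (nat_lit 16) (nat_lit 16200) (T.a (nat_lit 32) (nat_lit 32400) (T.n (nat_lit 4050) (T.l (nat_lit 0x400000000000a000000000002c0000000012120000000009040000000003f1400000006114400000005a4f110000001d1143000002994400b000015a1cb81c0000897e24060003a1164540c00397d420e02000d5347c140406302f120301))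
 (T.l (nat_lit 0x30000000000017000000000007c00000000292200000000130900000000060200000000fdb0700000006e641500000023960400000308940090000165ecbc1800005a5218020004538d43804000e200e0200))))))

noncomputable def sF7_5_3_2 : Sv := ut
 (T.a (nat_lit 9) (nat_lit 8100) (T.a (nat_lit 18) (nat_lit 16200) (T.a (nat_lit 36) (nat_lit 32400) (T.n (nat_lit 4050) (T.l (nat_lit 0xc0000000000100000000000048000000004a19000000002f8580000000120160000003e5003c000002bd3a0c000000f5410180001ac10c40300011ae31f00400056a90400000452c5f0700001a2787c0400))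
 (T.l (nat_lit 0x94000000000044000000000015c00000000d45e000000005e95c00000001da490000007e770d800000371a224000000f84d85000021b80ca0a0000ba981880c0002412c2a01))))))

noncomputable def sF7_6_3_2 : Sv := ut
 (T.a (nat_lit 9) (nat_lit 8100) (T.a (nat_lit 18) (nat_lit 16200) (T.n (nat_lit 4050) (T.l (nat_lit 0x40000000000043000000000015400000000b06d000000006818c000000027a5e00000055a410c00000432723300000148730700001bd3940110000c6e326018000339f04603))
 (T.l (nat_lit 0x1680000000000a000000000003280000000162cb000000009c2d400000002ca860000008da916c0000034de82e000000d24b058000099ac5c03)))))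

noncomputable def sF7_7_3_2 : Sv := ut
 (T.a (nat_lit 9) (nat_lit 8100) (T.a (nat_lit 18) (nat_lit 16200) (T.n (nat_lit 4050) (T.l (nat_lit 0x58000000000051000000000019800000000b476000000007418800000002724f00000046988b8000002a9da17000000bb45820000041c45800))
 (T.l (nat_lit 0x2080000000000e60000000000438000000016503000000008f328000000026286000000427190000000134ec1b)))))

noncomputable def sF7_8_3_2 : Sv := ut
 (T.a (nat_lit 8) (nat_lit 4050) (T.a (nat_lit 16) (nat_lit 8100) (T.a (nat_lit 32) (nat_lit 16200) (T.l (nat_lit 0x8c0000000000850000000020a8000000057d2b60000002e7a62800005ef7b6680005226e9ccc00039526e2018)))))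

noncomputable def sF7_9_3_2 : Sv := ut
 (T.a (nat_lit 7) (nat_lit 4050) (T.a (nat_lit 14) (nat_lit 8100) (T.l (nat_lit 0x54000000000047000000000932c00000007384500000003bc28c0000024bdb08))))

noncomputable def sF7_10_3_2 : Sv := ut
 (T.a (nat_lit 6) (nat_lit 4050) (T.a (nat_lit 12) (nat_lit 8100) (T.l (nat_lit 0x2800000000002d000000000138c0000000073dc))))

noncomputable def sF7_11_3_2 : Sv := ut
 (T.l (nat_lit 0x3))

noncomputable def sF7_5_4_2 : Sv := ut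
 (T.a (nat_lit 8) (nat_lit 8100) (T.a (nat_lit 16) (nat_lit 16200) (T.a (nat_lit 32) (nat_lit 32400) (T.n (nat_lit 4050) (T.l (nat_lit 0x30000000000014000000000007000000000a418000000004a05000000001600c0000005958020000002551c00000000ae3500000011e6c7000000072760f0000001a4f41000000e441a0100))
 (T.l (nat_lit 0x2c000000000019000000000009c0000000020280000000019c9c00000000851d0000000ce5054000000757b0a0000002857c140000128e330100000d5a46800000025270600))))))

noncomputable def sF7_6_4_2 : Sv := ut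
 (T.a (nat_lit 9) (nat_lit 8100) (T.a (nat_lit 18) (nat_lit 16200) (T.n (nat_lit 4050) (T.l (nat_lit 0x26000000000010c000000000054000000004c95400000002144b000000009d0e0000002e252260000012b73054000004e9280a00008aea2480c000269c43201))
 (T.l (nat_lit 0xb400000000007c00000000002b800000000c0bb0000000082aa000000002b67f00000049ab944000002d2122a000000c94e840000049ec7403)))))

noncomputable def sF7_7_4_2 : Sv := ut
 (T.a (nat_lit 9) (nat_lit 8100) (T.a (nat_lit 18) (nat_lit 16200) (T.n (nat_lit 4050) (T.l (nat_lit 0x3b000000000019000000000007600000000611b000000002865500000000ae0c8000002223e19000000be5481c000002208001))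
 (T.l (nat_lit 0x1400000000000cd000000000046800000000c91700000000853940000000276900000002481120000000ecf816)))))

noncomputable def sF7_8_4_2 : Sv := ut
 (T.a (nat_lit 9) (nat_lit 4050) (T.a (nat_lit 18) (nat_lit 8100) (T.a (nat_lit 36) (nat_lit 16200) (T.l (nat_lit 0x6a000000002a2c800000001b2c9000000a488ab00001cbe9dc7800010ade4b0f0023349e06a17)))))

noncomputable def sF7_9_4_2 : Sv := ut
 (T.a (nat_lit 7) (nat_lit 4050) (T.a (nat_lit 14) (nat_lit 8100) (T.l (nat_lit 0x3d0000000005b7800000000365a000000033ded4000000ed5e10))))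

noncomputable def sF7_10_4_2 : Sv := ut
 (T.a (nat_lit 6) (nat_lit 4050) (T.l (nat_lit 0x1e0000000000b94000000000458)))

noncomputable def sF7_11_4_2 : Sv := ut
 (T.l (nat_lit 0x3))

noncomputable def sF7_6_5_2 : Sv := ut
 (T.a (nat_lit 8) (nat_lit 8100) (T.a (nat_lit 16) (nat_lit 16200) (T.n (nat_lit 4050) (T.l (nat_lit 0x12000000000009000000000003d000000000b8f400000000994000000000300c000000045d4270000002529458000000c87b0e000003e5cec1400002d5d1b03))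
 (T.l (nat_lit 0x390000000000198000000000078000000001dddc00000000c25c000000003710800000047ad210000001a9d0400000003d2502)))))

noncomputable def sF7_7_5_2 : Sv := ut
 (T.a (nat_lit 8) (nat_lit 4050) (T.a (nat_lit 16) (nat_lit 8100) (T.a (nat_lit 32) (nat_lit 16200) (T.l (nat_lit 0x1800000000000d400000000714e000000126f924000000c7d53d0000233dad8900030d7da7d11001b30228f4141d556c311600)))))

noncomputable def sF7_8_5_2 : Sv := ut
 (T.a (nat_lit 8) (nat_lit 4050) (T.a (nat_lit 16) (nat_lit 8100) (T.a (nat_lit 32) (nat_lit 16200) (T.l (nat_lit 0x3900000000001ec0000000080b00000000fb3668000000b2c27b000011ab620f4001040742c1c)))))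

noncomputable def sF7_9_5_2 : Sv := ut
 (T.a (nat_lit 7) (nat_lit 4050) (T.a (nat_lit 14) (nat_lit 8100) (T.l (nat_lit 0x1d00000000000e4000000001f44000000011a2a4000000079b0c))))

noncomputable def sF7_10_5_2 : Sv := ut
 (T.n (nat_lit 4050) (T.l (nat_lit 0x110000000000060000000000019))
 (T.l (nat_lit 0x6)))

noncomputable def sF7_11_5_2 : Sv := ut
 (T.l (nat_lit 0x1))

noncomputable def sF7_7_6_2 : Sv := ut
 (T.a (nat_lit 7) (nat_lit 4050) (T.a (nat_lit 14) (nat_lit 8100) (T.a (nat_lit 28) (nat_lit 16200) (T.l (nat_lit 0x240000000008100000000006c3c0000000cde0e000000f4d7a1800000734120300006a2302600000a24054200)))))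

noncomputable def sF7_8_6_2 : Sv := ut
 (T.a (nat_lit 7) (nat_lit 4050) (T.a (nat_lit 14) (nat_lit 8100) (T.l (nat_lit 0xc40000000011d1000000000b34c0000000fb2420000008d3928c000003ae0d8f))))

noncomputable def sF7_9_6_2 : Sv := ut
 (T.a (nat_lit 6) (nat_lit 4050) (T.a (nat_lit 12) (nat_lit 8100) (T.l (nat_lit 0x580000000003e1000000000245800000000c647))))

noncomputable def sF7_10_6_2 : Sv := ut
 (T.n (nat_lit 4050) (T.l (nat_lit 0x2800000000000b))
 (T.l (nat_lit 0x2)))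

noncomputable def sF7_8_7_2 : Sv := ut
 (T.a (nat_lit 6) (nat_lit 4050) (T.a (nat_lit 12) (nat_lit 8100) (T.l (nat_lit 0x200000000000250000000001a900000000118a70000000065f5000000011c24e))))

noncomputable def sF7_9_7_2 : Sv := ut
 (T.a (nat_lit 4) (nat_lit 4050) (T.a (nat_lit 8) (nat_lit 8100) (T.l (nat_lit 0x800000000000a00000000002980000000002a2))))

noncomputable def sF7_10_7_2 : Sv := ut
 (T.l (nat_lit 0x4000000000006))

noncomputable def sF7_9_8_2 : Sv := ut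
 (T.n (nat_lit 4100) (T.s (nat_lit 100) (T.l (nat_lit 0x1)))
 (T.l (nat_lit 0x1)))

noncomputable def sF7_10_8_2 : Sv := ut
 (T.l (nat_lit 0x1))

noncomputable def sF7_10_9_2 : Sv := ut
 (T.l (nat_lit 0x1))

noncomputable def sF7_5_4_3 : Sv := ut
 (T.a (nat_lit 6) (nat_lit 8100) (T.a (nat_lit 12) (nat_lit 16200) (T.a (nat_lit 24) (nat_lit 32400) (T.n (nat_lit 4050) (T.l (nat_lit 0x40000000000000000000000604000000000300000000000120000000000c4400000000080f000000000292400000000aa440000000065e0800000001b38000000003508000))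
 (T.l (nat_lit 0x300000000000180000000000060000000001014000000000704000000000200800000001568000000000914000000000222000000000864400000000247000))))))

noncomputable def sF7_6_4_3 : Sv := ut
 (T.a (nat_lit 7) (nat_lit 4050) (T.a (nat_lit 14) (nat_lit 8100) (T.a (nat_lit 28) (nat_lit 16200) (T.l (nat_lit 0x30000000000040000000000d9200000001c5a5c0000000fdb11000001e5c623800019cd552870001436472c10015d7b4a06010c732999506003d61d3010080)))))

noncomputable def sF7_7_4_3 : Sv := ut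
 (T.a (nat_lit 7) (nat_lit 4050) (T.a (nat_lit 14) (nat_lit 8100) (T.a (nat_lit 28) (nat_lit 16200) (T.l (nat_lit 0x700000000000780000000018a3000000025a698000000172c9b000001ff6984800018bb997080000d6a3f2e080062d4c70201)))))

noncomputable def sF7_8_4_3 : Sv := ut
 (T.a (nat_lit 7) (nat_lit 4050) (T.a (nat_lit 14) (nat_lit 8100) (T.a (nat_lit 28) (nat_lit 16200) (T.l (nat_lit 0xf00000000000dc000000001cbb000000022b4fc000000102d25000000fca7054000034e88d85)))))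

noncomputable def sF7_9_4_3 : Sv := ut
 (T.a (nat_lit 6) (nat_lit 4050) (T.a (nat_lit 12) (nat_lit 8100) (T.l (nat_lit 0xa00000000000880000000006a0000000002a16000000000f48a))))

noncomputable def sF7_10_4_3 : Sv := ut
 (T.n (nat_lit 4050) (T.l (nat_lit 0x1000000000002c000000000004))
 (T.l (nat_lit 0x5)))

noncomputable def sF7_6_5_3 : Sv := ut
 (T.a (nat_lit 7) (nat_lit 4050) (T.a (nat_lit 14) (nat_lit 8100) (T.a (nat_lit 28) (nat_lit 16200) (T.l (nat_lit 0x340000000007980000000004c700000000c5a9c000000ed26c600000099796920000cb051402c0084eaaec886004b15d1e0e082ce292a30081)))))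

noncomputable def sF7_7_5_3 : Sv := ut
 (T.a (nat_lit 7) (nat_lit 4050) (T.a (nat_lit 14) (nat_lit 8100) (T.a (nat_lit 28) (nat_lit 16200) (T.l (nat_lit 0x48000000000d9f0000000009488000000112f9c0000010eaac4800000a39de8800008aa473c08002a1646c480)))))

noncomputable def sF7_8_5_3 : Sv := ut
 (T.a (nat_lit 7) (nat_lit 4050) (T.a (nat_lit 14) (nat_lit 8100) (T.l (nat_lit 0xb80000000010cb000000000a7380000000e6f3d0000007cb8c840000032ccd8d))))

noncomputable def sF7_9_5_3 : Sv := ut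
 (T.a (nat_lit 5) (nat_lit 4050) (T.a (nat_lit 10) (nat_lit 8100) (T.l (nat_lit 0x540000000001dd0000000000f580000000022e7))))

noncomputable def sF7_10_5_3 : Sv := ut
 (T.n (nat_lit 4050) (T.l (nat_lit 0x20000000000008))
 (T.l (nat_lit 0x1)))

noncomputable def sF7_7_6_3 : Sv := ut
 (T.a (nat_lit 6) (nat_lit 4050) (T.a (nat_lit 12) (nat_lit 8100) (T.a (nat_lit 24) (nat_lit 16200) (T.l (nat_lit 0xc000000000005000000000121c00000000d6c50000000085c0c0000005254810000019d6890000000c40b040)))))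

noncomputable def sF7_8_6_3 : Sv := ut
 (T.a (nat_lit 6) (nat_lit 4050) (T.a (nat_lit 12) (nat_lit 8100) (T.l (nat_lit 0x4000000000002200000000022b400000000eca300000000928540000002d9487))))

noncomputable def sF7_9_6_3 : Sv := ut
 (T.a (nat_lit 4) (nat_lit 4050) (T.a (nat_lit 8) (nat_lit 8100) (T.l (nat_lit 0x1c00000000000d00000000003300000000002b4))))

noncomputable def sF7_10_6_3 : Sv := ut
 (T.l (nat_lit 0xc000000000003))

noncomputable def sF7_8_7_3 : Sv := ut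
 (T.a (nat_lit 5) (nat_lit 4050) (T.a (nat_lit 10) (nat_lit 8100) (T.l (nat_lit 0xe000000000045c000000000257000000000a8b80000000130e9))))

noncomputable def sF7_9_7_3 : Sv := ut
 (T.a (nat_lit 3) (nat_lit 4050) (T.l (nat_lit 0x3000000000004c000000000021)))

noncomputable def sF7_10_7_3 : Sv := ut
 (T.l (nat_lit 0x2))

noncomputable def sF7_6_5_4 : Sv := ut
 (T.a (nat_lit 6) (nat_lit 4050) (T.a (nat_lit 12) (nat_lit 8100) (T.a (nat_lit 24) (nat_lit 16200) (T.l (nat_lit 0x400000000000b0000000000a2800000000d41000000000554300000003e444c0000015d78e1c00001965c1c60000751534408004114149002)))))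

noncomputable def sF7_7_5_4 : Sv := ut
 (T.a (nat_lit 5) (nat_lit 4050) (T.a (nat_lit 10) (nat_lit 8100) (T.a (nat_lit 20) (nat_lit 16200) (T.l (nat_lit 0x4000000000008000000000089c0000000033880000000019e100000000976e200000012f6580000000699ca0)))))

noncomputable def sF7_8_5_4 : Sv := ut
 (T.a (nat_lit 5) (nat_lit 4050) (T.a (nat_lit 10) (nat_lit 8100) (T.l (nat_lit 0x1400000000001c00000000009e800000000373d0000000012c38000000015cc9))))

noncomputable def sF7_9_5_4 : Sv := ut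
 (T.a (nat_lit 4) (nat_lit 4050) (T.a (nat_lit 8) (nat_lit 8100) (T.l (nat_lit 0x40000000000070000000000190000000000181))))

noncomputable def sF7_10_5_4 : Sv := ut
 (T.l (nat_lit 0x5))

noncomputable def sF7_7_6_4 : Sv := ut
 (T.a (nat_lit 4) (nat_lit 4050) (T.a (nat_lit 8) (nat_lit 8100) (T.a (nat_lit 16) (nat_lit 16200) (T.l (nat_lit 0x100000000001040000000000610000000001e40000000002c5000000000260c0000000034400)))))

noncomputable def sF7_8_6_4 : Sv := ut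
 (T.a (nat_lit 5) (nat_lit 4050) (T.a (nat_lit 10) (nat_lit 8100) (T.l (nat_lit 0xc0000000000344000000000211000000000a82800000000a8c4))))

noncomputable def sF7_9_6_4 : Sv := ut
 (T.a (nat_lit 2) (nat_lit 4050) (T.l (nat_lit 0x3000000000003c00000000000d)))

noncomputable def sF7_10_6_4 : Sv := ut
 (T.l (nat_lit 0x1))

noncomputable def sF7_8_7_4 : Sv := ut
 (T.a (nat_lit 4) (nat_lit 4050) (T.a (nat_lit 8) (nat_lit 8100) (T.l (nat_lit 0x7000000000002400000000005f0000000000624000000000728))))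

noncomputable def sF7_9_7_4 : Sv := ut
 (T.n (nat_lit 4050) (T.s (nat_lit 100) (T.l (nat_lit 0x1)))
 (T.l (nat_lit 0x1)))

noncomputable def sF7_10_7_4 : Sv := ut
 (T.l (nat_lit 0x1))

noncomputable def sF7_7_6_5 : Sv := ut
 (T.n (nat_lit 12200) (T.n (nat_lit 8100) (T.s (nat_lit 4200) (T.l (nat_lit 0x1)))
 (T.l (nat_lit 0x40000000000010000000000004000000000001)))
 (T.n (nat_lit 4000) (T.l (nat_lit 0x1))
 (T.l (nat_lit 0x1))))

noncomputable def sF7_8_6_5 : Sv := ut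
 (T.a (nat_lit 3) (nat_lit 4050) (T.a (nat_lit 6) (nat_lit 8100) (T.l (nat_lit 0x1000000000001a0000000000268000000000010))))

noncomputable def sF7_9_6_5 : Sv := ut
 (T.s (nat_lit 50) (T.l (nat_lit 0x1)))

noncomputable def sF7_8_7_5 : Sv := ut
 (T.a (nat_lit 3) (nat_lit 4050) (T.a (nat_lit 6) (nat_lit 8100) (T.l (nat_lit 0xc00000000000d000000000005000000000004b))))

noncomputable def sF7_8_7_6 : Sv := ut
 (T.n (nat_lit 8100) (T.l (nat_lit 0x30000000000004000000000004))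
 (T.l (nat_lit 0x1)))

noncomputable def slF7_0 : Ls (Ls Sv) :=
 (Ls.cons Ls.nil
 (Ls.cons (Ls.cons sF7_2_1_0 (Ls.cons sF7_3_1_0 (Ls.cons sF7_4_1_0 (Ls.cons sF7_5_1_0 (Ls.cons sF7_6_1_0 (Ls.cons sF7_7_1_0 (Ls.cons sF7_8_1_0 (Ls.cons sF7_9_1_0 (Ls.cons sF7_10_1_0 (Ls.cons sF7_11_1_0 (Ls.cons sF7_12_1_0 (Ls.cons u0 (Ls.cons u0 (Ls.cons u0 (Ls.cons u0 (Ls.cons u0 (Ls.cons u0 (Ls.cons u0 (Ls.cons u0 (Ls.cons u0 (Ls.cons u0 (Ls.cons u0 (Ls.cons u0 Ls.nil)))))))))))))))))))))))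
 (Ls.cons (Ls.cons sF7_3_2_0 (Ls.cons sF7_4_2_0 (Ls.cons sF7_5_2_0 (Ls.cons sF7_6_2_0 (Ls.cons sF7_7_2_0 (Ls.cons sF7_8_2_0 (Ls.cons sF7_9_2_0 (Ls.cons sF7_10_2_0 (Ls.cons sF7_11_2_0 (Ls.cons sF7_12_2_0 (Ls.cons u0 (Ls.cons u0 (Ls.cons u0 (Ls.cons u0 (Ls.cons u0 (Ls.cons u0 (Ls.cons u0 (Ls.cons u0 (Ls.cons u0 (Ls.cons u0 (Ls.cons u0 (Ls.cons u0 Ls.nil))))))))))))))))))))))
 (Ls.cons (Ls.cons sF7_4_3_0 (Ls.cons sF7_5_3_0 (Ls.cons sF7_6_3_0 (Ls.cons sF7_7_3_0 (Ls.cons sF7_8_3_0 (Ls.cons sF7_9_3_0 (Ls.cons sF7_10_3_0 (Ls.cons sF7_11_3_0 (Ls.cons sF7_12_3_0 (Ls.cons u0 (Ls.cons u0 (Ls.cons u0 (Ls.cons u0 (Ls.cons u0 (Ls.cons u0 (Ls.cons u0 (Ls.cons u0 (Ls.cons u0 (Ls.cons u0 (Ls.cons u0 (Ls.cons u0 Ls.nil)))))))))))))))))))))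
 (Ls.cons (Ls.cons sF7_5_4_0 (Ls.cons sF7_6_4_0 (Ls.cons sF7_7_4_0 (Ls.cons sF7_8_4_0 (Ls.cons sF7_9_4_0 (Ls.cons sF7_10_4_0 (Ls.cons sF7_11_4_0 (Ls.cons u0 (Ls.cons u0 (Ls.cons u0 (Ls.cons u0 (Ls.cons u0 (Ls.cons u0 (Ls.cons u0 (Ls.cons u0 (Ls.cons u0 (Ls.cons u0 (Ls.cons u0 (Ls.cons u0 Ls.nil)))))))))))))))))))
 (Ls.cons (Ls.cons sF7_6_5_0 (Ls.cons sF7_7_5_0 (Ls.cons sF7_8_5_0 (Ls.cons sF7_9_5_0 (Ls.cons sF7_10_5_0 (Ls.cons sF7_11_5_0 (Ls.cons u0 (Ls.cons u0 (Ls.cons u0 (Ls.cons u0 (Ls.cons u0 (Ls.cons u0 (Ls.cons u0 (Ls.cons u0 (Ls.cons u0 (Ls.cons u0 (Ls.cons u0 (Ls.cons u0 Ls.nil))))))))))))))))))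
 (Ls.cons (Ls.cons sF7_7_6_0 (Ls.cons sF7_8_6_0 (Ls.cons sF7_9_6_0 (Ls.cons sF7_10_6_0 (Ls.cons sF7_11_6_0 (Ls.cons u0 (Ls.cons u0 (Ls.cons u0 (Ls.cons u0 (Ls.cons u0 (Ls.cons u0 (Ls.cons u0 (Ls.cons u0 (Ls.cons u0 (Ls.cons u0 (Ls.cons u0 Ls.nil))))))))))))))))
 (Ls.cons (Ls.cons sF7_8_7_0 (Ls.cons sF7_9_7_0 (Ls.cons sF7_10_7_0 (Ls.cons sF7_11_7_0 (Ls.cons u0 (Ls.cons u0 (Ls.cons u0 (Ls.cons u0 (Ls.cons u0 (Ls.cons u0 (Ls.cons u0 (Ls.cons u0 (Ls.cons u0 (Ls.cons u0 (Ls.cons u0 Ls.nil)))))))))))))))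
 (Ls.cons (Ls.cons sF7_9_8_0 (Ls.cons sF7_10_8_0 (Ls.cons u0 (Ls.cons u0 (Ls.cons u0 (Ls.cons u0 (Ls.cons u0 (Ls.cons u0 (Ls.cons u0 (Ls.cons u0 (Ls.cons u0 (Ls.cons u0 (Ls.cons u0 (Ls.cons u0 Ls.nil))))))))))))))
 (Ls.cons (Ls.cons sF7_10_9_0 (Ls.cons u0 (Ls.cons u0 (Ls.cons u0 (Ls.cons u0 (Ls.cons u0 (Ls.cons u0 (Ls.cons u0 (Ls.cons u0 (Ls.cons u0 (Ls.cons u0 (Ls.cons u0 (Ls.cons u0 Ls.nil)))))))))))))
 (Ls.cons (Ls.cons u0 (Ls.cons u0 (Ls.cons u0 (Ls.cons u0 (Ls.cons u0 (Ls.cons u0 (Ls.cons u0 (Ls.cons u0 (Ls.cons u0 (Ls.cons u0 (Ls.cons u0 (Ls.cons u0 Ls.nil))))))))))))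
 (Ls.cons (Ls.cons u0 (Ls.cons u0 (Ls.cons u0 (Ls.cons u0 (Ls.cons u0 (Ls.cons u0 (Ls.cons u0 (Ls.cons u0 (Ls.cons u0 (Ls.cons u0 (Ls.cons u0 Ls.nil)))))))))))
 (Ls.cons (Ls.cons u0 (Ls.cons u0 (Ls.cons u0 (Ls.cons u0 (Ls.cons u0 (Ls.cons u0 (Ls.cons u0 (Ls.cons u0 (Ls.cons u0 Ls.nil)))))))))
 (Ls.cons (Ls.cons u0 (Ls.cons u0 (Ls.cons u0 (Ls.cons u0 (Ls.cons u0 (Ls.cons u0 (Ls.cons u0 (Ls.cons u0 Ls.nil))))))))
 (Ls.cons (Ls.cons u0 (Ls.cons u0 (Ls.cons u0 (Ls.cons u0 (Ls.cons u0 (Ls.cons u0 (Ls.cons u0 Ls.nil)))))))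
 (Ls.cons (Ls.cons u0 (Ls.cons u0 (Ls.cons u0 (Ls.cons u0 (Ls.cons u0 (Ls.cons u0 Ls.nil))))))
 (Ls.cons (Ls.cons u0 (Ls.cons u0 (Ls.cons u0 (Ls.cons u0 Ls.nil))))
 (Ls.cons (Ls.cons u0 (Ls.cons u0 (Ls.cons u0 Ls.nil)))
 (Ls.cons (Ls.cons u0 (Ls.cons u0 Ls.nil))
 (Ls.cons (Ls.cons u0 Ls.nil)
 Ls.nil))))))))))))))))))))

noncomputable def slF7_1 : Ls (Ls Sv) :=
 (Ls.cons Ls.nil
 (Ls.cons Ls.nil
 (Ls.cons (Ls.cons sF7_3_2_1 (Ls.cons sF7_4_2_1 (Ls.cons sF7_5_2_1 (Ls.cons sF7_6_2_1 (Ls.cons sF7_7_2_1 (Ls.cons sF7_8_2_1 (Ls.cons sF7_9_2_1 (Ls.cons sF7_10_2_1 (Ls.cons sF7_11_2_1 (Ls.cons u0 (Ls.cons u0 (Ls.cons u0 (Ls.cons u0 (Ls.cons u0 (Ls.cons u0 (Ls.cons u0 (Ls.cons u0 (Ls.cons u0 (Ls.cons u0 (Ls.cons u0 (Ls.cons u0 (Ls.cons u0 Ls.nil))))))))))))))))))))))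
 (Ls.cons (Ls.cons sF7_4_3_1 (Ls.cons sF7_5_3_1 (Ls.cons sF7_6_3_1 (Ls.cons sF7_7_3_1 (Ls.cons sF7_8_3_1 (Ls.cons sF7_9_3_1 (Ls.cons sF7_10_3_1 (Ls.cons sF7_11_3_1 (Ls.cons u0 (Ls.cons u0 (Ls.cons u0 (Ls.cons u0 (Ls.cons u0 (Ls.cons u0 (Ls.cons u0 (Ls.cons u0 (Ls.cons u0 (Ls.cons u0 (Ls.cons u0 (Ls.cons u0 Ls.nil))))))))))))))))))))
 (Ls.cons (Ls.cons sF7_5_4_1 (Ls.cons sF7_6_4_1 (Ls.cons sF7_7_4_1 (Ls.cons sF7_8_4_1 (Ls.cons sF7_9_4_1 (Ls.cons sF7_10_4_1 (Ls.cons sF7_11_4_1 (Ls.cons u0 (Ls.cons u0 (Ls.cons u0 (Ls.cons u0 (Ls.cons u0 (Ls.cons u0 (Ls.cons u0 (Ls.cons u0 (Ls.cons u0 (Ls.cons u0 (Ls.cons u0 (Ls.cons u0 Ls.nil)))))))))))))))))))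
 (Ls.cons (Ls.cons sF7_6_5_1 (Ls.cons sF7_7_5_1 (Ls.cons sF7_8_5_1 (Ls.cons sF7_9_5_1 (Ls.cons sF7_10_5_1 (Ls.cons sF7_11_5_1 (Ls.cons u0 (Ls.cons u0 (Ls.cons u0 (Ls.cons u0 (Ls.cons u0 (Ls.cons u0 (Ls.cons u0 (Ls.cons u0 (Ls.cons u0 (Ls.cons u0 Ls.nil))))))))))))))))
 (Ls.cons (Ls.cons sF7_7_6_1 (Ls.cons sF7_8_6_1 (Ls.cons sF7_9_6_1 (Ls.cons sF7_10_6_1 (Ls.cons u0 (Ls.cons u0 (Ls.cons u0 (Ls.cons u0 (Ls.cons u0 (Ls.cons u0 (Ls.cons u0 (Ls.cons u0 (Ls.cons u0 (Ls.cons u0 (Ls.cons u0 Ls.nil)))))))))))))))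
 (Ls.cons (Ls.cons sF7_8_7_1 (Ls.cons sF7_9_7_1 (Ls.cons sF7_10_7_1 (Ls.cons u0 (Ls.cons u0 (Ls.cons u0 (Ls.cons u0 (Ls.cons u0 (Ls.cons u0 (Ls.cons u0 (Ls.cons u0 (Ls.cons u0 (Ls.cons u0 (Ls.cons u0 Ls.nil))))))))))))))
 (Ls.cons (Ls.cons sF7_9_8_1 (Ls.cons sF7_10_8_1 (Ls.cons u0 (Ls.cons u0 (Ls.cons u0 (Ls.cons u0 (Ls.cons u0 (Ls.cons u0 (Ls.cons u0 (Ls.cons u0 (Ls.cons u0 (Ls.cons u0 (Ls.cons u0 Ls.nil)))))))))))))
 (Ls.cons (Ls.cons u0 (Ls.cons u0 (Ls.cons u0 (Ls.cons u0 (Ls.cons u0 (Ls.cons u0 (Ls.cons u0 (Ls.cons u0 (Ls.cons u0 (Ls.cons u0 (Ls.cons u0 Ls.nil)))))))))))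
 (Ls.cons (Ls.cons u0 (Ls.cons u0 (Ls.cons u0 (Ls.cons u0 (Ls.cons u0 (Ls.cons u0 (Ls.cons u0 (Ls.cons u0 (Ls.cons u0 (Ls.cons u0 Ls.nil))))))))))
 (Ls.cons (Ls.cons u0 (Ls.cons u0 (Ls.cons u0 (Ls.cons u0 (Ls.cons u0 (Ls.cons u0 (Ls.cons u0 (Ls.cons u0 (Ls.cons u0 Ls.nil)))))))))
 (Ls.cons (Ls.cons u0 (Ls.cons u0 (Ls.cons u0 (Ls.cons u0 (Ls.cons u0 (Ls.cons u0 (Ls.cons u0 (Ls.cons u0 Ls.nil))))))))
 (Ls.cons (Ls.cons u0 (Ls.cons u0 (Ls.cons u0 (Ls.cons u0 (Ls.cons u0 (Ls.cons u0 Ls.nil))))))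
 (Ls.cons (Ls.cons u0 (Ls.cons u0 (Ls.cons u0 (Ls.cons u0 (Ls.cons u0 Ls.nil)))))
 (Ls.cons (Ls.cons u0 (Ls.cons u0 (Ls.cons u0 (Ls.cons u0 Ls.nil))))
 (Ls.cons (Ls.cons u0 (Ls.cons u0 (Ls.cons u0 Ls.nil)))
 (Ls.cons (Ls.cons u0 Ls.nil)
 (Ls.cons Ls.nil
 (Ls.cons Ls.nil
 Ls.nil))))))))))))))))))))

noncomputable def slF7_2 : Ls (Ls Sv) :=
 (Ls.cons Ls.nil
 (Ls.cons Ls.nil
 (Ls.cons Ls.nil
 (Ls.cons (Ls.cons sF7_4_3_2 (Ls.cons sF7_5_3_2 (Ls.cons sF7_6_3_2 (Ls.cons sF7_7_3_2 (Ls.cons sF7_8_3_2 (Ls.cons sF7_9_3_2 (Ls.cons sF7_10_3_2 (Ls.cons sF7_11_3_2 (Ls.cons u0 (Ls.cons u0 (Ls.cons u0 (Ls.cons u0 (Ls.cons u0 (Ls.cons u0 (Ls.cons u0 (Ls.cons u0 (Ls.cons u0 (Ls.cons u0 (Ls.cons u0 Ls.nil)))))))))))))))))))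
 (Ls.cons (Ls.cons sF7_5_4_2 (Ls.cons sF7_6_4_2 (Ls.cons sF7_7_4_2 (Ls.cons sF7_8_4_2 (Ls.cons sF7_9_4_2 (Ls.cons sF7_10_4_2 (Ls.cons sF7_11_4_2 (Ls.cons u0 (Ls.cons u0 (Ls.cons u0 (Ls.cons u0 (Ls.cons u0 (Ls.cons u0 (Ls.cons u0 (Ls.cons u0 (Ls.cons u0 (Ls.cons u0 Ls.nil)))))))))))))))))
 (Ls.cons (Ls.cons sF7_6_5_2 (Ls.cons sF7_7_5_2 (Ls.cons sF7_8_5_2 (Ls.cons sF7_9_5_2 (Ls.cons sF7_10_5_2 (Ls.cons sF7_11_5_2 (Ls.cons u0 (Ls.cons u0 (Ls.cons u0 (Ls.cons u0 (Ls.cons u0 (Ls.cons u0 (Ls.cons u0 (Ls.cons u0 (Ls.cons u0 (Ls.cons u0 Ls.nil))))))))))))))))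
 (Ls.cons (Ls.cons sF7_7_6_2 (Ls.cons sF7_8_6_2 (Ls.cons sF7_9_6_2 (Ls.cons sF7_10_6_2 (Ls.cons u0 (Ls.cons u0 (Ls.cons u0 (Ls.cons u0 (Ls.cons u0 (Ls.cons u0 (Ls.cons u0 (Ls.cons u0 (Ls.cons u0 (Ls.cons u0 (Ls.cons u0 Ls.nil)))))))))))))))
 (Ls.cons (Ls.cons sF7_8_7_2 (Ls.cons sF7_9_7_2 (Ls.cons sF7_10_7_2 (Ls.cons u0 (Ls.cons u0 (Ls.cons u0 (Ls.cons u0 (Ls.cons u0 (Ls.cons u0 (Ls.cons u0 (Ls.cons u0 (Ls.cons u0 (Ls.cons u0 (Ls.cons u0 Ls.nil))))))))))))))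
 (Ls.cons (Ls.cons sF7_9_8_2 (Ls.cons sF7_10_8_2 (Ls.cons u0 (Ls.cons u0 (Ls.cons u0 (Ls.cons u0 (Ls.cons u0 (Ls.cons u0 (Ls.cons u0 (Ls.cons u0 (Ls.cons u0 (Ls.cons u0 Ls.nil))))))))))))
 (Ls.cons (Ls.cons sF7_10_9_2 (Ls.cons u0 (Ls.cons u0 (Ls.cons u0 (Ls.cons u0 (Ls.cons u0 (Ls.cons u0 (Ls.cons u0 (Ls.cons u0 (Ls.cons u0 (Ls.cons u0 Ls.nil)))))))))))
 (Ls.cons (Ls.cons u0 (Ls.cons u0 (Ls.cons u0 (Ls.cons u0 (Ls.cons u0 (Ls.cons u0 (Ls.cons u0 (Ls.cons u0 (Ls.cons u0 (Ls.cons u0 Ls.nil))))))))))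
 (Ls.cons (Ls.cons u0 (Ls.cons u0 (Ls.cons u0 (Ls.cons u0 (Ls.cons u0 (Ls.cons u0 (Ls.cons u0 (Ls.cons u0 (Ls.cons u0 Ls.nil)))))))))
 (Ls.cons (Ls.cons u0 (Ls.cons u0 (Ls.cons u0 (Ls.cons u0 (Ls.cons u0 (Ls.cons u0 (Ls.cons u0 Ls.nil)))))))
 (Ls.cons (Ls.cons u0 (Ls.cons u0 (Ls.cons u0 (Ls.cons u0 (Ls.cons u0 (Ls.cons u0 Ls.nil))))))
 (Ls.cons (Ls.cons u0 (Ls.cons u0 (Ls.cons u0 (Ls.cons u0 (Ls.cons u0 Ls.nil)))))
 (Ls.cons (Ls.cons u0 (Ls.cons u0 (Ls.cons u0 (Ls.cons u0 Ls.nil))))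
 (Ls.cons (Ls.cons u0 (Ls.cons u0 Ls.nil))
 (Ls.cons (Ls.cons u0 Ls.nil)
 (Ls.cons Ls.nil
 (Ls.cons Ls.nil
 Ls.nil))))))))))))))))))))

noncomputable def slF7_3 : Ls (Ls Sv) :=
 (Ls.cons Ls.nil
 (Ls.cons Ls.nil
 (Ls.cons Ls.nil
 (Ls.cons Ls.nil
 (Ls.cons (Ls.cons sF7_5_4_3 (Ls.cons sF7_6_4_3 (Ls.cons sF7_7_4_3 (Ls.cons sF7_8_4_3 (Ls.cons sF7_9_4_3 (Ls.cons sF7_10_4_3 (Ls.cons u0 (Ls.cons u0 (Ls.cons u0 (Ls.cons u0 (Ls.cons u0 (Ls.cons u0 (Ls.cons u0 (Ls.cons u0 (Ls.cons u0 (Ls.cons u0 (Ls.cons u0 Ls.nil)))))))))))))))))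
 (Ls.cons (Ls.cons sF7_6_5_3 (Ls.cons sF7_7_5_3 (Ls.cons sF7_8_5_3 (Ls.cons sF7_9_5_3 (Ls.cons sF7_10_5_3 (Ls.cons u0 (Ls.cons u0 (Ls.cons u0 (Ls.cons u0 (Ls.cons u0 (Ls.cons u0 (Ls.cons u0 (Ls.cons u0 (Ls.cons u0 (Ls.cons u0 (Ls.cons u0 Ls.nil))))))))))))))))
 (Ls.cons (Ls.cons sF7_7_6_3 (Ls.cons sF7_8_6_3 (Ls.cons sF7_9_6_3 (Ls.cons sF7_10_6_3 (Ls.cons u0 (Ls.cons u0 (Ls.cons u0 (Ls.cons u0 (Ls.cons u0 (Ls.cons u0 (Ls.cons u0 (Ls.cons u0 (Ls.cons u0 (Ls.cons u0 (Ls.cons u0 Ls.nil)))))))))))))))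
 (Ls.cons (Ls.cons sF7_8_7_3 (Ls.cons sF7_9_7_3 (Ls.cons sF7_10_7_3 (Ls.cons u0 (Ls.cons u0 (Ls.cons u0 (Ls.cons u0 (Ls.cons u0 (Ls.cons u0 (Ls.cons u0 (Ls.cons u0 (Ls.cons u0 (Ls.cons u0 Ls.nil)))))))))))))
 (Ls.cons (Ls.cons u0 (Ls.cons u0 (Ls.cons u0 (Ls.cons u0 (Ls.cons u0 (Ls.cons u0 (Ls.cons u0 (Ls.cons u0 (Ls.cons u0 (Ls.cons u0 (Ls.cons u0 (Ls.cons u0 Ls.nil))))))))))))
 (Ls.cons (Ls.cons u0 (Ls.cons u0 (Ls.cons u0 (Ls.cons u0 (Ls.cons u0 (Ls.cons u0 (Ls.cons u0 (Ls.cons u0 (Ls.cons u0 (Ls.cons u0 (Ls.cons u0 Ls.nil)))))))))))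
 (Ls.cons (Ls.cons u0 (Ls.cons u0 (Ls.cons u0 (Ls.cons u0 (Ls.cons u0 (Ls.cons u0 (Ls.cons u0 (Ls.cons u0 (Ls.cons u0 (Ls.cons u0 Ls.nil))))))))))
 (Ls.cons (Ls.cons u0 (Ls.cons u0 (Ls.cons u0 (Ls.cons u0 (Ls.cons u0 (Ls.cons u0 (Ls.cons u0 (Ls.cons u0 Ls.nil))))))))
 (Ls.cons (Ls.cons u0 (Ls.cons u0 (Ls.cons u0 (Ls.cons u0 (Ls.cons u0 (Ls.cons u0 (Ls.cons u0 Ls.nil)))))))
 (Ls.cons (Ls.cons u0 (Ls.cons u0 (Ls.cons u0 (Ls.cons u0 (Ls.cons u0 (Ls.cons u0 Ls.nil))))))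
 (Ls.cons (Ls.cons u0 (Ls.cons u0 (Ls.cons u0 (Ls.cons u0 (Ls.cons u0 Ls.nil)))))
 (Ls.cons (Ls.cons u0 (Ls.cons u0 (Ls.cons u0 Ls.nil)))
 (Ls.cons (Ls.cons u0 (Ls.cons u0 Ls.nil))
 (Ls.cons (Ls.cons u0 Ls.nil)
 (Ls.cons Ls.nil
 (Ls.cons Ls.nil
 Ls.nil))))))))))))))))))))

noncomputable def slF7_4 : Ls (Ls Sv) :=
 (Ls.cons Ls.nil
 (Ls.cons Ls.nil
 (Ls.cons Ls.nil
 (Ls.cons Ls.nil
 (Ls.cons Ls.nil
 (Ls.cons (Ls.cons sF7_6_5_4 (Ls.cons sF7_7_5_4 (Ls.cons sF7_8_5_4 (Ls.cons sF7_9_5_4 (Ls.cons sF7_10_5_4 (Ls.cons u0 (Ls.cons u0 (Ls.cons u0 (Ls.cons u0 (Ls.cons u0 (Ls.cons u0 (Ls.cons u0 (Ls.cons u0 (Ls.cons u0 (Ls.cons u0 (Ls.cons u0 Ls.nil))))))))))))))))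
 (Ls.cons (Ls.cons sF7_7_6_4 (Ls.cons sF7_8_6_4 (Ls.cons sF7_9_6_4 (Ls.cons sF7_10_6_4 (Ls.cons u0 (Ls.cons u0 (Ls.cons u0 (Ls.cons u0 (Ls.cons u0 (Ls.cons u0 (Ls.cons u0 (Ls.cons u0 (Ls.cons u0 (Ls.cons u0 Ls.nil))))))))))))))
 (Ls.cons (Ls.cons sF7_8_7_4 (Ls.cons sF7_9_7_4 (Ls.cons sF7_10_7_4 (Ls.cons u0 (Ls.cons u0 (Ls.cons u0 (Ls.cons u0 (Ls.cons u0 (Ls.cons u0 (Ls.cons u0 (Ls.cons u0 (Ls.cons u0 (Ls.cons u0 Ls.nil)))))))))))))
 (Ls.cons (Ls.cons u0 (Ls.cons u0 (Ls.cons u0 (Ls.cons u0 (Ls.cons u0 (Ls.cons u0 (Ls.cons u0 (Ls.cons u0 (Ls.cons u0 (Ls.cons u0 (Ls.cons u0 (Ls.cons u0 Ls.nil))))))))))))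
 (Ls.cons (Ls.cons u0 (Ls.cons u0 (Ls.cons u0 (Ls.cons u0 (Ls.cons u0 (Ls.cons u0 (Ls.cons u0 (Ls.cons u0 (Ls.cons u0 (Ls.cons u0 (Ls.cons u0 Ls.nil)))))))))))
 (Ls.cons (Ls.cons u0 (Ls.cons u0 (Ls.cons u0 (Ls.cons u0 (Ls.cons u0 (Ls.cons u0 (Ls.cons u0 (Ls.cons u0 (Ls.cons u0 Ls.nil)))))))))
 (Ls.cons (Ls.cons u0 (Ls.cons u0 (Ls.cons u0 (Ls.cons u0 (Ls.cons u0 (Ls.cons u0 (Ls.cons u0 (Ls.cons u0 Ls.nil))))))))
 (Ls.cons (Ls.cons u0 (Ls.cons u0 (Ls.cons u0 (Ls.cons u0 (Ls.cons u0 (Ls.cons u0 (Ls.cons u0 Ls.nil)))))))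
 (Ls.cons (Ls.cons u0 (Ls.cons u0 (Ls.cons u0 (Ls.cons u0 (Ls.cons u0 (Ls.cons u0 Ls.nil))))))
 (Ls.cons (Ls.cons u0 (Ls.cons u0 (Ls.cons u0 (Ls.cons u0 Ls.nil))))
 (Ls.cons (Ls.cons u0 (Ls.cons u0 (Ls.cons u0 Ls.nil)))
 (Ls.cons (Ls.cons u0 (Ls.cons u0 Ls.nil))
 (Ls.cons (Ls.cons u0 Ls.nil)
 (Ls.cons Ls.nil
 (Ls.cons Ls.nil
 Ls.nil))))))))))))))))))))

noncomputable def slF7_5 : Ls (Ls Sv) :=
 (Ls.cons Ls.nil
 (Ls.cons Ls.nil
 (Ls.cons Ls.nil
 (Ls.cons Ls.nil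
 (Ls.cons Ls.nil
 (Ls.cons Ls.nil
 (Ls.cons (Ls.cons sF7_7_6_5 (Ls.cons sF7_8_6_5 (Ls.cons sF7_9_6_5 (Ls.cons u0 (Ls.cons u0 (Ls.cons u0 (Ls.cons u0 (Ls.cons u0 (Ls.cons u0 (Ls.cons u0 (Ls.cons u0 (Ls.cons u0 (Ls.cons u0 (Ls.cons u0 Ls.nil))))))))))))))
 (Ls.cons (Ls.cons sF7_8_7_5 (Ls.cons u0 (Ls.cons u0 (Ls.cons u0 (Ls.cons u0 (Ls.cons u0 (Ls.cons u0 (Ls.cons u0 (Ls.cons u0 (Ls.cons u0 (Ls.cons u0 (Ls.cons u0 (Ls.cons u0 Ls.nil)))))))))))))
 (Ls.cons (Ls.cons u0 (Ls.cons u0 (Ls.cons u0 (Ls.cons u0 (Ls.cons u0 (Ls.cons u0 (Ls.cons u0 (Ls.cons u0 (Ls.cons u0 (Ls.cons u0 (Ls.cons u0 (Ls.cons u0 Ls.nil))))))))))))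
 (Ls.cons (Ls.cons u0 (Ls.cons u0 (Ls.cons u0 (Ls.cons u0 (Ls.cons u0 (Ls.cons u0 (Ls.cons u0 (Ls.cons u0 (Ls.cons u0 (Ls.cons u0 Ls.nil))))))))))
 (Ls.cons (Ls.cons u0 (Ls.cons u0 (Ls.cons u0 (Ls.cons u0 (Ls.cons u0 (Ls.cons u0 (Ls.cons u0 (Ls.cons u0 (Ls.cons u0 Ls.nil)))))))))
 (Ls.cons (Ls.cons u0 (Ls.cons u0 (Ls.cons u0 (Ls.cons u0 (Ls.cons u0 (Ls.cons u0 (Ls.cons u0 (Ls.cons u0 Ls.nil))))))))
 (Ls.cons (Ls.cons u0 (Ls.cons u0 (Ls.cons u0 (Ls.cons u0 (Ls.cons u0 (Ls.cons u0 (Ls.cons u0 Ls.nil)))))))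
 (Ls.cons (Ls.cons u0 (Ls.cons u0 (Ls.cons u0 (Ls.cons u0 (Ls.cons u0 Ls.nil)))))
 (Ls.cons (Ls.cons u0 (Ls.cons u0 (Ls.cons u0 (Ls.cons u0 Ls.nil))))
 (Ls.cons (Ls.cons u0 (Ls.cons u0 (Ls.cons u0 Ls.nil)))
 (Ls.cons (Ls.cons u0 (Ls.cons u0 Ls.nil))
 (Ls.cons Ls.nil
 (Ls.cons Ls.nil
 (Ls.cons Ls.nil
 Ls.nil))))))))))))))))))))

noncomputable def slF7_6 : Ls (Ls Sv) :=
 (Ls.cons Ls.nil
 (Ls.cons Ls.nil
 (Ls.cons Ls.nil
 (Ls.cons Ls.nil
 (Ls.cons Ls.nil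
 (Ls.cons Ls.nil
 (Ls.cons Ls.nil
 (Ls.cons (Ls.cons sF7_8_7_6 (Ls.cons u0 (Ls.cons u0 (Ls.cons u0 (Ls.cons u0 (Ls.cons u0 (Ls.cons u0 (Ls.cons u0 (Ls.cons u0 (Ls.cons u0 (Ls.cons u0 (Ls.cons u0 (Ls.cons u0 Ls.nil)))))))))))))
 (Ls.cons (Ls.cons u0 (Ls.cons u0 (Ls.cons u0 (Ls.cons u0 (Ls.cons u0 (Ls.cons u0 (Ls.cons u0 (Ls.cons u0 (Ls.cons u0 (Ls.cons u0 (Ls.cons u0 Ls.nil)))))))))))
 (Ls.cons (Ls.cons u0 (Ls.cons u0 (Ls.cons u0 (Ls.cons u0 (Ls.cons u0 (Ls.cons u0 (Ls.cons u0 (Ls.cons u0 (Ls.cons u0 (Ls.cons u0 Ls.nil))))))))))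
 (Ls.cons (Ls.cons u0 (Ls.cons u0 (Ls.cons u0 (Ls.cons u0 (Ls.cons u0 (Ls.cons u0 (Ls.cons u0 (Ls.cons u0 (Ls.cons u0 Ls.nil)))))))))
 (Ls.cons (Ls.cons u0 (Ls.cons u0 (Ls.cons u0 (Ls.cons u0 (Ls.cons u0 (Ls.cons u0 (Ls.cons u0 (Ls.cons u0 Ls.nil))))))))
 (Ls.cons (Ls.cons u0 (Ls.cons u0 (Ls.cons u0 (Ls.cons u0 (Ls.cons u0 (Ls.cons u0 Ls.nil))))))
 (Ls.cons (Ls.cons u0 (Ls.cons u0 (Ls.cons u0 (Ls.cons u0 (Ls.cons u0 Ls.nil)))))
 (Ls.cons (Ls.cons u0 (Ls.cons u0 (Ls.cons u0 (Ls.cons u0 Ls.nil))))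
 (Ls.cons (Ls.cons u0 (Ls.cons u0 (Ls.cons u0 Ls.nil)))
 (Ls.cons (Ls.cons u0 Ls.nil)
 (Ls.cons Ls.nil
 (Ls.cons Ls.nil
 (Ls.cons Ls.nil
 Ls.nil))))))))))))))))))))

noncomputable def slF7_7 : Ls (Ls Sv) :=
 (Ls.cons Ls.nil
 (Ls.cons Ls.nil
 (Ls.cons Ls.nil
 (Ls.cons Ls.nil
 (Ls.cons Ls.nil
 (Ls.cons Ls.nil
 (Ls.cons Ls.nil
 (Ls.cons Ls.nil
 (Ls.cons (Ls.cons u0 (Ls.cons u0 (Ls.cons u0 (Ls.cons u0 (Ls.cons u0 (Ls.cons u0 (Ls.cons u0 (Ls.cons u0 (Ls.cons u0 (Ls.cons u0 (Ls.cons u0 Ls.nil)))))))))))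
 (Ls.cons (Ls.cons u0 (Ls.cons u0 (Ls.cons u0 (Ls.cons u0 (Ls.cons u0 (Ls.cons u0 (Ls.cons u0 (Ls.cons u0 (Ls.cons u0 (Ls.cons u0 Ls.nil))))))))))
 (Ls.cons (Ls.cons u0 (Ls.cons u0 (Ls.cons u0 (Ls.cons u0 (Ls.cons u0 (Ls.cons u0 (Ls.cons u0 (Ls.cons u0 (Ls.cons u0 Ls.nil)))))))))
 (Ls.cons (Ls.cons u0 (Ls.cons u0 (Ls.cons u0 (Ls.cons u0 (Ls.cons u0 (Ls.cons u0 (Ls.cons u0 Ls.nil)))))))
 (Ls.cons (Ls.cons u0 (Ls.cons u0 (Ls.cons u0 (Ls.cons u0 (Ls.cons u0 (Ls.cons u0 Ls.nil))))))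
 (Ls.cons (Ls.cons u0 (Ls.cons u0 (Ls.cons u0 (Ls.cons u0 (Ls.cons u0 Ls.nil)))))
 (Ls.cons (Ls.cons u0 (Ls.cons u0 (Ls.cons u0 (Ls.cons u0 Ls.nil))))
 (Ls.cons (Ls.cons u0 (Ls.cons u0 Ls.nil))
 (Ls.cons (Ls.cons u0 Ls.nil)
 (Ls.cons Ls.nil
 (Ls.cons Ls.nil
 (Ls.cons Ls.nil
 Ls.nil))))))))))))))))))))

noncomputable def slF7_8 : Ls (Ls Sv) :=
 (Ls.cons Ls.nil
 (Ls.cons Ls.nil
 (Ls.cons Ls.nil
 (Ls.cons Ls.nil
 (Ls.cons Ls.nil
 (Ls.cons Ls.nil
 (Ls.cons Ls.nil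
 (Ls.cons Ls.nil
 (Ls.cons Ls.nil
 (Ls.cons (Ls.cons u0 (Ls.cons u0 (Ls.cons u0 (Ls.cons u0 (Ls.cons u0 (Ls.cons u0 (Ls.cons u0 (Ls.cons u0 (Ls.cons u0 (Ls.cons u0 Ls.nil))))))))))
 (Ls.cons (Ls.cons u0 (Ls.cons u0 (Ls.cons u0 (Ls.cons u0 (Ls.cons u0 (Ls.cons u0 (Ls.cons u0 (Ls.cons u0 Ls.nil))))))))
 (Ls.cons (Ls.cons u0 (Ls.cons u0 (Ls.cons u0 (Ls.cons u0 (Ls.cons u0 (Ls.cons u0 (Ls.cons u0 Ls.nil)))))))
 (Ls.cons (Ls.cons u0 (Ls.cons u0 (Ls.cons u0 (Ls.cons u0 (Ls.cons u0 (Ls.cons u0 Ls.nil))))))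
 (Ls.cons (Ls.cons u0 (Ls.cons u0 (Ls.cons u0 (Ls.cons u0 (Ls.cons u0 Ls.nil)))))
 (Ls.cons (Ls.cons u0 (Ls.cons u0 (Ls.cons u0 Ls.nil)))
 (Ls.cons (Ls.cons u0 (Ls.cons u0 Ls.nil))
 (Ls.cons (Ls.cons u0 Ls.nil)
 (Ls.cons Ls.nil
 (Ls.cons Ls.nil
 (Ls.cons Ls.nil
 Ls.nil))))))))))))))))))))

noncomputable def slF7_9 : Ls (Ls Sv) :=
 (Ls.cons Ls.nil
 (Ls.cons Ls.nil
 (Ls.cons Ls.nil
 (Ls.cons Ls.nil
 (Ls.cons Ls.nil
 (Ls.cons Ls.nil
 (Ls.cons Ls.nil
 (Ls.cons Ls.nil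
 (Ls.cons Ls.nil
 (Ls.cons Ls.nil
 (Ls.cons (Ls.cons u0 (Ls.cons u0 (Ls.cons u0 (Ls.cons u0 (Ls.cons u0 (Ls.cons u0 (Ls.cons u0 (Ls.cons u0 Ls.nil))))))))
 (Ls.cons (Ls.cons u0 (Ls.cons u0 (Ls.cons u0 (Ls.cons u0 (Ls.cons u0 (Ls.cons u0 (Ls.cons u0 Ls.nil)))))))
 (Ls.cons (Ls.cons u0 (Ls.cons u0 (Ls.cons u0 (Ls.cons u0 (Ls.cons u0 (Ls.cons u0 Ls.nil))))))
 (Ls.cons (Ls.cons u0 (Ls.cons u0 (Ls.cons u0 (Ls.cons u0 Ls.nil))))
 (Ls.cons (Ls.cons u0 (Ls.cons u0 (Ls.cons u0 Ls.nil)))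
 (Ls.cons (Ls.cons u0 (Ls.cons u0 Ls.nil))
 (Ls.cons (Ls.cons u0 Ls.nil)
 (Ls.cons Ls.nil
 (Ls.cons Ls.nil
 (Ls.cons Ls.nil
 Ls.nil))))))))))))))))))))

noncomputable def slF7_10 : Ls (Ls Sv) :=
 (Ls.cons Ls.nil
 (Ls.cons Ls.nil
 (Ls.cons Ls.nil
 (Ls.cons Ls.nil
 (Ls.cons Ls.nil
 (Ls.cons Ls.nil
 (Ls.cons Ls.nil
 (Ls.cons Ls.nil
 (Ls.cons Ls.nil
 (Ls.cons Ls.nil
 (Ls.cons Ls.nil
 (Ls.cons (Ls.cons u0 (Ls.cons u0 (Ls.cons u0 (Ls.cons u0 (Ls.cons u0 (Ls.cons u0 (Ls.cons u0 Ls.nil)))))))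
 (Ls.cons (Ls.cons u0 (Ls.cons u0 (Ls.cons u0 (Ls.cons u0 (Ls.cons u0 Ls.nil)))))
 (Ls.cons (Ls.cons u0 (Ls.cons u0 (Ls.cons u0 (Ls.cons u0 Ls.nil))))
 (Ls.cons (Ls.cons u0 (Ls.cons u0 (Ls.cons u0 Ls.nil)))
 (Ls.cons (Ls.cons u0 (Ls.cons u0 Ls.nil))
 (Ls.cons Ls.nil
 (Ls.cons Ls.nil
 (Ls.cons Ls.nil
 (Ls.cons Ls.nil
 Ls.nil))))))))))))))))))))

noncomputable def slF7_11 : Ls (Ls Sv) :=
 (Ls.cons Ls.nil
 (Ls.cons Ls.nil
 (Ls.cons Ls.nil
 (Ls.cons Ls.nil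
 (Ls.cons Ls.nil
 (Ls.cons Ls.nil
 (Ls.cons Ls.nil
 (Ls.cons Ls.nil
 (Ls.cons Ls.nil
 (Ls.cons Ls.nil
 (Ls.cons Ls.nil
 (Ls.cons Ls.nil
 (Ls.cons (Ls.cons u0 (Ls.cons u0 (Ls.cons u0 (Ls.cons u0 (Ls.cons u0 Ls.nil)))))
 (Ls.cons (Ls.cons u0 (Ls.cons u0 (Ls.cons u0 (Ls.cons u0 Ls.nil))))
 (Ls.cons (Ls.cons u0 (Ls.cons u0 (Ls.cons u0 Ls.nil)))
 (Ls.cons (Ls.cons u0 Ls.nil)
 (Ls.cons Ls.nil
 (Ls.cons Ls.nil
 (Ls.cons Ls.nil
 (Ls.cons Ls.nil
 Ls.nil))))))))))))))))))))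

noncomputable def slF7_12 : Ls (Ls Sv) :=
 (Ls.cons Ls.nil
 (Ls.cons Ls.nil
 (Ls.cons Ls.nil
 (Ls.cons Ls.nil
 (Ls.cons Ls.nil
 (Ls.cons Ls.nil
 (Ls.cons Ls.nil
 (Ls.cons Ls.nil
 (Ls.cons Ls.nil
 (Ls.cons Ls.nil
 (Ls.cons Ls.nil
 (Ls.cons Ls.nil
 (Ls.cons Ls.nil
 (Ls.cons (Ls.cons u0 (Ls.cons u0 (Ls.cons u0 (Ls.cons u0 Ls.nil))))
 (Ls.cons (Ls.cons u0 (Ls.cons u0 Ls.nil))
 (Ls.cons (Ls.cons u0 Ls.nil)
 (Ls.cons Ls.nil
 (Ls.cons Ls.nil
 (Ls.cons Ls.nil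
 (Ls.cons Ls.nil
 Ls.nil))))))))))))))))))))

noncomputable def slF7_13 : Ls (Ls Sv) :=
 (Ls.cons Ls.nil
 (Ls.cons Ls.nil
 (Ls.cons Ls.nil
 (Ls.cons Ls.nil
 (Ls.cons Ls.nil
 (Ls.cons Ls.nil
 (Ls.cons Ls.nil
 (Ls.cons Ls.nil
 (Ls.cons Ls.nil
 (Ls.cons Ls.nil
 (Ls.cons Ls.nil
 (Ls.cons Ls.nil
 (Ls.cons Ls.nil
 (Ls.cons Ls.nil
 (Ls.cons (Ls.cons u0 (Ls.cons u0 Ls.nil))
 (Ls.cons (Ls.cons u0 Ls.nil)
 (Ls.cons Ls.nil
 (Ls.cons Ls.nil
 (Ls.cons Ls.nil
 (Ls.cons Ls.nil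
 Ls.nil))))))))))))))))))))

noncomputable def slF7_14 : Ls (Ls Sv) :=
 (Ls.cons Ls.nil
 (Ls.cons Ls.nil
 (Ls.cons Ls.nil
 (Ls.cons Ls.nil
 (Ls.cons Ls.nil
 (Ls.cons Ls.nil
 (Ls.cons Ls.nil
 (Ls.cons Ls.nil
 (Ls.cons Ls.nil
 (Ls.cons Ls.nil
 (Ls.cons Ls.nil
 (Ls.cons Ls.nil
 (Ls.cons Ls.nil
 (Ls.cons Ls.nil
 (Ls.cons Ls.nil
 (Ls.cons (Ls.cons u0 Ls.nil)
 (Ls.cons Ls.nil
 (Ls.cons Ls.nil
 (Ls.cons Ls.nil
 (Ls.cons Ls.nil
 Ls.nil))))))))))))))))))))

noncomputable def srcF7 : Ls (Ls (Ls Sv)) := (Ls.cons slF7_0 (Ls.cons slF7_1 (Ls.cons slF7_2 (Ls.cons slF7_3 (Ls.cons slF7_4 (Ls.cons slF7_5 (Ls.cons slF7_6 (Ls.cons slF7_7 (Ls.cons slF7_8 (Ls.cons slF7_9 (Ls.cons slF7_10 (Ls.cons slF7_11 (Ls.cons slF7_12 (Ls.cons slF7_13 (Ls.cons slF7_14 Ls.nil)))))))))))))))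

end Vale.Agent.P181.K
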